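import Vale.Agent.P102.Defs
import Mathlib.MeasureTheory.Constructions.Polish.Basic
import Mathlib.Dynamics.Ergodic.MeasurePreserving

/-!
# P102, block RED : reduction to standard Borel systems
-/

namespace Vale.Agent.P102.RM

open MeasureTheory Filter Topology

section iterates

variable {Ω : Type*} [MeasurableSpace Ω]

/-- The `n`-th iterate (`n` an integer) of an invertible bimeasurable map `T`. -/
def it (T : Ω ≃ᵐ Ω) (n : ℤ) : Ω → Ω := ((T.toEquiv : Equiv.Perm Ω) ^ n : Equiv.Perm Ω)

theorem it_zero (T : Ω ≃ᵐ Ω) (x : Ω) : it T 0 x = x := by simp [it]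

theorem it_add (T : Ω ≃ᵐ Ω) (m n : ℤ) (x : Ω) : it T (m + n) x = it T m (it T n x) := by
  simp only [it, zpow_add, Equiv.Perm.coe_mul, Function.comp_apply]

theorem it_one (T : Ω ≃ᵐ Ω) : it T 1 = T := by
  funext x; simp [it]

theorem it_neg_apply (T : Ω ≃ᵐ Ω) (n : ℤ) (x : Ω) : it T (-n) (it T n x) = x := by
  rw [← it_add, neg_add_cancel, it_zero]

theorem it_apply_neg (T : Ω ≃ᵐ Ω) (n : ℤ) (x : Ω) : it T n (it T (-n) x) = x := by
  rw [← it_add, add_neg_cancel, it_zero]

theorem it_succ (T : Ω ≃ᵐ Ω) (n : ℤ) (x : Ω) : it T (n + 1) x = T (it T n x) := by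
  rw [add_comm, it_add, it_one]

theorem it_neg_one (T : Ω ≃ᵐ Ω) : it T (-1) = T.symm := by
  funext x
  apply T.injective
  have h := it_apply_neg T 1 x
  rw [it_one] at h
  rw [h]; simp

theorem it_pred (T : Ω ≃ᵐ Ω) (n : ℤ) (x : Ω) : it T (n - 1) x = T.symm (it T n x) := by
  rw [sub_eq_add_neg, add_comm, it_add, it_neg_one]

theorem measurable_it (T : Ω ≃ᵐ Ω) (n : ℤ) : Measurable (it T n) := by
  induction n using Int.induction_on with
  | zero =>
    have : it T 0 = id := by funext x; exact it_zero T x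
    rw [this]; exact measurable_id
  | succ n ih =>
    have : it T ((n : ℤ) + 1) = T ∘ it T n := by funext x; exact it_succ T n x
    rw [this]; exact T.measurable.comp ih
  | pred n ih =>
    have : it T (-(n : ℤ) - 1) = T.symm ∘ it T (-(n:ℤ)) := by funext x; exact it_pred T _ x
    rw [this]; exact T.symm.measurable.comp ih

theorem mp_it {μ : Measure Ω} (T : Ω ≃ᵐ Ω) (hT : MeasurePreserving T μ μ) (n : ℤ) :
    MeasurePreserving (it T n) μ μ := by
  have hTs : MeasurePreserving T.symm μ μ := hT.symm T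
  induction n using Int.induction_on with
  | zero =>
    have : it T 0 = id := by funext x; exact it_zero T x
    rw [this]; exact MeasurePreserving.id μ
  | succ n ih =>
    have : it T ((n : ℤ) + 1) = T ∘ it T n := by funext x; exact it_succ T n x
    rw [this]; exact hT.comp ih
  | pred n ih =>
    have : it T (-(n : ℤ) - 1) = T.symm ∘ it T (-(n:ℤ)) := by funext x; exact it_pred T _ x
    rw [this]; exact hTs.comp ih

theorem it_eq (T : Ω ≃ᵐ Ω) (n : ℤ) :
    (((T.toEquiv : Equiv.Perm Ω) ^ n : Equiv.Perm Ω) : Ω → Ω) = it T n := rfl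

/-- a factor map intertwines the iterates -/
theorem it_semiconj {X : Type*} [MeasurableSpace X] (T : Ω ≃ᵐ Ω) (S : X ≃ᵐ X) (φ : Ω → X)
    (h : ∀ x, φ (T x) = S (φ x)) (n : ℤ) (x : Ω) : φ (it T n x) = it S n (φ x) := by
  induction n using Int.induction_on with
  | zero => rw [it_zero, it_zero]
  | succ n ih => rw [it_succ, it_succ, h, ih]
  | pred n ih =>
    rw [it_pred, it_pred, ← ih]
    apply S.injective
    rw [← h]
    simp

end iterates

section orders

variable {Ω : Type*} [MeasurableSpace Ω] {μ : Measure Ω} {T : Ω ≃ᵐ Ω}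

theorem mixing_zero [IsProbabilityMeasure μ] : MixingOfOrder μ T.toEquiv 0 := by
  intro A _ ε hε
  refine ⟨0, fun t _ => ?_⟩
  simp [hε]

theorem mixing_one (hT : MeasurePreserving T μ μ) : MixingOfOrder μ T.toEquiv 1 := by
  intro A hA ε hε
  refine ⟨0, fun t _ => ?_⟩
  have h1 : (⋂ i : Fin 1, (T.toEquiv ^ t i : Equiv.Perm Ω) ⁻¹' A i) = it T (t 0) ⁻¹' A 0 := by
    ext x
    simp only [Set.mem_iInter, Fin.forall_fin_one, it]
  rw [h1, measureReal_def, (mp_it T hT (t 0)).measure_preimage (hA 0).nullMeasurableSet]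
  simp [measureReal_def, hε]

/-- from order `k + 1` to order `k` -/
theorem mixing_pred [IsProbabilityMeasure μ] {k : ℕ} (h : MixingOfOrder μ T.toEquiv (k + 1)) :
    MixingOfOrder μ T.toEquiv k := by
  intro A hA ε hε
  obtain ⟨N, hN⟩ := h (Fin.snoc (α := fun _ => Set Ω) A Set.univ) (by
    intro i
    refine Fin.lastCases ?_ (fun j => ?_) i
    · rw [Fin.snoc_last]; exact MeasurableSet.univ
    · rw [Fin.snoc_castSucc]; exact hA j) ε hε
  refine ⟨N, fun t ht => ?_⟩
  -- extend the time vector by a late last time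
  obtain ⟨B, hB⟩ : ∃ B : ℤ, ∀ i, t i + N ≤ B := by
    obtain ⟨B, hB⟩ := (Set.finite_range fun i => t i + N).bddAbove
    exact ⟨B, fun i => hB ⟨i, rfl⟩⟩
  have h1 := hN (Fin.snoc (α := fun _ => ℤ) t B) (by
    intro i j hij
    induction j using Fin.lastCases with
    | last =>
      induction i using Fin.lastCases with
      | last => exact absurd hij (lt_irrefl _)
      | cast i => rw [Fin.snoc_last, Fin.snoc_castSucc]; exact hB i
    | cast j =>
      induction i using Fin.lastCases with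
      | last => exact absurd hij (not_lt.2 (Fin.castSucc_lt_last j).le)
      | cast i =>
        rw [Fin.snoc_castSucc, Fin.snoc_castSucc]
        exact ht i j (Fin.castSucc_lt_castSucc_iff.1 hij))
  have e1 : (⋂ i : Fin (k + 1), (T.toEquiv ^ (Fin.snoc (α := fun _ => ℤ) t B : Fin (k + 1) → ℤ) i :
      Equiv.Perm Ω) ⁻¹' (Fin.snoc (α := fun _ => Set Ω) A Set.univ : Fin (k + 1) → Set Ω) i) =
      ⋂ i : Fin k, (T.toEquiv ^ t i : Equiv.Perm Ω) ⁻¹' A i := by
    ext x
    simp only [Set.mem_iInter, Set.mem_preimage]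
    constructor
    · intro hx i
      have := hx i.castSucc
      simpa only [Fin.snoc_castSucc] using this
    · intro hx i
      refine Fin.lastCases ?_ (fun j => ?_) i
      · simp only [Fin.snoc_last, Set.mem_univ]
      · simpa only [Fin.snoc_castSucc] using hx j
  have e2 : ∏ i : Fin (k + 1), μ.real ((Fin.snoc (α := fun _ => Set Ω) A Set.univ :
      Fin (k + 1) → Set Ω) i) = ∏ i : Fin k, μ.real (A i) := by
    rw [Fin.prod_univ_castSucc]
    simp only [Fin.snoc_castSucc, Fin.snoc_last, probReal_univ, mul_one]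
  rw [e1, e2] at h1
  exact h1

theorem mixing_mono [IsProbabilityMeasure μ] {k m : ℕ} (hkm : k ≤ m)
    (h : MixingOfOrder μ T.toEquiv m) : MixingOfOrder μ T.toEquiv k := by
  induction m, hkm using Nat.le_induction with
  | base => exact h
  | succ m _ ih => exact ih (mixing_pred h)

end orders

section factor

variable {Ω : Type*} [MeasurableSpace Ω] {μ : Measure Ω} {T : Ω ≃ᵐ Ω}
variable {X : Type*} [MeasurableSpace X] {S : X ≃ᵐ X}

/-- preimages of the intersections -/
theorem preimage_inter (φ : Ω → X) (h : ∀ x, φ (T x) = S (φ x)) {k : ℕ} (t : Fin k → ℤ)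
    (A : Fin k → Set X) :
    φ ⁻¹' (⋂ i, (S.toEquiv ^ t i : Equiv.Perm X) ⁻¹' A i) =
      ⋂ i, (T.toEquiv ^ t i : Equiv.Perm Ω) ⁻¹' (φ ⁻¹' A i) := by
  ext x
  simp only [Set.mem_preimage, Set.mem_iInter]
  refine forall_congr' fun i => ?_
  have := it_semiconj T S φ h (t i) x
  simp only [it] at this
  rw [← this]

/-- a factor of a system which is mixing of order `k` is mixing of order `k` -/
theorem mixing_map (φ : Ω → X) (hφ : Measurable φ) (h : ∀ x, φ (T x) = S (φ x)) {k : ℕ}
    (hmix : MixingOfOrder μ T.toEquiv k) : MixingOfOrder (μ.map φ) S.toEquiv k := by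
  intro A hA ε hε
  obtain ⟨N, hN⟩ := hmix (fun i => φ ⁻¹' A i) (fun i => hφ (hA i)) ε hε
  refine ⟨N, fun t ht => ?_⟩
  have h1 := hN t ht
  have hm : MeasurableSet (⋂ i, (S.toEquiv ^ t i : Equiv.Perm X) ⁻¹' A i) :=
    MeasurableSet.iInter fun i => (measurable_it S (t i)) (hA i)
  have e1 : (μ.map φ).real (⋂ i, (S.toEquiv ^ t i : Equiv.Perm X) ⁻¹' A i) =
      μ.real (⋂ i, (T.toEquiv ^ t i : Equiv.Perm Ω) ⁻¹' (φ ⁻¹' A i)) := by
    rw [measureReal_def, Measure.map_apply hφ hm, preimage_inter φ h, measureReal_def]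
  have e2 : ∀ i, (μ.map φ).real (A i) = μ.real (φ ⁻¹' A i) := by
    intro i
    rw [measureReal_def, Measure.map_apply hφ (hA i), measureReal_def]
  rw [e1]
  simp only [e2]
  exact h1

theorem mp_map (φ : Ω → X) (hφ : Measurable φ) (h : ∀ x, φ (T x) = S (φ x))
    (hT : MeasurePreserving T μ μ) : MeasurePreserving S (μ.map φ) (μ.map φ) := by
  refine ⟨S.measurable, ?_⟩
  rw [Measure.map_map S.measurable hφ]
  have : (S ∘ φ) = φ ∘ T := by funext x; exact (h x).symm
  rw [this, ← Measure.map_map hφ T.measurable, hT.map_eq]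

end factor

section coding

/-- the shift on `ℤ → V` -/
def shiftEquiv (V : Type*) [MeasurableSpace V] : (ℤ → V) ≃ᵐ (ℤ → V) where
  toFun x := fun n => x (n + 1)
  invFun x := fun n => x (n - 1)
  left_inv x := by funext n; simp
  right_inv x := by funext n; simp
  measurable_toFun := measurable_pi_lambda _ fun n => measurable_pi_apply (n + 1)
  measurable_invFun := measurable_pi_lambda _ fun n => measurable_pi_apply (n - 1)

theorem shiftEquiv_apply (V : Type*) [MeasurableSpace V] (x : ℤ → V) (n : ℤ) :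
    shiftEquiv V x n = x (n + 1) := rfl

variable {Ω : Type*} [MeasurableSpace Ω] {T : Ω ≃ᵐ Ω} {k : ℕ}

open Classical in
/-- the itinerary of a point with respect to the sets `A i` -/
noncomputable def coding (T : Ω ≃ᵐ Ω) (A : Fin k → Set Ω) (ω : Ω) : ℤ → (Fin k → Bool) :=
  fun n i => decide (it T n ω ∈ A i)

theorem coding_shift (T : Ω ≃ᵐ Ω) (A : Fin k → Set Ω) (ω : Ω) :
    coding T A (T ω) = shiftEquiv (Fin k → Bool) (coding T A ω) := by
  funext n i
  rw [shiftEquiv_apply]
  unfold coding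
  rw [it_add, it_one]

theorem measurable_coding (T : Ω ≃ᵐ Ω) (A : Fin k → Set Ω) (hA : ∀ i, MeasurableSet (A i)) :
    Measurable (coding T A) := by
  refine measurable_pi_lambda _ fun n => measurable_pi_lambda _ fun i => ?_
  refine measurable_to_bool ?_
  have : (fun ω => coding T A ω n i) ⁻¹' {true} = it T n ⁻¹' A i := by
    ext ω
    simp [coding]
  rw [this]
  exact measurable_it T n (hA i)

/-- the coordinate sets -/
def cyl (k : ℕ) (i : Fin k) : Set (ℤ → (Fin k → Bool)) := {x | x 0 i = true}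

theorem measurableSet_cyl (k : ℕ) (i : Fin k) : MeasurableSet (cyl k i) := by
  have h : Measurable fun x : ℤ → (Fin k → Bool) => x 0 i :=
    (measurable_pi_apply i).comp (measurable_pi_apply 0)
  exact h (measurableSet_singleton true)

theorem coding_preimage_cyl (T : Ω ≃ᵐ Ω) (A : Fin k → Set Ω) (i : Fin k) :
    coding T A ⁻¹' cyl k i = A i := by
  ext ω
  simp [coding, cyl, it_zero]

end coding

/-- The main theorem for standard Borel systems in `Type`: order `k` implies order `k + 1`. -/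
def MainStd : Prop :=
  ∀ (X : Type) [MeasurableSpace X] [StandardBorelSpace X] (μ : Measure X)
    [IsProbabilityMeasure μ] (T : X ≃ᵐ X), MeasurePreserving T μ μ → ∀ k : ℕ, 2 ≤ k →
    MixingOfOrder μ T.toEquiv k → MixingOfOrder μ T.toEquiv (k + 1)

/-- reduction to standard Borel systems, one step -/
theorem step_of_main (H : MainStd) {Ω : Type*} [MeasurableSpace Ω] (μ : Measure Ω)
    [IsProbabilityMeasure μ] (T : Ω ≃ᵐ Ω) (hT : MeasurePreserving T μ μ) {k : ℕ} (hk : 2 ≤ k)
    (h : MixingOfOrder μ T.toEquiv k) : MixingOfOrder μ T.toEquiv (k + 1) := by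
  intro A hA ε hε
  have hφ := measurable_coding T A hA
  have hc : ∀ x, coding T A (T x) = shiftEquiv (Fin (k + 1) → Bool) (coding T A x) :=
    coding_shift T A
  have hP : IsProbabilityMeasure (μ.map (coding T A)) :=
    Measure.isProbabilityMeasure_map hφ.aemeasurable
  have h1 : MixingOfOrder (μ.map (coding T A)) (shiftEquiv (Fin (k + 1) → Bool)).toEquiv (k + 1) :=
    H _ _ _ (mp_map _ hφ hc hT) k hk (mixing_map _ hφ hc h)
  obtain ⟨N, hN⟩ := h1 (cyl (k + 1)) (measurableSet_cyl (k + 1)) ε hε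
  refine ⟨N, fun t ht => ?_⟩
  have h2 := hN t ht
  have hm : MeasurableSet (⋂ i, ((shiftEquiv (Fin (k + 1) → Bool)).toEquiv ^ t i :
      Equiv.Perm (ℤ → (Fin (k + 1) → Bool))) ⁻¹' cyl (k + 1) i) :=
    MeasurableSet.iInter fun i =>
      (measurable_it (shiftEquiv (Fin (k + 1) → Bool)) (t i)) (measurableSet_cyl (k + 1) i)
  have e1 : (μ.map (coding T A)).real (⋂ i, ((shiftEquiv (Fin (k + 1) → Bool)).toEquiv ^ t i :
      Equiv.Perm (ℤ → (Fin (k + 1) → Bool))) ⁻¹' cyl (k + 1) i) =
      μ.real (⋂ i, (T.toEquiv ^ t i : Equiv.Perm Ω) ⁻¹' (A i)) := by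
    rw [measureReal_def, Measure.map_apply hφ hm, preimage_inter _ hc, measureReal_def]
    simp only [coding_preimage_cyl]
  have e2 : ∀ i, (μ.map (coding T A)).real (cyl (k + 1) i) = μ.real (A i) := by
    intro i
    rw [measureReal_def, Measure.map_apply hφ (measurableSet_cyl _ i), coding_preimage_cyl,
      measureReal_def]
  rw [e1] at h2
  simp only [e2] at h2
  exact h2

/-- **Reduction.**  All orders from the main theorem for standard Borel systems. -/
theorem all_orders_of_main (H : MainStd) {Ω : Type*} [MeasurableSpace Ω] (μ : Measure Ω)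
    [IsProbabilityMeasure μ] (T : Ω ≃ᵐ Ω) (hT : MeasurePreserving T μ μ)
    (h : MixingOfOrder μ T.toEquiv 2) (k : ℕ) : MixingOfOrder μ T.toEquiv k := by
  rcases Nat.lt_or_ge k 2 with hk | hk
  · exact mixing_mono hk.le h
  · induction k, hk using Nat.le_induction with
    | base => exact h
    | succ k hk ih => exact step_of_main H μ T hT hk ih

section badtimes

variable {Ω : Type*} [MeasurableSpace Ω] {μ : Measure Ω} {T : Ω ≃ᵐ Ω} {k : ℕ}

/-- all gaps of the sequence of time vectors tend to infinity -/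
def GapTimes {k : ℕ} (t : ℕ → Fin k → ℤ) : Prop :=
  ∀ i j : Fin k, i < j → Tendsto (fun l => t l j - t l i) atTop atTop

/-- a system which is not mixing of order `k` has a bad sequence of time vectors -/
theorem exists_bad_times (h : ¬ MixingOfOrder μ T.toEquiv k) :
    ∃ A : Fin k → Set Ω, (∀ i, MeasurableSet (A i)) ∧ ∃ ε : ℝ, 0 < ε ∧
      ∃ t : ℕ → Fin k → ℤ, GapTimes t ∧
        ∀ l, ε ≤ |μ.real (⋂ i, it T (t l i) ⁻¹' A i) - ∏ i, μ.real (A i)| := by
  unfold MixingOfOrder at h
  push Not at h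
  obtain ⟨A, hA, ε, hε, h⟩ := h
  choose t ht1 ht2 using fun l : ℕ => h (l : ℤ)
  refine ⟨A, hA, ε, hε, t, ?_, ht2⟩
  intro i j hij
  refine tendsto_atTop_mono (fun l => ?_) tendsto_natCast_atTop_atTop
  have := ht1 l i j hij
  linarith

/-- mixing along a sequence of time vectors -/
theorem tendsto_of_mixing (h : MixingOfOrder μ T.toEquiv k) {t : ℕ → Fin k → ℤ}
    (ht : GapTimes t) (A : Fin k → Set Ω) (hA : ∀ i, MeasurableSet (A i)) :
    Tendsto (fun l => μ.real (⋂ i, it T (t l i) ⁻¹' A i)) atTop (𝓝 (∏ i, μ.real (A i))) := by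
  rw [Metric.tendsto_atTop]
  intro ε hε
  obtain ⟨N, hN⟩ := h A hA ε hε
  have : ∀ᶠ l in atTop, ∀ i j : Fin k, i < j → t l i + N ≤ t l j := by
    rw [eventually_all]; intro i
    rw [eventually_all]; intro j
    by_cases hij : i < j
    · filter_upwards [(ht i j hij).eventually_ge_atTop N] with l hl _
      linarith
    · exact Eventually.of_forall fun l h => absurd h hij
  obtain ⟨l0, hl0⟩ := eventually_atTop.1 this
  refine ⟨l0, fun l hl => ?_⟩
  rw [Real.dist_eq]
  exact hN (t l) (hl0 l hl)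

/-- `k + 1` times, one of the sets is the whole space, mixing of order `k` -/
theorem tendsto_of_mixing_univ [IsProbabilityMeasure μ] (h : MixingOfOrder μ T.toEquiv k)
    {t : ℕ → Fin (k + 1) → ℤ} (ht : GapTimes t) (A : Fin (k + 1) → Set Ω)
    (hA : ∀ i, MeasurableSet (A i)) (i0 : Fin (k + 1)) (h0 : A i0 = Set.univ) :
    Tendsto (fun l => μ.real (⋂ i, it T (t l i) ⁻¹' A i)) atTop (𝓝 (∏ i, μ.real (A i))) := by
  have h1 := tendsto_of_mixing h (t := fun l i => t l (i0.succAbove i))
    (fun i j hij => ht _ _ (Fin.strictMono_succAbove i0 hij)) (fun i => A (i0.succAbove i))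
    fun i => hA _
  rw [Fin.prod_univ_succAbove _ i0, h0, probReal_univ, one_mul]
  refine h1.congr fun l => ?_
  congr 1
  ext x
  simp only [Set.mem_iInter, Set.mem_preimage]
  constructor
  · intro hx i
    rcases Fin.eq_self_or_eq_succAbove i0 i with rfl | ⟨j, rfl⟩
    · rw [h0]; exact Set.mem_univ _
    · exact hx j
  · intro hx i
    exact hx _

end badtimes

section literal

variable {Ω : Type*} [MeasurableSpace Ω] {μ : Measure Ω} {T : Ω ≃ᵐ Ω}

theorem inter_two (T : Ω ≃ᵐ Ω) (t : Fin 2 → ℤ) (A : Fin 2 → Set Ω) :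
    (⋂ i, (T.toEquiv ^ t i : Equiv.Perm Ω) ⁻¹' A i) =
      it T (t 0) ⁻¹' (A 0 ∩ it T (t 1 - t 0) ⁻¹' A 1) := by
  ext x
  simp only [Set.mem_iInter, Fin.forall_fin_two, Set.mem_preimage, Set.mem_inter_iff]
  rw [← it_add, sub_add_cancel]
  rfl

/-- mixing in the sense of the usual definition gives mixing of order two -/
theorem mixing_two_of_literal (hT : MeasurePreserving T μ μ)
    (h : ∀ A B : Set Ω, MeasurableSet A → MeasurableSet B →
      Tendsto (fun n : ℤ => μ.real (A ∩ it T n ⁻¹' B)) cofinite (𝓝 (μ.real A * μ.real B))) :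
    MixingOfOrder μ T.toEquiv 2 := by
  intro A hA ε hε
  have h1 : Tendsto (fun n : ℤ => μ.real (A 0 ∩ it T n ⁻¹' A 1)) atTop
      (𝓝 (μ.real (A 0) * μ.real (A 1))) := by
    refine (h (A 0) (A 1) (hA 0) (hA 1)).mono_left ?_
    rw [Int.cofinite_eq]
    exact le_sup_right
  rw [Metric.tendsto_atTop] at h1
  obtain ⟨N, hN⟩ := h1 ε hε
  refine ⟨N, fun t ht => ?_⟩
  have h2 := hN (t 1 - t 0) (by have := ht 0 1 (by decide); linarith)
  rw [Real.dist_eq] at h2
  rw [inter_two, Fin.prod_univ_two, measureReal_def, (mp_it T hT (t 0)).measure_preimage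
    ((hA 0).inter (measurable_it T _ (hA 1))).nullMeasurableSet, ← measureReal_def]
  exact h2

/-- mixing of order two gives the usual definition -/
theorem literal_of_mixing_two (hT : MeasurePreserving T μ μ)
    (h : MixingOfOrder μ T.toEquiv 2) (A B : Set Ω) (hA : MeasurableSet A)
    (hB : MeasurableSet B) :
    Tendsto (fun n : ℤ => μ.real (A ∩ it T n ⁻¹' B)) cofinite (𝓝 (μ.real A * μ.real B)) := by
  have key : ∀ A B : Set Ω, MeasurableSet A → MeasurableSet B →
      Tendsto (fun n : ℤ => μ.real (A ∩ it T n ⁻¹' B)) atTop (𝓝 (μ.real A * μ.real B)) := by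
    intro A B hA hB
    rw [Metric.tendsto_atTop]
    intro ε hε
    obtain ⟨N, hN⟩ := h ![A, B] (by
      intro i; fin_cases i
      · exact hA
      · exact hB) ε hε
    refine ⟨N, fun n hn => ?_⟩
    have h1 := hN ![0, n] (by
      intro i j hij
      fin_cases i <;> fin_cases j <;> simp_all)
    rw [inter_two, Fin.prod_univ_two] at h1
    have e : it T (![0, n] 0) ⁻¹' (![A, B] 0 ∩ it T (![0, n] 1 - ![0, n] 0) ⁻¹' ![A, B] 1) =
        A ∩ it T n ⁻¹' B := by
      ext x
      simp [it_zero]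
    rw [e] at h1
    rw [Real.dist_eq]
    exact h1
  rw [Int.cofinite_eq]
  refine Tendsto.sup ?_ (key A B hA hB)
  have h2 := (key B A hB hA).comp (tendsto_neg_atBot_atTop (G := ℤ))
  rw [mul_comm]
  refine h2.congr fun n => ?_
  simp only [Function.comp_apply]
  have e : B ∩ it T (-n) ⁻¹' A = it T (-n) ⁻¹' (A ∩ it T n ⁻¹' B) := by
    ext x
    simp only [Set.mem_inter_iff, Set.mem_preimage, it_apply_neg]
    tauto
  rw [e, measureReal_def, (mp_it T hT (-n)).measure_preimage
    (hA.inter (measurable_it T _ hB)).nullMeasurableSet, ← measureReal_def]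

/-- **Rokhlin's problem**, final form, from the main theorem for standard Borel systems. -/
theorem rokhlin_of_main (H : MainStd) {Ω : Type*} [MeasurableSpace Ω] (μ : Measure Ω)
    [IsProbabilityMeasure μ] (T : Ω ≃ᵐ Ω) (hT : MeasurePreserving T μ μ)
    (h : ∀ A B : Set Ω, MeasurableSet A → MeasurableSet B →
      Tendsto (fun n : ℤ => μ.real (A ∩ (T.toEquiv ^ n : Equiv.Perm Ω) ⁻¹' B)) cofinite
        (𝓝 (μ.real A * μ.real B))) (k : ℕ) :
    MixingOfOrder μ T.toEquiv k :=
  all_orders_of_main H μ T hT (mixing_two_of_literal hT h) k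

end literal

end Vale.Agent.P102.RM
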