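import Vale.Agent.P102.RM.TotOfMed
import Vale.Agent.P102.RM.Med

/-!
P102, block TOT: the static mediality theorem gives the totality block.
-/

namespace Vale.Agent.P102.RM

theorem medThm : MedThm := fun _ _ _ _ _ _ _ _ hpq h3 _ _ h => med_total h3 hpq h

theorem b_tot : B_TOT := tot_of_med medThm

end Vale.Agent.P102.RM
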