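import Vale.Agent.P102.RM.Defs
import Vale.Agent.P102.RM.Red

/-!
P102 (Rokhlin), campaign RM. The statements of all blocks, as Props. Each block `B_x` is to be
proved as a theorem `b_x : B_x` in its own file. The assembly is in `Assembly.lean`.
-/

namespace Vale.Agent.P102.RM

open MeasureTheory Filter Topology ProbabilityTheory

/-! ### Limit joinings: existence and calculus -/

def B_LJ : Prop := ∀ (ι : Type) [Fintype ι] (r : Ultrafilter (ι → ℤ)) (A : Sys), ∃ L, IsLim r A L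

/-- convergence of integrals of products -/
def B_D1 : Prop := ∀ (ι : Type) [Fintype ι] (r : Ultrafilter (ι → ℤ)) (A : Sys)
  (f : ι → A.C → ℂ), (∀ i, Bdd (f i)) →
  Tendsto (fun t : ι → ℤ => ∫ a, ∏ i, f i (iter A.S (t i) a) ∂A.μ) r
    (𝓝 (∫ d, ∏ i, f i (d i) ∂(D r A).μ))

/-- marginals -/
def B_D2 : Prop := ∀ (ι : Type) [Fintype ι] (r : Ultrafilter (ι → ℤ)) (A : Sys) (i : ι),
  MeasurePreserving (fun d : (D r A).C => d i) (D r A).μ A.μ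

/-- functoriality -/
def B_D3 : Prop := ∀ (ι : Type) [Fintype ι] (r : Ultrafilter (ι → ℤ)) (A B : Sys) (p : Fac A B),
  MeasurePreserving (fun (d : (D r A).C) => ((fun i => p.f (d i)) : (D r B).C))
    (D r A).μ (D r B).μ

/-- independent factors stay independent -/
def B_D4 : Prop := ∀ (ι : Type) [Fintype ι] (r : Ultrafilter (ι → ℤ)) (A B B' : Sys)
  (p : Fac A B) (p' : Fac A B'), IndepFun p.f p'.f A.μ →
  IndepFun (fun (d : (D r A).C) (i : ι) => p.f (d i)) (fun (d : (D r A).C) (i : ι) => p'.f (d i))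
    (D r A).μ

/-- weak limits -/
def B_D6 : Prop := ∀ (ι : Type) [Fintype ι] [DecidableEq ι] (r : Ultrafilter (ι → ℤ)) (A : Sys)
  (s : ι) (f : ι → A.C → ℂ) (F : A.C → ℂ), (∀ i, Bdd (f i)) → Bdd F →
  Tendsto (fun t : ι → ℤ => ∫ a, F a * ∏ i ∈ Finset.univ.erase s, f i (iter A.S (t i - t s) a) ∂A.μ)
    r (𝓝 (∫ a, F a * cl r A s (fun d => ∏ i ∈ Finset.univ.erase s, f i (d i)) a ∂A.μ))

/-- row `s` and column `t` of the grid are conditionally independent given the corner -/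
def B_D7 : Prop := ∀ (ι : Type) [Fintype ι] [DecidableEq ι] (r : Ultrafilter (ι → ℤ)) (A : Sys)
  (s t : ι) (f : ι → A.C → ℂ) (F : (ι → A.C) → ℂ), (∀ i, Bdd (f i)) → Bdd F →
  ∫ d : (D r (D r A)).C, F (d s) * ∏ o ∈ Finset.univ.erase s, f o (d o t) ∂(D r (D r A)).μ
    = ∫ d : (D r A).C, F d * cl r A s (fun d => ∏ o ∈ Finset.univ.erase s, f o (d o)) (d t)
      ∂(D r A).μ

/-! ### Satedness -/

def B_SAT : Prop := ∀ (X : Sys) (P : Adm X) (ι : Type) [Fintype ι] [DecidableEq ι]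
  (r : Ultrafilter (ι → ℤ)), ∃ (P' : Adm X) (_ : Ext P' P), SatM P' ∧ ∀ s, SatN P' r s

/-- Upgrade Lemma -/
def B_UP : Prop := ∀ (X : Sys) (P : Adm X), SatM P →
  ∀ (Z B : Sys) (β : Fac Z B) (κ : Type) [Fintype κ] [DecidableEq κ] (w : κ → Fac Z P.W)
    (η : κ → B.C → P.Y.C), (∀ c, Measurable (η c)) →
    (∀ c z, P.y.f ((w c).f z) = η c (β.f z)) →
    (∀ (φ : κ → X.C → ℂ) (h : B.C → ℂ), (∀ c, Bdd (φ c)) → Bdd h →
      ∫ z, h (β.f z) * ∏ c, φ c (P.x.f ((w c).f z)) ∂Z.μ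
        = (∫ z, h (β.f z) ∂Z.μ) * ∏ c, ∫ x, φ c x ∂X.μ) →
    ∀ (f : κ → P.W.C → ℂ) (h : B.C → ℂ), (∀ c, Bdd (f c)) → Bdd h →
      ∫ z, h (β.f z) * ∏ c, f c ((w c).f z) ∂Z.μ
        = ∫ z, h (β.f z) * ∏ c, P.y.ce (f c) (η c (β.f z)) ∂Z.μ

/-- any `|ι| - 1` points of a line are independent given the base line -/
def B_LINE : Prop := ∀ (X : Sys) (P : Adm X) (ι : Type) [Fintype ι] [DecidableEq ι]
  (r : Ultrafilter (ι → ℤ)), SatM P → KInd r X → ∀ s, LineInd r P.y s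

/-- the same for `(|ι|-1) × (|ι|-1)` blocks of the grid -/
def B_GRID : Prop := ∀ (X : Sys) (P : Adm X) (ι : Type) [Fintype ι] [DecidableEq ι]
  (r : Ultrafilter (ι → ℤ)), SatM P → KInd r X → ∀ s s', GridInd r P.y s s'

/-! ### Theorem E and the ideal property -/

/-- Theorem E (helper219) -/
def B_THE : Prop := ∀ (X : Sys) (P : Adm X) (ι : Type) [Fintype ι] [DecidableEq ι]
  (r : Ultrafilter (ι → ℤ)), 3 ≤ Fintype.card ι → KInd r X → SatM P → (∀ s, SatN P r s) →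
  ∀ (s t b : ι), t ≠ b → ∀ (f : ι → P.W.C → ℂ) (g : ι → X.C → ℂ), (∀ i, Bdd (f i)) →
    (∀ i, Bdd (g i)) →
    cl r P.W t (fun d => (∏ a ∈ (Finset.univ.erase t).erase b, f a (d a)) *
      cl r X s (fun d => ∏ o ∈ Finset.univ.erase s, g o (d o)) (P.x.f (d b))) ∈ Exa P r s

/-- the ideal (closure) property -/
def B_IDEAL : Prop := ∀ (X : Sys) (P : Adm X) (ι : Type) [Fintype ι] [DecidableEq ι]
  (r : Ultrafilter (ι → ℤ)), 3 ≤ Fintype.card ι → KInd r X → SatM P → (∀ s, SatN P r s) →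
  ∀ (s t b : ι), t ≠ b → ∀ (f : ι → P.W.C → ℂ), (∀ i, Bdd (f i)) → ∀ Φ ∈ Exa P r s,
    cl r P.W t (fun d => (∏ a ∈ (Finset.univ.erase t).erase b, f a (d a)) * Φ (d b)) ∈ Exa P r s

/-- the limit joining is not the product on the functions which are exact in the slots `p`, `q` -/
def B_XE : Prop := ∀ (X : Sys) (P : Adm X) (ι : Type) [Fintype ι] [DecidableEq ι]
  (r : Ultrafilter (ι → ℤ)), 3 ≤ Fintype.card ι → KInd r X → SatM P → (∀ s, SatN P r s) →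
  (∃ φ : ι → X.C → ℂ, (∀ i, Bdd (φ i)) ∧
    ∫ d, ∏ i, φ i (d i) ∂(D r X).μ ≠ ∏ i, ∫ x, φ i x ∂X.μ) →
  ∀ p q : ι, p ≠ q → ∃ φ : ι → X.C → ℂ, (∀ i, Bdd (φ i)) ∧
    (∀ i, (fun w => φ i (P.x.f w)) ∈ Exa P r p ∩ Exa P r q) ∧ (∀ i, ∫ x, φ i x ∂X.μ = 0) ∧
    ∫ d, ∏ i, φ i (d i) ∂(D r X).μ ≠ 0

/-- the exact factor -/
def B_EXF : Prop := ∀ (X : Sys) (P : Adm X) (ι : Type) [Fintype ι] [DecidableEq ι]
  (r : Ultrafilter (ι → ℤ)), 3 ≤ Fintype.card ι → KInd r X → SatM P → (∀ s, SatN P r s) →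
  ∀ p q : ι, p ≠ q → (∃ φ : ι → X.C → ℂ, (∀ i, Bdd (φ i)) ∧
    (∀ i, (fun w => φ i (P.x.f w)) ∈ Exa P r p ∩ Exa P r q) ∧ (∀ i, ∫ x, φ i x ∂X.μ = 0) ∧
    ∫ d, ∏ i, φ i (d i) ∂(D r X).μ ≠ 0) → Nonempty (ExF P r p q)

/-! ### Characters -/

/-- an exact pair has a total family of characters over almost every base line -/
def B_TOT : Prop := ∀ (ι : Type) [Fintype ι] [DecidableEq ι] (r : Ultrafilter (ι → ℤ))
  (p q : ι), p ≠ q → 3 ≤ Fintype.card ι → ∀ (Y : Sys) (E : EP r p q Y),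
    ∀ᵐ η ∂(D r Y).μ, Total (E.y.lineK r η) p q

/-! ### Constancy -/

/-- two rel. independent copies of an exact pair inside a second `M`-sated pair -/
def B_PD : Prop := ∀ (X : Sys) (P : Adm X) (ι : Type) [Fintype ι] [DecidableEq ι]
  (r : Ultrafilter (ι → ℤ)), 3 ≤ Fintype.card ι → KInd r X → SatM P →
  ∀ (p q : ι), p ≠ q → ∀ F : ExF P r p q, Nonempty (PD F)

/-- coefficient preserving isomorphisms over almost every point of the second base -/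
def B_CONST : Prop := ∀ (X : Sys) (P : Adm X) (ι : Type) [Fintype ι] [DecidableEq ι]
  (r : Ultrafilter (ι → ℤ)), 3 ≤ Fintype.card ι → ∀ (p q : ι), p ≠ q → ∀ (F : ExF P r p q),
  (∀ᵐ η ∂(D r P.Y).μ, Total (F.E.y.lineK r η) p q) → ∀ (d : PD F),
    ∀ᵐ η ∂(D r d.Y0).μ, PIso (F.E.y.lineK r (fun i => d.v1.f (η i)))
      (F.E.y.lineK r (fun i => d.v2.f (η i))) p q F.xi.f

/-- Fubini -/
def B_FUB : Prop := ∀ (Y0 Y : Sys) (v1 v2 : Fac Y0 Y), IndepFun v1.f v2.f Y0.μ →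
  ∀ (ι : Type) [Fintype ι] [DecidableEq ι] (r : Ultrafilter (ι → ℤ))
    (R : (ι → Y.C) → (ι → Y.C) → Prop),
    (∀ᵐ η ∂(D r Y0).μ, R (fun i => v1.f (η i)) (fun i => v2.f (η i))) →
    ∀ᵐ η ∂(D r Y).μ, ∀ᵐ η' ∂(D r Y).μ, R η η'

/-- the end: constancy of the fibre structure and the static theorem -/
def B_CE : Prop := ∀ (X : Sys) (P : Adm X) (ι : Type) [Fintype ι] [DecidableEq ι]
  (r : Ultrafilter (ι → ℤ)), 3 ≤ Fintype.card ι → Spread r → KInd r X →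
  MixingOfOrder X.μ X.S.toEquiv 2 → ∀ (p q : ι), p ≠ q → ∀ (F : ExF P r p q),
  (∀ᵐ η ∂(D r P.Y).μ, Total (F.E.y.lineK r η) p q) → PD F → False

end Vale.Agent.P102.RM
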