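import Mathlib.Probability.Kernel.CondDistrib
import Mathlib.Probability.Kernel.CompProdEqIff
import Mathlib.Probability.Independence.Basic
import Mathlib.Probability.Kernel.Composition.IntegralCompProd
import Mathlib.MeasureTheory.Integral.Prod

/-!
# Relatively independent products

`relProd ρ x σ x'` is the relatively independent product of `(W, ρ)` and `(V, σ)` over the common
factor `x : W → X`, `x' : V → X` (`ρ.map x = σ.map x'`), a measure on `W × V`.
-/

namespace Vale.Agent.P102.RM

open MeasureTheory ProbabilityTheory Set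
open scoped ENNReal

section RelProd

variable {X W V : Type*} [MeasurableSpace X] [MeasurableSpace W] [MeasurableSpace V]
  [StandardBorelSpace W] [Nonempty W] [StandardBorelSpace V] [Nonempty V]

/-- The relatively independent product of `(W, ρ)` and `(V, σ)` over `X`. -/
noncomputable def relProd (ρ : Measure W) [IsFiniteMeasure ρ] (x : W → X)
    (σ : Measure V) [IsFiniteMeasure σ] (x' : V → X) : Measure (W × V) :=
  (condDistrib id x ρ ×ₖ condDistrib id x' σ) ∘ₘ (ρ.map x)

/-- the fibre measures over a standard Borel factor sit on the fibres -/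
lemma condDistrib_id_ae [MeasurableEq X] {ρ : Measure W} [IsFiniteMeasure ρ] {x : W → X}
    (hx : Measurable x) : ∀ᵐ b ∂(ρ.map x), ∀ᵐ w ∂(condDistrib id x ρ b), x w = b := by
  apply Measure.ae_ae_of_ae_compProd (p := fun q : X × W => x q.2 = q.1)
  rw [compProd_map_condDistrib aemeasurable_id]
  have hm : MeasurableSet {q : X × W | x q.2 = q.1} :=
    measurableSet_eq_fun (hx.comp measurable_snd) measurable_fst
  rw [ae_map_iff (by fun_prop) hm]
  simp

variable {ρ : Measure W} [IsProbabilityMeasure ρ] {x : W → X}
  {σ : Measure V} [IsProbabilityMeasure σ] {x' : V → X}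

instance [IsProbabilityMeasure (ρ.map x)] : IsProbabilityMeasure (relProd ρ x σ x') := by
  unfold relProd; infer_instance

lemma isProbabilityMeasure_relProd (hx : Measurable x) :
    IsProbabilityMeasure (relProd ρ x σ x') := by
  have : IsProbabilityMeasure (ρ.map x) := Measure.isProbabilityMeasure_map hx.aemeasurable
  infer_instance

lemma relProd_fst (hx : Measurable x) : (relProd ρ x σ x').map Prod.fst = ρ := by
  rw [relProd, Measure.map_comp _ _ measurable_fst, ← Kernel.fst_eq, Kernel.fst_prod,
    condDistrib_comp_map hx.aemeasurable aemeasurable_id, Measure.map_id]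

lemma relProd_snd (hx' : Measurable x') (h : ρ.map x = σ.map x') :
    (relProd ρ x σ x').map Prod.snd = σ := by
  rw [relProd, Measure.map_comp _ _ measurable_snd, ← Kernel.snd_eq, Kernel.snd_prod, h,
    condDistrib_comp_map hx'.aemeasurable aemeasurable_id, Measure.map_id]

/-- joint law of the point of the base and of the pair -/
lemma relProd_map_base [MeasurableEq X] (hx : Measurable x) :
    (relProd ρ x σ x').map (fun p => (x p.1, p)) =
      (ρ.map x) ⊗ₘ (condDistrib id x ρ ×ₖ condDistrib id x' σ) := by
  have : IsProbabilityMeasure (ρ.map x) := Measure.isProbabilityMeasure_map hx.aemeasurable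
  have hg : Measurable (fun p : W × V => (x p.1, p)) := by fun_prop
  ext s hs
  rw [Measure.map_apply hg hs, relProd, Measure.bind_apply (hg hs) (Kernel.aemeasurable _),
    Measure.compProd_apply hs]
  apply lintegral_congr_ae
  filter_upwards [condDistrib_id_ae (ρ := ρ) hx] with b hb
  apply measure_congr
  have h1 : ∀ᵐ p ∂((condDistrib id x ρ ×ₖ condDistrib id x' σ) b), x p.1 = b := by
    rw [Kernel.prod_apply]
    exact Measure.ae_prod_mem_iff_ae_ae_mem (s := {p : W × V | x p.1 = b})
      (measurableSet_eq_fun (by fun_prop) measurable_const) |>.2 (by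
        filter_upwards [hb] with w hw
        exact Filter.Eventually.of_forall fun _ => hw)
  filter_upwards [h1] with p hp
  show ((x p.1, p) ∈ s) = ((b, p) ∈ s)
  rw [hp]

lemma relProd_ae_eq [MeasurableEq X] (hx : Measurable x) (hx' : Measurable x')
    (h : ρ.map x = σ.map x') : ∀ᵐ p ∂(relProd ρ x σ x'), x p.1 = x' p.2 := by
  have hm : MeasurableSet {p : W × V | x p.1 = x' p.2} :=
    measurableSet_eq_fun (by fun_prop) (by fun_prop)
  rw [relProd, Measure.ae_comp_iff hm]
  filter_upwards [condDistrib_id_ae (ρ := ρ) hx, h ▸ condDistrib_id_ae (ρ := σ) hx'] with b hb hb'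
  rw [Kernel.prod_apply]
  refine (Measure.ae_prod_mem_iff_ae_ae_mem (s := {p : W × V | x p.1 = x' p.2}) hm).2 ?_
  filter_upwards [hb] with w hw
  filter_upwards [hb'] with v hv
  show x w = x' v
  rw [hw, hv]

/-- equivariance of the disintegration over an invertible factor -/
lemma condDistrib_id_equivariant {S : W → W} (hS : MeasurePreserving S ρ ρ) (hx : Measurable x)
    (T : X ≃ᵐ X) (hST : ∀ᵐ w ∂ρ, x (S w) = T (x w)) :
    (condDistrib id x ρ).map S =ᵐ[ρ.map x] (condDistrib id x ρ).comap T T.measurable := by
  have hSm : Measurable S := hS.measurable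
  have h1 : (condDistrib id x ρ).map S =ᵐ[ρ.map x] condDistrib S x ρ :=
    (condDistrib_comp x aemeasurable_id hS.measurable).symm
  have h2 : condDistrib S x ρ =ᵐ[ρ.map x] (condDistrib id x ρ).comap T T.measurable := by
    rw [condDistrib_ae_eq_iff_measure_eq_compProd x hS.measurable.aemeasurable]
    have hμ : (ρ.map x).map T = ρ.map x := by
      rw [Measure.map_map T.measurable hx]
      conv_rhs => rw [← hS.map_eq, Measure.map_map hx hS.measurable]
      exact Measure.map_congr (by filter_upwards [hST] with w hw using hw.symm)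
    have hTi : MeasurePreserving T (ρ.map x) (ρ.map x) := ⟨T.measurable, hμ⟩
    -- compare after applying `T × id`
    have hinj : Function.Injective
        (fun m : Measure (X × W) => m.map (Prod.map T (id : W → W))) := by
      intro m m' hmm
      have := congrArg (fun q : Measure (X × W) => q.map (Prod.map T.symm (id : W → W))) hmm
      simp only at this
      rw [Measure.map_map (by fun_prop) (by fun_prop), Measure.map_map (by fun_prop) (by fun_prop)]
        at this
      have hid : (Prod.map T.symm (id : W → W)) ∘ (Prod.map T id) = id := by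
        ext p <;> simp
      simpa [hid] using this
    apply hinj
    show (ρ.map fun a => (x a, S a)).map (Prod.map T id) =
      (ρ.map x ⊗ₘ (condDistrib id x ρ).comap T T.measurable).map (Prod.map T id)
    have hr : (ρ.map x ⊗ₘ (condDistrib id x ρ).comap T T.measurable).map (Prod.map T id) =
        (ρ.map x) ⊗ₘ condDistrib id x ρ := by
      ext s hs
      rw [Measure.map_apply (by fun_prop) hs, Measure.compProd_apply
        ((T.measurable.prodMap measurable_id) hs), Measure.compProd_apply hs]
      conv_rhs => rw [← hμ]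
      rw [lintegral_map (Kernel.measurable_kernel_prodMk_left hs) T.measurable]
      rfl
    rw [hr, compProd_map_condDistrib aemeasurable_id, Measure.map_map (by fun_prop) (by fun_prop)]
    conv_rhs => rw [← hS.map_eq, Measure.map_map (by fun_prop) hS.measurable]
    exact Measure.map_congr (by filter_upwards [hST] with w hw; simp [hw])
  exact h1.trans h2

lemma relProd_invariant {S : W → W} {S' : V → V} (hS : MeasurePreserving S ρ ρ)
    (hS' : MeasurePreserving S' σ σ) (hx : Measurable x) (hx' : Measurable x')
    (T : X ≃ᵐ X) (hST : ∀ᵐ w ∂ρ, x (S w) = T (x w)) (hST' : ∀ᵐ v ∂σ, x' (S' v) = T (x' v))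
    (h : ρ.map x = σ.map x') :
    MeasurePreserving (Prod.map S S') (relProd ρ x σ x') (relProd ρ x σ x') := by
  refine ⟨hS.measurable.prodMap hS'.measurable, ?_⟩
  have hμ : (ρ.map x).map T = ρ.map x := by
    rw [Measure.map_map T.measurable hx]
    conv_rhs => rw [← hS.map_eq, Measure.map_map hx hS.measurable]
    exact Measure.map_congr (by filter_upwards [hST] with w hw using hw.symm)
  rw [relProd, Measure.map_comp _ _ (hS.measurable.prodMap hS'.measurable),
    ← Kernel.map_prod_map _ _ hS.measurable hS'.measurable]
  have e1 := condDistrib_id_equivariant hS hx T hST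
  have e2 := condDistrib_id_equivariant hS' hx' T hST'
  rw [← h] at e2
  have e3 : ((condDistrib id x ρ).map S ×ₖ (condDistrib id x' σ).map S') ∘ₘ (ρ.map x) =
      ((condDistrib id x ρ ×ₖ condDistrib id x' σ).comap T T.measurable) ∘ₘ (ρ.map x) := by
    apply Measure.comp_congr
    filter_upwards [e1, e2] with b h1 h2
    rw [Kernel.prod_apply, h1, h2, Kernel.comap_apply, Kernel.comap_apply, Kernel.comap_apply,
      Kernel.prod_apply]
  rw [e3]
  conv_rhs => rw [← hμ]
  ext s hs
  rw [Measure.bind_apply hs (Kernel.aemeasurable _), Measure.bind_apply hs (Kernel.aemeasurable _),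
    lintegral_map (Kernel.measurable_coe _ hs) T.measurable]
  rfl

variable {Y Z : Type*} [MeasurableSpace Y] [MeasurableSpace Z]

/-- if `y` is independent of `x`, almost every fibre projects onto the law of `y` -/
lemma condDistrib_map_of_indep [MeasurableSpace.CountableOrCountablyGenerated X Y]
    {y : W → Y} (hx : Measurable x) (hy : Measurable y)
    (hi : ρ.map (fun w => (x w, y w)) = (ρ.map x).prod (ρ.map y)) :
    (condDistrib id x ρ).map y =ᵐ[ρ.map x] Kernel.const X (ρ.map y) := by
  have : IsProbabilityMeasure (ρ.map x) := Measure.isProbabilityMeasure_map hx.aemeasurable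
  have : IsProbabilityMeasure (ρ.map y) := Measure.isProbabilityMeasure_map hy.aemeasurable
  have : IsMarkovKernel ((condDistrib id x ρ).map y) := Kernel.IsMarkovKernel.map _ hy
  apply Kernel.ae_eq_of_compProd_eq
  rw [Measure.compProd_const, ← hi, Measure.compProd_map hy,
    compProd_map_condDistrib aemeasurable_id, Measure.map_map (by fun_prop) (by fun_prop)]
  rfl

/-- The joint law of the base point and two factors on the two sides. -/
lemma relProd_map_base_factors [MeasurableEq X] {y : W → Y} {z : V → Z} (hx : Measurable x)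
    (hy : Measurable y) (hz : Measurable z) :
    (relProd ρ x σ x').map (fun p => (x p.1, (y p.1, z p.2))) =
      (ρ.map x) ⊗ₘ ((condDistrib id x ρ).map y ×ₖ (condDistrib id x' σ).map z) := by
  have : IsProbabilityMeasure (ρ.map x) := Measure.isProbabilityMeasure_map hx.aemeasurable
  rw [Kernel.map_prod_map _ _ hy hz, Measure.compProd_map (hy.prodMap hz), ← relProd_map_base hx,
    Measure.map_map (by fun_prop) (by fun_prop)]
  rfl

/-- If `y` and `z` are both independent of the base then `(x, y, z)` has product law. -/
lemma relProd_map_indep [MeasurableEq X] [MeasurableSpace.CountableOrCountablyGenerated X Y]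
    [MeasurableSpace.CountableOrCountablyGenerated X Z] {y : W → Y} {z : V → Z} (hx : Measurable x)
    (hx' : Measurable x') (h : ρ.map x = σ.map x') (hy : Measurable y) (hz : Measurable z)
    (hi : ρ.map (fun w => (x w, y w)) = (ρ.map x).prod (ρ.map y))
    (hi' : σ.map (fun w => (x' w, z w)) = (σ.map x').prod (σ.map z)) :
    (relProd ρ x σ x').map (fun p => (x p.1, (y p.1, z p.2))) =
      (ρ.map x).prod ((ρ.map y).prod (σ.map z)) := by
  have : IsProbabilityMeasure (ρ.map x) := Measure.isProbabilityMeasure_map hx.aemeasurable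
  have : IsProbabilityMeasure (ρ.map y) := Measure.isProbabilityMeasure_map hy.aemeasurable
  have : IsProbabilityMeasure (σ.map z) := Measure.isProbabilityMeasure_map hz.aemeasurable
  rw [relProd_map_base_factors hx hy hz, ← Measure.compProd_const]
  have : IsMarkovKernel ((condDistrib id x ρ).map y) := Kernel.IsMarkovKernel.map _ hy
  have : IsMarkovKernel ((condDistrib id x' σ).map z) := Kernel.IsMarkovKernel.map _ hz
  apply Measure.compProd_congr
  have e2 := condDistrib_map_of_indep (ρ := σ) hx' hz hi'
  rw [← h] at e2
  filter_upwards [condDistrib_map_of_indep hx hy hi, e2] with b h1 h2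
  rw [Kernel.prod_apply, h1, h2]
  rfl

/-- in particular the two side factors are independent -/
lemma relProd_map_side_indep [MeasurableEq X] [MeasurableSpace.CountableOrCountablyGenerated X Y]
    [MeasurableSpace.CountableOrCountablyGenerated X Z] {y : W → Y} {z : V → Z} (hx : Measurable x)
    (hx' : Measurable x') (h : ρ.map x = σ.map x') (hy : Measurable y) (hz : Measurable z)
    (hi : ρ.map (fun w => (x w, y w)) = (ρ.map x).prod (ρ.map y))
    (hi' : σ.map (fun w => (x' w, z w)) = (σ.map x').prod (σ.map z)) :
    (relProd ρ x σ x').map (fun p => (y p.1, z p.2)) = (ρ.map y).prod (σ.map z) := by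
  have : IsProbabilityMeasure (ρ.map x) := Measure.isProbabilityMeasure_map hx.aemeasurable
  have : IsProbabilityMeasure (ρ.map y) := Measure.isProbabilityMeasure_map hy.aemeasurable
  have : IsProbabilityMeasure (σ.map z) := Measure.isProbabilityMeasure_map hz.aemeasurable
  have := congrArg (fun m : Measure (X × Y × Z) => m.map Prod.snd)
    (relProd_map_indep hx hx' h hy hz hi hi')
  beta_reduce at this
  rw [Measure.map_map (by fun_prop) (by fun_prop), Measure.map_snd_prod, measure_univ,
    one_smul] at this
  exact this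

/-- integral formula -/
lemma integral_relProd [MeasurableEq X] {E : Type*} [NormedAddCommGroup E] [NormedSpace ℝ E]
    (hx : Measurable x) {F : X × W × V → E}
    (hF : AEStronglyMeasurable F ((relProd ρ x σ x').map (fun p => (x p.1, p))))
    (hFi : Integrable (fun p => F (x p.1, p)) (relProd ρ x σ x')) :
    ∫ p, F (x p.1, p) ∂(relProd ρ x σ x') =
      ∫ b, ∫ p, F (b, p) ∂((condDistrib id x ρ b).prod (condDistrib id x' σ b)) ∂(ρ.map x) := by
  have : IsProbabilityMeasure (ρ.map x) := Measure.isProbabilityMeasure_map hx.aemeasurable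
  have hg : Measurable (fun p : W × V => (x p.1, p)) := by fun_prop
  rw [← integral_map hg.aemeasurable hF, relProd_map_base hx]
  rw [Measure.integral_compProd]
  · simp only [Kernel.prod_apply]
  · rw [← relProd_map_base hx]
    exact (integrable_map_measure hF hg.aemeasurable).2 hFi

/-- the basic formula: `∫ h(x) f(w) g(v) = ∫ h E[f|x] E[g|x]` -/
lemma integral_relProd_mul [MeasurableEq X] {𝕜 : Type*} [RCLike 𝕜]
    (hx : Measurable x)
    {g : X → 𝕜} {u : W → 𝕜} {v : V → 𝕜} (hg : Measurable g) (hu : Measurable u) (hv : Measurable v)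
    {Cg Cu Cv : ℝ} (hgb : ∀ b, ‖g b‖ ≤ Cg) (hub : ∀ b, ‖u b‖ ≤ Cu) (hvb : ∀ b, ‖v b‖ ≤ Cv) :
    ∫ p, g (x p.1) * (u p.1 * v p.2) ∂(relProd ρ x σ x') =
      ∫ b, g b * ((∫ w, u w ∂(condDistrib id x ρ b)) * ∫ w, v w ∂(condDistrib id x' σ b))
        ∂(ρ.map x) := by
  have : IsProbabilityMeasure (ρ.map x) := Measure.isProbabilityMeasure_map hx.aemeasurable
  have hF : StronglyMeasurable (fun q : X × W × V => g q.1 * (u q.2.1 * v q.2.2)) :=
    Measurable.stronglyMeasurable (by fun_prop)
  have key := integral_relProd (ρ := ρ) (x := x) (σ := σ) (x' := x')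
    (F := fun q : X × W × V => g q.1 * (u q.2.1 * v q.2.2)) hx hF.aestronglyMeasurable
    (by
      refine Integrable.of_bound (C := Cg * (Cu * Cv)) ?_ ?_
      · exact Measurable.aestronglyMeasurable (by fun_prop)
      · refine Filter.Eventually.of_forall fun p => ?_
        rw [norm_mul, norm_mul]
        have h1 := hgb (x p.1)
        have h2 := hub p.1
        have h3 := hvb p.2
        have h0 : 0 ≤ Cg := (norm_nonneg _).trans h1
        have h0' : 0 ≤ Cu := (norm_nonneg _).trans h2
        gcongr)
  simp only at key
  rw [key]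
  congr 1
  ext b
  rw [integral_const_mul, MeasureTheory.integral_prod_mul]

/-- measure of the basic sets -/
lemma relProd_base_prod [MeasurableEq X] (hx : Measurable x) {A : Set X} {B : Set W} {C : Set V}
    (hA : MeasurableSet A) (hB : MeasurableSet B) (hC : MeasurableSet C) :
    relProd ρ x σ x' ((fun p => x p.1) ⁻¹' A ∩ B ×ˢ C) =
      ∫⁻ b in A, condDistrib id x ρ b B * condDistrib id x' σ b C ∂(ρ.map x) := by
  have : IsProbabilityMeasure (ρ.map x) := Measure.isProbabilityMeasure_map hx.aemeasurable
  have hg : Measurable (fun p : W × V => (x p.1, p)) := by fun_prop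
  have h1 : (fun p : W × V => x p.1) ⁻¹' A ∩ B ×ˢ C =
      (fun p : W × V => (x p.1, p)) ⁻¹' (A ×ˢ (B ×ˢ C)) := by
    ext p; simp
  rw [h1, ← Measure.map_apply hg (hA.prod (hB.prod hC)), relProd_map_base hx,
    Measure.compProd_apply_prod hA (hB.prod hC)]
  simp only [Kernel.prod_apply, Measure.prod_prod]

end RelProd

section RelProdSub

variable {X W V : Type*} {m : MeasurableSpace W} {n : MeasurableSpace V}
  [mX : MeasurableSpace X] [mW : MeasurableSpace W] [mV : MeasurableSpace V]
  [StandardBorelSpace W] [Nonempty W] [StandardBorelSpace V] [Nonempty V]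
  {ρ : Measure W} [IsProbabilityMeasure ρ] {x : W → X}
  {σ : Measure V} [IsProbabilityMeasure σ] {x' : V → X}

/-- fibre measures of a set independent of the base are a.e. constant -/
lemma condDistrib_apply_of_indep (hm : m ≤ mW)
    (hx : Measurable x) (hi : Indep (MeasurableSpace.comap x inferInstance) m ρ)
    {B : Set W} (hB : MeasurableSet[m] B) :
    ∀ᵐ b ∂(ρ.map x), condDistrib id x ρ b B = ρ B := by
  have : IsProbabilityMeasure (ρ.map x) := Measure.isProbabilityMeasure_map hx.aemeasurable
  apply ae_eq_of_forall_setLIntegral_eq_of_sigmaFinite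
  · exact Kernel.measurable_coe _ (hm _ hB)
  · exact measurable_const
  · intro A hA _
    rw [← Measure.compProd_apply_prod hA (hm _ hB), compProd_map_condDistrib aemeasurable_id,
      Measure.map_apply (by fun_prop) (hA.prod (hm _ hB)), setLIntegral_const,
      Measure.map_apply hx hA]
    have h1 : (fun a => (x a, id a)) ⁻¹' (A ×ˢ B) = x ⁻¹' A ∩ B := by ext; simp
    rw [h1, (Indep_iff _ _ ρ).1 hi _ _ ⟨A, hA, rfl⟩ hB, mul_comm]

/-- independence of the base from the two sides, sub-sigma-algebra form, on rectangles -/
lemma relProd_rect_indep [MeasurableEq X] (hm : m ≤ mW)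
    (hn : n ≤ mV)
    (hx : Measurable x) (hx' : Measurable x') (h : ρ.map x = σ.map x')
    (hi : Indep (MeasurableSpace.comap x inferInstance) m ρ)
    (hi' : Indep (MeasurableSpace.comap x' inferInstance) n σ)
    {A : Set X} {B : Set W} {C : Set V}
    (hA : MeasurableSet A) (hB : MeasurableSet[m] B) (hC : MeasurableSet[n] C) :
    relProd ρ x σ x' ((fun p => x p.1) ⁻¹' A ∩ B ×ˢ C) = ρ (x ⁻¹' A) * (ρ B * σ C) := by
  rw [relProd_base_prod hx hA (hm _ hB) (hn _ hC)]
  have e1 := condDistrib_apply_of_indep hm hx hi hB
  have e2 := condDistrib_apply_of_indep hn hx' hi' hC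
  rw [← h] at e2
  rw [setLIntegral_congr_fun_ae hA (g := fun _ => ρ B * σ C)]
  · rw [setLIntegral_const, Measure.map_apply hx hA, mul_comm]
  · filter_upwards [e1, e2] with b h1 h2 _
    rw [h1, h2]

/-- The base, the left side sub-sigma-algebra and the right one: the base is independent of the
join of the two sides. -/
lemma relProd_indep_base [MeasurableEq X] (hm : m ≤ mW)
    (hn : n ≤ mV)
    (hx : Measurable x) (hx' : Measurable x') (h : ρ.map x = σ.map x')
    (hi : Indep (MeasurableSpace.comap x inferInstance) m ρ)
    (hi' : Indep (MeasurableSpace.comap x' inferInstance) n σ) :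
    Indep (MeasurableSpace.comap (fun p : W × V => x p.1) inferInstance)
      (m.comap Prod.fst ⊔ n.comap Prod.snd) (relProd ρ x σ x') := by
  have hP : IsProbabilityMeasure (relProd ρ x σ x') := isProbabilityMeasure_relProd hx
  have hgen : m.comap (Prod.fst : W × V → W) ⊔ n.comap Prod.snd =
      MeasurableSpace.generateFrom (Set.image2 (· ×ˢ ·) {B | MeasurableSet[m] B}
        {C | MeasurableSet[n] C}) := (@generateFrom_prod W V m n).symm
  refine IndepSets.indep (p1 := {t | MeasurableSet[MeasurableSpace.comap
      (fun p : W × V => x p.1) inferInstance] t})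
    (p2 := Set.image2 (· ×ˢ ·) {B | MeasurableSet[m] B} {C | MeasurableSet[n] C}) ?_ ?_ ?_ ?_ ?_
    hgen ?_
  · exact (hx.comp measurable_fst).comap_le
  · exact sup_le ((MeasurableSpace.comap_mono hm).trans measurable_fst.comap_le)
      ((MeasurableSpace.comap_mono hn).trans measurable_snd.comap_le)
  · exact @MeasurableSpace.isPiSystem_measurableSet _ (MeasurableSpace.comap
      (fun p : W × V => x p.1) inferInstance)
  · exact @isPiSystem_prod W V m n
  · exact (@MeasurableSpace.generateFrom_measurableSet _ (MeasurableSpace.comap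
      (fun p : W × V => x p.1) inferInstance)).symm
  · rw [IndepSets_iff]
    rintro t1 t2 ⟨A, hA, rfl⟩ ⟨B, hB, C, hC, rfl⟩
    have h1 := relProd_rect_indep hm hn hx hx' h hi hi' hA hB hC
    have h2 := relProd_rect_indep hm hn hx hx' h hi hi' MeasurableSet.univ hB hC
    have h3 := relProd_rect_indep hm hn hx hx' h hi hi' hA
      (@MeasurableSet.univ _ m) (@MeasurableSet.univ _ n)
    simp only [preimage_univ, univ_inter, measure_univ, one_mul] at h2
    simp only [univ_prod_univ, inter_univ, measure_univ, mul_one] at h3
    rw [h2, h3]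
    exact h1

/-- the two sides are independent of each other -/
lemma relProd_indep_sides [MeasurableEq X] (hm : m ≤ mW)
    (hn : n ≤ mV)
    (hx : Measurable x) (hx' : Measurable x') (h : ρ.map x = σ.map x')
    (hi : Indep (MeasurableSpace.comap x inferInstance) m ρ)
    (hi' : Indep (MeasurableSpace.comap x' inferInstance) n σ) :
    Indep (m.comap (Prod.fst : W × V → W)) (n.comap (Prod.snd : W × V → V))
      (relProd ρ x σ x') := by
  have hP : IsProbabilityMeasure (relProd ρ x σ x') := isProbabilityMeasure_relProd hx
  rw [Indep_iff]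
  rintro t1 t2 ⟨B, hB, rfl⟩ ⟨C, hC, rfl⟩
  have h1 := relProd_rect_indep hm hn hx hx' h hi hi' MeasurableSet.univ hB hC
  have h2 := relProd_rect_indep hm hn hx hx' h hi hi' MeasurableSet.univ hB
    (@MeasurableSet.univ _ n)
  have h3 := relProd_rect_indep hm hn hx hx' h hi hi' MeasurableSet.univ
    (@MeasurableSet.univ _ m) hC
  simp only [preimage_univ, univ_inter, measure_univ, one_mul, mul_one] at h1 h2 h3
  have e2 : (Prod.fst : W × V → W) ⁻¹' B = B ×ˢ univ := by ext; simp
  have e3 : (Prod.snd : W × V → V) ⁻¹' C = univ ×ˢ C := by ext; simp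
  have e1 : (Prod.fst : W × V → W) ⁻¹' B ∩ (Prod.snd : W × V → V) ⁻¹' C = B ×ˢ C := by
    ext; simp
  rw [e1, e2, e3, h1, h2, h3]

end RelProdSub

end Vale.Agent.P102.RM
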