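import Vale.Agent.P102.RM.Defs
import Vale.Agent.P102.RM.WXW

/-!
# The relative square `W ×_X W` of an admissible pair
-/

namespace Vale.Agent.P102.RM

open MeasureTheory Filter Topology ProbabilityTheory

/-- product system -/
@[reducible] noncomputable def Sys.prod (A B : Sys) : Sys where
  C := A.C × B.C
  μ := A.μ.prod B.μ
  S := MeasurableEquiv.prodCongr A.S B.S
  mp := A.mp.prod B.mp

/-- the two projections of a product system -/
noncomputable def Sys.prodFst (A B : Sys) : Fac (A.prod B) A where
  f := Prod.fst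
  mp := measurePreserving_fst
  eqv := fun _ => rfl

noncomputable def Sys.prodSnd (A B : Sys) : Fac (A.prod B) B where
  f := Prod.snd
  mp := measurePreserving_snd
  eqv := fun _ => rfl

theorem Fac.symm_eqv {A B : Sys} (x : Fac A B) (a : A.C) :
    x.f (A.S.symm a) = B.S.symm (x.f a) := by
  apply B.S.injective
  rw [← x.eqv, MeasurableEquiv.apply_symm_apply, MeasurableEquiv.apply_symm_apply]

/-- the set of pairs over the same base point -/
def Fac.eqSet {A B : Sys} (x : Fac A B) : Set (A.C × A.C) := {p | x.f p.1 = x.f p.2}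

theorem Fac.measurableSet_eqSet {A B : Sys} (x : Fac A B) : MeasurableSet x.eqSet :=
  measurableSet_eq_fun (x.meas.comp measurable_fst) (x.meas.comp measurable_snd)

/-- the relatively independent square of the measure, on all pairs -/
noncomputable def Fac.rp {A B : Sys} (x : Fac A B) : Measure (A.C × A.C) :=
  relProd A.μ x.f A.μ x.f

instance {A B : Sys} (x : Fac A B) : IsProbabilityMeasure x.rp :=
  isProbabilityMeasure_relProd x.meas

theorem Fac.rp_inv {A B : Sys} (x : Fac A B) :
    MeasurePreserving (Prod.map A.S A.S) x.rp x.rp :=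
  relProd_invariant A.mp A.mp x.meas x.meas B.S
    (Eventually.of_forall x.eqv) (Eventually.of_forall x.eqv) rfl

theorem Fac.rp_ae {A B : Sys} (x : Fac A B) : ∀ᵐ p ∂x.rp, p ∈ x.eqSet :=
  relProd_ae_eq x.meas x.meas rfl

/-- the automorphism of the set of pairs -/
def Fac.sqS {A B : Sys} (x : Fac A B) : x.eqSet ≃ᵐ x.eqSet where
  toFun p := ⟨(A.S p.1.1, A.S p.1.2), by
    have := p.2
    simp only [Fac.eqSet, Set.mem_ofPred_eq] at this ⊢
    rw [x.eqv, x.eqv, this]⟩
  invFun p := ⟨(A.S.symm p.1.1, A.S.symm p.1.2), by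
    have := p.2
    simp only [Fac.eqSet, Set.mem_ofPred_eq] at this ⊢
    rw [x.symm_eqv, x.symm_eqv, this]⟩
  left_inv p := by simp
  right_inv p := by simp
  measurable_toFun := by
    apply Measurable.subtype_mk
    exact (A.S.measurable.comp (measurable_fst.comp measurable_subtype_coe)).prodMk
      (A.S.measurable.comp (measurable_snd.comp measurable_subtype_coe))
  measurable_invFun := by
    apply Measurable.subtype_mk
    exact (A.S.symm.measurable.comp (measurable_fst.comp measurable_subtype_coe)).prodMk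
      (A.S.symm.measurable.comp (measurable_snd.comp measurable_subtype_coe))

/-- the relatively independent square as a measure on the set of pairs -/
noncomputable def Fac.sqM {A B : Sys} (x : Fac A B) : Measure x.eqSet :=
  Measure.comap Subtype.val x.rp

theorem Fac.sqM_map {A B : Sys} (x : Fac A B) : x.sqM.map Subtype.val = x.rp := by
  rw [Fac.sqM, map_comap_subtype_coe x.measurableSet_eqSet]
  exact Measure.restrict_eq_self_of_ae_mem x.rp_ae

instance {A B : Sys} (x : Fac A B) : IsProbabilityMeasure x.sqM := by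
  refine ⟨?_⟩
  have h := congrArg (fun m : Measure (A.C × A.C) => m Set.univ) x.sqM_map
  simp only [measure_univ] at h
  rwa [Measure.map_apply measurable_subtype_coe MeasurableSet.univ, Set.preimage_univ] at h

theorem Fac.sqM_inv {A B : Sys} (x : Fac A B) : MeasurePreserving x.sqS x.sqM x.sqM := by
  refine ⟨x.sqS.measurable, ?_⟩
  have hemb : MeasurableEmbedding (Subtype.val : x.eqSet → A.C × A.C) :=
    MeasurableEmbedding.subtype_coe x.measurableSet_eqSet
  have h1 : (x.sqM.map x.sqS).map Subtype.val = x.sqM.map Subtype.val := by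
    rw [Measure.map_map measurable_subtype_coe x.sqS.measurable]
    have h2 : (Subtype.val ∘ x.sqS : x.eqSet → A.C × A.C) = Prod.map A.S A.S ∘ Subtype.val := rfl
    rw [h2, ← Measure.map_map x.rp_inv.measurable measurable_subtype_coe, x.sqM_map]
    exact x.rp_inv.map_eq
  have h3 := congrArg (fun m : Measure (A.C × A.C) => m.comap (Subtype.val : x.eqSet → _)) h1
  simpa [hemb.comap_map] using h3

/-- the relatively independent square system -/
@[reducible] noncomputable def Fac.sq {A B : Sys} (x : Fac A B) : Sys where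
  C := x.eqSet
  sC := x.measurableSet_eqSet.standardBorel
  μ := x.sqM
  S := x.sqS
  mp := x.sqM_inv

/-- first projection -/
noncomputable def Fac.sq1 {A B : Sys} (x : Fac A B) : Fac x.sq A where
  f := fun p => p.1.1
  mp := by
    refine ⟨measurable_fst.comp measurable_subtype_coe, ?_⟩
    have : (fun p : x.eqSet => p.1.1) = Prod.fst ∘ Subtype.val := rfl
    rw [this, ← Measure.map_map measurable_fst measurable_subtype_coe]
    exact (congrArg (Measure.map Prod.fst) x.sqM_map).trans (relProd_fst x.meas)
  eqv := fun _ => rfl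

/-- second projection -/
noncomputable def Fac.sq2 {A B : Sys} (x : Fac A B) : Fac x.sq A where
  f := fun p => p.1.2
  mp := by
    refine ⟨measurable_snd.comp measurable_subtype_coe, ?_⟩
    have : (fun p : x.eqSet => p.1.2) = Prod.snd ∘ Subtype.val := rfl
    rw [this, ← Measure.map_map measurable_snd measurable_subtype_coe]
    exact (congrArg (Measure.map Prod.snd) x.sqM_map).trans (relProd_snd x.meas rfl)
  eqv := fun _ => rfl

theorem Fac.sq_fiber {A B : Sys} (x : Fac A B) (p : x.sq.C) :
    x.f (x.sq1.f p) = x.f (x.sq2.f p) := p.2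

/-- the joint law of `x`, `y`, `y*` in the relative square of an admissible pair -/
theorem Adm.sq_law {X : Sys} (P : Adm X) :
    P.x.sqM.map (fun p : P.x.eqSet => (P.x.f p.1.1, (P.y.f p.1.1, P.y.f p.1.2))) =
      X.μ.prod (P.Y.μ.prod P.Y.μ) := by
  have hx := P.x.meas
  have hy := P.y.meas
  have hi : P.W.μ.map (fun w => (P.x.f w, P.y.f w)) = (P.W.μ.map P.x.f).prod (P.W.μ.map P.y.f) :=
    (indepFun_iff_map_prod_eq_prod_map_map hx.aemeasurable hy.aemeasurable).1 P.ind
  have h1 := relProd_map_indep (ρ := P.W.μ) (σ := P.W.μ) hx hx rfl hy hy hi hi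
  rw [P.x.mp.map_eq, P.y.mp.map_eq] at h1
  rw [← h1]
  have h2 : (fun p : P.x.eqSet => (P.x.f p.1.1, (P.y.f p.1.1, P.y.f p.1.2))) =
    (fun p : P.W.C × P.W.C => (P.x.f p.1, (P.y.f p.1, P.y.f p.2))) ∘ Subtype.val := rfl
  rw [h2, ← Measure.map_map (by fun_prop) measurable_subtype_coe, P.x.sqM_map]
  rfl

/-- the relative square of an admissible pair -/
@[reducible] noncomputable def Adm.sq {X : Sys} (P : Adm X) : Adm X where
  W := P.x.sq
  Y := P.Y.prod P.Y
  x := P.x.comp P.x.sq1
  y :=
    { f := fun p => (P.y.f p.1.1, P.y.f p.1.2)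
      mp := by
        have hx := P.x.meas
        have hy := P.y.meas
        have hm : Measurable (fun p : P.x.eqSet => (P.y.f p.1.1, P.y.f p.1.2)) := by
          exact (hy.comp (measurable_fst.comp measurable_subtype_coe)).prodMk
            (hy.comp (measurable_snd.comp measurable_subtype_coe))
        refine ⟨hm, ?_⟩
        have h := congrArg (fun m : Measure (X.C × P.Y.C × P.Y.C) => m.map Prod.snd) P.sq_law
        beta_reduce at h
        rw [Measure.map_map measurable_snd (by
          exact (hx.comp (measurable_fst.comp measurable_subtype_coe)).prodMk hm),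
          Measure.map_snd_prod, measure_univ, one_smul] at h
        exact h
      eqv := fun p => by
        show (P.y.f (P.W.S p.1.1), P.y.f (P.W.S p.1.2)) = (P.Y.S _, P.Y.S _)
        rw [P.y.eqv, P.y.eqv] }
  ind := by
    have hx := P.x.meas
    have hy := P.y.meas
    have hm : Measurable (fun p : P.x.eqSet => (P.y.f p.1.1, P.y.f p.1.2)) := by
      exact (hy.comp (measurable_fst.comp measurable_subtype_coe)).prodMk
        (hy.comp (measurable_snd.comp measurable_subtype_coe))
    have hm1 : Measurable (fun p : P.x.eqSet => P.x.f p.1.1) :=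
      hx.comp (measurable_fst.comp measurable_subtype_coe)
    show IndepFun (fun p : P.x.eqSet => P.x.f p.1.1)
      (fun p : P.x.eqSet => (P.y.f p.1.1, P.y.f p.1.2)) P.x.sqM
    rw [indepFun_iff_map_prod_eq_prod_map_map hm1.aemeasurable hm.aemeasurable]
    have h := P.sq_law
    have ha := congrArg (fun m : Measure (X.C × P.Y.C × P.Y.C) => m.map Prod.fst) h
    have hb := congrArg (fun m : Measure (X.C × P.Y.C × P.Y.C) => m.map Prod.snd) h
    beta_reduce at ha hb
    rw [Measure.map_map measurable_fst (hm1.prodMk hm), Measure.map_fst_prod, measure_univ,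
      one_smul] at ha
    rw [Measure.map_map measurable_snd (hm1.prodMk hm), Measure.map_snd_prod, measure_univ,
      one_smul] at hb
    have ha' : P.x.sqM.map (fun p : P.x.eqSet => P.x.f p.1.1) = X.μ := ha
    have hb' : P.x.sqM.map (fun p : P.x.eqSet => (P.y.f p.1.1, P.y.f p.1.2)) =
      P.Y.μ.prod P.Y.μ := hb
    rw [ha', hb']
    exact h

/-- the first projection as an extension -/
noncomputable def Adm.sqE1 {X : Sys} (P : Adm X) : Ext P.sq P where
  w := P.x.sq1
  v := P.Y.prodFst P.Y
  hx := ae_of_all _ fun _ => rfl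
  hy := fun _ => rfl

/-- the second projection as an extension -/
noncomputable def Adm.sqE2 {X : Sys} (P : Adm X) : Ext P.sq P where
  w := P.x.sq2
  v := P.Y.prodSnd P.Y
  hx := ae_of_all _ fun p => (P.x.sq_fiber p).symm
  hy := fun _ => rfl

theorem Adm.sq_indY {X : Sys} (P : Adm X) {P0 : Adm X} (e : Ext P0 P.sq) :
    IndepFun (P.sqE1.comp e).v.f (P.sqE2.comp e).v.f P0.Y.μ := by
  have hv := e.v.meas
  have h1 : Measurable (P.sqE1.comp e).v.f := (P.sqE1.comp e).v.meas
  have h2 : Measurable (P.sqE2.comp e).v.f := (P.sqE2.comp e).v.meas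
  rw [indepFun_iff_map_prod_eq_prod_map_map h1.aemeasurable h2.aemeasurable,
    (P.sqE1.comp e).v.mp.map_eq, (P.sqE2.comp e).v.mp.map_eq]
  have h3 : (fun a => ((P.sqE1.comp e).v.f a, (P.sqE2.comp e).v.f a)) = e.v.f := rfl
  rw [h3]
  exact e.v.mp.map_eq

/-- the two points of `P.W` over `X` coincide -/
theorem Adm.sq_x {X : Sys} (P : Adm X) {P0 : Adm X} (e : Ext P0 P.sq) (a : P0.W.C) :
    P.x.f ((P.sqE1.comp e).w.f a) = P.x.f ((P.sqE2.comp e).w.f a) :=
  P.x.sq_fiber (e.w.f a)

end Vale.Agent.P102.RM
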