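import Vale.Agent.P102.RM.WLdyn
import Vale.Agent.P102.RM.RelSq
import Mathlib.Probability.Independence.Integration

/-!
P102, block WL: two independent factors (base case of Theorem E).
-/

namespace Vale.Agent.P102.RM

open MeasureTheory Filter Topology ProbabilityTheory

/-- test functions on a product of two spaces -/
theorem ae_eq_of_forall_prod2 {G H : Type*} [mG : MeasurableSpace G] [mH : MeasurableSpace H]
    {ν : Measure (G × H)} [IsFiniteMeasure ν] {u v : G × H → ℂ} (hu : Integrable u ν)
    (hv : Integrable v ν)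
    (h : ∀ (f : G → ℂ) (g : H → ℂ), Bdd f → Bdd g →
      ∫ a, f a.1 * g a.2 * u a ∂ν = ∫ a, f a.1 * g a.2 * v a ∂ν) : u =ᵐ[ν] v := by
  suffices key : ∀ s, MeasurableSet s → ∫ a in s, u a ∂ν = ∫ a in s, v a ∂ν from
    Integrable.ae_eq_of_forall_setIntegral_eq _ _ hu hv fun s hs _ => key s hs
  have hgen : (Prod.instMeasurableSpace : MeasurableSpace (G × H)) = MeasurableSpace.generateFrom
      (Set.image2 (· ×ˢ ·) {s : Set G | MeasurableSet s} {t : Set H | MeasurableSet t}) :=
    generateFrom_prod.symm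
  intro s hs
  induction s, hs using MeasurableSpace.induction_on_inter hgen isPiSystem_prod with
  | empty => simp
  | basic t ht =>
    obtain ⟨A, hA, B, hB, rfl⟩ := ht
    have e : ∀ w : G × H → ℂ, ∫ a in A ×ˢ B, w a ∂ν
        = ∫ a, A.indicator (1 : G → ℂ) a.1 * B.indicator (1 : H → ℂ) a.2 * w a ∂ν := by
      intro w
      rw [← integral_indicator (hA.prod hB)]
      refine integral_congr_ae (Eventually.of_forall fun a => ?_)
      by_cases h1 : a.1 ∈ A <;> by_cases h2 : a.2 ∈ B <;>
        simp [Set.indicator, h1, h2]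
    rw [e, e]
    exact h _ _ (Bdd.indicator hA) (Bdd.indicator hB)
  | compl t ht ih =>
    have h1 := h (fun _ => 1) (fun _ => 1) (Bdd.const 1) (Bdd.const 1)
    simp only [one_mul] at h1
    rw [setIntegral_compl ht hu, setIntegral_compl ht hv, ih, h1]
  | iUnion t hdis ht ih =>
    rw [integral_iUnion ht hdis hu.integrableOn, integral_iUnion ht hdis hv.integrableOn]
    exact tsum_congr fun i => ih i

/-- bounded functions of two independent factors -/
theorem integral_mul_of_indep {Ω G H : Type*} [MeasurableSpace Ω] [MeasurableSpace G]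
    [MeasurableSpace H] {μ : Measure Ω} {a : Ω → G} {b : Ω → H}
    (ha : Measurable a) (hb : Measurable b) (hI : IndepFun a b μ) {f : G → ℂ} {g : H → ℂ}
    (hf : Bdd f) (hg : Bdd g) :
    ∫ ω, f (a ω) * g (b ω) ∂μ = (∫ ω, f (a ω) ∂μ) * ∫ ω, g (b ω) ∂μ := by
  have h1 : IndepFun (fun ω => f (a ω)) (fun ω => g (b ω)) μ := hI.comp hf.1 hg.1
  exact h1.integral_fun_mul_eq_mul_integral (hf.1.comp ha).aestronglyMeasurable
    (hg.1.comp hb).aestronglyMeasurable

/-- the factor map into the product of two independent factors -/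
noncomputable def Fac.pair {Z A B : Sys} (w : Fac Z A) (x : Fac Z B)
    (hI : IndepFun w.f x.f Z.μ) : Fac Z (A.prod B) where
  f := fun z => (w.f z, x.f z)
  mp := ⟨w.meas.prodMk x.meas, by
    have h := (indepFun_iff_map_prod_eq_prod_map_map w.meas.aemeasurable x.meas.aemeasurable).1 hI
    rw [w.mp.map_eq, x.mp.map_eq] at h
    exact h⟩
  eqv := fun z => Prod.ext (w.eqv z) (x.eqv z)

section

variable {ι : Type} [Fintype ι]

theorem indep_prod_fst_snd (A B : Sys) :
    IndepFun (Sys.prodFst A B).f (Sys.prodSnd A B).f (A.prod B).μ := by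
  show IndepFun Prod.fst Prod.snd (A.μ.prod B.μ)
  rw [indepFun_iff_map_prod_eq_prod_map_map measurable_fst.aemeasurable
    measurable_snd.aemeasurable]
  simp

/-- `cl` of a product of functions of two independent factors -/
theorem cl_prod (r : Ultrafilter (ι → ℤ)) (A B : Sys) (s : ι) {G : (ι → A.C) → ℂ}
    {H : (ι → B.C) → ℂ} (hG : Bdd G) (hH : Bdd H) :
    cl r (A.prod B) s (fun d => G (fun o => (d o).1) * H (fun o => (d o).2))
      =ᵐ[(A.prod B).μ] fun v => cl r A s G v.1 * cl r B s H v.2 := by
  have m1 : Measurable (fun (d : ι → A.C × B.C) (o : ι) => (d o).1) :=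
    measurable_pi_lambda _ fun o => measurable_fst.comp (measurable_pi_apply o)
  have m2 : Measurable (fun (d : ι → A.C × B.C) (o : ι) => (d o).2) :=
    measurable_pi_lambda _ fun o => measurable_snd.comp (measurable_pi_apply o)
  have hGH : Bdd (fun d : ι → A.C × B.C => G (fun o => (d o).1) * H (fun o => (d o).2)) :=
    (hG.comp m1).mul (hH.comp m2)
  have hcl : Bdd (fun v : A.C × B.C => cl r A s G v.1 * cl r B s H v.2) :=
    ((hG.cl r A s).comp measurable_fst).mul ((hH.cl r B s).comp measurable_snd)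
  refine ae_eq_of_forall_prod2 ((hGH.cl r (A.prod B) s).integrable _) (hcl.integrable _) ?_
  intro f g hf hg
  have hfg : Bdd (fun v : (A.prod B).C => f v.1 * g v.2) :=
    (hf.comp measurable_fst).mul (hg.comp measurable_snd)
  have h1 := integral_mul_cl r (A.prod B) s hGH hfg
  have hI := indep_D r _ _ (indep_prod_fst_snd A B)
  have hb1 : Bdd (fun a : ι → A.C => f (a s) * G a) := (hf.comp (measurable_pi_apply s)).mul hG
  have hb2 : Bdd (fun b : ι → B.C => g (b s) * H b) := (hg.comp (measurable_pi_apply s)).mul hH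
  have h2 := integral_mul_of_indep (((Sys.prodFst A B).D r).meas) (((Sys.prodSnd A B).D r).meas)
    hI hb1 hb2
  have h3 := ((Sys.prodFst A B).D r).integral_comp hb1
  have h4 := ((Sys.prodSnd A B).D r).integral_comp hb2
  rw [h3, h4, integral_mul_cl r A s hG hf, integral_mul_cl r B s hH hg] at h2
  have hc1 : Bdd (fun a : A.C => f a * cl r A s G a) := hf.mul (hG.cl r A s)
  have hc2 : Bdd (fun a : B.C => g a * cl r B s H a) := hg.mul (hH.cl r B s)
  have h5 := integral_mul_of_indep (Sys.prodFst A B).meas (Sys.prodSnd A B).meas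
    (indep_prod_fst_snd A B) hc1 hc2
  rw [(Sys.prodFst A B).integral_comp hc1, (Sys.prodSnd A B).integral_comp hc2] at h5
  rw [← h1]
  refine Eq.trans ?_ (h2.trans (h5.symm.trans ?_))
  · refine integral_congr_ae (Eventually.of_forall fun d => ?_)
    simp only [Fac.D_apply, Sys.prodFst, Sys.prodSnd]
    have e1 : ((Sys.prodFst A B).D r).f d = fun o => (d o).1 := rfl
    have e2 : ((Sys.prodSnd A B).D r).f d = fun o => (d o).2 := rfl
    ring_nf
    rfl
  · refine integral_congr_ae (Eventually.of_forall fun v => ?_)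
    simp only [Sys.prodFst, Sys.prodSnd]
    ring

/-- **WL6** (base case of Theorem E): two independent factors. -/
theorem integral_row_two (r : Ultrafilter (ι → ℤ)) [DecidableEq ι] {Z A B : Sys} (w : Fac Z A)
    (x : Fac Z B) (hI : IndepFun w.f x.f Z.μ) (s : ι) (F : Z.C → ℂ) (hF : Bdd F)
    (G : (ι → A.C) → ℂ) (hG : Bdd G) (H : (ι → B.C) → ℂ) (hH : Bdd H) :
    ∫ z : ι → Z.C, F (z s) * (G (fun o => w.f (z o)) * H (fun o => x.f (z o))) ∂(D r Z).μ
      = ∫ z, F z * (cl r A s G (w.f z) * cl r B s H (x.f z)) ∂Z.μ := by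
  have m1 : Measurable (fun (d : ι → A.C × B.C) (o : ι) => (d o).1) :=
    measurable_pi_lambda _ fun o => measurable_fst.comp (measurable_pi_apply o)
  have m2 : Measurable (fun (d : ι → A.C × B.C) (o : ι) => (d o).2) :=
    measurable_pi_lambda _ fun o => measurable_snd.comp (measurable_pi_apply o)
  have hGH : Bdd (fun d : ι → (A.prod B).C => G (fun o => (d o).1) * H (fun o => (d o).2)) :=
    (hG.comp m1).mul (hH.comp m2)
  have h1 := integral_row_col r (w.pair x hI) s F hF _ hGH
  refine Eq.trans ?_ (h1.trans ?_)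
  · rfl
  · have h2 := (w.pair x hI).mp.quasiMeasurePreserving.ae (cl_prod r A B s hG hH)
    refine integral_congr_ae ?_
    filter_upwards [h2] with z hz
    rw [hz]
    rfl

end

end Vale.Agent.P102.RM
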