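import Vale.Agent.P102.RM.StarN
import Vale.Agent.P102.RM.WLdyn2
import Vale.Agent.P102.RM.Skeleton

/-! # Theorem E and the ideal property (P102): second copy -/

namespace Vale.Agent.P102.RM.H244

open MeasureTheory Filter Topology ProbabilityTheory

variable {X : Sys} {ι : Type} [Fintype ι] [DecidableEq ι]

omit [DecidableEq ι] in
/-- exactness criterion -/
theorem exa_of_test {P : Adm X} {r : Ultrafilter (ι → ℤ)} {s : ι} {Ψ : P.W.C → ℂ} (hΨ : Bdd Ψ)
    (h : ∫ a, (starRingEnd ℂ) (Ψ a) * Ψ a ∂P.W.μ = ∫ d : ι → P.W.C,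
      cE (D r P.W).μ (P.y.side s) (fun d : (D r P.W).C => (starRingEnd ℂ) (Ψ (d s)))
        (P.y.side s d) * Ψ (d s) ∂(D r P.W).μ) :
    Ψ ∈ Exa P r s := by
  have hm := Sat.measurable_side P.y s
  have hF : Bdd (fun d : (D r P.W).C => Ψ (d s)) := hΨ.comp (measurable_pi_apply s)
  have hFc : Bdd (fun d : (D r P.W).C => (starRingEnd ℂ) (Ψ (d s))) := hF.star
  have hF2 : MemLp (fun d : (D r P.W).C => Ψ (d s)) 2 (D r P.W).μ := by
    obtain ⟨C, hC⟩ := hF.2
    exact MemLp.of_bound hF.1.aestronglyMeasurable C (ae_of_all _ hC)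
  have h1 := cE_comp_ae_eq (μ := (D r P.W).μ) (g := P.y.side s)
    (F := fun d : (D r P.W).C => (starRingEnd ℂ) (Ψ (d s))) hm (hFc.integrable _)
  have h2 := cE_comp_ae_eq (μ := (D r P.W).μ) (g := P.y.side s)
    (F := fun d : (D r P.W).C => Ψ (d s)) hm (hF.integrable _)
  have h3 := condExp_ae_eq_self_of_exactness (μ := (D r P.W).μ)
    (m₁ := (inferInstance : MeasurableSpace (D r P.W).C))
    (m₂ := MeasurableSpace.comap (P.y.side s) inferInstance) le_rfl hm.comap_le hF2
    hF.1.aestronglyMeasurable ?_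
  · refine ⟨hΨ, cE (D r P.W).μ (P.y.side s) (fun d : (D r P.W).C => Ψ (d s)),
      measurable_cE hF.1, ?_⟩
    filter_upwards [h2, h3] with d h2 h3
    rw [h2, h3]
  · have e1 : ∫ d : (D r P.W).C, (starRingEnd ℂ) (Ψ (d s)) * Ψ (d s) ∂(D r P.W).μ =
        ∫ a, (starRingEnd ℂ) (Ψ a) * Ψ a ∂P.W.μ :=
      (evF r P.W s).integral_comp (H := fun a => (starRingEnd ℂ) (Ψ a) * Ψ a) (hΨ.star.mul hΨ)
    have e2 : (D r P.W).μ[(D r P.W).μ[fun d : (D r P.W).C => (starRingEnd ℂ) (Ψ (d s)) |
        MeasurableSpace.comap (P.y.side s) inferInstance] |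
        (inferInstance : MeasurableSpace (D r P.W).C)] =
        (D r P.W).μ[fun d : (D r P.W).C => (starRingEnd ℂ) (Ψ (d s)) |
        MeasurableSpace.comap (P.y.side s) inferInstance] :=
      condExp_of_stronglyMeasurable le_rfl (stronglyMeasurable_condExp.mono hm.comap_le)
        integrable_condExp
    rw [e1, h, e2]
    refine integral_congr_ae ?_
    filter_upwards [h1] with d h1
    rw [← h1]

/-! ### The extension `D r W → W` through slot `t` -/

section ext

variable (P : Adm X) (r : Ultrafilter (ι → ℤ)) (t b : ι)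

/-- the new base: the points `w_a`, `a ≠ t, b`, and `y_t`, `y_b` -/
abbrev YC : Type := ({a : ι // a ≠ t ∧ a ≠ b} → P.W.C) × P.Y.C × P.Y.C

/-- the map to the new base -/
def beta (d : ι → P.W.C) : YC P t b := (fun a => d a, P.y.f (d t), P.y.f (d b))

omit [Fintype ι] [DecidableEq ι] in
theorem measurable_beta : Measurable (beta P t b) := by
  have h1 : Measurable (fun (d : ι → P.W.C) (a : {a : ι // a ≠ t ∧ a ≠ b}) => d a) :=
    measurable_pi_lambda _ fun a => measurable_pi_apply (a : ι)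
  have h2 : Measurable (fun (d : ι → P.W.C) => P.y.f (d t)) :=
    P.y.meas.comp (measurable_pi_apply t)
  have h3 : Measurable (fun (d : ι → P.W.C) => P.y.f (d b)) :=
    P.y.meas.comp (measurable_pi_apply b)
  exact h1.prodMk (h2.prodMk h3)

/-- the automorphism of the new base -/
def YS : YC P t b ≃ᵐ YC P t b :=
  MeasurableEquiv.prodCongr (MeasurableEquiv.piCongrRight fun _ => P.W.S)
    (MeasurableEquiv.prodCongr P.Y.S P.Y.S)

omit [DecidableEq ι] in
theorem beta_eqv (d : (D r P.W).C) : beta P t b ((D r P.W).S d) = YS P t b (beta P t b d) := by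
  show beta P t b (diag ι P.W d) = _
  refine Prod.ext ?_ (Prod.ext ?_ ?_)
  · rfl
  · exact P.y.eqv (d t)
  · exact P.y.eqv (d b)

/-- Independence from product integrals. -/
theorem indepFun_of_integrals {Ω A B C : Type*} [MeasurableSpace Ω] [MeasurableSpace A]
    [MeasurableSpace B] [MeasurableSpace C] {κ : Type*} [Fintype κ] {μ : Measure Ω}
    [IsProbabilityMeasure μ] {x : Ω → A} (hx : Measurable x) {w : Ω → κ → B} (hw : Measurable w)
    {y : Ω → C} (hy : Measurable y)
    (h : ∀ (φ : A → ℂ) (f : κ → B → ℂ) (g : C → ℂ), Bdd φ → (∀ i, Bdd (f i)) → Bdd g →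
      ∫ ω, φ (x ω) * ((∏ i, f i (w ω i)) * g (y ω)) ∂μ =
        (∫ ω, φ (x ω) ∂μ) * ∫ ω, (∏ i, f i (w ω i)) * g (y ω) ∂μ) :
    IndepFun x (fun ω => (w ω, y ω)) μ := by
  have hwy : Measurable (fun ω => (w ω, y ω)) := hw.prodMk hy
  -- measure form on boxes
  have hbox : ∀ (a : Set A) (s : κ → Set B) (c : Set C), MeasurableSet a →
      (∀ i, MeasurableSet (s i)) → MeasurableSet c →
      μ (x ⁻¹' a ∩ (fun ω => (w ω, y ω)) ⁻¹' ((Set.univ.pi s) ×ˢ c)) =
        μ (x ⁻¹' a) * μ ((fun ω => (w ω, y ω)) ⁻¹' ((Set.univ.pi s) ×ˢ c)) := by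
    intro a s c ha hs hc
    have key := h (a.indicator 1) (fun i => (s i).indicator 1) (c.indicator 1)
      (Bdd.indicator ha) (fun i => Bdd.indicator (hs i)) (Bdd.indicator hc)
    have hb : MeasurableSet ((fun ω => (w ω, y ω)) ⁻¹' ((Set.univ.pi s) ×ˢ c)) :=
      hwy ((MeasurableSet.univ_pi hs).prod hc)
    have e1 : ∀ ω, (∏ i, (s i).indicator (1 : B → ℂ) (w ω i)) * c.indicator (1 : C → ℂ) (y ω) =
        ((fun ω => (w ω, y ω)) ⁻¹' ((Set.univ.pi s) ×ˢ c)).indicator (1 : Ω → ℂ) ω := by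
      intro ω
      by_cases h1 : ω ∈ (fun ω => (w ω, y ω)) ⁻¹' ((Set.univ.pi s) ×ˢ c)
      · rw [Set.indicator_of_mem h1]
        have h2 : (∀ i, w ω i ∈ s i) ∧ y ω ∈ c := by
          simpa [Set.mem_pi] using h1
        rw [Set.indicator_of_mem h2.2, Finset.prod_eq_one fun i _ =>
          Set.indicator_of_mem (h2.1 i) _]
        simp
      · rw [Set.indicator_of_notMem h1]
        have h2 : ¬ ((∀ i, w ω i ∈ s i) ∧ y ω ∈ c) := by
          simpa [Set.mem_pi] using h1
        by_cases h3 : y ω ∈ c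
        · have h4 : ∃ i, w ω i ∉ s i := by
            by_contra h5
            push Not at h5
            exact h2 ⟨h5, h3⟩
          obtain ⟨i, hi⟩ := h4
          rw [Finset.prod_eq_zero (Finset.mem_univ i) (Set.indicator_of_notMem hi _), zero_mul]
        · rw [Set.indicator_of_notMem h3, mul_zero]
    have e2 : ∀ ω, (a.indicator (1 : A → ℂ)) (x ω) = (x ⁻¹' a).indicator (1 : Ω → ℂ) ω :=
      fun ω => rfl
    have e3 : ∀ u : Set Ω, MeasurableSet u → ∫ ω, u.indicator (1 : Ω → ℂ) ω ∂μ =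
        ((μ.real u : ℝ) : ℂ) := by
      intro u hu
      rw [integral_indicator hu]
      simp
    have e4 : ∀ ω, (x ⁻¹' a).indicator (1 : Ω → ℂ) ω *
        ((fun ω => (w ω, y ω)) ⁻¹' ((Set.univ.pi s) ×ˢ c)).indicator (1 : Ω → ℂ) ω =
        (x ⁻¹' a ∩ (fun ω => (w ω, y ω)) ⁻¹' ((Set.univ.pi s) ×ˢ c)).indicator (1 : Ω → ℂ) ω := by
      intro ω
      rw [Set.inter_indicator_one]
      rfl
    simp only [e1, e2, e4] at key
    rw [e3 _ ((hx ha).inter hb), e3 _ (hx ha), e3 _ hb] at key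
    have key' : μ.real (x ⁻¹' a ∩ (fun ω => (w ω, y ω)) ⁻¹' ((Set.univ.pi s) ×ˢ c)) =
        μ.real (x ⁻¹' a) * μ.real ((fun ω => (w ω, y ω)) ⁻¹' ((Set.univ.pi s) ×ˢ c)) := by
      exact_mod_cast key
    rw [← ENNReal.toReal_eq_toReal_iff' (measure_ne_top _ _)
      (ENNReal.mul_ne_top (measure_ne_top _ _) (measure_ne_top _ _)), ENNReal.toReal_mul]
    exact key'
  -- π-systems
  let p1 : Set (Set Ω) := {u | ∃ a, MeasurableSet a ∧ x ⁻¹' a = u}
  let p2 : Set (Set Ω) := {u | ∃ (s : κ → Set B) (c : Set C), (∀ i, MeasurableSet (s i)) ∧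
    MeasurableSet c ∧ (fun ω => (w ω, y ω)) ⁻¹' ((Set.univ.pi s) ×ˢ c) = u}
  have g1 : MeasurableSpace.comap x inferInstance = MeasurableSpace.generateFrom p1 :=
    (@MeasurableSpace.generateFrom_measurableSet Ω (MeasurableSpace.comap x inferInstance)).symm
  have hgen : (Prod.instMeasurableSpace : MeasurableSpace ((κ → B) × C)) =
      MeasurableSpace.generateFrom (Set.image2 (· ×ˢ ·)
        (Set.univ.pi '' Set.univ.pi fun _ : κ => {s : Set B | MeasurableSet s})
        {c : Set C | MeasurableSet c}) := by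
    refine (generateFrom_eq_prod generateFrom_pi MeasurableSpace.generateFrom_measurableSet
      ?_ isCountablySpanning_measurableSet).symm
    exact ⟨fun _ => Set.univ, fun _ => ⟨fun _ => Set.univ, fun i _ => MeasurableSet.univ,
      by simp⟩, Set.iUnion_const _⟩
  have g2 : MeasurableSpace.comap (fun ω => (w ω, y ω)) inferInstance =
      MeasurableSpace.generateFrom p2 := by
    rw [hgen, MeasurableSpace.comap_generateFrom]
    congr 1
    ext u
    constructor
    · rintro ⟨_, ⟨_, ⟨s, hs, rfl⟩, c, hc, rfl⟩, rfl⟩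
      exact ⟨s, c, fun i => hs i (Set.mem_univ i), hc, rfl⟩
    · rintro ⟨s, c, hs, hc, rfl⟩
      exact ⟨_, ⟨_, ⟨s, fun i _ => hs i, rfl⟩, c, hc, rfl⟩, rfl⟩
  have pi1 : IsPiSystem p1 := by
    rintro _ ⟨a, ha, rfl⟩ _ ⟨a', ha', rfl⟩ _
    exact ⟨a ∩ a', ha.inter ha', rfl⟩
  have pi2 : IsPiSystem p2 := by
    rintro _ ⟨s, c, hs, hc, rfl⟩ _ ⟨s', c', hs', hc', rfl⟩ _
    refine ⟨fun i => s i ∩ s' i, c ∩ c', fun i => (hs i).inter (hs' i), hc.inter hc', ?_⟩
    rw [← Set.preimage_inter, Set.prod_inter_prod, Set.pi_inter_distrib]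
  have hI : IndepSets p1 p2 μ := by
    rw [IndepSets_iff]
    rintro _ _ ⟨a, ha, rfl⟩ ⟨s, c, hs, hc, rfl⟩
    exact hbox a s c ha hs hc
  exact IndepSets.indep hx.comap_le hwy.comap_le pi1 pi2 g1 g2 hI

/-- the conditional expectation of a function of `x` given `y` is constant -/
theorem ce_x_const {φ : X.C → ℂ} (hφ : Bdd φ) :
    P.y.ce (fun w => φ (P.x.f w)) =ᵐ[P.Y.μ] fun _ => ∫ a, φ (P.x.f a) ∂P.W.μ := by
  have hb : Bdd (fun w => φ (P.x.f w)) := hφ.comp P.x.meas
  refine P.y.ce_ae_eq_of_test hb (Bdd.const _) fun u hu => ?_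
  have h1 := integral_mul_of_indep P.y.meas P.x.meas P.ind.symm hu hφ
  have h2 := P.y.integral_comp hu
  have h3 : ∫ b, u b * ∫ a, φ (P.x.f a) ∂P.W.μ ∂P.Y.μ =
      (∫ b, u b ∂P.Y.μ) * ∫ a, φ (P.x.f a) ∂P.W.μ := integral_mul_const _ _
  rw [h3, ← h2]
  exact h1

theorem ext_ind (hl : LineInd r P.y b) (htb : t ≠ b) :
    IndepFun (fun d : ι → P.W.C => P.x.f (d t)) (beta P t b) (D r P.W).μ := by
  have hx : Measurable (fun d : ι → P.W.C => P.x.f (d t)) := P.x.meas.comp (measurable_pi_apply t)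
  have hw : Measurable (fun (d : ι → P.W.C) (a : {a : ι // a ≠ t ∧ a ≠ b}) => d a) :=
    measurable_pi_lambda _ fun a => measurable_pi_apply (a : ι)
  have h2 : Measurable (fun (d : ι → P.W.C) => P.y.f (d t)) :=
    P.y.meas.comp (measurable_pi_apply t)
  have h3 : Measurable (fun (d : ι → P.W.C) => P.y.f (d b)) :=
    P.y.meas.comp (measurable_pi_apply b)
  have hy : Measurable (fun (d : ι → P.W.C) => (P.y.f (d t), P.y.f (d b))) := h2.prodMk h3
  refine indepFun_of_integrals (μ := (D r P.W).μ) hx hw hy fun φ f g hφ hf hg => ?_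
  -- test functions on all the slots
  let G : (P.W.C → ℂ) → ι → P.W.C → ℂ := fun u j =>
    if hj : j ≠ t ∧ j ≠ b then f ⟨j, hj⟩ else u
  have hG : ∀ u, Bdd u → ∀ j, Bdd (G u j) := by
    intro u hu j
    by_cases hj : j ≠ t ∧ j ≠ b
    · simp only [G, dif_pos hj]; exact hf _
    · simp only [G, dif_neg hj]; exact hu
  have hGt : ∀ u, G u t = u := fun u => by simp only [G, ne_eq, not_true_eq_false, false_and,
    dite_false]
  have ht : t ∈ Finset.univ.erase b := Finset.mem_erase.2 ⟨htb, Finset.mem_univ t⟩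
  have hprod : ∀ (u : P.W.C → ℂ) (d : ι → P.W.C),
      ∏ j ∈ (Finset.univ.erase b).erase t, G u j (d j) =
        ∏ a : {a : ι // a ≠ t ∧ a ≠ b}, f a (d a) := by
    intro u d
    rw [Finset.prod_subtype ((Finset.univ.erase b).erase t) (p := fun j => j ≠ t ∧ j ≠ b)
      (by intro j; simp)]
    refine Finset.prod_congr rfl fun j _ => ?_
    simp only [G, dif_pos j.2]
  have hprod2 : ∀ (u : P.W.C → ℂ) (d : ι → P.W.C),
      ∏ j ∈ (Finset.univ.erase b).erase t, P.y.ce (G u j) (P.y.f (d j)) =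
        ∏ a : {a : ι // a ≠ t ∧ a ≠ b}, P.y.ce (f a) (P.y.f (d a)) := by
    intro u d
    rw [Finset.prod_subtype ((Finset.univ.erase b).erase t) (p := fun j => j ≠ t ∧ j ≠ b)
      (by intro j; simp)]
    refine Finset.prod_congr rfl fun j _ => ?_
    simp only [G, dif_pos j.2]
  have hh : Bdd (fun e : ι → P.Y.C => g (e t, e b)) :=
    hg.comp ((measurable_pi_apply t).prodMk (measurable_pi_apply b))
  have key : ∀ u : P.W.C → ℂ, Bdd u →
      ∫ d : ι → P.W.C, u (d t) * ((∏ a : {a : ι // a ≠ t ∧ a ≠ b}, f a (d a)) *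
          g (P.y.f (d t), P.y.f (d b))) ∂(D r P.W).μ =
        ∫ d : ι → P.W.C, P.y.ce u (P.y.f (d t)) *
          ((∏ a : {a : ι // a ≠ t ∧ a ≠ b}, P.y.ce (f a) (P.y.f (d a))) *
          g (P.y.f (d t), P.y.f (d b))) ∂(D r P.W).μ := by
    intro u hu
    have k1 := hl (G u) (fun e => g (e t, e b)) (hG u hu) hh
    have e1 : ∀ d : ι → P.W.C, g (P.y.f (d t), P.y.f (d b)) *
        ∏ j ∈ Finset.univ.erase b, G u j (d j) = u (d t) *
          ((∏ a : {a : ι // a ≠ t ∧ a ≠ b}, f a (d a)) * g (P.y.f (d t), P.y.f (d b))) := by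
      intro d
      rw [← Finset.mul_prod_erase (Finset.univ.erase b) _ ht, hprod, hGt]
      ring
    have e2 : ∀ d : ι → P.W.C, g (P.y.f (d t), P.y.f (d b)) *
        ∏ j ∈ Finset.univ.erase b, P.y.ce (G u j) (P.y.f (d j)) = P.y.ce u (P.y.f (d t)) *
          ((∏ a : {a : ι // a ≠ t ∧ a ≠ b}, P.y.ce (f a) (P.y.f (d a))) *
            g (P.y.f (d t), P.y.f (d b))) := by
      intro d
      rw [← Finset.mul_prod_erase (Finset.univ.erase b) _ ht, hprod2, hGt]
      ring
    simp only [e1, e2] at k1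
    exact k1
  have k1 := key (fun w => φ (P.x.f w)) (hφ.comp P.x.meas)
  have k2 := key (fun _ => 1) (Bdd.const 1)
  have hone : ∀ y, P.y.ce (fun _ => (1 : ℂ)) y = 1 := by
    intro y
    unfold Fac.ce
    simp
  simp only [hone, one_mul] at k2
  have hev : ∫ d : ι → P.W.C, φ (P.x.f (d t)) ∂(D r P.W).μ = ∫ a, φ (P.x.f a) ∂P.W.μ :=
    (evF r P.W t).integral_comp (H := fun a => φ (P.x.f a)) (hφ.comp P.x.meas)
  have hconst := (P.y.comp (evF r P.W t)).mp.quasiMeasurePreserving.ae (ce_x_const P hφ)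
  rw [hev, k2, ← integral_const_mul]
  refine k1.trans (integral_congr_ae ?_)
  filter_upwards [hconst] with d hd
  have hd' : P.y.ce (fun w => φ (P.x.f w)) (P.y.f (d t)) = ∫ a, φ (P.x.f a) ∂P.W.μ := hd
  rw [hd']

/-- the extension `D r W → W` through slot `t` -/
noncomputable def extAdm (hl : LineInd r P.y b) (htb : t ≠ b) : Adm X where
  W := D r P.W
  Y := (D r P.W).image (YC P t b) (beta P t b) (measurable_beta P t b) (YS P t b)
    (beta_eqv P r t b)
  x := P.x.comp (evF r P.W t)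
  y := (D r P.W).imageFac (YC P t b) (beta P t b) (measurable_beta P t b) (YS P t b)
    (beta_eqv P r t b)
  ind := ext_ind P r t b hl htb

/-- the extension map -/
noncomputable def extExt (hl : LineInd r P.y b) (htb : t ≠ b) :
    Ext (extAdm P r t b hl htb) P where
  w := evF r P.W t
  v :=
    { f := fun e => e.2.1
      mp := by
        have hm : Measurable (fun e : YC P t b => e.2.1) := measurable_fst.comp measurable_snd
        refine ⟨hm, ?_⟩
        show ((D r P.W).μ.map (beta P t b)).map (fun e : YC P t b => e.2.1) = P.Y.μ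
        rw [Measure.map_map hm (measurable_beta P t b)]
        exact (P.y.comp (evF r P.W t)).mp.map_eq
      eqv := fun _ => rfl }
  hx := ae_of_all _ fun _ => rfl
  hy := fun _ => rfl

end ext

/-! ### The two theorems -/

omit [DecidableEq ι] in
/-- common end -/
theorem exa_end {P : Adm X} {r : Ultrafilter (ι → ℤ)} {s t : ι} {F : (ι → P.W.C) → ℂ}
    (hF : Bdd F)
    (h : ∀ k : P.W.C → ℂ, Bdd k → ∫ d : ι → P.W.C, k (d t) * F d ∂(D r P.W).μ =
      ∫ d : ι → P.W.C, cl r P.W s (fun w => cE (D r P.W).μ (P.y.side s)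
        (fun d : (D r P.W).C => k (d s)) (P.y.side s w)) (d t) * F d ∂(D r P.W).μ) :
    cl r P.W t F ∈ Exa P r s := by
  have hΨ : Bdd (cl r P.W t F) := hF.cl r P.W t
  have hm := Sat.measurable_side P.y s
  refine exa_of_test hΨ ?_
  have hk : Bdd (fun a => (starRingEnd ℂ) (cl r P.W t F a)) := hΨ.star
  have hks : Bdd (fun d : (D r P.W).C => (starRingEnd ℂ) (cl r P.W t F (d s))) :=
    hk.comp (measurable_pi_apply s)
  have hQ : Bdd (fun w : ι → P.W.C => cE (D r P.W).μ (P.y.side s)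
      (fun d : (D r P.W).C => (starRingEnd ℂ) (cl r P.W t F (d s))) (P.y.side s w)) :=
    (hks.cE (μ := (D r P.W).μ) (g := P.y.side s)).comp hm
  have h1 := h _ hk
  have h2 := integral_mul_cl r P.W t hF hk
  have h3 := integral_mul_cl r P.W t hF (hQ.cl r P.W s)
  have h4 := integral_mul_cl r P.W s hQ hΨ
  calc ∫ a, (starRingEnd ℂ) (cl r P.W t F a) * cl r P.W t F a ∂P.W.μ
      = _ := h2.symm
    _ = _ := h1
    _ = _ := h3
    _ = ∫ a, cl r P.W t F a * cl r P.W s (fun w : ι → P.W.C => cE (D r P.W).μ (P.y.side s)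
      (fun d : (D r P.W).C => (starRingEnd ℂ) (cl r P.W t F (d s))) (P.y.side s w)) a ∂P.W.μ := by
        simp only [mul_comm]
    _ = _ := h4.symm
    _ = _ := by simp only [mul_comm]

theorem b_ideal_of (hL : B_LINE) : B_IDEAL := by
  intro X P ι _ _ r _ hK hM hN s t b htb f hf Φ hΦ
  obtain ⟨hΦb, g0, hg0, hg0e⟩ := hΦ
  have hl := hL X P ι r hM hK b
  obtain ⟨C, hC⟩ := hΦb.2
  -- a bounded version of `g0`
  let g : ({j : ι // j ≠ s} → P.W.C) × P.Y.C → ℂ := {z | ‖g0 z‖ ≤ C}.indicator g0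
  have hgm : Measurable g := hg0.indicator (measurableSet_le hg0.norm measurable_const)
  have hgb : Bdd g := by
    refine ⟨hgm, max C 0, fun z => ?_⟩
    by_cases hz : z ∈ {z | ‖g0 z‖ ≤ C}
    · simp only [g, Set.indicator_of_mem hz]; exact (Set.mem_ofPred_eq ▸ hz).trans (le_max_left _ _)
    · simp only [g, Set.indicator_of_notMem hz]; simp
  have hge : ∀ᵐ d ∂(D r P.W).μ, Φ (d s) = g (P.y.side s d) := by
    filter_upwards [hg0e] with d hd
    have hz : P.y.side s d ∈ {z | ‖g0 z‖ ≤ C} := by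
      show ‖g0 (P.y.side s d)‖ ≤ C
      rw [← hd]; exact hC _
    simp only [g, Set.indicator_of_mem hz]
    exact hd
  have hfp : Bdd (fun d : ι → P.W.C => ∏ a ∈ (Finset.univ.erase t).erase b, f a (d a)) :=
    bdd_prod_coord _ hf
  have hF : Bdd (fun d : ι → P.W.C => (∏ a ∈ (Finset.univ.erase t).erase b, f a (d a)) *
      Φ (d b)) := hfp.mul (hΦb.comp (measurable_pi_apply b))
  refine exa_end hF fun k hk => ?_
  -- the side function
  let u : ({j : ι // j ≠ s} → (D r P.W).C) × (YC P t b) → ℂ := fun z =>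
    (∏ a : {a : ι // a ≠ t ∧ a ≠ b}, f a (z.2.1 a)) * g (fun j => z.1 j b, z.2.2.2)
  have hu : Bdd u := by
    refine Bdd.mul ?_ (hgb.comp ?_)
    · exact Bdd.prod _ (f := fun (a : {a : ι // a ≠ t ∧ a ≠ b})
        (z : ({j : ι // j ≠ s} → (D r P.W).C) × (YC P t b)) => f a (z.2.1 a)) fun a _ =>
        (hf a).comp ((measurable_pi_apply a).comp (measurable_fst.comp measurable_snd))
    · have h1 : Measurable (fun z : ({j : ι // j ≠ s} → (D r P.W).C) × (YC P t b) =>
          (fun j => z.1 j b : {j : ι // j ≠ s} → P.W.C)) :=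
        measurable_pi_lambda _ fun j =>
          (measurable_pi_apply b).comp ((measurable_pi_apply j).comp measurable_fst)
      exact h1.prodMk (measurable_snd.comp (measurable_snd.comp measurable_snd))
  have hprod : ∀ w : ι → P.W.C, ∏ a ∈ (Finset.univ.erase t).erase b, f a (w a) =
      ∏ a : {a : ι // a ≠ t ∧ a ≠ b}, f a (w a) := by
    intro w
    rw [Finset.prod_subtype ((Finset.univ.erase t).erase b) (p := fun j => j ≠ t ∧ j ≠ b)
      (by intro j; simp [and_comm])]
  have hue : ∀ᵐ d ∂(D r (D r P.W)).μ, (∏ a ∈ (Finset.univ.erase t).erase b, f a (d s a)) *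
      Φ (d s b) = u ((extAdm P r t b hl htb).y.side s d) := by
    have h1 := (colF r P.W b).mp.quasiMeasurePreserving.ae hge
    filter_upwards [h1] with d hd
    have hd' : Φ (d s b) = g (P.y.side s (fun o => d o b)) := hd
    exact congrArg₂ (fun x y : ℂ => x * y) (hprod (d s)) hd'
  have e1 : ∫ d : ι → P.W.C, k (d t) * ((∏ a ∈ (Finset.univ.erase t).erase b, f a (d a)) *
      Φ (d b)) ∂(D r P.W).μ = ∫ d : ι → ι → P.W.C, k (d s t) *
      ((∏ a ∈ (Finset.univ.erase t).erase b, f a (d s a)) * Φ (d s b)) ∂(D r (D r P.W)).μ :=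
    ((rowF r P.W s).integral_comp (H := fun d : ι → P.W.C => k (d t) *
      ((∏ a ∈ (Finset.univ.erase t).erase b, f a (d a)) * Φ (d b)))
      ((hk.comp (measurable_pi_apply t)).mul hF)).symm
  have e2 := (hN s).integral_cE (extExt P r t b hl htb) hk hu
  have hkt : Bdd (fun d : (D r P.W).C => k (d s)) := hk.comp (measurable_pi_apply s)
  have hQ : Bdd (fun w : ι → P.W.C => cE (D r P.W).μ (P.y.side s)
      (fun d : (D r P.W).C => k (d s)) (P.y.side s w)) :=
    (hkt.cE (μ := (D r P.W).μ) (g := P.y.side s)).comp (Sat.measurable_side P.y s)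
  have e3 := integral_row_col r (evF r P.W t) s (fun d : ι → P.W.C =>
    (∏ a ∈ (Finset.univ.erase t).erase b, f a (d a)) * Φ (d b)) hF _ hQ
  rw [e1]
  calc ∫ d : ι → ι → P.W.C, k (d s t) *
      ((∏ a ∈ (Finset.univ.erase t).erase b, f a (d s a)) * Φ (d s b)) ∂(D r (D r P.W)).μ
      = ∫ d : ι → ι → P.W.C, k (d s t) * u ((extAdm P r t b hl htb).y.side s d)
          ∂(D r (D r P.W)).μ := by
        refine integral_congr_ae ?_
        filter_upwards [hue] with d hd
        rw [hd]
    _ = ∫ d : ι → ι → P.W.C, cE (D r P.W).μ (P.y.side s) (fun d : (D r P.W).C => k (d s))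
          (P.y.side s (fun o => d o t)) * u ((extAdm P r t b hl htb).y.side s d)
          ∂(D r (D r P.W)).μ := e2
    _ = ∫ d : ι → ι → P.W.C, ((∏ a ∈ (Finset.univ.erase t).erase b, f a (d s a)) *
          Φ (d s b)) * cE (D r P.W).μ (P.y.side s) (fun d : (D r P.W).C => k (d s))
          (P.y.side s (fun o => d o t)) ∂(D r (D r P.W)).μ := by
        refine integral_congr_ae ?_
        filter_upwards [hue] with d hd
        rw [hd, mul_comm]
    _ = _ := e3
    _ = _ := integral_congr_ae (ae_of_all _ fun d => mul_comm _ _)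

/-- two different points of a line: the whole first point is independent of the `X`-part of the
second one -/
theorem ind_two (P : Adm X) (r : Ultrafilter (ι → ℤ)) {t b c : ι} (hl : LineInd r P.y c)
    (htc : t ≠ c) (hbc : b ≠ c) (htb : t ≠ b) :
    IndepFun (evF r P.W t).f (P.x.comp (evF r P.W b)).f (D r P.W).μ := by
  have hx : Measurable (fun d : ι → P.W.C => P.x.f (d b)) := P.x.meas.comp (measurable_pi_apply b)
  have hw : Measurable (fun (d : ι → P.W.C) (_ : Unit) => d t) :=
    measurable_pi_lambda _ fun _ => measurable_pi_apply t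
  have key : IndepFun (fun d : ι → P.W.C => P.x.f (d b))
      (fun d : ι → P.W.C => ((fun _ : Unit => d t), ())) (D r P.W).μ := by
    refine indepFun_of_integrals (μ := (D r P.W).μ) hx hw measurable_const
      fun φ f g hφ hf hg => ?_
    have ht : t ∈ (Finset.univ.erase c).erase b := by simp [htb, htc]
    have hb : b ∈ Finset.univ.erase c := by simp [hbc]
    have test : ∀ u v : P.W.C → ℂ, Bdd u → Bdd v →
        ∫ d : ι → P.W.C, u (d b) * v (d t) ∂(D r P.W).μ =
          ∫ d : ι → P.W.C, P.y.ce u (P.y.f (d b)) * P.y.ce v (P.y.f (d t)) ∂(D r P.W).μ := by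
      intro u v hu hv
      let G : ι → P.W.C → ℂ := fun j => if j = b then u else if j = t then v else fun _ => 1
      have hG : ∀ j, Bdd (G j) := by
        intro j
        by_cases h1 : j = b
        · simp only [G, h1, if_true]; exact hu
        · by_cases h2 : j = t
          · simp only [G, h2, if_neg htb, if_true]; exact hv
          · simp only [G, h1, h2, if_false]; exact Bdd.const 1
      have k1 := hl G (fun _ => 1) hG (Bdd.const 1)
      have hone : ∀ y, P.y.ce (fun _ => (1 : ℂ)) y = 1 := by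
        intro y
        unfold Fac.ce
        simp
      have e1 : ∀ d : ι → P.W.C, (1 : ℂ) * ∏ j ∈ Finset.univ.erase c, G j (d j) =
          u (d b) * v (d t) := by
        intro d
        rw [← Finset.mul_prod_erase _ _ hb, ← Finset.mul_prod_erase _ _ ht,
          Finset.prod_eq_one]
        · simp [G, htb]
        · intro j hj
          simp only [Finset.mem_erase, Finset.mem_univ, and_true] at hj
          simp [G, hj.1, hj.2.1]
      have e2 : ∀ d : ι → P.W.C, (1 : ℂ) * ∏ j ∈ Finset.univ.erase c,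
          P.y.ce (G j) (P.y.f (d j)) = P.y.ce u (P.y.f (d b)) * P.y.ce v (P.y.f (d t)) := by
        intro d
        rw [← Finset.mul_prod_erase _ _ hb, ← Finset.mul_prod_erase _ _ ht,
          Finset.prod_eq_one]
        · simp [G, htb]
        · intro j hj
          simp only [Finset.mem_erase, Finset.mem_univ, and_true] at hj
          simp only [G, hj.1, hj.2.1, if_false]
          exact hone _
      simp only [e1, e2] at k1
      exact k1
    have hfv : Bdd (fun a : P.W.C => f () a * g ()) := (hf ()).mul (Bdd.const _)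
    have k1 := test (fun w => φ (P.x.f w)) _ (hφ.comp P.x.meas) hfv
    have k2 : ∫ d : ι → P.W.C, P.y.ce (fun a : P.W.C => f () a * g ()) (P.y.f (d t))
        ∂(D r P.W).μ = ∫ d : ι → P.W.C, f () (d t) * g () ∂(D r P.W).μ := by
      have h1 := (P.y.comp (evF r P.W t)).integral_comp (hfv.ce P.y)
      have h2 := (evF r P.W t).integral_comp hfv
      have h3 := P.y.integral_mul_ce hfv (Bdd.const 1)
      simp only [one_mul] at h3
      exact h1.trans (h3.symm.trans h2.symm)
    have hev : ∫ d : ι → P.W.C, φ (P.x.f (d b)) ∂(D r P.W).μ = ∫ a, φ (P.x.f a) ∂P.W.μ :=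
      (evF r P.W b).integral_comp (H := fun a => φ (P.x.f a)) (hφ.comp P.x.meas)
    have hconst := (P.y.comp (evF r P.W b)).mp.quasiMeasurePreserving.ae (ce_x_const P hφ)
    simp only [Finset.univ_unique, Finset.prod_singleton]
    rw [hev]
    have e3 : ∫ d : ι → P.W.C, P.y.ce (fun w => φ (P.x.f w)) (P.y.f (d b)) *
        P.y.ce (fun a : P.W.C => f () a * g ()) (P.y.f (d t)) ∂(D r P.W).μ =
        ∫ d : ι → P.W.C, (∫ a, φ (P.x.f a) ∂P.W.μ) *
        P.y.ce (fun a : P.W.C => f () a * g ()) (P.y.f (d t)) ∂(D r P.W).μ := by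
      refine integral_congr_ae ?_
      filter_upwards [hconst] with d hd
      have hd' : P.y.ce (fun w => φ (P.x.f w)) (P.y.f (d b)) = ∫ a, φ (P.x.f a) ∂P.W.μ := hd
      rw [hd']
    rw [integral_const_mul, k2] at e3
    exact k1.trans e3
  exact (key.comp measurable_id ((measurable_pi_apply ()).comp measurable_fst)).symm

theorem b_the_of (hL : B_LINE) : B_THE := by
  intro X P ι _ _ r h3 hK hM hN s t b htb f g hf hg
  have hl := hL X P ι r hM hK b
  -- a third slot
  obtain ⟨c, hc⟩ : ∃ c : ι, c ∉ ({t, b} : Finset ι) := by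
    by_contra hcon
    push Not at hcon
    have h1 : Fintype.card ι ≤ ({t, b} : Finset ι).card := by
      rw [← Finset.card_univ]
      exact Finset.card_le_card fun c _ => hcon c
    have h2 := Finset.card_le_two (a := t) (b := b)
    omega
  have hct : t ≠ c := by rintro rfl; simp at hc
  have hcb : b ≠ c := by rintro rfl; simp at hc
  have hI := ind_two P r (hL X P ι r hM hK c) hct hcb htb
  have hfp : Bdd (fun d : ι → P.W.C => ∏ a ∈ (Finset.univ.erase t).erase b, f a (d a)) :=
    bdd_prod_coord _ hf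
  have hgp : Bdd (fun e : ι → X.C => ∏ o ∈ Finset.univ.erase s, g o (e o)) :=
    bdd_prod_coord _ hg
  have hψ : Bdd (cl r X s (fun e => ∏ o ∈ Finset.univ.erase s, g o (e o))) := hgp.cl r X s
  have hF : Bdd (fun d : ι → P.W.C => (∏ a ∈ (Finset.univ.erase t).erase b, f a (d a)) *
      cl r X s (fun e => ∏ o ∈ Finset.univ.erase s, g o (e o)) (P.x.f (d b))) :=
    hfp.mul (hψ.comp (P.x.meas.comp (measurable_pi_apply b)))
  refine exa_end hF fun k hk => ?_
  -- the side function
  let u : ({j : ι // j ≠ s} → (D r P.W).C) × (YC P t b) → ℂ := fun z =>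
    (∏ a : {a : ι // a ≠ t ∧ a ≠ b}, f a (z.2.1 a)) *
      ∏ o : {j : ι // j ≠ s}, g o (P.x.f (z.1 o b))
  have hu : Bdd u := by
    refine Bdd.mul ?_ ?_
    · exact Bdd.prod _ (f := fun (a : {a : ι // a ≠ t ∧ a ≠ b})
        (z : ({j : ι // j ≠ s} → (D r P.W).C) × (YC P t b)) => f a (z.2.1 a)) fun a _ =>
        (hf a).comp ((measurable_pi_apply a).comp (measurable_fst.comp measurable_snd))
    · exact Bdd.prod _ (f := fun (o : {j : ι // j ≠ s})
        (z : ({j : ι // j ≠ s} → (D r P.W).C) × (YC P t b)) => g o (P.x.f (z.1 o b))) fun o _ =>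
        (hg o).comp (P.x.meas.comp
          ((measurable_pi_apply b).comp ((measurable_pi_apply o).comp measurable_fst)))
  have hprod : ∀ w : ι → P.W.C, ∏ a ∈ (Finset.univ.erase t).erase b, f a (w a) =
      ∏ a : {a : ι // a ≠ t ∧ a ≠ b}, f a (w a) := by
    intro w
    rw [Finset.prod_subtype ((Finset.univ.erase t).erase b) (p := fun j => j ≠ t ∧ j ≠ b)
      (by intro j; simp [and_comm])]
  have hprod2 : ∀ w : ι → X.C, ∏ o ∈ Finset.univ.erase s, g o (w o) =
      ∏ o : {j : ι // j ≠ s}, g o (w o) := by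
    intro w
    rw [Finset.prod_subtype (Finset.univ.erase s) (p := fun j => j ≠ s) (by intro j; simp)]
  have hue : ∀ d : ι → ι → P.W.C, (∏ a ∈ (Finset.univ.erase t).erase b, f a (d s a)) *
      ∏ o ∈ Finset.univ.erase s, g o (P.x.f (d o b)) =
        u ((extAdm P r t b hl htb).y.side s d) := fun d =>
    congrArg₂ (fun x y : ℂ => x * y) (hprod (d s)) (hprod2 fun o => P.x.f (d o b))
  have hkF : Bdd (fun d : ι → P.W.C => k (d t) *
      ∏ a ∈ (Finset.univ.erase t).erase b, f a (d a)) :=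
    (hk.comp (measurable_pi_apply t)).mul hfp
  -- left-hand side
  have e1 := integral_row_col r (P.x.comp (evF r P.W b)) s (fun d : ι → P.W.C => k (d t) *
      ∏ a ∈ (Finset.univ.erase t).erase b, f a (d a)) hkF _ hgp
  have e2 := (hN s).integral_cE (extExt P r t b hl htb) hk hu
  have hkt : Bdd (fun d : (D r P.W).C => k (d s)) := hk.comp (measurable_pi_apply s)
  have hQ : Bdd (fun w : ι → P.W.C => cE (D r P.W).μ (P.y.side s)
      (fun d : (D r P.W).C => k (d s)) (P.y.side s w)) :=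
    (hkt.cE (μ := (D r P.W).μ) (g := P.y.side s)).comp (Sat.measurable_side P.y s)
  have e3 := integral_row_two r (evF r P.W t) (P.x.comp (evF r P.W b)) hI s
    (fun d : ι → P.W.C => ∏ a ∈ (Finset.univ.erase t).erase b, f a (d a)) hfp _ hQ _ hgp
  calc ∫ d : ι → P.W.C, k (d t) * ((∏ a ∈ (Finset.univ.erase t).erase b, f a (d a)) *
      cl r X s (fun e => ∏ o ∈ Finset.univ.erase s, g o (e o)) (P.x.f (d b))) ∂(D r P.W).μ
      = ∫ d : ι → P.W.C, (k (d t) * ∏ a ∈ (Finset.univ.erase t).erase b, f a (d a)) *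
        cl r X s (fun e => ∏ o ∈ Finset.univ.erase s, g o (e o)) (P.x.f (d b)) ∂(D r P.W).μ :=
        integral_congr_ae (ae_of_all _ fun d => (mul_assoc _ _ _).symm)
    _ = ∫ d : ι → ι → P.W.C, (k (d s t) * ∏ a ∈ (Finset.univ.erase t).erase b, f a (d s a)) *
        ∏ o ∈ Finset.univ.erase s, g o (P.x.f (d o b)) ∂(D r (D r P.W)).μ := e1.symm
    _ = ∫ d : ι → ι → P.W.C, k (d s t) * u ((extAdm P r t b hl htb).y.side s d)
          ∂(D r (D r P.W)).μ := by
        refine integral_congr_ae (ae_of_all _ fun d => ?_)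
        show _ = k (d s t) * u ((extAdm P r t b hl htb).y.side s d)
        rw [← hue d]
        exact mul_assoc _ _ _
    _ = ∫ d : ι → ι → P.W.C, cE (D r P.W).μ (P.y.side s) (fun d : (D r P.W).C => k (d s))
          (P.y.side s (fun o => d o t)) * u ((extAdm P r t b hl htb).y.side s d)
          ∂(D r (D r P.W)).μ := e2
    _ = ∫ d : ι → ι → P.W.C, (∏ a ∈ (Finset.univ.erase t).erase b, f a (d s a)) *
          (cE (D r P.W).μ (P.y.side s) (fun d : (D r P.W).C => k (d s))
          (P.y.side s (fun o => d o t)) * ∏ o ∈ Finset.univ.erase s, g o (P.x.f (d o b)))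
          ∂(D r (D r P.W)).μ := by
        refine integral_congr_ae (ae_of_all _ fun d => ?_)
        show cE (D r P.W).μ (P.y.side s) (fun d : (D r P.W).C => k (d s))
          (P.y.side s (fun o => d o t)) * u ((extAdm P r t b hl htb).y.side s d) = _
        rw [← hue d]
        exact mul_left_comm _ _ _
    _ = _ := e3
    _ = _ := by
        refine integral_congr_ae (ae_of_all _ fun d => ?_)
        exact mul_left_comm _ _ _

end Vale.Agent.P102.RM.H244
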