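import Mathlib.Probability.Kernel.CondDistrib

/-!
P102, Rokhlin: transfer of a.e. statements (for ARBITRARY predicates) along measurable maps
of standard Borel spaces.
-/

open MeasureTheory ProbabilityTheory

namespace Vale.Agent.P102.RM

/-- If `P (f ω)` holds for a.e. `ω` then `P b` holds for `f_* m`-a.e. `b`,
for an arbitrary (possibly non measurable) predicate `P`. -/
theorem ae_map_of_ae {Ω β : Type*} [MeasurableSpace Ω] [StandardBorelSpace Ω]
    [MeasurableSpace β] [StandardBorelSpace β] {m : Measure Ω} [IsFiniteMeasure m]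
    {f : Ω → β} (hf : Measurable f) {P : β → Prop} (h : ∀ᵐ ω ∂m, P (f ω)) :
    ∀ᵐ b ∂(m.map f), P b := by
  rcases isEmpty_or_nonempty Ω with hΩ | hΩ
  · have : m = 0 := Measure.eq_zero_of_isEmpty m
    simp [this]
  obtain ⟨N, hN, hNm, hN0⟩ := exists_measurable_superset_of_null (ae_iff.1 h)
  have hZ : MeasurableSet {p : β × Ω | f p.2 = p.1 ∧ p.2 ∉ N} := by
    refine (measurableSet_eq_fun (hf.comp measurable_snd) measurable_fst).inter ?_
    exact (measurable_snd hNm).compl
  have h1 : ∀ᵐ p ∂(m.map (fun ω => (f ω, ω))), f p.2 = p.1 ∧ p.2 ∉ N := by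
    rw [ae_map_iff (by fun_prop) hZ]
    have : ∀ᵐ ω ∂m, ω ∉ N := by
      rw [ae_iff]; simpa using hN0
    filter_upwards [this] with ω hω using ⟨rfl, hω⟩
  have h2 : m.map (fun ω => (f ω, ω)) = m.map f ⊗ₘ condDistrib id f m := by
    rw [compProd_map_condDistrib (by fun_prop)]; rfl
  rw [h2] at h1
  filter_upwards [Measure.ae_ae_of_ae_compProd h1] with b hb
  obtain ⟨ω, hω1, hω2⟩ := hb.exists
  by_contra hP
  exact hω2 (hN (by simpa [hω1] using hP))

/-- Version for two maps: if `P (f ω) (g ω)` a.e. and the law of `(f, g)` is the product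
of `λ` and `ν`, then for `λ`-a.e. `a`, for `ν`-a.e. `b`, `P a b`. -/
theorem ae_ae_of_ae_pair {Ω β γ : Type*} [MeasurableSpace Ω] [StandardBorelSpace Ω]
    [MeasurableSpace β] [StandardBorelSpace β] [MeasurableSpace γ] [StandardBorelSpace γ]
    {m : Measure Ω} [IsFiniteMeasure m]
    {f : Ω → β} (hf : Measurable f) {g : Ω → γ} (hg : Measurable g)
    {l : Measure β} {n : Measure γ} [SFinite l] [SFinite n]
    (hfg : m.map (fun ω => (f ω, g ω)) = l.prod n)
    {P : β → γ → Prop} (h : ∀ᵐ ω ∂m, P (f ω) (g ω)) :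
    ∀ᵐ a ∂l, ∀ᵐ b ∂n, P a b := by
  have h1 : ∀ᵐ p ∂(m.map (fun ω => (f ω, g ω))), P p.1 p.2 :=
    ae_map_of_ae (P := fun p : β × γ => P p.1 p.2) (hf.prodMk hg) h
  rw [hfg] at h1
  exact Measure.ae_ae_of_ae_prod h1

end Vale.Agent.P102.RM
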