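import Vale.Agent.P102.RM.Red

/-!
# P102, block RED : bad data with mean zero functions
-/

namespace Vale.Agent.P102.RM

open MeasureTheory Filter Topology

variable {Ω : Type*} [MeasurableSpace Ω] {μ : Measure Ω} {T : Ω ≃ᵐ Ω} {k : ℕ}

/-- the centered indicator function -/
noncomputable def cind (μ : Measure Ω) (A : Set Ω) (x : Ω) : ℝ := A.indicator 1 x - μ.real A

theorem measurable_cind {A : Set Ω} (hA : MeasurableSet A) : Measurable (cind μ A) :=
  (measurable_const.indicator hA).sub measurable_const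

theorem abs_cind_le [IsProbabilityMeasure μ] (A : Set Ω) (x : Ω) : |cind μ A x| ≤ 1 := by
  have h1 : 0 ≤ μ.real A := measureReal_nonneg
  have h2 : μ.real A ≤ 1 := measureReal_le_one
  unfold cind
  by_cases hx : x ∈ A
  · rw [Set.indicator_of_mem hx]
    simp only [Pi.one_apply]
    rw [abs_le]; constructor <;> linarith
  · rw [Set.indicator_of_notMem hx]
    rw [abs_le]; constructor <;> linarith

theorem integral_cind [IsProbabilityMeasure μ] {A : Set Ω} (hA : MeasurableSet A) :
    ∫ x, cind μ A x ∂μ = 0 := by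
  have h0 : Integrable (A.indicator (1 : Ω → ℝ)) μ := (integrable_const (1:ℝ)).indicator hA
  have h1 : ∫ x, (A.indicator (1 : Ω → ℝ) x - μ.real A) ∂μ =
      ∫ x, A.indicator (1 : Ω → ℝ) x ∂μ - ∫ _, μ.real A ∂μ :=
    integral_sub h0 (integrable_const _)
  have h2 : ∫ x, A.indicator (1 : Ω → ℝ) x ∂μ = μ.real A := integral_indicator_one hA
  unfold cind
  rw [h1, h2]
  simp

/-- expansion of the product of centered indicators -/
theorem integral_prod_cind [IsProbabilityMeasure μ] (A : Fin k → Set Ω)
    (hA : ∀ i, MeasurableSet (A i)) (t : Fin k → ℤ) :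
    ∫ x, ∏ i, cind μ (A i) (it T (t i) x) ∂μ =
      ∑ s : Finset (Fin k), (∏ i ∈ sᶜ, (-μ.real (A i))) *
        μ.real (⋂ i, it T (t i) ⁻¹' (if i ∈ s then A i else Set.univ)) := by
  have h1 : ∀ x, ∏ i, cind μ (A i) (it T (t i) x) =
      ∑ s : Finset (Fin k), (∏ i ∈ sᶜ, (-μ.real (A i))) *
        (⋂ i, it T (t i) ⁻¹' (if i ∈ s then A i else Set.univ)).indicator (1 : Ω → ℝ) x := by
    intro x
    have h2 : ∀ i, cind μ (A i) (it T (t i) x) =
        (A i).indicator (1 : Ω → ℝ) (it T (t i) x) + (-μ.real (A i)) := by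
      intro i; unfold cind; ring
    simp only [h2]
    rw [Finset.prod_add]
    rw [Finset.powerset_univ]
    refine Finset.sum_congr rfl fun s _ => ?_
    rw [mul_comm]
    congr 1
    by_cases hx : ∀ i ∈ s, it T (t i) x ∈ A i
    · have e1 : x ∈ ⋂ i, it T (t i) ⁻¹' (if i ∈ s then A i else Set.univ) := by
        rw [Set.mem_iInter]
        intro i
        by_cases hi : i ∈ s
        · simp only [hi, if_true]; exact hx i hi
        · simp only [hi, if_false]; exact Set.mem_univ _
      rw [Set.indicator_of_mem e1]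
      refine Finset.prod_eq_one fun i hi => ?_
      rw [Set.indicator_of_mem (hx i hi)]
      rfl
    · push Not at hx
      obtain ⟨i, hi, hxi⟩ := hx
      have e1 : x ∉ ⋂ i, it T (t i) ⁻¹' (if i ∈ s then A i else Set.univ) := by
        rw [Set.mem_iInter]
        intro hall
        have := hall i
        simp only [hi, if_true] at this
        exact hxi this
      rw [Set.indicator_of_notMem e1]
      exact Finset.prod_eq_zero hi (Set.indicator_of_notMem hxi _)
  simp only [h1]
  have hm : ∀ s : Finset (Fin k), MeasurableSet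
      (⋂ i, it T (t i) ⁻¹' (if i ∈ s then A i else Set.univ)) := by
    intro s
    refine MeasurableSet.iInter fun i => measurable_it T (t i) ?_
    split_ifs
    · exact hA i
    · exact MeasurableSet.univ
  rw [integral_finsetSum]
  · refine Finset.sum_congr rfl fun s _ => ?_
    rw [integral_const_mul]
    congr 1
    exact integral_indicator_one (hm s)
  · intro s _
    exact ((integrable_const (1:ℝ)).indicator (hm s)).const_mul _

/-- order `k` holds, order `k + 1` fails: bad data with mean zero functions -/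
theorem exists_bad_centered [IsProbabilityMeasure μ] (h1 : MixingOfOrder μ T.toEquiv k)
    (h2 : ¬ MixingOfOrder μ T.toEquiv (k + 1)) :
    ∃ t : ℕ → Fin (k + 1) → ℤ, GapTimes t ∧ ∃ f : Fin (k + 1) → Ω → ℝ,
      (∀ i, Measurable (f i)) ∧ (∀ i x, |f i x| ≤ 1) ∧ (∀ i, ∫ x, f i x ∂μ = 0) ∧
      ∃ ε : ℝ, 0 < ε ∧ ∀ l, ε ≤ |∫ x, ∏ i, f i (it T (t l i) x) ∂μ| := by
  obtain ⟨A, hA, ε, hε, t, ht, hbad⟩ := exists_bad_times h2
  -- all terms but the full one converge
  have hlim : Tendsto (fun l => ∑ s ∈ (Finset.univ : Finset (Finset (Fin (k + 1)))).erase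
      Finset.univ, (∏ i ∈ sᶜ, (-μ.real (A i))) *
        μ.real (⋂ i, it T (t l i) ⁻¹' (if i ∈ s then A i else Set.univ))) atTop
      (𝓝 (∑ s ∈ (Finset.univ : Finset (Finset (Fin (k + 1)))).erase Finset.univ,
        (∏ i ∈ sᶜ, (-μ.real (A i))) * ∏ i ∈ s, μ.real (A i))) := by
    refine tendsto_finsetSum _ fun s hs => ?_
    refine Tendsto.const_mul _ ?_
    have hs' : s ≠ Finset.univ := Finset.ne_of_mem_erase hs
    obtain ⟨i0, hi0⟩ : ∃ i0, i0 ∉ s := by
      by_contra hcon
      push Not at hcon
      exact hs' (Finset.eq_univ_iff_forall.2 hcon)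
    have h3 := tendsto_of_mixing_univ h1 ht (fun i => if i ∈ s then A i else Set.univ)
      (fun i => by
        split_ifs
        · exact hA i
        · exact MeasurableSet.univ) i0 (by simp [hi0])
    have e1 : ∏ i, μ.real (if i ∈ s then A i else Set.univ) = ∏ i ∈ s, μ.real (A i) := by
      rw [← Finset.prod_subset (Finset.subset_univ s)]
      · refine Finset.prod_congr rfl fun i hi => ?_
        rw [if_pos hi]
      · intro i _ hi
        rw [if_neg hi, probReal_univ]
    rw [e1] at h3
    exact h3
  have hsum : ∑ s ∈ (Finset.univ : Finset (Finset (Fin (k + 1)))).erase Finset.univ,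
        (∏ i ∈ sᶜ, (-μ.real (A i))) * ∏ i ∈ s, μ.real (A i) = - ∏ i, μ.real (A i) := by
    have h4 : ∑ s : Finset (Fin (k + 1)), (∏ i ∈ sᶜ, (-μ.real (A i))) * ∏ i ∈ s, μ.real (A i) =
        0 := by
      have h5 := Finset.prod_add (fun i => μ.real (A i)) (fun i => -μ.real (A i))
        (Finset.univ : Finset (Fin (k + 1)))
      simp only [add_neg_cancel, Finset.powerset_univ] at h5
      have h6 : ∏ _i : Fin (k + 1), (0:ℝ) = 0 := by
        rw [Finset.prod_const, Finset.card_univ, Fintype.card_fin]
        exact zero_pow (Nat.succ_ne_zero k)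
      rw [← h6, h5]
      refine Finset.sum_congr rfl fun s _ => ?_
      rw [mul_comm]
      rfl
    rw [← Finset.add_sum_erase _ _ (Finset.mem_univ (Finset.univ : Finset (Fin (k + 1))))] at h4
    simp only [Finset.compl_univ, Finset.prod_empty, one_mul] at h4
    linarith
  rw [hsum] at hlim
  rw [Metric.tendsto_atTop] at hlim
  obtain ⟨l0, hl0⟩ := hlim (ε / 2) (by linarith)
  refine ⟨fun l => t (l + l0), ?_, fun i => cind μ (A i), fun i => measurable_cind (hA i),
    fun i x => abs_cind_le _ _, fun i => integral_cind (hA i), ε / 2, by linarith, fun l => ?_⟩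
  · intro i j hij
    exact (ht i j hij).comp (tendsto_add_atTop_nat l0)
  · rw [integral_prod_cind A hA]
    rw [← Finset.add_sum_erase _ _ (Finset.mem_univ (Finset.univ : Finset (Fin (k + 1))))]
    simp only [Finset.compl_univ, Finset.prod_empty, one_mul, Finset.mem_univ, if_true]
    have h3 := hl0 (l + l0) (Nat.le_add_left _ _)
    rw [Real.dist_eq] at h3
    have h4 := hbad (l + l0)
    rw [abs_lt] at h3
    rcases le_total 0 (μ.real (⋂ i, it T (t (l + l0) i) ⁻¹' A i) - ∏ i, μ.real (A i)) with h5 | h5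
    · rw [abs_of_nonneg h5] at h4
      rw [le_abs]; left; linarith
    · rw [abs_of_nonpos h5] at h4
      rw [le_abs]; right; linarith

end Vale.Agent.P102.RM
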