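import Vale.Agent.P102.RM.Defs
import Vale.Agent.P102.RM.RedBad
import Mathlib.MeasureTheory.Integral.Pi

/-!
# P102, block RED : from a bad sequence of time vectors to a bad limit joining
-/

namespace Vale.Agent.P102.RM

open MeasureTheory Filter Topology ProbabilityTheory

theorem iter_eq_it {Ω : Type*} [MeasurableSpace Ω] (T : Ω ≃ᵐ Ω) (n : ℤ) : iter T n = it T n := rfl

/-- the ultrafilter of time vectors attached to a sequence -/
noncomputable def timeUlt {k : ℕ} (t : ℕ → Fin k → ℤ) : Ultrafilter (Fin k → ℤ) :=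
  Ultrafilter.map t (Filter.hyperfilter ℕ)

theorem tendsto_timeUlt {k : ℕ} {t : ℕ → Fin k → ℤ} {α : Type*} {f : (Fin k → ℤ) → α}
    {l : Filter α} (h : Tendsto (fun n => f (t n)) atTop l) : Tendsto f (timeUlt t) l := by
  have h1 : Tendsto (fun n => f (t n)) (Filter.hyperfilter ℕ : Filter ℕ) l :=
    h.mono_left Nat.hyperfilter_le_atTop
  rw [timeUlt, Ultrafilter.coe_map, tendsto_map'_iff]
  exact h1

theorem spread_timeUlt {k : ℕ} {t : ℕ → Fin k → ℤ} (ht : GapTimes t) : Spread (timeUlt t) := by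
  intro i j hij
  refine tendsto_timeUlt ?_
  rw [Int.cofinite_eq]
  rcases lt_or_gt_of_ne hij with h | h
  · refine Tendsto.mono_right ?_ le_sup_left
    have h1 := tendsto_neg_atTop_atBot.comp (ht i j h)
    refine h1.congr fun n => ?_
    simp
  · exact (ht j i h).mono_right le_sup_right

section values

variable {X : Sys} {k : ℕ} {t : ℕ → Fin (k + 1) → ℤ}

/-- values of the limit law on boxes with a trivial side -/
theorem lim_box (ht : GapTimes t) (h1 : MixingOfOrder X.μ X.S.toEquiv k)
    {L : Measure (Fin (k + 1) → X.C)} (hL : IsLim (timeUlt t) X L)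
    (A : Fin (k + 1) → Set X.C) (hA : ∀ i, MeasurableSet (A i)) (i0 : Fin (k + 1))
    (h0 : A i0 = Set.univ) : L.real (Set.univ.pi A) = ∏ i, X.μ.real (A i) := by
  have hp := hL.1
  have h2 := hL.2 A hA
  have h3 : Tendsto (fun t : Fin (k + 1) → ℤ => X.μ.real (⋂ i, iter X.S (t i) ⁻¹' A i))
      (timeUlt t) (𝓝 (L.real (Set.univ.pi A))) :=
    (ENNReal.tendsto_toReal (measure_ne_top L _)).comp h2
  have h4 := tendsto_timeUlt (t := t)
    (f := fun t : Fin (k + 1) → ℤ => X.μ.real (⋂ i, iter X.S (t i) ⁻¹' A i))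
    (tendsto_of_mixing_univ h1 ht A hA i0 h0)
  exact tendsto_nhds_unique h3 h4

/-- any `k` coordinates of the limit law are independent -/
theorem lim_map_drop (ht : GapTimes t) (h1 : MixingOfOrder X.μ X.S.toEquiv k)
    {L : Measure (Fin (k + 1) → X.C)} (hL : IsLim (timeUlt t) X L) (i0 : Fin (k + 1)) :
    L.map (fun d (j : {j : Fin (k + 1) // j ≠ i0}) => d j) =
      Measure.pi fun _ : {j : Fin (k + 1) // j ≠ i0} => X.μ := by
  have hp := hL.1
  have hm : Measurable fun (d : Fin (k + 1) → X.C) (j : {j : Fin (k + 1) // j ≠ i0}) => d j :=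
    measurable_pi_lambda _ fun j => measurable_pi_apply _
  symm
  refine Measure.pi_eq fun s hs => ?_
  rw [Measure.map_apply hm (MeasurableSet.univ_pi hs)]
  obtain ⟨A, hAdef⟩ : ∃ A : Fin (k + 1) → Set X.C, A = fun i => if h : i ≠ i0 then s ⟨i, h⟩
      else Set.univ := ⟨_, rfl⟩
  have hA : ∀ i, MeasurableSet (A i) := by
    intro i; rw [hAdef]; dsimp only; split_ifs
    · exact hs _
    · exact MeasurableSet.univ
  have hA0 : A i0 = Set.univ := by rw [hAdef]; simp
  have hAj : ∀ j : {j : Fin (k + 1) // j ≠ i0}, A j = s j := by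
    intro j; rw [hAdef]; dsimp only; rw [dif_pos j.2]
  have e1 : (fun (d : Fin (k + 1) → X.C) (j : {j : Fin (k + 1) // j ≠ i0}) => d j) ⁻¹'
      (Set.univ.pi s) = Set.univ.pi A := by
    ext d
    simp only [Set.mem_preimage, Set.mem_pi, Set.mem_univ, true_implies]
    constructor
    · intro h i
      by_cases hi : i = i0
      · rw [hi, hA0]; exact Set.mem_univ _
      · have := h ⟨i, hi⟩
        rw [← hAj] at this
        exact this
    · intro h j
      rw [← hAj]; exact h j
  rw [e1]
  have h2 := lim_box ht h1 hL A hA i0 hA0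
  have h3 : ∏ i, X.μ.real (A i) = ∏ j : {j : Fin (k + 1) // j ≠ i0}, X.μ.real (s j) := by
    rw [Fintype.prod_eq_mul_prod_subtype_ne (fun i => X.μ.real (A i)) i0, hA0, probReal_univ,
      one_mul]
    exact Finset.prod_congr rfl fun j _ => by rw [hAj]
  rw [h3] at h2
  rw [← ENNReal.ofReal_toReal (measure_ne_top L (Set.univ.pi A)), ← measureReal_def, h2,
    ENNReal.ofReal_prod_of_nonneg fun j _ => measureReal_nonneg]
  refine Finset.prod_congr rfl fun j _ => ?_
  rw [measureReal_def, ENNReal.ofReal_toReal (measure_ne_top _ _)]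

/-- `KInd` from mixing of order `k` -/
theorem kInd_of_mixing (ht : GapTimes t) (h1 : MixingOfOrder X.μ X.S.toEquiv k)
    (hex : ∃ L, IsLim (timeUlt t) X L) : KInd (timeUlt t) X := by
  intro i0 φ hφ
  have hL := limM_isLim hex
  have hmap := lim_map_drop ht h1 hL i0
  have hm : Measurable fun (d : Fin (k + 1) → X.C) (j : {j : Fin (k + 1) // j ≠ i0}) => d j :=
    measurable_pi_lambda _ fun j => measurable_pi_apply _
  have e1 : ∀ F : Fin (k + 1) → ℂ, ∏ i ∈ Finset.univ.erase i0, F i =
      ∏ j : {j : Fin (k + 1) // j ≠ i0}, F j := by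
    intro F
    rw [← Finset.prod_subtype (Finset.univ.erase i0) (p := fun j => j ≠ i0)
      (by intro x; simp) F]
  simp only [e1]
  have h2 : ∫ d, ∏ j : {j : Fin (k + 1) // j ≠ i0}, φ j (d j) ∂(limM (timeUlt t) X) =
      ∫ v, ∏ j : {j : Fin (k + 1) // j ≠ i0}, φ j (v j)
        ∂((limM (timeUlt t) X).map
          (fun d (j : {j : Fin (k + 1) // j ≠ i0}) => d j)) := by
    rw [integral_map hm.aemeasurable]
    have hm2 : Measurable fun v : {j : Fin (k + 1) // j ≠ i0} → X.C =>
        ∏ j : {j : Fin (k + 1) // j ≠ i0}, φ j (v j) :=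
      Finset.measurable_prod _ fun j _ => (hφ j).1.comp (measurable_pi_apply j)
    exact hm2.aestronglyMeasurable
  change ∫ d, ∏ j : {j : Fin (k + 1) // j ≠ i0}, φ j (d j) ∂(limM (timeUlt t) X) = _
  rw [h2, hmap]
  exact integral_fintype_prod_eq_prod (𝕜 := ℂ) (fun j : {j : Fin (k + 1) // j ≠ i0} => φ j)

/-- expansion of the integral of the product of centered indicators in the limit law -/
theorem lim_expand (L : Measure (Fin (k + 1) → X.C)) [IsProbabilityMeasure L]
    (A : Fin (k + 1) → Set X.C) (hA : ∀ i, MeasurableSet (A i)) :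
    ∫ d, ∏ i, cind X.μ (A i) (d i) ∂L =
      ∑ s : Finset (Fin (k + 1)), (∏ i ∈ sᶜ, (-X.μ.real (A i))) *
        L.real (Set.univ.pi fun i => if i ∈ s then A i else Set.univ) := by
  have h1 : ∀ d : Fin (k + 1) → X.C, ∏ i, cind X.μ (A i) (d i) =
      ∑ s : Finset (Fin (k + 1)), (∏ i ∈ sᶜ, (-X.μ.real (A i))) *
        (Set.univ.pi fun i => if i ∈ s then A i else Set.univ).indicator
          (1 : (Fin (k + 1) → X.C) → ℝ) d := by
    intro d
    have h2 : ∀ i, cind X.μ (A i) (d i) =
        (A i).indicator (1 : X.C → ℝ) (d i) + (-X.μ.real (A i)) := by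
      intro i; unfold cind; ring
    simp only [h2]
    rw [Finset.prod_add, Finset.powerset_univ]
    refine Finset.sum_congr rfl fun s _ => ?_
    rw [mul_comm]
    congr 1
    by_cases hx : ∀ i ∈ s, d i ∈ A i
    · have e1 : d ∈ Set.univ.pi fun i => if i ∈ s then A i else Set.univ := by
        intro i _
        by_cases hi : i ∈ s
        · simp only [hi, if_true]; exact hx i hi
        · simp only [hi, if_false]; exact Set.mem_univ _
      rw [Set.indicator_of_mem e1]
      refine Finset.prod_eq_one fun i hi => ?_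
      rw [Set.indicator_of_mem (hx i hi)]
      rfl
    · push Not at hx
      obtain ⟨i, hi, hxi⟩ := hx
      have e1 : d ∉ Set.univ.pi fun i => if i ∈ s then A i else Set.univ := by
        intro hall
        have := hall i (Set.mem_univ i)
        simp only [hi, if_true] at this
        exact hxi this
      rw [Set.indicator_of_notMem e1]
      exact Finset.prod_eq_zero hi (Set.indicator_of_notMem hxi _)
  simp only [h1]
  have hm : ∀ s : Finset (Fin (k + 1)), MeasurableSet
      (Set.univ.pi fun i => if i ∈ s then A i else (Set.univ : Set X.C)) := by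
    intro s
    refine MeasurableSet.univ_pi fun i => ?_
    split_ifs
    · exact hA i
    · exact MeasurableSet.univ
  rw [integral_finsetSum]
  · refine Finset.sum_congr rfl fun s _ => ?_
    rw [integral_const_mul]
    congr 1
    exact integral_indicator_one (hm s)
  · intro s _
    exact ((integrable_const (1:ℝ)).indicator (hm s)).const_mul _

/-- the limit law is bad -/
theorem lim_value (ht : GapTimes t) (h1 : MixingOfOrder X.μ X.S.toEquiv k)
    {L : Measure (Fin (k + 1) → X.C)} (hL : IsLim (timeUlt t) X L)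
    (A : Fin (k + 1) → Set X.C) (hA : ∀ i, MeasurableSet (A i)) :
    ∫ d, ∏ i, cind X.μ (A i) (d i) ∂L =
      L.real (Set.univ.pi A) - ∏ i, X.μ.real (A i) := by
  have hp := hL.1
  rw [lim_expand L A hA]
  have hterm : ∀ s ∈ (Finset.univ : Finset (Finset (Fin (k + 1)))).erase Finset.univ,
      (∏ i ∈ sᶜ, (-X.μ.real (A i))) *
        L.real (Set.univ.pi fun i => if i ∈ s then A i else Set.univ) =
      (∏ i ∈ sᶜ, (-X.μ.real (A i))) * ∏ i ∈ s, X.μ.real (A i) := by
    intro s hs
    have hs' : s ≠ Finset.univ := Finset.ne_of_mem_erase hs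
    obtain ⟨i0, hi0⟩ : ∃ i0, i0 ∉ s := by
      by_contra hcon
      push Not at hcon
      exact hs' (Finset.eq_univ_iff_forall.2 hcon)
    rw [lim_box ht h1 hL (fun i => if i ∈ s then A i else Set.univ) (fun i => by
        split_ifs
        · exact hA i
        · exact MeasurableSet.univ) i0 (by simp [hi0])]
    congr 1
    rw [← Finset.prod_subset (Finset.subset_univ s)]
    · refine Finset.prod_congr rfl fun i hi => ?_
      rw [if_pos hi]
    · intro i _ hi
      rw [if_neg hi, probReal_univ]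
  have hsum : ∑ s ∈ (Finset.univ : Finset (Finset (Fin (k + 1)))).erase Finset.univ,
        (∏ i ∈ sᶜ, (-X.μ.real (A i))) * ∏ i ∈ s, X.μ.real (A i) = - ∏ i, X.μ.real (A i) := by
    have h4 : ∑ s : Finset (Fin (k + 1)), (∏ i ∈ sᶜ, (-X.μ.real (A i))) *
        ∏ i ∈ s, X.μ.real (A i) = 0 := by
      have h5 := Finset.prod_add (fun i => X.μ.real (A i)) (fun i => -X.μ.real (A i))
        (Finset.univ : Finset (Fin (k + 1)))
      simp only [add_neg_cancel, Finset.powerset_univ] at h5
      have h6 : ∏ _i : Fin (k + 1), (0:ℝ) = 0 := by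
        rw [Finset.prod_const, Finset.card_univ, Fintype.card_fin]
        exact zero_pow (Nat.succ_ne_zero k)
      rw [← h6, h5]
      refine Finset.sum_congr rfl fun s _ => ?_
      rw [mul_comm]
      rfl
    rw [← Finset.add_sum_erase _ _ (Finset.mem_univ (Finset.univ : Finset (Fin (k + 1))))] at h4
    simp only [Finset.compl_univ, Finset.prod_empty, one_mul] at h4
    linarith
  rw [← Finset.add_sum_erase _ _ (Finset.mem_univ (Finset.univ : Finset (Fin (k + 1)))),
    Finset.sum_congr rfl hterm, hsum]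
  simp only [Finset.compl_univ, Finset.prod_empty, one_mul, Finset.mem_univ, if_true]
  ring

/-- **Bad limit.**  Order `k` holds and order `k + 1` fails: there is an ultrafilter of time
vectors, all gaps tending to infinity, whose limit joining is not the product; it is seen by
mean zero functions. -/
theorem exists_bad_limit (X : Sys) (k : ℕ) (h1 : MixingOfOrder X.μ X.S.toEquiv k)
    (h2 : ¬ MixingOfOrder X.μ X.S.toEquiv (k + 1)) :
    ∃ r : Ultrafilter (Fin (k + 1) → ℤ), Spread r ∧ ((∃ L, IsLim r X L) →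
      KInd r X ∧ ∃ φ : Fin (k + 1) → X.C → ℂ, (∀ i, Bdd (φ i)) ∧ (∀ i, ∫ x, φ i x ∂X.μ = 0) ∧
        ∫ d, ∏ i, φ i (d i) ∂(D r X).μ ≠ 0) := by
  obtain ⟨A, hA, ε, hε, t, ht, hbad⟩ := exists_bad_times h2
  refine ⟨timeUlt t, spread_timeUlt ht, fun hex => ⟨kInd_of_mixing ht h1 hex, ?_⟩⟩
  have hL := limM_isLim hex
  refine ⟨fun i x => ((cind X.μ (A i) x : ℝ) : ℂ), fun i => ?_, fun i => ?_, ?_⟩
  · refine ⟨Complex.measurable_ofReal.comp (measurable_cind (hA i)), 1, fun x => ?_⟩
    rw [Complex.norm_real]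
    exact abs_cind_le _ _
  · change ∫ x, ((cind X.μ (A i) x : ℝ) : ℂ) ∂X.μ = 0
    rw [integral_complex_ofReal, integral_cind (hA i), Complex.ofReal_zero]
  · have hp := hL.1
    have e1 : ∀ d : Fin (k + 1) → X.C, ∏ i, ((cind X.μ (A i) (d i) : ℝ) : ℂ) =
        ((∏ i, cind X.μ (A i) (d i) : ℝ) : ℂ) := fun d => by push_cast; rfl
    simp only [e1]
    change ∫ d, ((∏ i, cind X.μ (A i) (d i) : ℝ) : ℂ) ∂(limM (timeUlt t) X) ≠ 0
    rw [integral_complex_ofReal, lim_value ht h1 hL A hA]
    have h3 : Tendsto (fun t : Fin (k + 1) → ℤ => X.μ.real (⋂ i, iter X.S (t i) ⁻¹' A i))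
        (timeUlt t) (𝓝 ((limM (timeUlt t) X).real (Set.univ.pi A))) :=
      (ENNReal.tendsto_toReal (measure_ne_top _ _)).comp (hL.2 A hA)
    have h4 : Tendsto (fun t : Fin (k + 1) → ℤ =>
        |X.μ.real (⋂ i, iter X.S (t i) ⁻¹' A i) - ∏ i, X.μ.real (A i)|)
        (timeUlt t) (𝓝 |(limM (timeUlt t) X).real (Set.univ.pi A) - ∏ i, X.μ.real (A i)|) :=
      (h3.sub_const _).abs
    have h5 : ∀ᶠ s in (timeUlt t : Filter (Fin (k + 1) → ℤ)),
        ε ≤ |X.μ.real (⋂ i, iter X.S (s i) ⁻¹' A i) - ∏ i, X.μ.real (A i)| := by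
      rw [timeUlt, Ultrafilter.coe_map, eventually_map]
      exact Eventually.of_forall hbad
    have h6 := ge_of_tendsto h4 h5
    intro hcon
    rw [Complex.ofReal_eq_zero] at hcon
    rw [hcon, abs_zero] at h6
    linarith

end values

/-- the core statement: along an ultrafilter of time vectors with gaps tending to infinity, if
any `k` coordinates of the limit joining are independent and the system is mixing then the
product of mean zero functions has integral zero -/
def CoreThm : Prop :=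
  ∀ (X : Sys) (k : ℕ) (r : Ultrafilter (Fin (k + 1) → ℤ)), 2 ≤ k → Spread r →
    MixingOfOrder X.μ X.S.toEquiv 2 → KInd r X →
    ∀ φ : Fin (k + 1) → X.C → ℂ, (∀ i, Bdd (φ i)) → (∀ i, ∫ x, φ i x ∂X.μ = 0) →
      ∫ d, ∏ i, φ i (d i) ∂(D r X).μ = 0

/-- `MainStd` from the core statement and the existence of limit joinings -/
theorem mainStd_of_core (hlim : ∀ (k : ℕ) (r : Ultrafilter (Fin (k + 1) → ℤ)) (X : Sys),
    ∃ L, IsLim r X L) (H : CoreThm) : MainStd := by
  intro C _ _ μ _ T hT k hk hmix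
  by_contra hcon
  obtain ⟨r, hr1, hr2⟩ := exists_bad_limit ⟨C, μ, T, hT⟩ k hmix hcon
  obtain ⟨h1, φ, h2, h3, h4⟩ := hr2 (hlim k r _)
  exact h4 (H _ k r hk hr1 (mixing_mono hk hmix) h1 φ h2 h3)

end Vale.Agent.P102.RM
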