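import Vale.Agent.P102.RM.Skeleton
import Vale.Agent.P102.RM.RedGlue

/-!
P102 (Rokhlin), campaign RM. Assembly of the blocks: `CoreThm`, hence mixing of order 2 implies
mixing of all orders.
-/

namespace Vale.Agent.P102.RM

open MeasureTheory Filter Topology ProbabilityTheory

/-- the one point system -/
noncomputable def ptSys : Sys where
  C := Unit
  μ := Measure.dirac ()
  S := MeasurableEquiv.refl Unit
  mp := MeasurePreserving.id _

/-- the trivial admissible pair -/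
noncomputable def triv (X : Sys) : Adm X where
  W := X
  Y := ptSys
  x := Fac.id X
  y := ⟨fun _ => (), ⟨measurable_const, by
      show X.μ.map (fun _ => ()) = Measure.dirac ()
      rw [Measure.map_const]; simp⟩, fun _ => rfl⟩
  ind := indepFun_const_right _ _

theorem core_of (hSAT : B_SAT) (hXE : B_XE) (hEXF : B_EXF) (hTOT : B_TOT) (hPD : B_PD)
    (hCE : B_CE) : CoreThm := by
  intro X k r hk hr hmix hK φ hφ h0
  by_contra hn
  have hc : 3 ≤ Fintype.card (Fin (k + 1)) := by simp; omega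
  obtain ⟨P, _, hM, hN⟩ := hSAT X (triv X) (Fin (k + 1)) r
  have hpq : (0 : Fin (k + 1)) ≠ Fin.last k := by
    intro h
    have := congrArg Fin.val h
    simp at this
    omega
  have hne : ∫ d, ∏ i, φ i (d i) ∂(D r X).μ ≠ ∏ i, ∫ x, φ i x ∂X.μ := by
    rw [Finset.prod_eq_zero (Finset.mem_univ (0 : Fin (k + 1))) (h0 0)]
    exact hn
  obtain ⟨F⟩ := hEXF X P (Fin (k + 1)) r hc hK hM hN 0 (Fin.last k) hpq
    (hXE X P (Fin (k + 1)) r hc hK hM hN ⟨φ, hφ, hne⟩ 0 (Fin.last k) hpq)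
  obtain ⟨d⟩ := hPD X P (Fin (k + 1)) r hc hK hM 0 (Fin.last k) hpq F
  exact hCE X P (Fin (k + 1)) r hc hr hK hmix 0 (Fin.last k) hpq F
    (hTOT (Fin (k + 1)) r 0 (Fin.last k) hpq hc P.Y F.E) d

/-- Rokhlin's problem from the blocks -/
theorem rokhlin_of (hLJ : B_LJ) (hSAT : B_SAT) (hXE : B_XE) (hEXF : B_EXF) (hTOT : B_TOT)
    (hPD : B_PD) (hCE : B_CE)
    {Ω : Type*} [MeasurableSpace Ω] (μ : Measure Ω) [IsProbabilityMeasure μ] (T : Ω ≃ᵐ Ω)
    (hT : MeasurePreserving T μ μ) (h : MixingOfOrder μ T.toEquiv 2) (k : ℕ) :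
    MixingOfOrder μ T.toEquiv k :=
  all_orders_of_main (mainStd_of_core (fun k r X => hLJ _ r X)
    (core_of hSAT hXE hEXF hTOT hPD hCE)) μ T hT h k

end Vale.Agent.P102.RM
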