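import Vale.Agent.P102.RM.Char

set_option linter.unusedSectionVars false

/-! The characters of two lines which are images of one line: the groups generated by the
characters which are seen by the factor `X` are isomorphic. -/

namespace Vale.Agent.P102.RM

open MeasureTheory Filter Topology ProbabilityTheory Vale.Agent.P102.SF
open scoped ComplexConjugate

variable {ι : Type} [Fintype ι] [DecidableEq ι] {V V' X : Type}
  [MeasurableSpace V] [MeasurableSpace V'] [MeasurableSpace X]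

/-- the coefficient of `f ∘ ξ` at a class of characters -/
noncomputable def cf (K : Measure (ι → V)) (p q : ι) (ξ : V → X) (f : X → ℂ)
    (u : Gam K p q) : ℂ := coef (marg K q) ξ rep f u

theorem cls_eq_rep {K : Measure (ι → V)} {p q : ι} (F : lineChars K p q) :
    ∃ c : ℂ, ‖c‖ = 1 ∧ ∀ᵐ v ∂(marg K q), (F.1 v : ℂ) = c * rep (cls F) v := by
  obtain ⟨c, hc⟩ := (cls_eq F (rp (cls F))).1 (cls_rp _).symm
  refine ⟨c, Circle.norm_coe c, ?_⟩
  filter_upwards [hc] with v hv
  rw [hv, Circle.coe_mul]; rfl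

theorem norm_cf_cls {K : Measure (ι → V)} {p q : ι} (ξ : V → X) (f : X → ℂ)
    (F : lineChars K p q) :
    ‖∫ v, f (ξ v) * conj (F.1 v : ℂ) ∂(marg K q)‖ = ‖cf K p q ξ f (cls F)‖ := by
  obtain ⟨c, hc, h⟩ := cls_eq_rep F
  have h1 : ∫ v, f (ξ v) * conj (F.1 v : ℂ) ∂(marg K q) = conj c * cf K p q ξ f (cls F) := by
    unfold cf coef
    rw [← integral_const_mul]
    refine integral_congr_ae ?_
    filter_upwards [h] with v hv
    rw [hv, map_mul]; ring
  rw [h1, norm_mul, RCLike.norm_conj, hc, one_mul]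

/-- the map on lines induced by a map on points -/
def lmap (ι : Type) {V V' : Type} (w : V' → V) (v : ι → V') : ι → V := fun j => w (v j)

theorem lmap_measurable {w : V' → V} (hw : Measurable w) : Measurable (lmap ι w) :=
  measurable_pi_lambda _ fun j => hw.comp (measurable_pi_apply j)

theorem marg_map {K0 : Measure (ι → V')} {w : V' → V} (hw : Measurable w) (q : ι) :
    (marg K0 q).map w = marg (K0.map (lmap ι w)) q := by
  unfold marg
  rw [Measure.map_map hw (measurable_pi_apply q),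
    Measure.map_map (measurable_pi_apply q) (lmap_measurable hw)]
  rfl

theorem KI.map {K0 : Measure (ι → V')} [IsProbabilityMeasure K0] (h : KI K0) {w : V' → V}
    (hw : Measurable w) : KI (K0.map (lmap ι w)) := by
  intro s
  have h1 := h s
  have m1 : Measurable (fun (v : ι → V) (j : {j : ι // j ≠ s}) => v j) :=
    measurable_pi_lambda _ fun j => measurable_pi_apply _
  have m2 : Measurable (fun (v : ι → V') (j : {j : ι // j ≠ s}) => v j) :=
    measurable_pi_lambda _ fun j => measurable_pi_apply _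
  have m3 : Measurable (fun (v : {j : ι // j ≠ s} → V') (j : {j : ι // j ≠ s}) => w (v j)) :=
    measurable_pi_lambda _ fun j => hw.comp (measurable_pi_apply j)
  have e1 : (K0.map (lmap ι w)).map (fun (v : ι → V) (j : {j : ι // j ≠ s}) => v j) =
      (K0.map (fun (v : ι → V') (j : {j : ι // j ≠ s}) => v j)).map
        (fun (v : {j : ι // j ≠ s} → V') (j : {j : ι // j ≠ s}) => w (v j)) := by
    rw [Measure.map_map m1 (lmap_measurable hw), Measure.map_map m3 m2]
    rfl
  rw [e1, h1]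
  have e2 := Measure.pi_map_pi (μ := fun j : {j : ι // j ≠ s} => K0.map fun v : ι → V' => v j)
    (f := fun _ => w) fun j => hw.aemeasurable
  rw [e2]
  congr 1
  funext j
  exact marg_map (K0 := K0) hw (j : ι)

theorem lineChars_comp {K0 : Measure (ι → V')} {w : V' → V} (hw : Measurable w) {p q : ι}
    {F : V → Circle} (h : F ∈ lineChars (K0.map (lmap ι w)) p q) :
    (fun v => F (w v)) ∈ lineChars K0 p q := by
  obtain ⟨h1, F1, F2, h2, h3, h4⟩ := h
  refine ⟨⟨h1.1.comp hw, fun v => h1.2 _⟩, fun v => F1 (w v), fun v => F2 fun j => w (v j),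
    ⟨h2.1.comp hw, fun v => h2.2 _⟩, ⟨h3.1.comp ?_, fun v => h3.2 _⟩, ?_⟩
  · exact measurable_pi_lambda _ fun j => hw.comp (measurable_pi_apply j)
  · exact ae_of_ae_map (lmap_measurable hw).aemeasurable h4

/-- pull back of characters -/
noncomputable def pullL (K0 : Measure (ι → V')) {w : V' → V} (hw : Measurable w) (p q : ι) :
    lineChars (K0.map (lmap ι w)) p q →* lineChars K0 p q where
  toFun F := ⟨fun v => F.1 (w v), lineChars_comp hw F.2⟩
  map_one' := rfl
  map_mul' _ _ := rfl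

/-- pull back of classes of characters -/
noncomputable def pull (K0 : Measure (ι → V')) {w : V' → V} (hw : Measurable w) (p q : ι) :
    Gam (K0.map (lmap ι w)) p q →+ Gam K0 p q :=
  MonoidHom.toAdditive (QuotientGroup.map _ _ (pullL K0 hw p q) (by
    rintro F ⟨c, hc⟩
    refine ⟨c, ?_⟩
    rw [← marg_map hw q] at hc
    exact ae_of_ae_map hw.aemeasurable hc))

theorem pull_cls (K0 : Measure (ι → V')) {w : V' → V} (hw : Measurable w) (p q : ι)
    (F : lineChars (K0.map (lmap ι w)) p q) : pull K0 hw p q (cls F) = cls (pullL K0 hw p q F) := rfl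

theorem pull_injective (K0 : Measure (ι → V')) {w : V' → V} (hw : Measurable w)
    (p q : ι) : Function.Injective (pull K0 hw p q) := by
  rw [injective_iff_map_eq_zero]
  intro u hu
  rw [← cls_rp u] at hu ⊢
  rw [pull_cls, cls_eq_zero] at hu
  rw [cls_eq_zero]
  obtain ⟨c, hc⟩ := hu
  refine ⟨c, ?_⟩
  rw [← marg_map hw q, ae_map_iff hw.aemeasurable]
  · exact hc
  · have h1 : {v | (rp u).1 v = c} = (fun v => ((rp u).1 v : ℂ)) ⁻¹' {(c : ℂ)} := by
      ext v
      simp [Circle.ext_iff]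
    rw [h1]
    exact (lineChars_uni (rp u).2).1 (measurableSet_singleton _)

theorem norm_cf_pull (K0 : Measure (ι → V')) {w : V' → V} (hw : Measurable w)
    (p q : ι) {ξ : V → X} (hξ : Measurable ξ) {f : X → ℂ} (hf : BM f)
    (u : Gam (K0.map (lmap ι w)) p q) :
    ‖cf K0 p q (fun v => ξ (w v)) f (pull K0 hw p q u)‖ = ‖cf (K0.map (lmap ι w)) p q ξ f u‖ := by
  conv_lhs => rw [← cls_rp u, pull_cls]
  rw [← norm_cf_cls]
  unfold cf coef
  rw [← marg_map hw q, integral_map hw.aemeasurable]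
  · rfl
  · exact ((hf.1.comp hξ).mul (Complex.continuous_conj.measurable.comp
      (rep_measurable u))).aestronglyMeasurable

/-- the group generated by the characters which are seen by the factor -/
noncomputable def Gam' (K : Measure (ι → V)) (p q : ι) (ξ : V → X) : AddSubgroup (Gam K p q) :=
  AddSubgroup.closure {u | ∃ f : X → ℂ, BM f ∧ cf K p q ξ f u ≠ 0}

/-- the groups of the characters seen by the factor are isomorphic, and the isomorphism respects
the coefficients -/
def CIso {V V' : Type} [MeasurableSpace V] [MeasurableSpace V'] (p q : ι)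
    (K : Measure (ι → V)) (ξ : V → X) (K1 : Measure (ι → V')) (ξ1 : V' → X) : Prop :=
  ∃ θ : Gam' K p q ξ ≃+ Gam' K1 p q ξ1, ∀ f, BM f → ∀ u, ‖cf K1 p q ξ1 f (θ u)‖ = ‖cf K p q ξ f u‖

theorem CIso.symm {p q : ι} {K : Measure (ι → V)} {ξ : V → X}
    {K1 : Measure (ι → V')} {ξ1 : V' → X} (h : CIso p q K ξ K1 ξ1) : CIso p q K1 ξ1 K ξ := by
  obtain ⟨θ, h⟩ := h
  refine ⟨θ.symm, fun f hf u => ?_⟩
  rw [← h f hf, AddEquiv.apply_symm_apply]

theorem CIso.trans {V'' : Type} [MeasurableSpace V''] {p q : ι} {K : Measure (ι → V)}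
    {ξ : V → X} {K1 : Measure (ι → V')} {ξ1 : V' → X} {K2 : Measure (ι → V'')}
    {ξ2 : V'' → X} (h : CIso p q K ξ K1 ξ1) (h' : CIso p q K1 ξ1 K2 ξ2) : CIso p q K ξ K2 ξ2 := by
  obtain ⟨θ, h⟩ := h
  obtain ⟨θ', h'⟩ := h'
  refine ⟨θ.trans θ', fun f hf u => ?_⟩
  rw [AddEquiv.trans_apply, h' f hf, h f hf]

/-- two subgroups with the same image -/
theorem exists_equiv {A B C : Type*} [AddCommGroup A] [AddCommGroup B] [AddCommGroup C]
    (p : A →+ C) (q : B →+ C) (hp : Function.Injective p) (hq : Function.Injective q)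
    (E : Set A) (E' : Set B) (h : p '' E = q '' E') :
    ∃ θ : AddSubgroup.closure E ≃+ AddSubgroup.closure E', ∀ u, q (θ u) = p u := by
  have h1 : (AddSubgroup.closure E).map p = (AddSubgroup.closure E').map q := by
    rw [AddMonoidHom.map_closure, AddMonoidHom.map_closure, h]
  let a := (AddSubgroup.closure E).equivMapOfInjective p hp
  let b := (AddSubgroup.closure E').equivMapOfInjective q hq
  let c := AddEquiv.addSubgroupCongr h1
  refine ⟨(a.trans c).trans b.symm, fun u => ?_⟩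
  have h2 : b (((a.trans c).trans b.symm) u) = c (a u) := by simp
  have h3 : ((b (((a.trans c).trans b.symm) u) : (AddSubgroup.closure E').map q) : C) =
      q (((a.trans c).trans b.symm) u) := rfl
  rw [← h3, h2]
  rfl

theorem integral_norm_le_of_sq {ν : Measure V} [IsProbabilityMeasure ν] {h : V → ℂ} (hb : BM h)
    {δ : ℝ} (hδ : 0 < δ) (hs : ∫ v, ‖h v‖ ^ 2 ∂ν ≤ δ ^ 2) : ∫ v, ‖h v‖ ∂ν ≤ δ := by
  have h1 : ∀ v, ‖h v‖ ≤ δ / 2 + (1 / (2 * δ)) * ‖h v‖ ^ 2 := by
    intro v
    have h2 : 0 ≤ (‖h v‖ - δ) ^ 2 / (2 * δ) := by positivity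
    have h3 : δ / 2 + (1 / (2 * δ)) * ‖h v‖ ^ 2 - ‖h v‖ = (‖h v‖ - δ) ^ 2 / (2 * δ) := by
      field_simp
      ring
    linarith
  have h4 : Integrable (fun v => ‖h v‖) ν := hb.integrable.norm
  have h5 : Integrable (fun v => ‖h v‖ ^ 2) ν := by
    have := (BM.memLp (ν := ν) hb).integrable_norm_pow (by norm_num)
    simpa using this
  calc ∫ v, ‖h v‖ ∂ν ≤ ∫ v, (δ / 2 + (1 / (2 * δ)) * ‖h v‖ ^ 2) ∂ν :=
        integral_mono h4 ((integrable_const _).add (h5.const_mul _)) h1
    _ = δ / 2 + (1 / (2 * δ)) * ∫ v, ‖h v‖ ^ 2 ∂ν := by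
        rw [integral_add (integrable_const _) (h5.const_mul _), integral_const_mul]; simp
    _ ≤ δ / 2 + (1 / (2 * δ)) * δ ^ 2 := by gcongr
    _ = δ := by field_simp; ring

/-- **Transfer.** A character of the first line which is seen by the factor is the image of a
character of the second line. -/
theorem transfer_aux {V1 : Type} [MeasurableSpace V1] (hc : 3 ≤ Fintype.card ι)
    {p q : ι} (hpq : p ≠ q) {K0 : Measure (ι → V')} [IsProbabilityMeasure K0]
    (h0 : KI K0) {w : V' → V} {w1 : V' → V1} (hw : Measurable w) (hw1 : Measurable w1)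
    (ht : Total (K0.map (lmap ι w1)) p q)
    {ξ : V → X} {ξ1 : V1 → X} (hξ : Measurable ξ) (hξ1 : Measurable ξ1)
    (hx : ∀ᵐ v ∂(marg K0 q), ξ (w v) = ξ1 (w1 v)) {f : X → ℂ} (hf : BM f)
    {u : Gam (K0.map (lmap ι w)) p q} (hu : cf _ p q ξ f u ≠ 0) :
    ∃ u1, pull K0 hw1 p q u1 = pull K0 hw p q u := by
  by_contra hcon
  push Not at hcon
  apply hu
  have : IsProbabilityMeasure (K0.map (lmap ι w1)) :=
    Measure.isProbabilityMeasure_map (lmap_measurable hw1).aemeasurable
  rw [← norm_eq_zero, ← norm_cf_pull K0 hw p q hξ hf u]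
  set g := pull K0 hw p q u with hg
  refine le_antisymm (le_of_forall_pos_le_add fun δ hδ => ?_) (norm_nonneg _)
  rw [zero_add]
  have hφ : BM (fun v => f (ξ1 v)) := hf.comp hξ1
  obtain ⟨t, ht'⟩ := spanned hc (h0.map hw1) hpq ht hφ (ε := δ ^ 2) (by positivity)
  set a : Gam (K0.map (lmap ι w1)) p q → ℂ := fun u => ∫ w, f (ξ1 w) * conj (rep u w)
    ∂(marg (K0.map (lmap ι w1)) q) with ha
  have hd : BM (fun v => f (ξ1 v) - ∑ u ∈ t, a u * rep u v) :=
    hφ.sub (BM.sum t fun u _ => (BM.const _).mul (rep_bm u))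
  have h2 : cf K0 p q (fun v => ξ (w v)) f g =
      ∫ v, (f (ξ1 (w1 v)) - ∑ u ∈ t, a u * rep u (w1 v)) * conj (rep g v) ∂(marg K0 q) := by
    have h3 : cf K0 p q (fun v => ξ (w v)) f g =
        ∫ v, f (ξ1 (w1 v)) * conj (rep g v) ∂(marg K0 q) := by
      unfold cf coef
      refine integral_congr_ae ?_
      filter_upwards [hx] with v hv
      rw [hv]
    have h4 : ∀ u : Gam (K0.map (lmap ι w1)) p q, ∫ v, rep u (w1 v) * conj (rep g v) ∂(marg K0 q) = 0 := by
      intro u1
      obtain ⟨c, _, h5⟩ := cls_eq_rep (pullL K0 hw1 p q (rp u1))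
      have h6 : ∫ v, rep u1 (w1 v) * conj (rep g v) ∂(marg K0 q) =
          c * ∫ v, rep (pull K0 hw1 p q u1) v * conj (rep g v) ∂(marg K0 q) := by
        rw [← integral_const_mul]
        refine integral_congr_ae ?_
        filter_upwards [h5] with v hv
        have h7 : rep u1 (w1 v) = c * rep (pull K0 hw1 p q u1) v := by
          have h8 : pull K0 hw1 p q u1 = cls (pullL K0 hw1 p q (rp u1)) := by
            conv_lhs => rw [← cls_rp u1]
            rfl
          rw [h8, ← hv]; rfl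
        rw [h7]; ring
      rw [h6, rep_orth hc h0 hpq (hcon u1), mul_zero]
    have h9 : ∀ u : Gam (K0.map (lmap ι w1)) p q, Integrable (fun v => rep u (w1 v) * conj (rep g v)) (marg K0 q) := fun u =>
      (((rep_bm u).comp hw1).mul (rep_bm g).conj).integrable
    have h10 : Integrable (fun v => f (ξ1 (w1 v)) * conj (rep g v)) (marg K0 q) :=
      ((hφ.comp hw1).mul (rep_bm g).conj).integrable
    simp_rw [sub_mul, Finset.sum_mul, mul_assoc]
    rw [integral_sub h10 (integrable_finsetSum _ fun u _ => (h9 u).const_mul _),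
      integral_finsetSum _ fun u _ => (h9 u).const_mul _]
    simp_rw [integral_const_mul, h4]
    simp [h3]
  rw [h2]
  calc _ ≤ ∫ v, ‖(f (ξ1 (w1 v)) - ∑ u ∈ t, a u * rep u (w1 v)) * conj (rep g v)‖ ∂(marg K0 q) :=
        norm_integral_le_integral_norm _
    _ = ∫ v, ‖f (ξ1 (w1 v)) - ∑ u ∈ t, a u * rep u (w1 v)‖ ∂(marg K0 q) := by
        simp_rw [norm_mul, RCLike.norm_conj, rep_norm, mul_one]
    _ ≤ δ := by
        refine integral_norm_le_of_sq (hd.comp hw1) hδ ?_
        have h11 := integral_map (μ := marg K0 q) hw1.aemeasurable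
          (f := fun v => ‖f (ξ1 v) - ∑ u ∈ t, a u * rep u v‖ ^ 2)
          (hd.1.norm.pow_const 2).aestronglyMeasurable
        rw [← h11, marg_map hw1 q]
        exact ht'

/-- **Transfer.** If two lines are images of one line over the same points of `X` and their
characters are total, then the groups of the characters seen by `X` are isomorphic. -/
theorem ciso_of_pull {V1 : Type} [MeasurableSpace V1] (hc : 3 ≤ Fintype.card ι)
    {p q : ι} (hpq : p ≠ q) {K0 : Measure (ι → V')} [IsProbabilityMeasure K0]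
    (h0 : KI K0) {w : V' → V} {w1 : V' → V1} (hw : Measurable w) (hw1 : Measurable w1)
    {K : Measure (ι → V)} {K1 : Measure (ι → V1)} (hK : K0.map (lmap ι w) = K)
    (hK1 : K0.map (lmap ι w1) = K1) (ht : Total K p q) (ht1 : Total K1 p q)
    {ξ : V → X} {ξ1 : V1 → X} (hξ : Measurable ξ) (hξ1 : Measurable ξ1)
    (hx : ∀ᵐ v ∂(marg K0 q), ξ (w v) = ξ1 (w1 v)) : CIso p q K ξ K1 ξ1 := by
  subst hK hK1
  have hcf : ∀ f g, cf K0 p q (fun v => ξ (w v)) f g = cf K0 p q (fun v => ξ1 (w1 v)) f g := by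
    intro f g
    unfold cf coef
    refine integral_congr_ae ?_
    filter_upwards [hx] with v hv
    rw [hv]
  have hE : pull K0 hw p q '' {u | ∃ f : X → ℂ, BM f ∧ cf _ p q ξ f u ≠ 0} =
      pull K0 hw1 p q '' {u | ∃ f : X → ℂ, BM f ∧ cf _ p q ξ1 f u ≠ 0} := by
    ext g
    constructor
    · rintro ⟨u, ⟨f, hf, hu⟩, rfl⟩
      obtain ⟨u1, hu1⟩ := transfer_aux hc hpq h0 hw hw1 ht1 hξ hξ1 hx hf hu
      refine ⟨u1, ⟨f, hf, ?_⟩, hu1⟩
      rw [← norm_ne_zero_iff, ← norm_cf_pull K0 hw1 p q hξ1 hf u1, hu1, ← hcf,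
        norm_cf_pull K0 hw p q hξ hf u, norm_ne_zero_iff]
      exact hu
    · rintro ⟨u1, ⟨f, hf, hu⟩, rfl⟩
      obtain ⟨u, hu1⟩ := transfer_aux hc hpq h0 hw1 hw ht hξ1 hξ
        (hx.mono fun v hv => hv.symm) hf hu
      refine ⟨u, ⟨f, hf, ?_⟩, hu1⟩
      rw [← norm_ne_zero_iff, ← norm_cf_pull K0 hw p q hξ hf u, hu1, hcf,
        norm_cf_pull K0 hw1 p q hξ1 hf u1, norm_ne_zero_iff]
      exact hu
  obtain ⟨θ, hθ⟩ : ∃ θ : Gam' (K0.map (lmap ι w)) p q ξ ≃+ Gam' (K0.map (lmap ι w1)) p q ξ1,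
      ∀ u, pull K0 hw1 p q (θ u) = pull K0 hw p q u :=
    exists_equiv _ _ (pull_injective K0 hw p q) (pull_injective K0 hw1 p q) _ _ hE
  refine ⟨θ, fun f hf u => ?_⟩
  rw [← norm_cf_pull K0 hw1 p q hξ1 hf, hθ u, ← hcf, norm_cf_pull K0 hw p q hξ hf]

theorem lmap_comp {V'' : Type} (w : V' → V) (w' : V'' → V') :
    lmap ι w ∘ lmap ι w' = lmap ι (w ∘ w') := rfl

theorem pull_surjective (K : Measure (ι → V)) (S : V ≃ᵐ V) (p q : ι) :
    Function.Surjective (pull K S.measurable p q) := by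
  intro g
  have h1 : (K.map (lmap ι S)).map (lmap ι S.symm) = K := by
    rw [Measure.map_map (lmap_measurable S.symm.measurable) (lmap_measurable S.measurable),
      lmap_comp]
    have h2 : lmap ι ((S.symm : V → V) ∘ S) = id := by
      funext v j
      simp [lmap]
    rw [h2, Measure.map_id]
  have h3 : (fun v => (rp g).1 (S.symm v)) ∈ lineChars (K.map (lmap ι S)) p q := by
    refine lineChars_comp S.symm.measurable ?_
    rw [h1]
    exact (rp g).2
  refine ⟨cls ⟨_, h3⟩, ?_⟩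
  rw [pull_cls]
  conv_rhs => rw [← cls_rp g]
  congr 1
  apply Subtype.ext
  funext v
  show (rp g).1 (S.symm (S v)) = (rp g).1 v
  rw [S.symm_apply_apply]

/-- the action of the transformation on the characters of the line -/
theorem shift_equiv (K : Measure (ι → V)) (S : V ≃ᵐ V) (T : X ≃ᵐ X) (p q : ι)
    {ξ : V → X} (hξ : Measurable ξ) (hS : ∀ᵐ v ∂(marg K q), ξ (S v) = T (ξ v)) :
    ∃ σ : Gam' (K.map (lmap ι S)) p q ξ ≃+ Gam' K p q ξ, ∀ f, BM f → ∀ u,
      ‖cf K p q ξ (fun x => f (T x)) (σ u)‖ = ‖cf (K.map (lmap ι S)) p q ξ f u‖ := by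
  have hcf : ∀ f g, cf K p q (fun v => ξ (S v)) f g = cf K p q ξ (fun x => f (T x)) g := by
    intro f g
    unfold cf coef
    refine integral_congr_ae ?_
    filter_upwards [hS] with v hv
    rw [hv]
  have hn : ∀ f, BM f → ∀ u, ‖cf K p q ξ (fun x => f (T x)) (pull K S.measurable p q u)‖ =
      ‖cf (K.map (lmap ι S)) p q ξ f u‖ := by
    intro f hf u
    rw [← hcf, norm_cf_pull K S.measurable p q hξ hf]
  have hE : pull K S.measurable p q '' {u | ∃ f : X → ℂ, BM f ∧ cf _ p q ξ f u ≠ 0} =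
      AddMonoidHom.id _ '' {u | ∃ f : X → ℂ, BM f ∧ cf K p q ξ f u ≠ 0} := by
    ext g
    constructor
    · rintro ⟨u, ⟨f, hf, hu⟩, rfl⟩
      refine ⟨pull K S.measurable p q u, ⟨fun x => f (T x), hf.comp T.measurable, ?_⟩, rfl⟩
      rw [← norm_ne_zero_iff, hn f hf, norm_ne_zero_iff]
      exact hu
    · rintro ⟨g, ⟨f, hf, hu⟩, rfl⟩
      obtain ⟨u, hug⟩ := pull_surjective K S p q g
      refine ⟨u, ⟨fun x => f (T.symm x), hf.comp T.symm.measurable, ?_⟩, hug⟩
      rw [← norm_ne_zero_iff, ← hn _ (hf.comp T.symm.measurable), hug]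
      simp only [MeasurableEquiv.symm_apply_apply, norm_ne_zero_iff]
      exact hu
  obtain ⟨θ, hθ⟩ : ∃ θ : Gam' (K.map (lmap ι S)) p q ξ ≃+ Gam' K p q ξ,
      ∀ u, AddMonoidHom.id (Gam K p q) (θ u) = pull K S.measurable p q u :=
    exists_equiv _ _ (pull_injective K S.measurable p q) (fun _ _ h => h) _ _ hE
  refine ⟨θ, fun f hf u => ?_⟩
  rw [← hn f hf, ← hθ u]
  rfl

/-- **The static structure.** If the line `K` and its image under the transformation are
isomorphic, as seen from `X`, then there is a structure as in the static theorem, and all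
bounded functions on `X` are spanned. -/
theorem exists_static (hc : 3 ≤ Fintype.card ι) {p q : ι} (hpq : p ≠ q)
    {K : Measure (ι → V)} [IsProbabilityMeasure K] (hi : KI K) (ht : Total K p q) (S : V ≃ᵐ V) (T : X ≃ᵐ X)
    {ξ : V → X} (hξ : Measurable ξ) (hS : ∀ᵐ v ∂(marg K q), ξ (S v) = T (ξ v))
    (h : CIso p q K ξ (K.map (lmap ι S)) ξ) :
    ∃ St : Static (marg K q) T ξ (Gam' K p q ξ), ∀ f, BM f → St.Spanned f := by
  classical
  obtain ⟨θ, hθ⟩ := h
  obtain ⟨σ, hσ⟩ := shift_equiv K S T p q hξ hS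
  let St : Static (marg K q) T ξ (Gam' K p q ξ) :=
    { e := fun u => rep (u : Gam K p q)
      β := (θ.trans σ).toIntLinearEquiv
      meas := fun u => rep_measurable _
      norm := fun u g => rep_norm _ g
      add := fun u v => rep_add _ _
      orth := fun u hu => rep_int hc hi hpq fun h => hu (Subtype.ext h)
      equiv := fun f hf u => (hσ f hf (θ u)).trans (hθ f hf u) }
  refine ⟨St, fun f hf ε hε => ?_⟩
  obtain ⟨t, ht'⟩ := spanned hc hi hpq ht (hf.comp hξ) hε
  refine ⟨t.subtype (· ∈ Gam' K p q ξ), ?_⟩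
  refine le_of_eq_of_le ?_ ht'
  refine integral_congr_ae (Eventually.of_forall fun v => ?_)
  have h1 : ∑ u ∈ t.subtype (· ∈ Gam' K p q ξ), coef (marg K q) ξ St.e f u * St.e u v =
      ∑ u ∈ t, (∫ w, f (ξ w) * conj (rep u w) ∂(marg K q)) * rep u v := by
    rw [← Finset.sum_filter_of_ne (p := (· ∈ Gam' K p q ξ)) (s := t)]
    · exact Finset.sum_subtype_eq_sum_filter
        (f := fun u => (∫ w, f (ξ w) * conj (rep u w) ∂(marg K q)) * rep u v)
    · intro u _ hu
      exact AddSubgroup.subset_closure ⟨f, hf, left_ne_zero_of_mul hu⟩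
  simp only [h1]

end Vale.Agent.P102.RM
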