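import Vale.Agent.P102.RM.Fib
import Mathlib.MeasureTheory.Function.FactorsThrough

/-!
P102, Rokhlin: block FIB, part 2.

* conditional-expectation form ⇒ box formula;
* Doob–Dynkin for standard Borel valued maps that are a.e. measurable w.r.t. a sub-σ-algebra;
* conditional laws given a finer σ-algebra (line kernel given the whole grid);
* equivariance of conditional laws.
-/

open MeasureTheory ProbabilityTheory Set
open scoped ENNReal

namespace Vale.Agent.P102.RM

section Box

variable {I 𝒴 : Type*} [Fintype I] [MeasurableSpace 𝒴] {V : I → Type*}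
  [∀ i, MeasurableSpace (V i)] {Ω : Type*} [MeasurableSpace Ω]

/-- The condExp form (for indicators of boxes) of conditional independence with given
fibre laws implies the box formula. -/
theorem box_of_condExp_indicator {P : Measure Ω} [IsProbabilityMeasure P] {A : Ω → 𝒴}
    (hA : Measurable A) {B : ∀ i, Ω → V i} (hB : ∀ i, Measurable (B i))
    (κ : ∀ i, Kernel 𝒴 (V i)) [∀ i, IsMarkovKernel (κ i)]
    (h : ∀ s : ∀ i, Set (V i), (∀ i, MeasurableSet (s i)) →
      P[(⋂ i, B i ⁻¹' s i).indicator (fun _ => (1 : ℝ)) |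
        MeasurableSpace.comap A inferInstance] =ᵐ[P]
        fun ω => ∏ i, (κ i (A ω)).real (s i))
    (C : Set 𝒴) (s : ∀ i, Set (V i)) (hC : MeasurableSet C) (hs : ∀ i, MeasurableSet (s i)) :
    P (A ⁻¹' C ∩ ⋂ i, B i ⁻¹' s i) = ∫⁻ ω in A ⁻¹' C, ∏ i, κ i (A ω) (s i) ∂P := by
  have hm : MeasurableSpace.comap A inferInstance ≤ (inferInstance : MeasurableSpace Ω) :=
    hA.comap_le
  have hE : MeasurableSet (⋂ i, B i ⁻¹' s i) :=
    MeasurableSet.iInter fun i => (hB i) (hs i)
  have hint : Integrable ((⋂ i, B i ⁻¹' s i).indicator (fun _ => (1 : ℝ))) P :=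
    (integrable_const 1).indicator hE
  have h1 := setIntegral_condExp hm hint (s := A ⁻¹' C) ⟨C, hC, rfl⟩
  rw [setIntegral_congr_ae (g := fun ω => ∏ i, (κ i (A ω)).real (s i)) (hA hC)
    ((h s hs).mono fun ω hω _ => hω)] at h1
  rw [integral_indicator_const _ hE, smul_eq_mul, mul_one, measureReal_def,
    Measure.restrict_apply hE, inter_comm] at h1
  have hmeas : Measurable fun ω => ∏ i, κ i (A ω) (s i) :=
    Finset.measurable_prod _ fun i _ => ((κ i).measurable_coe (hs i)).comp hA
  have hle : ∀ ω, ∏ i, κ i (A ω) (s i) ≤ 1 := fun ω =>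
    Finset.prod_le_one' fun i _ => prob_le_one
  have h2 : ∫ ω in A ⁻¹' C, ∏ i, (κ i (A ω)).real (s i) ∂P =
      (∫⁻ ω in A ⁻¹' C, ∏ i, κ i (A ω) (s i) ∂P).toReal := by
    rw [← integral_toReal hmeas.aemeasurable.restrict
      (Filter.Eventually.of_forall fun ω => (hle ω).trans_lt ENNReal.one_lt_top)]
    refine integral_congr_ae (Filter.Eventually.of_forall fun ω => ?_)
    simp [measureReal_def, ENNReal.toReal_prod]
  rw [h2] at h1
  have h3 : ∫⁻ ω in A ⁻¹' C, ∏ i, κ i (A ω) (s i) ∂P ≠ ∞ := by
    have : ∫⁻ ω in A ⁻¹' C, ∏ i, κ i (A ω) (s i) ∂P ≤ 1 := by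
      calc _ ≤ ∫⁻ _ in A ⁻¹' C, 1 ∂P := lintegral_mono hle
        _ = P (A ⁻¹' C) := by simp
        _ ≤ 1 := prob_le_one
    exact (this.trans_lt ENNReal.one_lt_top).ne
  exact ((ENNReal.toReal_eq_toReal_iff' h3 (measure_ne_top _ _)).1 h1).symm

end Box

section DoobDynkin

theorem measurable_decide_mem {Ω : Type*} [MeasurableSpace Ω] (t : ℕ → Set Ω)
    (ht : ∀ n, MeasurableSet (t n)) [∀ n ω, Decidable (ω ∈ t n)] :
    Measurable (fun ω => fun n => decide (ω ∈ t n)) := by
  refine measurable_pi_lambda _ fun n => ?_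
  refine measurable_to_bool ?_
  convert ht n using 1
  ext ω
  simp

variable {Ω : Type*} {m mΩ : MeasurableSpace Ω} {V : Type*} [MeasurableSpace V]
  [StandardBorelSpace V] [Nonempty V]

/-- If every event `B ∈ s` is a.e. equal to an event of the sub-σ-algebra `m`, then
`B` is a.e. equal to an `m`-measurable map. -/
theorem exists_measurable_ae_eq {P : Measure[mΩ] Ω} {B : Ω → V}
    (h : ∀ s, MeasurableSet s → ∃ t, MeasurableSet[m] t ∧ B ⁻¹' s =ᵐ[P] t) :
    ∃ B' : Ω → V, Measurable[m] B' ∧ B =ᵐ[P] B' := by
  have hemb : MeasurableEmbedding (MeasurableSpace.mapNatBool V) :=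
    (MeasurableSpace.measurable_mapNatBool V).measurableEmbedding
      (MeasurableSpace.injective_mapNatBool V)
  obtain ⟨g, hg, hgi⟩ := hemb.exists_measurable_extend measurable_id (fun _ => ‹Nonempty V›)
  have hset : ∀ n, MeasurableSet {v : V | MeasurableSpace.mapNatBool V v n = true} := fun n =>
    ((measurable_pi_apply n).comp (MeasurableSpace.measurable_mapNatBool V))
      (measurableSet_singleton true)
  choose t ht hBt using fun n => h _ (hset n)
  classical
  refine ⟨fun ω => g fun n => decide (ω ∈ t n), ?_, ?_⟩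
  · exact hg.comp (@measurable_decide_mem Ω m t ht _)
  · filter_upwards [ae_all_iff.2 hBt] with ω hω
    have h1 : (fun n => decide (ω ∈ t n)) = MeasurableSpace.mapNatBool V (B ω) := by
      funext n
      have h2 : (ω ∈ {ω | MeasurableSpace.mapNatBool V (B ω) n = true}) = (ω ∈ t n) := hω n
      by_cases h3 : ω ∈ t n
      · have h4 : MeasurableSpace.mapNatBool V (B ω) n = true := by
          rw [← h2] at h3; exact h3
        rw [h4]; simpa using h3
      · have h4 : ¬ MeasurableSpace.mapNatBool V (B ω) n = true := fun h5 => by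
          apply h3; rw [← h2]; exact h5
        rw [Bool.not_eq_true] at h4
        rw [h4]; simpa using h3
    show B ω = g _
    rw [h1]
    exact (congrFun hgi (B ω)).symm

/-- Doob–Dynkin: if every event `B ∈ s` is a.e. equal to an event of `σ(A)`, then
`B = h ∘ A` a.e. for a measurable `h`. -/
theorem exists_comp_ae_eq {P : Measure[mΩ] Ω} {B : Ω → V} {α : Type*} [mα : MeasurableSpace α]
    {A : Ω → α}
    (h : ∀ s, MeasurableSet s → ∃ t, MeasurableSet[mα.comap A] t ∧ B ⁻¹' s =ᵐ[P] t) :
    ∃ h : α → V, Measurable h ∧ B =ᵐ[P] fun ω => h (A ω) := by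
  obtain ⟨B', hB', hBB⟩ := exists_measurable_ae_eq (m := mα.comap A) h
  obtain ⟨h, hh, rfl⟩ := hB'.exists_eq_measurable_comp
  exact ⟨h, hh, hBB⟩

end DoobDynkin

section Finer

variable {Ω Ω' α β V V' : Type*} [MeasurableSpace Ω] [MeasurableSpace Ω'] [MeasurableSpace α]
  [MeasurableSpace β] [MeasurableSpace V] [MeasurableSpace V']

/-- The kernel `b ↦ law of F(b, v)`, `v ∼ η(b)`. -/
noncomputable def mapKernel (η : Kernel β V') (F : β × V' → V) : Kernel β V :=
  (Kernel.id ×ₖ η).map F

theorem mapKernel_apply (η : Kernel β V') [IsSFiniteKernel η] {F : β × V' → V}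
    (hF : Measurable F) (b : β) :
    mapKernel η F b = (η b).map (fun v => F (b, v)) := by
  rw [mapKernel, Kernel.map_apply _ hF, Kernel.prod_apply, Kernel.id_apply,
    Measure.dirac_prod, Measure.map_map hF (by fun_prop)]
  rfl

theorem isMarkovKernel_mapKernel (η : Kernel β V') [IsMarkovKernel η] {F : β × V' → V}
    (hF : Measurable F) : IsMarkovKernel (mapKernel η F) :=
  Kernel.IsMarkovKernel.map _ hF

variable [StandardBorelSpace V] [Nonempty V]

/-- If the conditional law of `B` given `A` depends on `π A` only, through a kernel `η`, then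
`η` is the conditional law of `B` given `π A`. -/
theorem condDistrib_comp_of_comap {P : Measure Ω} [IsProbabilityMeasure P] {A : Ω → α}
    (hA : Measurable A) {B : Ω → V} (hB : Measurable B) {π : α → β} (hπ : Measurable π)
    {η : Kernel β V} [IsMarkovKernel η]
    (h : ∀ᵐ a ∂(P.map A), condDistrib B A P a = η (π a)) :
    P.map (fun ω => (π (A ω), B ω)) = P.map (fun ω => π (A ω)) ⊗ₘ η := by
  have : IsProbabilityMeasure (P.map A) := Measure.isProbabilityMeasure_map hA.aemeasurable
  have h1 : P.map (fun ω => (A ω, B ω)) = P.map A ⊗ₘ (η.comap π hπ) := by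
    rw [← compProd_map_condDistrib hB.aemeasurable]
    exact Measure.compProd_congr (h.mono fun a ha => by rw [ha]; rfl)
  have h2 : P.map (fun ω => (π (A ω), B ω)) =
      (P.map (fun ω => (A ω, B ω))).map (Prod.map π id) := by
    rw [Measure.map_map (by fun_prop) (by fun_prop)]
    rfl
  rw [h2, h1]
  have h3 : P.map (fun ω => π (A ω)) = (P.map A).map π := (Measure.map_map hπ hA).symm
  rw [h3]
  have : IsProbabilityMeasure ((P.map A).map π) :=
    Measure.isProbabilityMeasure_map hπ.aemeasurable
  ext s hs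
  rw [Measure.map_apply (by fun_prop) hs, Measure.compProd_apply (by measurability),
    Measure.compProd_apply hs, lintegral_map (Kernel.measurable_kernel_prodMk_left hs) hπ]
  rfl

/-- (F3) `B = F (π A, B')` a.e. and the conditional law of `B'` given `A` is `η (π A)`;
then the conditional law of `B` given `A` is `mapKernel η F (π A)`, and equals the conditional
law of `B₀` given `A₀` for any other pair `(A₀, B₀)` with the law of `(π A, B)`. -/
theorem condDistrib_eq_of_exact [StandardBorelSpace V'] [Nonempty V']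
    {P : Measure Ω} [IsProbabilityMeasure P] {A : Ω → α}
    (hA : Measurable A) {B : Ω → V} (hB : Measurable B) {B' : Ω → V'} (hB' : Measurable B')
    {π : α → β} (hπ : Measurable π) {η : Kernel β V'} [IsMarkovKernel η]
    {F : β × V' → V} (hF : Measurable F)
    (hBF : ∀ᵐ ω ∂P, B ω = F (π (A ω), B' ω))
    (h : ∀ᵐ a ∂(P.map A), condDistrib B' A P a = η (π a)) :
    ∀ᵐ a ∂(P.map A), condDistrib B A P a = mapKernel η F (π a) := by
  have := isMarkovKernel_mapKernel η hF
  have : IsProbabilityMeasure (P.map A) := Measure.isProbabilityMeasure_map hA.aemeasurable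
  have h1 : P.map (fun ω => (A ω, B ω)) =
      P.map A ⊗ₘ ((mapKernel η F).comap π hπ) := by
    have h2 : P.map (fun ω => (A ω, B ω)) =
        (P.map (fun ω => (A ω, B' ω))).map (fun p => (p.1, F (π p.1, p.2))) := by
      rw [Measure.map_map (by fun_prop) (by fun_prop)]
      refine Measure.map_congr (hBF.mono fun ω hω => ?_)
      simp [hω]
    rw [h2, ← compProd_map_condDistrib hB'.aemeasurable]
    ext s hs
    have hG : Measurable (fun p : α × V' => (p.1, F (π p.1, p.2))) := by fun_prop
    rw [Measure.map_apply hG hs, Measure.compProd_apply (hG hs), Measure.compProd_apply hs]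
    refine lintegral_congr_ae (h.mono fun a ha => ?_)
    simp only [ha, Kernel.comap_apply]
    rw [mapKernel_apply _ hF, Measure.map_apply (by fun_prop) (by measurability)]
    rfl
  have h3 := condDistrib_ae_eq_of_measure_eq_compProd (μ := P) A hB.aemeasurable h1
  exact h3.mono fun a ha => by rw [ha]; rfl

/-- Two pairs with the same law have the same conditional distributions. -/
theorem condDistrib_eq_of_law {P : Measure Ω} [IsFiniteMeasure P] {P' : Measure Ω'}
    [IsFiniteMeasure P'] {X : Ω → β} {Y : Ω → V} {X' : Ω' → β} {Y' : Ω' → V}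
    (h : P.map (fun ω => (X ω, Y ω)) = P'.map (fun ω => (X' ω, Y' ω))) :
    condDistrib Y X P = condDistrib Y' X' P' := by
  rw [condDistrib, condDistrib]
  congr 1

/-- If the conditional law of `B` given `A` depends on `π A` only, then it is the conditional
law of any pair `(A₀, B₀)` with the law of `(π A, B)`. -/
theorem condDistrib_eq_base {P : Measure Ω} [IsProbabilityMeasure P]
    {P' : Measure Ω'} [IsProbabilityMeasure P'] {A : Ω → α}
    (hA : Measurable A) {B : Ω → V} (hB : Measurable B) {π : α → β} (hπ : Measurable π)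
    {η : Kernel β V} [IsMarkovKernel η]
    (h : ∀ᵐ a ∂(P.map A), condDistrib B A P a = η (π a))
    {A₀ : Ω' → β} {B₀ : Ω' → V}
    (hlaw : P.map (fun ω => (π (A ω), B ω)) = P'.map (fun ω => (A₀ ω, B₀ ω))) :
    ∀ᵐ a ∂(P.map A), condDistrib B A P a = condDistrib B₀ A₀ P' (π a) := by
  rw [← condDistrib_eq_of_law hlaw]
  have h1 := condDistrib_ae_eq_of_measure_eq_compProd (μ := P) (fun ω => π (A ω)) hB.aemeasurable
    (condDistrib_comp_of_comap hA hB hπ h)
  have h2 : P.map (fun ω => π (A ω)) = (P.map A).map π := (Measure.map_map hπ hA).symm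
  rw [h2] at h1
  filter_upwards [h, ae_of_ae_map hπ.aemeasurable h1] with a ha hb
  rw [ha, hb]

/-- Conditional independence in the form `condDistrib B A P a = condDistrib B₀ A₀ P' (π a)`,
combined with exactness (F3). -/
theorem condDistrib_eq_base_of_exact [StandardBorelSpace V'] [Nonempty V']
    {P : Measure Ω} [IsProbabilityMeasure P] {P' : Measure Ω'} [IsProbabilityMeasure P']
    {A : Ω → α}
    (hA : Measurable A) {B : Ω → V} (hB : Measurable B) {B' : Ω → V'} (hB' : Measurable B')
    {π : α → β} (hπ : Measurable π) {η : Kernel β V'} [IsMarkovKernel η]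
    {F : β × V' → V} (hF : Measurable F)
    (hBF : ∀ᵐ ω ∂P, B ω = F (π (A ω), B' ω))
    (h : ∀ᵐ a ∂(P.map A), condDistrib B' A P a = η (π a))
    {A₀ : Ω' → β} {B₀ : Ω' → V}
    (hlaw : P.map (fun ω => (π (A ω), B ω)) = P'.map (fun ω => (A₀ ω, B₀ ω))) :
    ∀ᵐ a ∂(P.map A), condDistrib B A P a = condDistrib B₀ A₀ P' (π a) := by
  have := isMarkovKernel_mapKernel η hF
  exact condDistrib_eq_base hA hB hπ (condDistrib_eq_of_exact hA hB hB' hπ hF hBF h) hlaw

end Finer

section Equivariance

variable {Ω α V : Type*} [MeasurableSpace Ω] [MeasurableSpace α] [MeasurableSpace V]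
  [StandardBorelSpace V] [Nonempty V]

/-- Equivariance of conditional laws: if `(σ A, τ B)` has the law of `(A, B)`, `σ` a measurable
equivalence, `τ` measurable, then the conditional law at `σ a` is the `τ`-image of the one
at `a`. -/
theorem condDistrib_equivariant {P : Measure Ω} [IsProbabilityMeasure P] {A : Ω → α}
    (hA : Measurable A) {B : Ω → V} (hB : Measurable B) (σ : α ≃ᵐ α) {τ : V → V}
    (hτ : Measurable τ)
    (hlaw : P.map (fun ω => (σ (A ω), τ (B ω))) = P.map (fun ω => (A ω, B ω))) :
    ∀ᵐ a ∂(P.map A), condDistrib B A P (σ a) = (condDistrib B A P a).map τ := by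
  have : IsProbabilityMeasure (P.map A) := Measure.isProbabilityMeasure_map hA.aemeasurable
  have hσ : (P.map A).map σ = P.map A := by
    have h1 := congrArg (Measure.map Prod.fst) hlaw
    rw [Measure.map_map measurable_fst (by fun_prop), Measure.map_map measurable_fst
      (by fun_prop)] at h1
    rw [Measure.map_map (by fun_prop) hA]
    exact h1
  have h1 : P.map (fun ω => (A ω, B ω)) =
      P.map A ⊗ₘ ((condDistrib B A P).comap σ.symm σ.symm.measurable).map τ := by
    rw [← hlaw]
    have h2 : P.map (fun ω => (σ (A ω), τ (B ω))) =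
        (P.map (fun ω => (A ω, B ω))).map (Prod.map σ τ) := by
      rw [Measure.map_map (by fun_prop) (by fun_prop)]
      rfl
    rw [h2, ← compProd_map_condDistrib hB.aemeasurable]
    ext s hs
    have hm : IsMarkovKernel (((condDistrib B A P).comap σ.symm σ.symm.measurable).map τ) :=
      Kernel.IsMarkovKernel.map _ hτ
    rw [Measure.map_apply (by fun_prop) hs, Measure.compProd_apply (by measurability),
      Measure.compProd_apply hs]
    conv_rhs => rw [← hσ]
    rw [lintegral_map (Kernel.measurable_kernel_prodMk_left hs) σ.measurable]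
    refine lintegral_congr fun a => ?_
    rw [Kernel.map_apply' _ hτ _ (by measurability)]
    simp only [Kernel.comap_apply, MeasurableEquiv.symm_apply_apply]
    rfl
  have h3 := condDistrib_ae_eq_of_measure_eq_compProd (μ := P) A hB.aemeasurable h1
  rw [← hσ] at h3
  have h4 := ae_of_ae_map σ.measurable.aemeasurable h3
  filter_upwards [h4] with a ha
  rw [ha, Kernel.map_apply _ hτ]
  simp

end Equivariance

end Vale.Agent.P102.RM
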