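import Mathlib.MeasureTheory.Measure.Prokhorov
import Mathlib.MeasureTheory.Function.ContinuousMapDense
import Mathlib.MeasureTheory.Constructions.Polish.EmbeddingReal
import Mathlib.MeasureTheory.Integral.Bochner.Basic
import Mathlib.MeasureTheory.Measure.ProbabilityMeasure

/-! # Limit joinings along an ultrafilter -/

namespace Vale.Agent.P102.RM.LJ

open MeasureTheory Filter Topology Set

/-- Bounded measurable complex functions. -/
def BM {V : Type} [MeasurableSpace V] (f : V → ℂ) : Prop :=
  Measurable f ∧ ∃ C : ℝ, ∀ v, ‖f v‖ ≤ C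

/-- Cantor space. -/
abbrev Cant : Type := ℕ → Bool

/-- Bundle a probability measure. -/
def toPM {Ω : Type} [MeasurableSpace Ω] (P : Measure Ω) (h : IsProbabilityMeasure P) :
    ProbabilityMeasure Ω := ⟨P, h⟩

@[simp] lemma toPM_coe {Ω : Type} [MeasurableSpace Ω] (P : Measure Ω)
    (h : IsProbabilityMeasure P) : ((toPM P h : ProbabilityMeasure Ω) : Measure Ω) = P := rfl

section compact

variable {ι I : Type}

lemma BM.prod {V : I → Type} [∀ i, MeasurableSpace (V i)] (s : Finset I) {f : ∀ i, V i → ℂ}
    (hf : ∀ i, BM (f i)) : BM (fun ω : ∀ i, V i => ∏ i ∈ s, f i (ω i)) := by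
  refine ⟨?_, ?_⟩
  · exact Finset.measurable_fun_prod s fun i _ => (hf i).1.comp (measurable_pi_apply i)
  · choose C hC using fun i => (hf i).2
    refine ⟨∏ i ∈ s, C i, fun ω => ?_⟩
    rw [norm_prod]
    exact Finset.prod_le_prod (fun i _ => norm_nonneg _) (fun i _ => hC i _)

lemma BM.integrable {V : Type} [MeasurableSpace V] {f : V → ℂ} (hf : BM f) (μ : Measure V)
    [IsFiniteMeasure μ] : Integrable f μ := by
  obtain ⟨h1, C, hC⟩ := hf
  exact Integrable.of_bound h1.aestronglyMeasurable C (Eventually.of_forall hC)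

lemma exists_lim_cantor [Countable I] (U : Ultrafilter ι) (P : ι → Measure (I → Cant))
    [hPp : ∀ l, IsProbabilityMeasure (P l)] :
    ∃ D : ProbabilityMeasure (I → Cant),
      Tendsto (fun l => (toPM (P l) (hPp l))) U (𝓝 D) := by
  refine ⟨(U.map fun l => (toPM (P l) (hPp l))).lim, ?_⟩
  exact (U.map fun l => (toPM (P l) (hPp l))).le_nhds_lim

lemma marginal_lim [Countable I] (U : Ultrafilter ι) (P : ι → Measure (I → Cant))
    [hPp : ∀ l, IsProbabilityMeasure (P l)] (D : ProbabilityMeasure (I → Cant))
    (hD : Tendsto (fun l => (toPM (P l) (hPp l))) U (𝓝 D))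
    (i : I) (μ : Measure Cant) [hμp : IsProbabilityMeasure μ]
    (hμ : ∀ᶠ l in U, (P l).map (fun ω => ω i) = μ) :
    (D : Measure (I → Cant)).map (fun ω => ω i) = μ := by
  have hc : Continuous (fun ω : I → Cant => ω i) := continuous_apply i
  have h1 := ProbabilityMeasure.tendsto_map_of_tendsto_of_continuous _ _ hD hc
  have h2 : Tendsto (fun l => (toPM (P l) (hPp l)).map
      hc.measurable.aemeasurable) U (𝓝 (toPM μ hμp)) := by
    refine Tendsto.congr' ?_ tendsto_const_nhds
    filter_upwards [hμ] with l hl
    apply Subtype.ext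
    simp only [ProbabilityMeasure.map]
    exact hl.symm
  have h3 := tendsto_nhds_unique h1 h2
  have h4 := congrArg (fun Q : ProbabilityMeasure Cant => (Q : Measure Cant)) h3
  simpa using h4

lemma tendsto_prod_cantor [Countable I] [DecidableEq I] (U : Ultrafilter ι) (P : ι → Measure (I → Cant))
    [hPp : ∀ l, IsProbabilityMeasure (P l)] (D : ProbabilityMeasure (I → Cant))
    (hD : Tendsto (fun l => (toPM (P l) (hPp l))) U (𝓝 D))
    (μ : I → Measure Cant) [hμp : ∀ i, IsProbabilityMeasure (μ i)]
    (hμ : ∀ i, ∀ᶠ l in U, (P l).map (fun ω => ω i) = μ i) (s t : Finset I) :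
    ∀ f : I → Cant → ℂ, (∀ i, BM (f i)) → (∀ i ∈ s, i ∉ t → Continuous (f i)) →
      Tendsto (fun l => ∫ ω, ∏ i ∈ s, f i (ω i) ∂(P l)) U
        (𝓝 (∫ ω, ∏ i ∈ s, f i (ω i) ∂(D : Measure (I → Cant)))) := by
  induction t using Finset.induction_on with
  | empty =>
    intro f hf hc
    have hb := BM.prod (V := fun _ : I => Cant) s hf
    obtain ⟨C, hC⟩ := hb.2
    have hcont : Continuous (fun ω : I → Cant => ∏ i ∈ s, f i (ω i)) :=
      continuous_finsetProd _ fun i hi => (hc i hi (by simp)).comp (continuous_apply i)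
    let F : BoundedContinuousFunction (I → Cant) ℂ :=
      BoundedContinuousFunction.ofNormedAddCommGroup _ hcont C hC
    have := (ProbabilityMeasure.tendsto_iff_forall_integral_rclike_tendsto ℂ).1 hD F
    exact this
  | insert a t hat ih =>
    intro f hf hc
    rw [Metric.tendsto_nhds]
    intro ε hε
    -- choose the approximation
    obtain ⟨-, hM⟩ : True ∧ ∃ M : ℝ, 0 ≤ M ∧ ∀ (g : Cant → ℂ) (ω : I → Cant),
      ‖∏ i ∈ s, f i (ω i) - ∏ i ∈ s, (Function.update f a g) i (ω i)‖
        ≤ M * ‖f a (ω a) - g (ω a)‖ := by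
      refine ⟨trivial, ?_⟩
      choose C hC using fun i => (hf i).2
      refine ⟨∏ i ∈ s.erase a, |C i|, Finset.prod_nonneg fun i _ => abs_nonneg _, fun g ω => ?_⟩
      by_cases ha : a ∈ s
      · rw [← Finset.mul_prod_erase s _ ha, ← Finset.mul_prod_erase s _ ha]
        have h1 : ∏ i ∈ s.erase a, (Function.update f a g) i (ω i)
            = ∏ i ∈ s.erase a, f i (ω i) := by
          refine Finset.prod_congr rfl fun i hi => ?_
          rw [Function.update_of_ne (Finset.ne_of_mem_erase hi)]
        rw [h1, Function.update_self, ← sub_mul, norm_mul, mul_comm]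
        refine mul_le_mul_of_nonneg_right ?_ (norm_nonneg _)
        rw [norm_prod]
        exact Finset.prod_le_prod (fun i _ => norm_nonneg _)
          (fun i _ => (hC i _).trans (le_abs_self _))
      · have h1 : ∏ i ∈ s, (Function.update f a g) i (ω i) = ∏ i ∈ s, f i (ω i) := by
          refine Finset.prod_congr rfl fun i hi => ?_
          rw [Function.update_of_ne]
          rintro rfl
          exact ha hi
        rw [h1, sub_self, norm_zero]
        exact mul_nonneg (Finset.prod_nonneg fun i _ => abs_nonneg _) (norm_nonneg _)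
    obtain ⟨M, hM0, hM⟩ := hM
    have hδ : 0 < ε / (4 * (M + 1)) := by positivity
    obtain ⟨g, hg1, -⟩ := ((hf a).integrable (μ a)).exists_boundedContinuous_lintegral_sub_le
      (ε := ENNReal.ofReal (ε / (4 * (M + 1)))) (by simpa using hδ)
    have hgBM : BM (fun x => g x) :=
      ⟨g.continuous.measurable, ‖g‖, fun v => g.norm_coe_le_norm v⟩
    have hg2 : ∫ x, ‖f a x - g x‖ ∂(μ a) ≤ ε / (4 * (M + 1)) := by
      have hint : Integrable (fun x => f a x - g x) (μ a) :=
        ((hf a).integrable (μ a)).sub (hgBM.integrable (μ a))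
      rw [integral_norm_eq_lintegral_enorm hint.aestronglyMeasurable]
      exact ENNReal.toReal_le_of_le_ofReal hδ.le hg1
    have hf' : ∀ i, BM ((Function.update f a (fun x => g x)) i) := by
      intro i
      by_cases hi : i = a
      · subst hi; rw [Function.update_self]; exact hgBM
      · rw [Function.update_of_ne hi]; exact hf i
    have hc' : ∀ i ∈ s, i ∉ t → Continuous ((Function.update f a (fun x => g x)) i) := by
      intro i his hi
      by_cases hia : i = a
      · subst hia; rw [Function.update_self]; exact g.continuous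
      · rw [Function.update_of_ne hia]
        exact hc i his (by simp [hia, hi])
    have hIH := ih _ hf' hc'
    rw [Metric.tendsto_nhds] at hIH
    have hIH := hIH (ε / 4) (by positivity)
    -- the general estimate for a measure with the right marginal
    have key : ∀ Q : Measure (I → Cant), IsProbabilityMeasure Q →
        Q.map (fun ω => ω a) = μ a →
        ‖∫ ω, ∏ i ∈ s, f i (ω i) ∂Q
          - ∫ ω, ∏ i ∈ s, (Function.update f a (fun x => g x)) i (ω i) ∂Q‖ ≤ ε / 4 := by
      intro Q hQ hQa
      have i1 : Integrable (fun ω : I → Cant => ∏ i ∈ s, f i (ω i)) Q :=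
        (BM.prod (V := fun _ : I => Cant) s hf).integrable Q
      have i2 : Integrable (fun ω : I → Cant =>
          ∏ i ∈ s, (Function.update f a (fun x => g x)) i (ω i)) Q :=
        (BM.prod (V := fun _ : I => Cant) s hf').integrable Q
      rw [← integral_sub i1 i2]
      have i3 : Integrable (fun ω : I → Cant => f a (ω a) - g (ω a)) Q := by
        have := ((hf a).integrable (μ a)).sub (hgBM.integrable (μ a))
        rw [← hQa] at this
        exact this.comp_measurable (measurable_pi_apply a)
      calc ‖∫ ω, (∏ i ∈ s, f i (ω i)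
              - ∏ i ∈ s, (Function.update f a (fun x => g x)) i (ω i)) ∂Q‖
          ≤ ∫ ω, ‖∏ i ∈ s, f i (ω i)
              - ∏ i ∈ s, (Function.update f a (fun x => g x)) i (ω i)‖ ∂Q :=
            norm_integral_le_integral_norm _
        _ ≤ ∫ ω, M * ‖f a (ω a) - g (ω a)‖ ∂Q := by
            refine integral_mono (i1.sub i2).norm (i3.norm.const_mul M) fun ω => hM _ ω
        _ = M * ∫ ω, ‖f a (ω a) - g (ω a)‖ ∂Q := integral_const_mul _ _
        _ = M * ∫ x, ‖f a x - g x‖ ∂(μ a) := by
            rw [← hQa, integral_map (measurable_pi_apply a).aemeasurable]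
            exact (((hf a).1.sub g.continuous.measurable).norm).aestronglyMeasurable
        _ ≤ M * (ε / (4 * (M + 1))) := mul_le_mul_of_nonneg_left hg2 hM0
        _ ≤ ε / 4 := by
            rw [mul_div_assoc', div_le_div_iff₀ (by positivity) (by norm_num)]
            nlinarith
    have hDa : (D : Measure (I → Cant)).map (fun ω => ω a) = μ a :=
      marginal_lim U P D hD a (μ a) (hμ a)
    have kD := key D inferInstance hDa
    filter_upwards [hIH, hμ a] with l hl hla
    have kl := key (P l) (hPp l) hla
    rw [dist_eq_norm] at hl ⊢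
    calc ‖∫ ω, ∏ i ∈ s, f i (ω i) ∂(P l) - ∫ ω, ∏ i ∈ s, f i (ω i) ∂(D : Measure (I → Cant))‖
        = ‖(∫ ω, ∏ i ∈ s, f i (ω i) ∂(P l)
              - ∫ ω, ∏ i ∈ s, (Function.update f a (fun x => g x)) i (ω i) ∂(P l))
            + (∫ ω, ∏ i ∈ s, (Function.update f a (fun x => g x)) i (ω i) ∂(P l)
              - ∫ ω, ∏ i ∈ s, (Function.update f a (fun x => g x)) i (ω i)
                  ∂(D : Measure (I → Cant)))
            - (∫ ω, ∏ i ∈ s, f i (ω i) ∂(D : Measure (I → Cant))
              - ∫ ω, ∏ i ∈ s, (Function.update f a (fun x => g x)) i (ω i)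
                  ∂(D : Measure (I → Cant)))‖ := by congr 1; ring
      _ ≤ _ := norm_sub_le _ _
      _ ≤ (‖∫ ω, ∏ i ∈ s, f i (ω i) ∂(P l)
              - ∫ ω, ∏ i ∈ s, (Function.update f a (fun x => g x)) i (ω i) ∂(P l)‖
            + ‖∫ ω, ∏ i ∈ s, (Function.update f a (fun x => g x)) i (ω i) ∂(P l)
              - ∫ ω, ∏ i ∈ s, (Function.update f a (fun x => g x)) i (ω i)
                  ∂(D : Measure (I → Cant))‖) + ε / 4 := add_le_add (norm_add_le _ _) kD
      _ < ε := by linarith

end compact

/-- **Limit joinings.**  Countably many standard Borel spaces, probability measures `P l` on the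
product whose marginals are eventually `μ i`.  Then there is a limit along the ultrafilter, for
all finite products of bounded measurable functions of the coordinates. -/
theorem exists_limJoin {ι I : Type} [Countable I] (V : I → Type) [∀ i, MeasurableSpace (V i)]
    [∀ i, StandardBorelSpace (V i)] (U : Ultrafilter ι) (μ : ∀ i, Measure (V i))
    [∀ i, IsProbabilityMeasure (μ i)] (P : ι → Measure (∀ i, V i))
    [hPp : ∀ l, IsProbabilityMeasure (P l)]
    (hP : ∀ i, ∀ᶠ l in U, (P l).map (fun ω => ω i) = μ i) :
    ∃ D : Measure (∀ i, V i), IsProbabilityMeasure D ∧ (∀ i, D.map (fun ω => ω i) = μ i) ∧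
      ∀ (s : Finset I) (f : ∀ i, V i → ℂ), (∀ i, BM (f i)) →
        Tendsto (fun l => ∫ ω, ∏ i ∈ s, f i (ω i) ∂(P l)) U
          (𝓝 (∫ ω, ∏ i ∈ s, f i (ω i) ∂D)) := by
  classical
  have hex : ∀ i, ∃ e : V i → Cant, Measurable e ∧ Function.Injective e := fun i =>
    MeasurableSpace.measurable_injection_nat_bool_of_countablySeparated (V i)
  choose e hem hei using hex
  have hee : ∀ i, MeasurableEmbedding (e i) := fun i => (hem i).measurableEmbedding (hei i)
  let E : (∀ i, V i) → (I → Cant) := fun ω i => e i (ω i)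
  have hEm : Measurable E := measurable_pi_lambda _ fun i => (hem i).comp (measurable_pi_apply i)
  have hEi : Function.Injective E := by
    intro ω ω' h
    funext i
    exact hei i (congrFun h i)
  have hEe : MeasurableEmbedding E := hEm.measurableEmbedding hEi
  let P' : ι → Measure (I → Cant) := fun l => (P l).map E
  have hP'p : ∀ l, IsProbabilityMeasure (P' l) := fun l =>
    Measure.isProbabilityMeasure_map hEm.aemeasurable
  let μ' : I → Measure Cant := fun i => (μ i).map (e i)
  have hμ'p : ∀ i, IsProbabilityMeasure (μ' i) := fun i =>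
    Measure.isProbabilityMeasure_map (hem i).aemeasurable
  have hev : ∀ i, Measurable (fun ω : I → Cant => ω i) := fun i => measurable_pi_apply i
  have hev' : ∀ i, Measurable (fun ω : ∀ i, V i => ω i) := fun i => measurable_pi_apply i
  have hmapE : ∀ (Q : Measure (∀ i, V i)) (i : I),
      (Q.map E).map (fun ω => ω i) = (Q.map (fun ω => ω i)).map (e i) := by
    intro Q i
    rw [Measure.map_map (hev i) hEm, Measure.map_map (hem i) (hev' i)]
    rfl
  have hP' : ∀ i, ∀ᶠ l in U, (P' l).map (fun ω => ω i) = μ' i := by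
    intro i
    filter_upwards [hP i] with l hl
    simp only [P', μ']
    rw [hmapE, hl]
  obtain ⟨D', hD'⟩ := exists_lim_cantor U P'
  have hD'm : ∀ i, (D' : Measure (I → Cant)).map (fun ω => ω i) = μ' i := fun i =>
    marginal_lim U P' D' hD' i (μ' i) (hP' i)
  -- `D'` is supported on the range of `E`
  have hsupp : ∀ᵐ ω ∂(D' : Measure (I → Cant)), ω ∈ range E := by
    have h1 : ∀ i, ∀ᵐ ω ∂(D' : Measure (I → Cant)), ω i ∈ range (e i) := by
      intro i
      have h2 : ∀ᵐ x ∂(μ' i), x ∈ range (e i) := by
        refine (ae_map_iff (p := fun x => x ∈ range (e i)) (hem i).aemeasurable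
          (hee i).measurableSet_range).2 ?_
        exact Eventually.of_forall fun v => mem_range_self v
      rw [← hD'm i] at h2
      exact (ae_map_iff (p := fun x => x ∈ range (e i)) (hev i).aemeasurable
          (hee i).measurableSet_range).1 h2
    have h3 : ∀ᵐ ω ∂(D' : Measure (I → Cant)), ∀ i, ω i ∈ range (e i) := ae_all_iff.2 h1
    filter_upwards [h3] with ω hω
    choose v hv using hω
    exact ⟨v, funext hv⟩
  let D : Measure (∀ i, V i) := (D' : Measure (I → Cant)).comap E
  have hDE : D.map E = (D' : Measure (I → Cant)) := by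
    simp only [D]
    rw [hEe.map_comap]
    exact Measure.restrict_eq_self_of_ae_mem hsupp
  have hDp : IsProbabilityMeasure D := by
    constructor
    have h1 : (D.map E) univ = 1 := by rw [hDE]; exact measure_univ
    rwa [Measure.map_apply hEm MeasurableSet.univ, preimage_univ] at h1
  refine ⟨D, hDp, ?_, ?_⟩
  · intro i
    have h1 : (D.map (fun ω => ω i)).map (e i) = (μ i).map (e i) := by
      rw [← hmapE, hDE, hD'm i]
    have h2 := congrArg (Measure.comap (e i)) h1
    rwa [(hee i).comap_map, (hee i).comap_map] at h2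
  · intro s f hf
    let F : I → Cant → ℂ := fun i => Function.extend (e i) (f i) 0
    have hFe : ∀ i v, F i (e i v) = f i v := fun i v => (hei i).extend_apply _ _ v
    have hF : ∀ i, BM (F i) := by
      intro i
      refine ⟨(hee i).measurable_extend (hf i).1 measurable_const, ?_⟩
      obtain ⟨C, hC⟩ := (hf i).2
      refine ⟨|C|, fun x => ?_⟩
      by_cases hx : ∃ v, e i v = x
      · obtain ⟨v, rfl⟩ := hx
        rw [hFe]
        exact (hC v).trans (le_abs_self _)
      · simp only [F]
        rw [Function.extend_apply' _ _ _ hx]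
        simp
    have hT := tendsto_prod_cantor U P' D' hD' μ' hP' s s F hF
      (fun i hi hi' => absurd hi hi')
    have hconv : ∀ Q : Measure (∀ i, V i),
        ∫ ω, ∏ i ∈ s, F i (ω i) ∂(Q.map E) = ∫ ω, ∏ i ∈ s, f i (ω i) ∂Q := by
      intro Q
      rw [hEe.integral_map]
      refine integral_congr_ae (Eventually.of_forall fun ω => ?_)
      exact Finset.prod_congr rfl fun i _ => hFe i (ω i)
    simp only [P'] at hT
    rw [← hDE, hconv D] at hT
    refine hT.congr fun l => hconv (P l)

end Vale.Agent.P102.RM.LJ
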