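import Vale.Agent.P102.RM.Defs
import Vale.Agent.P102.RM.LimJoin204

/-!
P102, block GRID, part 1: the functor `D r`.  Existence and uniqueness of the limit joinings,
marginals, functoriality, rows and columns of the grid `D r (D r A)`, and
`D r (A × B) = D r A × D r B` in the form `indep_D`.
-/

namespace Vale.Agent.P102.RM

open MeasureTheory Filter Topology ProbabilityTheory

/-! ### Powers -/

theorem iter_zero {Ω : Type*} [MeasurableSpace Ω] (T : Ω ≃ᵐ Ω) (a : Ω) : iter T 0 a = a := by
  simp [iter]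

theorem iter_add_one {Ω : Type*} [MeasurableSpace Ω] (T : Ω ≃ᵐ Ω) (n : ℤ) (a : Ω) :
    iter T (n + 1) a = iter T n (T a) := by
  unfold iter; rw [zpow_add_one]; rfl

theorem iter_sub_one {Ω : Type*} [MeasurableSpace Ω] (T : Ω ≃ᵐ Ω) (n : ℤ) (a : Ω) :
    iter T (n - 1) a = iter T n (T.symm a) := by
  unfold iter; rw [zpow_sub_one]; rfl

theorem iter_add {Ω : Type*} [MeasurableSpace Ω] (T : Ω ≃ᵐ Ω) (m n : ℤ) (a : Ω) :
    iter T (m + n) a = iter T m (iter T n a) := by
  unfold iter; rw [zpow_add]; rfl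

theorem measurable_iter {Ω : Type*} [MeasurableSpace Ω] (T : Ω ≃ᵐ Ω) (n : ℤ) :
    Measurable (iter T n) := by
  induction n using Int.induction_on with
  | zero =>
    have : iter T 0 = id := by funext a; exact iter_zero T a
    rw [this]; exact measurable_id
  | succ n ih =>
    have : iter T (n + 1) = iter T n ∘ T := by funext a; exact iter_add_one T n a
    rw [this]; exact ih.comp T.measurable
  | pred n ih =>
    have : iter T (-(n : ℤ) - 1) = iter T (-n) ∘ T.symm := by funext a; exact iter_sub_one T _ a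
    rw [this]; exact ih.comp T.symm.measurable

theorem iter_mp {Ω : Type*} [MeasurableSpace Ω] {μ : Measure Ω} (T : Ω ≃ᵐ Ω)
    (hT : MeasurePreserving T μ μ) (n : ℤ) : MeasurePreserving (iter T n) μ μ := by
  induction n using Int.induction_on with
  | zero =>
    have : iter T 0 = id := by funext a; exact iter_zero T a
    rw [this]; exact MeasurePreserving.id μ
  | succ n ih =>
    have : iter T (n + 1) = iter T n ∘ T := by funext a; exact iter_add_one T n a
    rw [this]; exact ih.comp hT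
  | pred n ih =>
    have : iter T (-(n : ℤ) - 1) = iter T (-n) ∘ T.symm := by funext a; exact iter_sub_one T _ a
    rw [this]; exact ih.comp (hT.symm T)

theorem Fac.iter {A B : Sys} (p : Fac A B) (n : ℤ) (a : A.C) :
    p.f (RM.iter A.S n a) = RM.iter B.S n (p.f a) := by
  induction n using Int.induction_on generalizing a with
  | zero => rw [iter_zero, iter_zero]
  | succ n ih => rw [iter_add_one, iter_add_one, ih, p.eqv]
  | pred n ih =>
    rw [iter_sub_one, iter_sub_one, ih]
    congr 1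
    rw [MeasurableEquiv.eq_symm_apply, ← p.eqv, MeasurableEquiv.apply_symm_apply]

/-! ### Bounded functions -/

theorem Bdd.mul {Ω : Type*} [MeasurableSpace Ω] {f g : Ω → ℂ} (hf : Bdd f) (hg : Bdd g) :
    Bdd (fun a => f a * g a) := by
  obtain ⟨C, hC⟩ := hf.2
  obtain ⟨C', hC'⟩ := hg.2
  refine ⟨hf.1.mul hg.1, C * C', fun a => ?_⟩
  rw [norm_mul]
  exact mul_le_mul (hC a) (hC' a) (norm_nonneg _) ((norm_nonneg _).trans (hC a))

theorem Bdd.const {Ω : Type*} [MeasurableSpace Ω] (c : ℂ) : Bdd (fun _ : Ω => c) :=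
  ⟨measurable_const, ‖c‖, fun _ => le_rfl⟩

theorem Bdd.add {Ω : Type*} [MeasurableSpace Ω] {f g : Ω → ℂ} (hf : Bdd f) (hg : Bdd g) :
    Bdd (fun a => f a + g a) := by
  obtain ⟨C, hC⟩ := hf.2
  obtain ⟨C', hC'⟩ := hg.2
  exact ⟨hf.1.add hg.1, C + C', fun a => (norm_add_le _ _).trans (add_le_add (hC a) (hC' a))⟩

theorem Bdd.sub {Ω : Type*} [MeasurableSpace Ω] {f g : Ω → ℂ} (hf : Bdd f) (hg : Bdd g) :
    Bdd (fun a => f a - g a) := by
  obtain ⟨C, hC⟩ := hf.2
  obtain ⟨C', hC'⟩ := hg.2
  exact ⟨hf.1.sub hg.1, C + C', fun a => (norm_sub_le _ _).trans (add_le_add (hC a) (hC' a))⟩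

theorem Bdd.star {Ω : Type*} [MeasurableSpace Ω] {f : Ω → ℂ} (hf : Bdd f) :
    Bdd (fun a => (starRingEnd ℂ) (f a)) := by
  obtain ⟨C, hC⟩ := hf.2
  refine ⟨Complex.continuous_conj.measurable.comp hf.1, C, fun a => ?_⟩
  rw [RCLike.norm_conj]; exact hC a

theorem Bdd.comp {Ω Ω' : Type*} [MeasurableSpace Ω] [MeasurableSpace Ω'] {f : Ω → ℂ} (hf : Bdd f)
    {g : Ω' → Ω} (hg : Measurable g) : Bdd (fun a => f (g a)) := by
  obtain ⟨C, hC⟩ := hf.2
  exact ⟨hf.1.comp hg, C, fun a => hC _⟩

theorem Bdd.prod {Ω κ : Type*} [MeasurableSpace Ω] (s : Finset κ) {f : κ → Ω → ℂ}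
    (hf : ∀ i ∈ s, Bdd (f i)) : Bdd (fun a => ∏ i ∈ s, f i a) := by
  classical
  induction s using Finset.induction_on with
  | empty => simpa using Bdd.const 1
  | insert i s hi ih =>
    have h1 := (hf i (Finset.mem_insert_self i s)).mul
      (ih fun j hj => hf j (Finset.mem_insert_of_mem hj))
    refine ⟨?_, ?_⟩
    · simpa [Finset.prod_insert hi] using h1.1
    · simpa [Finset.prod_insert hi] using h1.2

theorem Bdd.integrable {Ω : Type*} [MeasurableSpace Ω] {f : Ω → ℂ} (hf : Bdd f) (μ : Measure Ω)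
    [IsFiniteMeasure μ] : Integrable f μ := by
  obtain ⟨C, hC⟩ := hf.2
  exact Integrable.of_bound hf.1.aestronglyMeasurable C (Eventually.of_forall hC)

theorem Bdd.indicator {Ω : Type*} [MeasurableSpace Ω] {s : Set Ω} (hs : MeasurableSet s) :
    Bdd (s.indicator (1 : Ω → ℂ)) := by
  refine ⟨measurable_one.indicator hs, 1, fun a => ?_⟩
  by_cases h : a ∈ s <;> simp [h]

/-! ### Existence, integral form and uniqueness of the limit joinings -/

section lim
variable {ι : Type} [Fintype ι]

theorem integral_prod_indicator {Ω κ : Type*} [MeasurableSpace Ω] [Fintype κ] (μ : Measure Ω)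
    (s : κ → Set Ω) (hs : ∀ i, MeasurableSet (s i)) :
    ∫ a, ∏ i, (s i).indicator (1 : Ω → ℂ) a ∂μ = ((μ.real (⋂ i, s i) : ℝ) : ℂ) := by
  have h1 : (fun a => ∏ i, (s i).indicator (1 : Ω → ℂ) a) = (⋂ i, s i).indicator (fun _ => (1 : ℂ)) := by
    funext a
    by_cases ha : a ∈ ⋂ i, s i
    · rw [Set.indicator_of_mem ha]
      rw [Set.mem_iInter] at ha
      exact Finset.prod_eq_one fun i _ => by rw [Set.indicator_of_mem (ha i)]; rfl
    · rw [Set.indicator_of_notMem ha]
      rw [Set.mem_iInter, not_forall] at ha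
      obtain ⟨i, hi⟩ := ha
      exact Finset.prod_eq_zero (Finset.mem_univ i) (Set.indicator_of_notMem hi _)
  rw [h1, integral_indicator_const _ (MeasurableSet.iInter hs)]
  simp

/-- the limit joining in the integral form -/
theorem exists_isLim_integral (r : Ultrafilter (ι → ℤ)) (A : Sys) :
    ∃ L : Measure (ι → A.C), IsProbabilityMeasure L ∧ ∀ f : ι → A.C → ℂ, (∀ i, Bdd (f i)) →
      Tendsto (fun t : ι → ℤ => ∫ a, ∏ i, f i (iter A.S (t i) a) ∂A.μ) r
        (𝓝 (∫ d, ∏ i, f i (d i) ∂L)) := by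
  classical
  let m : (ι → ℤ) → A.C → (ι → A.C) := fun t a i => iter A.S (t i) a
  have hm : ∀ t, Measurable (m t) := fun t =>
    measurable_pi_lambda _ fun i => measurable_iter A.S (t i)
  let P : (ι → ℤ) → Measure (ι → A.C) := fun t => A.μ.map (m t)
  have hPp : ∀ t, IsProbabilityMeasure (P t) := fun t =>
    Measure.isProbabilityMeasure_map (hm t).aemeasurable
  obtain ⟨L, hL, -, hL3⟩ := LJ.exists_limJoin (fun _ : ι => A.C) r (fun _ => A.μ) P
    (hPp := hPp) (by
      intro i
      refine Eventually.of_forall fun t => ?_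
      rw [Measure.map_map (measurable_pi_apply i) (hm t)]
      exact (iter_mp A.S A.mp (t i)).map_eq)
  refine ⟨L, hL, fun f hf => ?_⟩
  have h1 := hL3 Finset.univ f (fun i => hf i)
  refine h1.congr fun t => ?_
  have h2 : ∫ ω, ∏ i, f i (ω i) ∂(P t) = ∫ a, ∏ i, f i (m t a i) ∂A.μ := by
    simp only [P]
    rw [integral_map (hm t).aemeasurable]
    exact (Bdd.prod Finset.univ (f := fun i (ω : ι → A.C) => f i (ω i))
      (fun i _ => (hf i).comp (measurable_pi_apply i))).1.aestronglyMeasurable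
  exact h2

theorem isLim_of_integral {r : Ultrafilter (ι → ℤ)} {A : Sys} {L : Measure (ι → A.C)}
    (hL : IsProbabilityMeasure L) (h : ∀ f : ι → A.C → ℂ, (∀ i, Bdd (f i)) →
      Tendsto (fun t : ι → ℤ => ∫ a, ∏ i, f i (iter A.S (t i) a) ∂A.μ) r
        (𝓝 (∫ d, ∏ i, f i (d i) ∂L))) : IsLim r A L := by
  refine ⟨hL, fun s hs => ?_⟩
  have h1 := h (fun i => (s i).indicator 1) (fun i => Bdd.indicator (hs i))
  have h2 : ∀ t : ι → ℤ, ∫ a, ∏ i, (s i).indicator (1 : A.C → ℂ) (iter A.S (t i) a) ∂A.μ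
      = ((A.μ.real (⋂ i, iter A.S (t i) ⁻¹' s i) : ℝ) : ℂ) := by
    intro t
    exact integral_prod_indicator A.μ (fun i => iter A.S (t i) ⁻¹' s i)
      (fun i => measurable_iter A.S (t i) (hs i))
  have h3 : ∫ d, ∏ i, (s i).indicator (1 : A.C → ℂ) (d i) ∂L
      = ((L.real (Set.univ.pi s) : ℝ) : ℂ) := by
    have := integral_prod_indicator L (fun i => (fun d : ι → A.C => d i) ⁻¹' s i)
      (fun i => measurable_pi_apply i (hs i))
    rw [show (Set.univ.pi s) = ⋂ i, (fun d : ι → A.C => d i) ⁻¹' s i by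
      ext d; simp [Set.mem_pi]]
    exact this
  rw [h3] at h1
  simp only [h2] at h1
  have h4 : Tendsto (fun t : ι → ℤ => A.μ.real (⋂ i, iter A.S (t i) ⁻¹' s i)) r
      (𝓝 (L.real (Set.univ.pi s))) := by
    have h6 := (Complex.continuous_re.tendsto _).comp h1
    rw [Complex.ofReal_re] at h6
    refine h6.congr fun t => ?_
    exact Complex.ofReal_re _
  have h5 := ENNReal.tendsto_ofReal h4
  simpa [Measure.real, ENNReal.ofReal_toReal (measure_ne_top _ _)] using h5

theorem exists_isLim (r : Ultrafilter (ι → ℤ)) (A : Sys) : ∃ L, IsLim r A L := by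
  obtain ⟨L, hL, h⟩ := exists_isLim_integral r A
  exact ⟨L, isLim_of_integral hL h⟩

theorem isLim_limM (r : Ultrafilter (ι → ℤ)) (A : Sys) : IsLim r A (limM r A) :=
  limM_isLim (exists_isLim r A)

/-- two probability measures with the same values on boxes are equal -/
theorem ext_pi_box {κ : Type*} [Fintype κ] {V : κ → Type*} [∀ i, MeasurableSpace (V i)]
    {L L' : Measure (∀ i, V i)} [IsProbabilityMeasure L] [IsProbabilityMeasure L']
    (h : ∀ s : ∀ i, Set (V i), (∀ i, MeasurableSet (s i)) →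
      L (Set.univ.pi s) = L' (Set.univ.pi s)) : L = L' := by
  refine (ext_of_generate_finite _ generateFrom_pi.symm isPiSystem_pi ?_ ?_)
  · rintro _ ⟨s, hs, rfl⟩
    exact h s fun i => hs i (Set.mem_univ i)
  · simp

theorem IsLim.unique {r : Ultrafilter (ι → ℤ)} {A : Sys} {L L' : Measure (ι → A.C)}
    (h : IsLim r A L) (h' : IsLim r A L') : L = L' := by
  have := h.1
  have := h'.1
  exact ext_pi_box fun s hs => tendsto_nhds_unique (h.2 s hs) (h'.2 s hs)

/-- **Integral form** of the limit joining. -/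
theorem tendsto_limM (r : Ultrafilter (ι → ℤ)) (A : Sys) (f : ι → A.C → ℂ)
    (hf : ∀ i, Bdd (f i)) :
    Tendsto (fun t : ι → ℤ => ∫ a, ∏ i, f i (iter A.S (t i) a) ∂A.μ) r
      (𝓝 (∫ d, ∏ i, f i (d i) ∂(D r A).μ)) := by
  obtain ⟨L, hL, h⟩ := exists_isLim_integral r A
  have h1 : L = limM r A := (isLim_of_integral hL h).unique (isLim_limM r A)
  rw [h1] at h
  exact h f hf

/-- integral form with a finite set of slots -/
theorem tendsto_limM_finset (r : Ultrafilter (ι → ℤ)) (A : Sys) (s : Finset ι) (f : ι → A.C → ℂ)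
    (hf : ∀ i ∈ s, Bdd (f i)) :
    Tendsto (fun t : ι → ℤ => ∫ a, ∏ i ∈ s, f i (iter A.S (t i) a) ∂A.μ) r
      (𝓝 (∫ d, ∏ i ∈ s, f i (d i) ∂(D r A).μ)) := by
  classical
  have h1 := tendsto_limM r A (fun i => if i ∈ s then f i else fun _ => 1) (by
    intro i
    by_cases hi : i ∈ s
    · simpa [hi] using hf i hi
    · simpa [hi] using Bdd.const (1 : ℂ))
  have h2 : ∀ g : ι → A.C, ∏ i, (if i ∈ s then f i else fun _ => 1) (g i) = ∏ i ∈ s, f i (g i) := by
    intro g
    rw [← Finset.prod_filter_mul_prod_filter_not Finset.univ (fun i => i ∈ s)]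
    rw [Finset.prod_congr rfl (g := fun i => f i (g i)) (by
      intro i hi
      rw [Finset.mem_filter] at hi
      rw [if_pos hi.2])]
    rw [Finset.prod_eq_one (s := Finset.univ.filter fun i => ¬ i ∈ s) (by
      intro i hi
      rw [Finset.mem_filter] at hi
      rw [if_neg hi.2])]
    rw [mul_one]
    congr 1
    ext i; simp
  simp only [h2] at h1
  exact h1

/-! ### Marginals, functoriality, rows and columns -/

theorem limM_map_eval (r : Ultrafilter (ι → ℤ)) (A : Sys) (i : ι) :
    (limM r A).map (fun d => d i) = A.μ := by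
  classical
  ext s hs
  rw [Measure.map_apply (measurable_pi_apply i) hs]
  have h := (isLim_limM r A).2 (fun j => if j = i then s else Set.univ) (by
    intro j; split_ifs
    · exact hs
    · exact MeasurableSet.univ)
  have h1 : (Set.univ.pi fun j => if j = i then s else Set.univ) = (fun d : ι → A.C => d i) ⁻¹' s := by
    ext d
    simp only [Set.mem_pi, Set.mem_univ, true_implies, Set.mem_preimage]
    constructor
    · intro h; simpa using h i
    · intro h j; by_cases hj : j = i
      · subst hj; simpa using h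
      · simp [hj]
  rw [h1] at h
  have h2 : ∀ t : ι → ℤ, A.μ (⋂ j, iter A.S (t j) ⁻¹' (if j = i then s else Set.univ)) = A.μ s := by
    intro t
    have h3 : (⋂ j, iter A.S (t j) ⁻¹' (if j = i then s else Set.univ)) = iter A.S (t i) ⁻¹' s := by
      ext a
      simp only [Set.mem_iInter, Set.mem_preimage]
      constructor
      · intro h; simpa using h i
      · intro h j; by_cases hj : j = i
        · subst hj; simpa using h
        · simp [hj]
    rw [h3]
    exact (iter_mp A.S A.mp (t i)).measure_preimage hs.nullMeasurableSet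
  simp only [h2] at h
  exact (tendsto_nhds_unique h tendsto_const_nhds)

/-- the coordinate maps `D r A → A` -/
noncomputable def evF (r : Ultrafilter (ι → ℤ)) (A : Sys) (i : ι) : Fac (D r A) A where
  f := fun d => d i
  mp := ⟨measurable_pi_apply i, limM_map_eval r A i⟩
  eqv := fun _ => rfl

/-- the law of `(p (d i))_i` -/
theorem limM_map (r : Ultrafilter (ι → ℤ)) {A B : Sys} (p : Fac A B) :
    (limM r A).map (fun d i => p.f (d i)) = limM r B := by
  have hm : Measurable (fun (d : ι → A.C) i => p.f (d i)) :=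
    measurable_pi_lambda _ fun i => p.meas.comp (measurable_pi_apply i)
  have hp : IsProbabilityMeasure ((limM r A).map (fun d i => p.f (d i))) :=
    Measure.isProbabilityMeasure_map hm.aemeasurable
  refine IsLim.unique (r := r) (A := B) ⟨hp, fun s hs => ?_⟩ (isLim_limM r B)
  rw [Measure.map_apply hm (MeasurableSet.univ_pi hs)]
  have h1 : (fun (d : ι → A.C) i => p.f (d i)) ⁻¹' Set.univ.pi s
      = Set.univ.pi fun i => p.f ⁻¹' s i := by
    ext d; simp [Set.mem_pi]
  rw [h1]
  refine ((isLim_limM r A).2 (fun i => p.f ⁻¹' s i) (fun i => p.meas (hs i))).congr fun t => ?_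
  rw [← p.mp.measure_preimage (MeasurableSet.iInter fun i =>
    measurable_iter B.S (t i) (hs i)).nullMeasurableSet]
  congr 1
  ext a
  simp only [Set.mem_iInter, Set.mem_preimage, Fac.iter]

/-- functoriality of `D r` -/
noncomputable def Fac.D {A B : Sys} (p : Fac A B) (r : Ultrafilter (ι → ℤ)) : Fac (RM.D r A) (RM.D r B) where
  f := fun d i => p.f (d i)
  mp := ⟨measurable_pi_lambda _ fun i => p.meas.comp (measurable_pi_apply i), limM_map r p⟩
  eqv := fun d => by
    funext i
    exact p.eqv (d i)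

@[simp] theorem Fac.D_apply {A B : Sys} (p : Fac A B) (r : Ultrafilter (ι → ℤ)) (d : ι → A.C)
    (i : ι) : (p.D r).f d i = p.f (d i) := rfl

@[simp] theorem evF_apply (r : Ultrafilter (ι → ℤ)) (A : Sys) (i : ι) (d : ι → A.C) :
    (evF r A i).f d = d i := rfl

/-- row `o` of the grid `D r (D r A)` (points `d o j`, `o` outer, `j` inner) -/
noncomputable def rowF (r : Ultrafilter (ι → ℤ)) (A : Sys) (o : ι) : Fac (D r (D r A)) (D r A) :=
  evF r (D r A) o

/-- column `j` of the grid `D r (D r A)` -/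
noncomputable def colF (r : Ultrafilter (ι → ℤ)) (A : Sys) (j : ι) : Fac (D r (D r A)) (D r A) :=
  (evF r A j).D r

@[simp] theorem rowF_apply (r : Ultrafilter (ι → ℤ)) (A : Sys) (o : ι) (d : ι → ι → A.C) (j : ι) :
    (rowF r A o).f d j = d o j := rfl

@[simp] theorem colF_apply (r : Ultrafilter (ι → ℤ)) (A : Sys) (j : ι) (d : ι → ι → A.C) (o : ι) :
    (colF r A j).f d o = d o j := rfl

/-! ### Products -/

/-- `D r (A × B) = D r A × D r B`: lines of independent factors are independent. -/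
theorem indep_D (r : Ultrafilter (ι → ℤ)) {Z A B : Sys} (x : Fac Z A) (y : Fac Z B)
    (h : IndepFun x.f y.f Z.μ) : IndepFun (x.D r).f (y.D r).f (D r Z).μ := by
  have hx := (x.D r).meas
  have hy := (y.D r).meas
  rw [indepFun_iff_map_prod_eq_prod_map_map hx.aemeasurable hy.aemeasurable, (x.D r).mp.map_eq,
    (y.D r).mp.map_eq]
  -- compare on products of boxes
  have hp : IsProbabilityMeasure ((D r Z).μ.map fun d => ((x.D r).f d, (y.D r).f d)) :=
    Measure.isProbabilityMeasure_map (hx.prodMk hy).aemeasurable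
  have hgA : (inferInstance : MeasurableSpace (ι → A.C)) = MeasurableSpace.generateFrom
      (Set.pi Set.univ '' Set.pi Set.univ fun _ => {s : Set A.C | MeasurableSet s}) :=
    generateFrom_pi.symm
  have hgB : (inferInstance : MeasurableSpace (ι → B.C)) = MeasurableSpace.generateFrom
      (Set.pi Set.univ '' Set.pi Set.univ fun _ => {s : Set B.C | MeasurableSet s}) :=
    generateFrom_pi.symm
  symm
  refine Measure.prod_eq_generateFrom (C := Set.pi Set.univ '' Set.pi Set.univ fun _ => {s : Set A.C | MeasurableSet s})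
    (D := Set.pi Set.univ '' Set.pi Set.univ fun _ => {s : Set B.C | MeasurableSet s})
    generateFrom_pi generateFrom_pi isPiSystem_pi isPiSystem_pi ?_ ?_ ?_
  · refine ⟨fun _ => Set.univ, ?_, fun _ => measure_lt_top _ _, Set.iUnion_const _⟩
    intro _
    exact ⟨fun _ => Set.univ, by simp, by simp⟩
  · refine ⟨fun _ => Set.univ, ?_, fun _ => measure_lt_top _ _, Set.iUnion_const _⟩
    intro _
    exact ⟨fun _ => Set.univ, by simp, by simp⟩
  · rintro _ ⟨s, hs, rfl⟩ _ ⟨u, hu, rfl⟩
    have hs' : ∀ i, MeasurableSet (s i) := fun i => hs i (Set.mem_univ i)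
    have hu' : ∀ i, MeasurableSet (u i) := fun i => hu i (Set.mem_univ i)
    rw [Measure.map_apply (hx.prodMk hy) ((MeasurableSet.univ_pi hs').prod (MeasurableSet.univ_pi hu'))]
    have h1 : (fun d : ι → Z.C => ((x.D r).f d, (y.D r).f d)) ⁻¹' (Set.univ.pi s ×ˢ Set.univ.pi u)
        = Set.univ.pi fun i => x.f ⁻¹' s i ∩ y.f ⁻¹' u i := by
      ext d
      simp only [Set.mem_preimage, Set.mem_prod, Set.mem_pi, Set.mem_univ, true_implies,
        Fac.D_apply, Set.mem_inter_iff]
      exact ⟨fun h i => ⟨h.1 i, h.2 i⟩, fun h => ⟨fun i => (h i).1, fun i => (h i).2⟩⟩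
    rw [h1]
    have hz := (isLim_limM r Z).2 (fun i => x.f ⁻¹' s i ∩ y.f ⁻¹' u i)
      (fun i => (x.meas (hs' i)).inter (y.meas (hu' i)))
    have ha := (isLim_limM r A).2 s hs'
    have hb := (isLim_limM r B).2 u hu'
    have hab := ENNReal.Tendsto.mul ha (Or.inr (measure_ne_top _ _)) hb (Or.inr (measure_ne_top _ _))
    refine tendsto_nhds_unique hz (hab.congr fun t => ?_)
    have h2 : (⋂ i, iter Z.S (t i) ⁻¹' (x.f ⁻¹' s i ∩ y.f ⁻¹' u i))
        = x.f ⁻¹' (⋂ i, iter A.S (t i) ⁻¹' s i) ∩ y.f ⁻¹' (⋂ i, iter B.S (t i) ⁻¹' u i) := by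
      ext a
      simp only [Set.mem_iInter, Set.mem_preimage, Set.mem_inter_iff, Fac.iter]
      exact ⟨fun h => ⟨fun i => (h i).1, fun i => (h i).2⟩, fun h i => ⟨h.1 i, h.2 i⟩⟩
    have hmA : MeasurableSet (⋂ i, iter A.S (t i) ⁻¹' s i) :=
      MeasurableSet.iInter fun i => measurable_iter A.S (t i) (hs' i)
    have hmB : MeasurableSet (⋂ i, iter B.S (t i) ⁻¹' u i) :=
      MeasurableSet.iInter fun i => measurable_iter B.S (t i) (hu' i)
    rw [h2, h.measure_inter_preimage_eq_mul _ _ hmA hmB,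
      x.mp.measure_preimage hmA.nullMeasurableSet, y.mp.measure_preimage hmB.nullMeasurableSet]

/-- the grids of independent factors are independent -/
theorem indep_DD (r : Ultrafilter (ι → ℤ)) {Z A B : Sys} (x : Fac Z A) (y : Fac Z B)
    (h : IndepFun x.f y.f Z.μ) :
    IndepFun ((x.D r).D r).f ((y.D r).D r).f (D r (D r Z)).μ :=
  indep_D r _ _ (indep_D r x y h)

end lim

end Vale.Agent.P102.RM
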