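import Vale.Agent.P102.RM.Skeleton
import Vale.Agent.P102.RM.Functor
import Vale.Agent.P102.RM.AeMap
import Vale.Agent.P102.RM.Fib2

/-! P102, dynamic inputs of the block END (helper41). -/

namespace Vale.Agent.P102.RM

open MeasureTheory ProbabilityTheory Filter

section

variable {ι : Type} [Fintype ι]

/-- equivariance of the line kernel -/
theorem lineK_equiv (r : Ultrafilter (ι → ℤ)) {V Y : Sys} (y : Fac V Y) :
    ∀ᵐ η ∂(D r Y).μ, y.lineK r (fun i => Y.S (η i)) =
      (y.lineK r η).map (fun v i => V.S (v i)) := by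
  have hA : Measurable (fun (d : (D r V).C) (i : ι) => y.f (d i)) := (y.D r).mp.measurable
  have hτ : Measurable (fun (v : ι → V.C) (i : ι) => V.S (v i)) := (diag ι V).measurable
  have hmp : MeasurePreserving (fun (v : ι → V.C) (i : ι) => V.S (v i)) (D r V).μ (D r V).μ :=
    (D r V).mp
  have hlaw : (D r V).μ.map (fun d : (D r V).C => (diag ι Y (fun i => y.f (d i)),
      (fun (v : ι → V.C) (i : ι) => V.S (v i)) (id d))) =
      (D r V).μ.map (fun d : (D r V).C => ((fun i => y.f (d i)), id d)) := by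
    have h1 : (fun d : (D r V).C => (diag ι Y (fun i => y.f (d i)),
        (fun (v : ι → V.C) (i : ι) => V.S (v i)) (id d))) =
        (fun d : (D r V).C => ((fun i => y.f (d i)), id d)) ∘
          (fun (v : ι → V.C) (i : ι) => V.S (v i)) := by
      funext d
      simp only [Function.comp, id, Prod.mk.injEq, and_true]
      funext i
      simp [y.eqv]
    rw [h1, ← Measure.map_map (hA.prodMk measurable_id) hτ, hmp.map_eq]
  have h2 := condDistrib_equivariant (P := (D r V).μ) hA measurable_id (diag ι Y) hτ hlaw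
  rw [show (D r V).μ.map (fun (d : (D r V).C) (i : ι) => y.f (d i)) = (D r Y).μ from
    (y.D r).mp.map_eq] at h2
  filter_upwards [h2] with η hη
  exact hη

/-- a factor which is independent of the base keeps its law in almost every fibre -/
theorem lineK_map_indep (r : Ultrafilter (ι → ℤ)) {V Y X' : Sys} (y : Fac V Y) (ξ : Fac V X')
    (h : IndepFun ξ.f y.f V.μ) (q : ι) :
    ∀ᵐ η ∂(D r Y).μ, (y.lineK r η).map (fun v => ξ.f (v q)) = X'.μ := by
  have hA : Measurable (fun (d : (D r V).C) (i : ι) => y.f (d i)) := (y.D r).mp.measurable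
  have h1 : IndepFun (ξ.D r).f (y.D r).f (D r V).μ := indep_D r ξ y h
  have hB : Measurable (fun (v : ι → V.C) => ξ.f (v q)) := ξ.meas.comp (measurable_pi_apply q)
  have h2 : IndepFun (fun (d : (D r V).C) (i : ι) => y.f (d i))
      (fun d : (D r V).C => ξ.f (d q)) (D r V).μ :=
    h1.symm.comp (φ := id) (ψ := fun e : ι → X'.C => e q) measurable_id (measurable_pi_apply q)
  have h3 : (D r V).μ.map (fun d : (D r V).C => ξ.f (d q)) = X'.μ := by
    have := (ξ.mp.comp (evF r V q).mp).map_eq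
    exact this
  have h4 : (D r V).μ.map (fun d : (D r V).C => ((fun i => y.f (d i)), ξ.f (d q))) =
      (D r V).μ.map (fun (d : (D r V).C) (i : ι) => y.f (d i)) ⊗ₘ Kernel.const _ X'.μ := by
    rw [(indepFun_iff_map_prod_eq_prod_map_map hA.aemeasurable hB.aemeasurable).1 h2, h3,
      Measure.compProd_const]
  have h5 := condDistrib_ae_eq_of_measure_eq_compProd (μ := (D r V).μ)
    (fun (d : (D r V).C) (i : ι) => y.f (d i)) hB.aemeasurable h4
  have h6 := condDistrib_comp (μ := (D r V).μ) (mβ := MeasurableSpace.pi)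
    (fun (d : (D r V).C) (i : ι) => y.f (d i))
    (Y := (_root_.id : (D r V).C → (ι → V.C))) measurable_id.aemeasurable hB
  rw [show (D r V).μ.map (fun (d : (D r V).C) (i : ι) => y.f (d i)) = (D r Y).μ from
    (y.D r).mp.map_eq] at h5 h6
  filter_upwards [h5, h6] with η h7 h8
  have h9 : (y.lineK r η).map (fun v => ξ.f (v q)) =
      ((condDistrib (_root_.id : (D r V).C → (ι → V.C))
        (fun (d : (D r V).C) (i : ι) => y.f (d i)) (D r V).μ).map
          (fun v : ι → V.C => ξ.f (v q))) η := by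
    rw [Kernel.map_apply _ hB]; rfl
  rw [h9, ← h8]
  exact h7

variable [DecidableEq ι]

/-- the exact part of `X` is independent of the base -/
theorem ExF.indep {X : Sys} {P : Adm X} {r : Ultrafilter (ι → ℤ)} {p q : ι} (F : ExF P r p q) :
    IndepFun F.xi.f F.E.y.f F.E.V.μ := by
  have h1 : IndepFun (F.ax.f ∘ P.x.f) P.y.f P.W.μ :=
    P.ind.comp (φ := F.ax.f) (ψ := id) F.ax.meas measurable_id
  have h2 : IndepFun (fun w => F.xi.f (F.e.f w)) (fun w => F.E.y.f (F.e.f w)) P.W.μ := by
    refine IndepFun.congr h1 ?_ ?_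
    · filter_upwards [F.hxi] with w hw using hw.symm
    · exact Eventually.of_forall fun w => (F.hy w).symm
  rw [indepFun_iff_map_prod_eq_prod_map_map F.xi.meas.aemeasurable F.E.y.meas.aemeasurable]
  have h3 := (indepFun_iff_map_prod_eq_prod_map_map (F.xi.meas.comp F.e.meas).aemeasurable
    (F.E.y.meas.comp F.e.meas).aemeasurable).1 h2
  rw [← F.e.mp.map_eq, Measure.map_map (F.xi.meas.prodMk F.E.y.meas) F.e.meas,
    Measure.map_map F.xi.meas F.e.meas, Measure.map_map F.E.y.meas F.e.meas]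
  exact h3

theorem ExF.lineK_xi {X : Sys} {P : Adm X} {r : Ultrafilter (ι → ℤ)} {p q : ι}
    (F : ExF P r p q) : ∀ᵐ η ∂(D r P.Y).μ,
      MeasurePreserving F.xi.f ((F.E.y.lineK r η).map fun v => v q) F.Xe.μ := by
  filter_upwards [lineK_map_indep r F.E.y F.xi F.indep q] with η hη
  refine ⟨F.xi.meas, ?_⟩
  rw [Measure.map_map F.xi.meas (measurable_pi_apply q)]
  exact hη

omit [DecidableEq ι] in
/-- choice of two good lines -/
theorem exists_two_lines (r : Ultrafilter (ι → ℤ)) {Y : Sys} {Good : (ι → Y.C) → Prop}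
    {R : (ι → Y.C) → (ι → Y.C) → Prop} (hG : ∀ᵐ η ∂(D r Y).μ, Good η)
    (hR : ∀ᵐ η ∂(D r Y).μ, ∀ᵐ η' ∂(D r Y).μ, R η η') :
    ∃ η η', Good η ∧ Good (fun i => Y.S (η i)) ∧ Good η' ∧ R η η' ∧
      R (fun i => Y.S (η i)) η' := by
  have hS : MeasurePreserving (fun (η : ι → Y.C) (i : ι) => Y.S (η i)) (D r Y).μ (D r Y).μ :=
    (D r Y).mp
  have h1 := hS.quasiMeasurePreserving.ae hG
  have h2 := hS.quasiMeasurePreserving.ae hR
  obtain ⟨η, ⟨⟨h3, h4⟩, h5⟩, h6⟩ := (((hG.and h1).and hR).and h2).exists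
  obtain ⟨η', ⟨h7, h8⟩, h9⟩ := ((h5.and h6).and hG).exists
  exact ⟨η, η', h3, h4, h9, h7, h8⟩

end

end Vale.Agent.P102.RM
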