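import Mathlib.Probability.Kernel.CondDistrib
import Mathlib.Probability.Kernel.Composition.Lemmas
import Mathlib.MeasureTheory.Constructions.Polish.Basic
import Mathlib.MeasureTheory.Constructions.Pi
import Mathlib.MeasureTheory.Function.ConditionalExpectation.Real
import Mathlib.MeasureTheory.Function.AEEqFun
import Mathlib.Analysis.Complex.Circle
import Mathlib.Analysis.SpecialFunctions.Complex.CircleMap
import Mathlib.Dynamics.Ergodic.MeasurePreserving
import Mathlib.Probability.Independence.Basic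
import Mathlib.MeasureTheory.Constructions.Polish.EmbeddingReal

/-!
P102 (Rokhlin multiple mixing), campaign RM. Definitions shared by all blocks.
DO NOT EDIT without telling helper4.
-/

namespace Vale.Agent.P102.RM

open MeasureTheory Filter Topology ProbabilityTheory

/-! ### Systems and factor maps -/

/-- integer powers of a measurable equivalence, as functions -/
def iter {Ω : Type*} [MeasurableSpace Ω] (T : Ω ≃ᵐ Ω) (n : ℤ) : Ω → Ω :=
  ((T.toEquiv ^ n : Equiv.Perm Ω) : Ω → Ω)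

/-- bounded measurable complex functions -/
def Bdd {Ω : Type*} [MeasurableSpace Ω] (f : Ω → ℂ) : Prop :=
  Measurable f ∧ ∃ C : ℝ, ∀ a, ‖f a‖ ≤ C

/-- measurable unimodular functions -/
def Uni {Ω : Type*} [MeasurableSpace Ω] (f : Ω → ℂ) : Prop :=
  Measurable f ∧ ∀ a, ‖f a‖ = 1

/-- an invertible probability preserving system on a standard Borel space (in `Type`) -/
structure Sys where
  C : Type
  [mC : MeasurableSpace C]
  [sC : StandardBorelSpace C]
  μ : Measure C
  [pμ : IsProbabilityMeasure μ]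
  S : C ≃ᵐ C
  mp : MeasurePreserving S μ μ

attribute [instance] Sys.mC Sys.sC Sys.pμ

instance Sys.instNonempty (A : Sys) : Nonempty A.C := nonempty_of_isProbabilityMeasure A.μ

/-- factor maps (equivariant everywhere) -/
structure Fac (A B : Sys) where
  f : A.C → B.C
  mp : MeasurePreserving f A.μ B.μ
  eqv : ∀ a, f (A.S a) = B.S (f a)

theorem Fac.meas {A B : Sys} (p : Fac A B) : Measurable p.f := p.mp.measurable

/-- identity and composition -/
def Fac.id (A : Sys) : Fac A A := ⟨_root_.id, MeasurePreserving.id A.μ, fun _ => rfl⟩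

def Fac.comp {A B C : Sys} (q : Fac B C) (p : Fac A B) : Fac A C :=
  ⟨q.f ∘ p.f, q.mp.comp p.mp, fun a => by simp [p.eqv, q.eqv]⟩

/-- the image of a system under an equivariant measurable map -/
@[reducible] noncomputable def Sys.image (A : Sys) (B : Type) [MeasurableSpace B] [StandardBorelSpace B] (β : A.C → B)
    (hβ : Measurable β) (R : B ≃ᵐ B) (h : ∀ a, β (A.S a) = R (β a)) : Sys where
  C := B
  μ := A.μ.map β
  pμ := Measure.isProbabilityMeasure_map hβ.aemeasurable
  S := R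
  mp := by
    refine ⟨R.measurable, ?_⟩
    rw [Measure.map_map R.measurable hβ]
    have : (R ∘ β) = β ∘ A.S := by funext a; simp [h]
    rw [this, ← Measure.map_map hβ A.S.measurable, A.mp.map_eq]

noncomputable def Sys.imageFac (A : Sys) (B : Type) [MeasurableSpace B] [StandardBorelSpace B] (β : A.C → B)
    (hβ : Measurable β) (R : B ≃ᵐ B) (h : ∀ a, β (A.S a) = R (β a)) :
    Fac A (A.image B β hβ R h) where
  f := β
  mp := ⟨hβ, rfl⟩
  eqv := h

/-! ### Limit joinings -/

section lim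
variable {ι : Type} [Fintype ι]

/-- `L` is the limit law of `(S^{t i} a)_i` along the ultrafilter `r` of times -/
def IsLim (r : Ultrafilter (ι → ℤ)) (A : Sys) (L : Measure (ι → A.C)) : Prop :=
  IsProbabilityMeasure L ∧ ∀ s : ι → Set A.C, (∀ i, MeasurableSet (s i)) →
    Tendsto (fun t : ι → ℤ => A.μ (⋂ i, iter A.S (t i) ⁻¹' s i)) r (𝓝 (L (Set.univ.pi s)))

open Classical in
/-- the limit joining (junk value: the product measure, never used) -/
noncomputable def limM (r : Ultrafilter (ι → ℤ)) (A : Sys) : Measure (ι → A.C) :=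
  if h : ∃ L, IsLim r A L then h.choose else Measure.pi fun _ => A.μ

theorem limM_isLim {r : Ultrafilter (ι → ℤ)} {A : Sys} (h : ∃ L, IsLim r A L) :
    IsLim r A (limM r A) := by
  unfold limM; rw [dif_pos h]; exact h.choose_spec

instance limM_prob (r : Ultrafilter (ι → ℤ)) (A : Sys) : IsProbabilityMeasure (limM r A) := by
  unfold limM
  split_ifs with h
  · exact h.choose_spec.1
  · infer_instance

/-- the diagonal automorphism of `ι → A.C` -/
def diag (ι : Type) (A : Sys) : (ι → A.C) ≃ᵐ (ι → A.C) :=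
  MeasurableEquiv.piCongrRight fun _ => A.S

omit [Fintype ι] in
@[simp] theorem diag_apply (A : Sys) (d : ι → A.C) (i : ι) : diag ι A d i = A.S (d i) := rfl

theorem iter_comp_S {Ω : Type*} [MeasurableSpace Ω] (T : Ω ≃ᵐ Ω) (n : ℤ) (a : Ω) :
    iter T n (T a) = T (iter T n a) := by
  have h1 : (T.toEquiv ^ n : Equiv.Perm Ω) * (T.toEquiv : Equiv.Perm Ω)
      = (T.toEquiv : Equiv.Perm Ω) * (T.toEquiv ^ n : Equiv.Perm Ω) := by
    rw [← zpow_add_one, ← zpow_one_add, add_comm]
  exact congrArg (fun e : Equiv.Perm Ω => e a) h1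

theorem limM_inv (r : Ultrafilter (ι → ℤ)) (A : Sys) :
    MeasurePreserving (diag ι A) (limM r A) (limM r A) := by
  refine ⟨(diag ι A).measurable, ?_⟩
  by_cases h : ∃ L, IsLim r A L
  · have hL := limM_isLim h
    have hp : IsProbabilityMeasure ((limM r A).map (diag ι A)) :=
      Measure.isProbabilityMeasure_map (diag ι A).measurable.aemeasurable
    refine (ext_of_generate_finite _ generateFrom_pi.symm isPiSystem_pi ?_ ?_)
    · rintro _ ⟨s, hs, rfl⟩
      have hs' : ∀ i, MeasurableSet (s i) := fun i => hs i (Set.mem_univ i)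
      rw [Measure.map_apply (diag ι A).measurable (MeasurableSet.univ_pi hs')]
      have h1 : (diag ι A) ⁻¹' (Set.univ.pi s) = Set.univ.pi fun i => A.S ⁻¹' s i := by
        ext d; simp [Set.mem_pi]
      rw [h1]
      have h2 := hL.2 (fun i => A.S ⁻¹' s i) (fun i => A.S.measurable (hs' i))
      have h3 := hL.2 s hs'
      refine tendsto_nhds_unique h2 ?_
      convert h3 using 2
      rename_i t
      have h4 : (⋂ i, iter A.S (t i) ⁻¹' (A.S ⁻¹' s i)) = A.S ⁻¹' (⋂ i, iter A.S (t i) ⁻¹' s i) := by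
        ext a
        simp only [Set.mem_iInter, Set.mem_preimage, iter_comp_S]
      rw [h4]
      have hm : MeasurableSet (⋂ i, iter A.S (t i) ⁻¹' s i) := by
        refine MeasurableSet.iInter fun i => ?_
        have : Measurable (iter A.S (t i)) := by
          unfold iter
          induction t i using Int.induction_on with
          | zero => simpa using measurable_id
          | succ n ih =>
            rw [zpow_add_one, Equiv.Perm.coe_mul]
            exact ih.comp A.S.measurable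
          | pred n ih =>
            rw [zpow_sub_one, Equiv.Perm.coe_mul]
            exact ih.comp A.S.symm.measurable
        exact this (hs' i)
      exact A.mp.measure_preimage hm.nullMeasurableSet
    · simp
  · unfold limM
    rw [dif_neg h]
    exact (measurePreserving_pi (fun _ => A.μ) (fun _ => A.μ) (fun _ => A.mp)).map_eq

/-- `D r A`: the limit self-joining of the system `A` along `r` -/
@[reducible] noncomputable def D (r : Ultrafilter (ι → ℤ)) (A : Sys) : Sys where
  C := ι → A.C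
  μ := limM r A
  S := diag ι A
  mp := limM_inv r A

end lim

/-- all gaps tend to infinity along `r` -/
def Spread {ι : Type} (r : Ultrafilter (ι → ℤ)) : Prop :=
  ∀ i j, i ≠ j → Tendsto (fun t : ι → ℤ => t i - t j) r cofinite

/-! ### Conditional expectations as functions on the target -/

/-- conditional expectation of `F` given `g = y`, as a function of `y` -/
noncomputable def cE {Ω G : Type*} [MeasurableSpace Ω] [StandardBorelSpace Ω] [Nonempty Ω]
    [MeasurableSpace G] (μ : Measure Ω) [IsFiniteMeasure μ] (g : Ω → G) (F : Ω → ℂ) : G → ℂ :=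
  fun y => ∫ a, F a ∂(condDistrib id g μ y)

/-- `∫ |E[f | g]|²` -/
noncomputable def sqN {Ω G : Type*} [MeasurableSpace Ω] [MeasurableSpace G] (μ : Measure Ω)
    (g : Ω → G) (f : Ω → ℂ) : ℝ :=
  ∫ a, ‖(μ[f | MeasurableSpace.comap g inferInstance]) a‖ ^ 2 ∂μ

/-! ### Admissible pairs -/

/-- admissible pair over `X`: `W → X`, `W → Y` with `X` and `Y` independent inside `W` -/
structure Adm (X : Sys) where
  W : Sys
  Y : Sys
  x : Fac W X
  y : Fac W Y
  ind : IndepFun x.f y.f W.μ

/-- extensions of admissible pairs (compatibility with `X` only almost everywhere) -/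
structure Ext {X : Sys} (P' P : Adm X) where
  w : Fac P'.W P.W
  v : Fac P'.Y P.Y
  hx : ∀ᵐ a ∂P'.W.μ, P.x.f (w.f a) = P'.x.f a
  hy : ∀ a, P.y.f (w.f a) = v.f (P'.y.f a)

def Ext.refl {X : Sys} (P : Adm X) : Ext P P :=
  ⟨Fac.id _, Fac.id _, ae_of_all _ fun _ => rfl, fun _ => rfl⟩

def Ext.comp {X : Sys} {P'' P' P : Adm X} (e : Ext P' P) (e' : Ext P'' P') : Ext P'' P :=
  ⟨e.w.comp e'.w, e.v.comp e'.v, by
      filter_upwards [e'.hx, e'.w.mp.quasiMeasurePreserving.ae e.hx] with a h1 h2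
      rw [← h1, ← h2]; rfl,
    fun a => by simp [Fac.comp, e.hy, e'.hy]⟩

/-- the fibre measures of `A` over `B` -/
noncomputable def Fac.om {A B : Sys} (p : Fac A B) : Kernel B.C A.C :=
  condDistrib _root_.id p.f A.μ

instance {A B : Sys} (p : Fac A B) : IsMarkovKernel p.om := by unfold Fac.om; infer_instance

/-- `E[f | B]` as a function on `B` -/
noncomputable def Fac.ce {A B : Sys} (p : Fac A B) (f : A.C → ℂ) : B.C → ℂ :=
  fun y => ∫ w, f w ∂(p.om y)

variable {X : Sys}

/-- the functional `M` -/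
noncomputable def Adm.M (P : Adm X) (f : P.W.C → ℂ) : ℝ := sqN P.W.μ P.y.f f

/-- `M`-sated -/
def SatM (P : Adm X) : Prop :=
  ∀ (P' : Adm X) (e : Ext P' P) (f : P.W.C → ℂ), Bdd f → P'.M (f ∘ e.w.f) ≤ P.M f

section slots
variable {ι : Type} [Fintype ι] [DecidableEq ι]

/-- the point of `D r W` outside slot `s`, together with `y` at slot `s` -/
def Fac.side {V Y : Sys} (y : Fac V Y) (s : ι) (d : ι → V.C) : ({j : ι // j ≠ s} → V.C) × Y.C :=
  (fun j => d j, y.f (d s))

/-- the functional `N^s` -/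
noncomputable def Adm.N (P : Adm X) (r : Ultrafilter (ι → ℤ)) (s : ι) (f : P.W.C → ℂ) : ℝ :=
  sqN (D r P.W).μ (P.y.side s) (fun d : ι → P.W.C => f (d s))

/-- `N^s`-sated -/
def SatN (P : Adm X) (r : Ultrafilter (ι → ℤ)) (s : ι) : Prop :=
  ∀ (P' : Adm X) (e : Ext P' P) (f : P.W.C → ℂ), Bdd f → P'.N r s (f ∘ e.w.f) ≤ P.N r s f

/-- the algebra of functions which are exact in slot `s` -/
def Exa (P : Adm X) (r : Ultrafilter (ι → ℤ)) (s : ι) : Set (P.W.C → ℂ) :=
  {Φ | Bdd Φ ∧ ∃ g : ({j : ι // j ≠ s} → P.W.C) × P.Y.C → ℂ, Measurable g ∧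
    ∀ᵐ d ∂(D r P.W).μ, Φ (d s) = g (P.y.side s d)}

/-- conditional expectation in `D r A` given slot `t`, as a function on `A` -/
noncomputable def cl (r : Ultrafilter (ι → ℤ)) (A : Sys) (t : ι) (F : (ι → A.C) → ℂ) : A.C → ℂ :=
  cE (Ω := (D r A).C) (D r A).μ (fun d : ι → A.C => d t) F

/-- any `|ι| - 1` coordinates of `D r X` are independent -/
def KInd (r : Ultrafilter (ι → ℤ)) (X : Sys) : Prop :=
  ∀ (i0 : ι) (φ : ι → X.C → ℂ), (∀ i, Bdd (φ i)) →
    ∫ d, ∏ i ∈ Finset.univ.erase i0, φ i (d i) ∂(D r X).μ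
      = ∏ i ∈ Finset.univ.erase i0, ∫ x, φ i x ∂X.μ

/-- in `D r V` the points outside slot `s` are independent given all base points, with the own
fibre laws -/
def LineInd (r : Ultrafilter (ι → ℤ)) {V Y : Sys} (y : Fac V Y) (s : ι) : Prop :=
  ∀ (f : ι → V.C → ℂ) (h : (ι → Y.C) → ℂ), (∀ i, Bdd (f i)) → Bdd h →
    ∫ d, h (fun i => y.f (d i)) * ∏ j ∈ Finset.univ.erase s, f j (d j) ∂(D r V).μ
      = ∫ d, h (fun i => y.f (d i)) * ∏ j ∈ Finset.univ.erase s, y.ce (f j) (y.f (d j)) ∂(D r V).μ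

/-- in `D r (D r V)` the points outside row `s` and column `s'` are independent given all base
points, with the own fibre laws -/
def GridInd (r : Ultrafilter (ι → ℤ)) {V Y : Sys} (y : Fac V Y) (s s' : ι) : Prop :=
  ∀ (f : ι → ι → V.C → ℂ) (h : (ι → ι → Y.C) → ℂ), (∀ i j, Bdd (f i j)) → Bdd h →
    ∫ d, h (fun i j => y.f (d i j)) * ∏ i ∈ Finset.univ.erase s, ∏ j ∈ Finset.univ.erase s',
        f i j (d i j) ∂(D r (D r V)).μ
      = ∫ d, h (fun i j => y.f (d i j)) * ∏ i ∈ Finset.univ.erase s, ∏ j ∈ Finset.univ.erase s',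
        y.ce (f i j) (y.f (d i j)) ∂(D r (D r V)).μ

/-- a self-contained exact pair `V → Y` (exact in slots `p` and `q`) -/
structure EP (r : Ultrafilter (ι → ℤ)) (p q : ι) (Y : Sys) where
  V : Sys
  y : Fac V Y
  Rp : ({j : ι // j ≠ p} → V.C) × Y.C → V.C
  Rq : ({j : ι // j ≠ q} → V.C) × Y.C → V.C
  mRp : Measurable Rp
  mRq : Measurable Rq
  hRp : ∀ᵐ d ∂(D r V).μ, d p = Rp (y.side p d)
  hRq : ∀ᵐ d ∂(D r V).μ, d q = Rq (y.side q d)
  line : ∀ s, LineInd r y s
  grid : ∀ s s', GridInd r y s s'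

/-- the conditional law of a line `(v_i)_i` of `D r V` given its base line `(y_i)_i` -/
noncomputable def Fac.lineK (r : Ultrafilter (ι → ℤ)) {V Y : Sys} (y : Fac V Y) :
    Kernel (ι → Y.C) (ι → V.C) :=
  condDistrib (_root_.id : (D r V).C → (ι → V.C)) (fun (d : (D r V).C) (i : ι) => y.f (d i))
    (D r V).μ

/-- an exact factor of an admissible pair, together with the exact part of `X` and a witness that
the limit joining of the exact part of `X` is not the product -/
structure ExF {X : Sys} (P : Adm X) (r : Ultrafilter (ι → ℤ)) (p q : ι) where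
  E : EP r p q P.Y
  e : Fac P.W E.V
  hy : ∀ w, E.y.f (e.f w) = P.y.f w
  Xe : Sys
  ax : Fac X Xe
  xi : Fac E.V Xe
  hxi : ∀ᵐ w ∂P.W.μ, xi.f (e.f w) = ax.f (P.x.f w)
  nt : ∃ φ : ι → Xe.C → ℂ, (∀ i, Bdd (φ i)) ∧ (∀ i, ∫ x, φ i x ∂Xe.μ = 0) ∧
    ∫ d, ∏ i, φ i (d i) ∂(D r Xe).μ ≠ 0

/-! ### Static notions for one line law `K` on `ι → V` -/

section static
variable {V X' : Type} [MeasurableSpace V] [MeasurableSpace X']

/-- any `|ι| - 1` coordinates are independent under `K` -/
def KI (K : Measure (ι → V)) : Prop :=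
  ∀ s : ι, K.map (fun (v : ι → V) (j : {j : ι // j ≠ s}) => v j)
    = Measure.pi fun j : {j : ι // j ≠ s} => K.map (fun v : ι → V => v j)

/-- characters in slot `q`: unimodular functions `F` with `F(v_q) = F₁(v_p) F₂(v_j, j ≠ p,q)` -/
def SChar (K : Measure (ι → V)) (p q : ι) : Set (V → ℂ) :=
  {F | Uni F ∧ ∃ (F1 : V → ℂ) (F2 : ({j : ι // j ≠ p ∧ j ≠ q} → V) → ℂ), Uni F1 ∧ Uni F2 ∧
    ∀ᵐ v ∂K, F (v q) = F1 (v p) * F2 (fun j => v j)}

/-- the characters in slot `q` are total in `L²` of the `q`-marginal of `K` -/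
def Total (K : Measure (ι → V)) (p q : ι) : Prop :=
  ∀ f : V → ℂ, MemLp f 2 (K.map fun v => v q) →
    (∀ F ∈ SChar K p q, ∫ v, f v * (starRingEnd ℂ) (F v) ∂(K.map fun v => v q) = 0) →
    f =ᵐ[K.map fun v => v q] 0

/-- coefficients of functions on `X'` -/
noncomputable def acoef (m : Measure V) (ξ : V → X') (u : V →ₘ[m] Circle) (φ : X' → ℂ) : ℂ :=
  ∫ v, φ (ξ v) * (starRingEnd ℂ) ((u v : Circle) : ℂ) ∂m

/-- the group generated by the constants and the characters with a non zero coefficient -/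
noncomputable def GG (K : Measure (ι → V)) (p q : ι) (ξ : V → X') :
    Subgroup (V →ₘ[K.map fun v => v q] Circle) :=
  Subgroup.closure {u | (∃ z : Circle, u = AEEqFun.const _ z) ∨
    ∃ F ∈ SChar K p q, (∀ᵐ v ∂(K.map fun v => v q), ((u v : Circle) : ℂ) = F v) ∧
      ∃ φ : X' → ℂ, Bdd φ ∧ acoef (K.map fun v => v q) ξ u φ ≠ 0}

/-- coefficient preserving isomorphism of the groups of two line laws -/
def PIso (K K' : Measure (ι → V)) (p q : ι) (ξ : V → X') : Prop :=
  ∃ θ : GG K p q ξ ≃* GG K' p q ξ,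
    (∀ (u : GG K p q ξ) (z : Circle), (u : V →ₘ[K.map fun v => v q] Circle) = AEEqFun.const _ z →
      (θ u : V →ₘ[K'.map fun v => v q] Circle) = AEEqFun.const _ z) ∧
    ∀ (u : GG K p q ξ) (φ : X' → ℂ), Bdd φ →
      acoef (K'.map fun v => v q) ξ (θ u : V →ₘ[K'.map fun v => v q] Circle) φ
        = acoef (K.map fun v => v q) ξ (u : V →ₘ[K.map fun v => v q] Circle) φ

end static

/-- two copies of an exact pair inside a second (sated) pair -/
structure PD {X : Sys} {P : Adm X} {r : Ultrafilter (ι → ℤ)} {p q : ι} (F : ExF P r p q) where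
  Z : Sys
  Y0 : Sys
  y0 : Fac Z Y0
  f1 : Fac Z F.E.V
  f2 : Fac Z F.E.V
  v1 : Fac Y0 P.Y
  v2 : Fac Y0 P.Y
  h1 : ∀ z, F.E.y.f (f1.f z) = v1.f (y0.f z)
  h2 : ∀ z, F.E.y.f (f2.f z) = v2.f (y0.f z)
  hx : ∀ᵐ z ∂Z.μ, F.xi.f (f1.f z) = F.xi.f (f2.f z)
  indY : IndepFun v1.f v2.f Y0.μ
  ki : ∀ᵐ η ∂(D r Y0).μ, KI (y0.lineK r η)
  m1 : ∀ᵐ η ∂(D r Y0).μ, (y0.lineK r η).map (fun z i => f1.f (z i))
    = F.E.y.lineK r (fun i => v1.f (η i))
  m2 : ∀ᵐ η ∂(D r Y0).μ, (y0.lineK r η).map (fun z i => f2.f (z i))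
    = F.E.y.lineK r (fun i => v2.f (η i))

end slots

end Vale.Agent.P102.RM
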