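import Vale.Agent.P102.Defs
import Vale.Agent.P102.RM.Defs
import Vale.Agent.P102.SF.C.Spread

/-! Final use of the static theorem: the limit joining of the exact part of `X` is the product
for functions of mean zero. -/

namespace Vale.Agent.P102.SF

open MeasureTheory Filter Topology

variable {X G : Type*} [MeasurableSpace X] [MeasurableSpace G]

/-- the class of all bounded measurable functions -/
theorem cls_univ (T : X ≃ᵐ X) : Cls T {f : X → ℂ | BM f} where
  bm := fun _ h => h
  const := fun c => BM.const c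
  sub := fun _ hf _ hg => BM.sub hf hg
  mul := fun _ hf _ hg => BM.mul hf hg
  star := fun _ hf => BM.conj hf
  comp := fun _ hf => BM.comp hf T.measurable
  symm := fun _ hf => BM.comp hf T.symm.measurable

/-- a static structure is a static structure for the class of all bounded measurable functions -/
def Static.toC {A : Type*} [AddCommGroup A] {ω : Measure G} {T : X ≃ᵐ X} {x : G → X}
    (S : Static ω T x A) : StaticC {f : X → ℂ | BM f} ω T x A where
  e := S.e
  β := S.β
  meas := S.meas
  norm := S.norm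
  add := S.add
  orth := S.orth
  equiv := S.equiv

/-- the static theorem along an ultrafilter of time vectors -/
theorem Static.corr_spread {A : Type*} [AddCommGroup A] {ω : Measure G} [IsProbabilityMeasure ω]
    {T : X ≃ᵐ X} {x : G → X} (S : Static ω T x A) {μ : Measure X} [IsProbabilityMeasure μ]
    (hT : MeasurePreserving T μ μ) (hx : MeasurePreserving x ω μ)
    (hmix : Ext.MixingOfOrder μ T 2) {ι : Type*} [Fintype ι] (r : Ultrafilter (ι → ℤ))
    (hr : ∀ i j, i ≠ j → Tendsto (fun t : ι → ℤ => t i - t j) r cofinite)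
    (f : ι → X → ℂ) (hf : ∀ i, BM (f i)) (hs : ∀ i, S.Spanned (f i)) (l : ι)
    (h0 : ∫ y, f l y ∂μ = 0) :
    Tendsto (fun t : ι → ℤ => ∫ y, ∏ i, f i (Ext.iter T (t i) y) ∂μ) r (𝓝 0) :=
  S.toC.corr_spread hT hx (cls_univ T) hmix r hr f hf hs l h0

/-- the two definitions of mixing agree -/
theorem ext_mixing {μ : Measure X} {T : X ≃ᵐ X} {k : ℕ}
    (h : Vale.Agent.P102.MixingOfOrder μ T.toEquiv k) : Ext.MixingOfOrder μ T k := by
  intro A hA ε hε
  obtain ⟨N, hN⟩ := h A hA ε hε
  exact ⟨N, fun t ht => hN t fun i j hij => by have := ht i j hij; omega⟩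

/-- mixing passes to factors -/
theorem ext_mixing_factor {Y : Type*} [MeasurableSpace Y] {μ : Measure X} {ν : Measure Y}
    {T : X ≃ᵐ X} {R : Y ≃ᵐ Y} {k : ℕ} (h : Ext.MixingOfOrder μ T k) (a : X → Y)
    (ha : MeasurePreserving a μ ν) (he : ∀ x, a (T x) = R (a x)) : Ext.MixingOfOrder ν R k := by
  have hit : ∀ (n : ℤ) (x : X), a (Ext.iter T n x) = Ext.iter R n (a x) := by
    have hsym : ∀ x, a (T.symm x) = R.symm (a x) := by
      intro x
      apply R.injective
      rw [← he]; simp
    intro n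
    induction n using Int.induction_on with
    | zero => intro x; rw [Ext.iter_zero, Ext.iter_zero]
    | succ n ih =>
      intro x
      rw [Ext.iter_add, Ext.iter_add, ih, Ext.iter_one, Ext.iter_one, he]
    | pred n ih =>
      intro x
      rw [sub_eq_add_neg, Ext.iter_add, Ext.iter_add, ih, iter_neg_one_apply, iter_neg_one_apply,
        hsym]
  intro A hA ε hε
  obtain ⟨N, hN⟩ := h (fun i => a ⁻¹' A i) (fun i => ha.measurable (hA i)) ε hε
  refine ⟨N, fun t ht => ?_⟩
  have h1 := hN t ht
  have e1 : μ.real (⋂ i, Ext.iter T (t i) ⁻¹' (a ⁻¹' A i)) =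
      ν.real (⋂ i, Ext.iter R (t i) ⁻¹' A i) := by
    have hm : MeasurableSet (⋂ i, Ext.iter R (t i) ⁻¹' A i) :=
      MeasurableSet.iInter fun i => (Ext.measurable_iter R _) (hA i)
    have e2 : (⋂ i, Ext.iter T (t i) ⁻¹' (a ⁻¹' A i)) = a ⁻¹' (⋂ i, Ext.iter R (t i) ⁻¹' A i) := by
      ext x
      simp only [Set.mem_iInter, Set.mem_preimage, hit]
    rw [e2, measureReal_def, measureReal_def, ha.measure_preimage hm.nullMeasurableSet]
  have e3 : ∀ i, μ.real (a ⁻¹' A i) = ν.real (A i) := by
    intro i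
    rw [measureReal_def, measureReal_def, ha.measure_preimage (hA i).nullMeasurableSet]
  rw [e1] at h1
  simp_rw [e3] at h1
  exact h1

end Vale.Agent.P102.SF

namespace Vale.Agent.P102.RM

open MeasureTheory Filter Topology

/-- **END.** A static structure over the factor `Xe` of the mixing system `X`, whose span contains
all bounded functions, makes the limit joining of `Xe` trivial on functions of mean zero. -/
theorem end_static {X Xe : Sys} (ax : Fac X Xe)
    (hmix : Vale.Agent.P102.MixingOfOrder X.μ X.S.toEquiv 2)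
    {V : Type*} [MeasurableSpace V] (m : Measure V) [IsProbabilityMeasure m] (ξ : V → Xe.C)
    (hξ : MeasurePreserving ξ m Xe.μ) {A : Type*} [AddCommGroup A] (S : SF.Static m Xe.S ξ A)
    (hs : ∀ f : Xe.C → ℂ, SF.BM f → S.Spanned f) {ι : Type} [Fintype ι]
    (r : Ultrafilter (ι → ℤ)) (hr : Spread r) (φ : ι → Xe.C → ℂ) (hφ : ∀ i, Bdd (φ i)) (l : ι)
    (h0 : ∫ x, φ l x ∂Xe.μ = 0) (c : ℂ)
    (hlim : Tendsto (fun t : ι → ℤ => ∫ x, ∏ i, φ i (iter Xe.S (t i) x) ∂Xe.μ) r (𝓝 c)) :
    c = 0 := by
  have h1 : Ext.MixingOfOrder Xe.μ Xe.S 2 :=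
    SF.ext_mixing_factor (SF.ext_mixing hmix) ax.f ax.mp ax.eqv
  exact tendsto_nhds_unique hlim
    (S.corr_spread Xe.mp hξ h1 r hr φ hφ (fun i => hs _ (hφ i)) l h0)

end Vale.Agent.P102.RM
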