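import Mathlib.Probability.Kernel.CondDistrib
import Mathlib.MeasureTheory.SetAlgebra
import Mathlib.MeasureTheory.Constructions.Pi
import Mathlib.Probability.Kernel.Composition.MeasureCompProd

/-!
# P102: general facts on fibre measures (helper808)

* `ae_map_of_ae_comp`: almost sure statements about `f ω`, for ARBITRARY predicates, pass to the
  law of `f`.
* `ae_ae_of_ae_comp₂`: Fubini for arbitrary predicates of two independent variables.
* `ae_condDistrib_of_ae`, `ae_condDistrib_fibre`: a.s. statements on a.e. fibre.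
* `ae_condDistrib_eq_pi`: conditional independence with given fibre laws gives the product law on
  a.e. fibre.
-/

namespace Vale.Agent.P102.RM

open MeasureTheory ProbabilityTheory Set

variable {Ω Z V : Type*} [MeasurableSpace Ω] [MeasurableSpace Z] [MeasurableSpace V]

/-- a.s. statements about `(b ω, w ω)` hold on a.e. fibre (arbitrary predicates of the pair with
respect to the law of the pair). -/
theorem ae_condDistrib_of_ae_map [StandardBorelSpace V] [Nonempty V] (μ : Measure Ω)
    [IsFiniteMeasure μ] {b : Ω → Z} {w : Ω → V} (hw : Measurable w)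
    {P : Z → V → Prop} (h : ∀ᵐ p ∂(μ.map fun ω => (b ω, w ω)), P p.1 p.2) :
    ∀ᵐ z ∂(μ.map b), ∀ᵐ v ∂(condDistrib w b μ z), P z v := by
  rw [← compProd_map_condDistrib hw.aemeasurable] at h
  exact Measure.ae_ae_of_ae_compProd (p := fun p : Z × V => P p.1 p.2) h

/-- the fibre over `z` of `ω ↦ b ω` is carried by `{b = z}`. -/
theorem ae_condDistrib_id_eq [StandardBorelSpace Ω] [Nonempty Ω] [MeasurableEq Z]
    (μ : Measure Ω) [IsFiniteMeasure μ] {b : Ω → Z} (hb : Measurable b) :
    ∀ᵐ z ∂(μ.map b), ∀ᵐ ω ∂(condDistrib (fun ω : Ω => ω) b μ z), b ω = z := by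
  refine ae_condDistrib_of_ae_map μ (w := fun ω : Ω => ω) measurable_id
    (P := fun z ω => b ω = z) ?_
  have hm : Measurable fun ω : Ω => (b ω, ω) := hb.prodMk measurable_id
  have hs : MeasurableSet {p : Z × Ω | b p.2 = p.1} :=
    measurableSet_eq_fun (hb.comp measurable_snd) measurable_fst
  rw [ae_map_iff hm.aemeasurable hs]
  exact Filter.Eventually.of_forall fun ω => rfl

/-- a.s. statements, for ARBITRARY predicates, on a.e. fibre of `b`. -/
theorem ae_condDistrib_id_of_ae [StandardBorelSpace Ω] [Nonempty Ω]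
    (μ : Measure Ω) [IsFiniteMeasure μ] {b : Ω → Z} (hb : Measurable b)
    {Q : Ω → Prop} (h : ∀ᵐ ω ∂μ, Q ω) :
    ∀ᵐ z ∂(μ.map b), ∀ᵐ ω ∂(condDistrib (fun ω : Ω => ω) b μ z), Q ω := by
  refine ae_condDistrib_of_ae_map μ (w := fun ω : Ω => ω) measurable_id
    (P := fun _ ω => Q ω) ?_
  have hm : Measurable fun ω : Ω => (b ω, ω) := hb.prodMk measurable_id
  have h2 : ∀ᵐ ω ∂((μ.map fun ω => (b ω, ω)).map Prod.snd), Q ω := by
    rw [Measure.map_map measurable_snd hm]
    have : (Prod.snd ∘ fun ω : Ω => (b ω, ω)) = id := rfl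
    rw [this, Measure.map_id]
    exact h
  exact ae_of_ae_map measurable_snd.aemeasurable h2

/-- **AE-MAP.** For a standard Borel space `Ω`, a measurable map `f` and an ARBITRARY predicate
`Q`: if `Q (f ω)` holds for a.e. `ω`, then `Q z` holds for a.e. `z` with respect to the law of
`f`. -/
theorem ae_map_of_ae_comp [StandardBorelSpace Ω] [MeasurableEq Z]
    (μ : Measure Ω) [IsFiniteMeasure μ] {f : Ω → Z} (hf : Measurable f)
    (Q : Z → Prop) (h : ∀ᵐ ω ∂μ, Q (f ω)) : ∀ᵐ z ∂(μ.map f), Q z := by
  rcases isEmpty_or_nonempty Ω with hΩ | hΩ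
  · have : μ = 0 := Measure.eq_zero_of_isEmpty μ
    rw [this, Measure.map_zero]
    exact (ae_zero (α := Z)) ▸ Filter.eventually_bot
  · filter_upwards [ae_condDistrib_id_eq μ hf, ae_condDistrib_id_of_ae μ hf h] with z h1 h2
    have hne : (ae (condDistrib (fun ω : Ω => ω) f μ z)).NeBot := ae_neBot.2 (by
      intro h0
      have := measure_univ (μ := condDistrib (fun ω : Ω => ω) f μ z)
      rw [h0] at this
      simp at this)
    obtain ⟨ω, h3, h4⟩ := (h1.and h2).exists
    rw [← h3]
    exact h4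

/-- Fubini for arbitrary predicates of two independent maps. -/
theorem ae_ae_of_ae_comp₂ {Z' : Type*} [MeasurableSpace Z'] [StandardBorelSpace Ω]
    [MeasurableEq Z] [MeasurableEq Z']
    (μ : Measure Ω) [IsFiniteMeasure μ] {f : Ω → Z} {g : Ω → Z'} (hf : Measurable f)
    (hg : Measurable g) (ν : Measure Z) (ν' : Measure Z') [SFinite ν] [SFinite ν']
    (hlaw : μ.map (fun ω => (f ω, g ω)) = ν.prod ν')
    (Q : Z → Z' → Prop) (h : ∀ᵐ ω ∂μ, Q (f ω) (g ω)) :
    ∀ᵐ z ∂ν, ∀ᵐ z' ∂ν', Q z z' := by
  have hd : MeasurableEq (Z × Z') := by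
    constructor
    have : diagonal (Z × Z') =
        {p : (Z × Z') × (Z × Z') | p.1.1 = p.2.1} ∩ {p : (Z × Z') × (Z × Z') | p.1.2 = p.2.2} := by
      ext ⟨⟨a, b⟩, ⟨c, d⟩⟩
      simp [Prod.ext_iff]
    rw [this]
    exact (measurableSet_eq_fun (by fun_prop) (by fun_prop)).inter
      (measurableSet_eq_fun (by fun_prop) (by fun_prop))
  have h1 := ae_map_of_ae_comp μ (hf.prodMk hg) (fun p : Z × Z' => Q p.1 p.2) h
  rw [hlaw] at h1
  exact Measure.ae_ae_of_ae_prod h1

/-- a.s. statements about `(b ω, w ω)` on a.e. fibre of `w` given `b`, arbitrary predicates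
(standard Borel source). -/
theorem ae_condDistrib_of_ae [StandardBorelSpace Ω] [MeasurableEq Z] [StandardBorelSpace V]
    [Nonempty V] (μ : Measure Ω) [IsFiniteMeasure μ] {b : Ω → Z} {w : Ω → V}
    (hb : Measurable b) (hw : Measurable w)
    {P : Z → V → Prop} (h : ∀ᵐ ω ∂μ, P (b ω) (w ω)) :
    ∀ᵐ z ∂(μ.map b), ∀ᵐ v ∂(condDistrib w b μ z), P z v := by
  have hd : MeasurableEq (Z × V) := by
    constructor
    have : diagonal (Z × V) =
        {p : (Z × V) × (Z × V) | p.1.1 = p.2.1} ∩ {p : (Z × V) × (Z × V) | p.1.2 = p.2.2} := by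
      ext ⟨⟨a, b⟩, ⟨c, d⟩⟩
      simp [Prod.ext_iff]
    rw [this]
    exact (measurableSet_eq_fun (by fun_prop) (by fun_prop)).inter
      (measurableSet_eq_fun (by fun_prop) (by fun_prop))
  exact ae_condDistrib_of_ae_map μ hw
    (ae_map_of_ae_comp μ (hb.prodMk hw) (fun p : Z × V => P p.1 p.2) h)

section Pi

variable {ι : Type*} [Fintype ι] {W : ι → Type*} [∀ i, MeasurableSpace (W i)]

/-- **Fibre law.** If, given `b`, the `w i` are independent with laws `ν i (b ω)` (tested on
measurable rectangles), then on a.e. fibre the conditional law of `(w i)_i` is the product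
`Measure.pi (ν · z)`. -/
theorem ae_condDistrib_eq_pi [∀ i, StandardBorelSpace (W i)] [∀ i, Nonempty (W i)]
    (μ : Measure Ω) [IsFiniteMeasure μ] {b : Ω → Z} {w : ∀ i, Ω → W i} (hb : Measurable b)
    (hw : ∀ i, Measurable (w i)) (ν : ∀ i, Kernel Z (W i)) [∀ i, IsMarkovKernel (ν i)]
    (h : ∀ (s : ∀ i, Set (W i)) (t : Set Z), (∀ i, MeasurableSet (s i)) → MeasurableSet t →
      μ {ω | b ω ∈ t ∧ ∀ i, w i ω ∈ s i} = ∫⁻ ω in b ⁻¹' t, ∏ i, ν i (b ω) (s i) ∂μ) :
    ∀ᵐ z ∂(μ.map b), condDistrib (fun ω i => w i ω) b μ z = Measure.pi (fun i => ν i z) := by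
  classical
  have hW : Measurable (fun ω i => w i ω) := measurable_pi_lambda _ hw
  -- for a fixed rectangle
  have key : ∀ s : ∀ i, Set (W i), (∀ i, MeasurableSet (s i)) →
      ∀ᵐ z ∂(μ.map b), condDistrib (fun ω i => w i ω) b μ z (pi univ s) = ∏ i, ν i z (s i) := by
    intro s hs
    have hm1 : Measurable fun z => condDistrib (fun ω i => w i ω) b μ z (pi univ s) :=
      Kernel.measurable_coe _ (MeasurableSet.univ_pi hs)
    have hm2 : Measurable fun z => ∏ i, ν i z (s i) :=
      Finset.measurable_prod _ fun i _ => Kernel.measurable_coe _ (hs i)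
    refine ae_eq_of_forall_setLIntegral_eq_of_sigmaFinite hm1 hm2 ?_
    intro t ht _
    have e1 : ∫⁻ z in t, condDistrib (fun ω i => w i ω) b μ z (pi univ s) ∂(μ.map b)
        = (μ.map fun ω => (b ω, fun i => w i ω)) (t ×ˢ pi univ s) := by
      rw [← compProd_map_condDistrib hW.aemeasurable,
        Measure.compProd_apply_prod ht (MeasurableSet.univ_pi hs)]
    rw [e1, Measure.map_apply (hb.prodMk hW) (ht.prod (MeasurableSet.univ_pi hs)),
      setLIntegral_map ht hm2 hb, ← h s t hs ht]
    congr 1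
    ext ω
    simp
  -- countable generating pi-systems
  let C : ∀ i, Set (Set (W i)) := fun i =>
    generateSetAlgebra (MeasurableSpace.countableGeneratingSet (W i))
  have hCc : ∀ i, (C i).Countable := fun i =>
    countable_generateSetAlgebra (MeasurableSpace.countable_countableGeneratingSet)
  have hCm : ∀ i, ∀ u ∈ C i, MeasurableSet u := by
    intro i u hu
    have h1 : MeasurableSpace.generateFrom (C i) ≤ (inferInstance : MeasurableSpace (W i)) := by
      rw [generateFrom_generateSetAlgebra_eq]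
      exact MeasurableSpace.generateFrom_countableGeneratingSet.le
    exact h1 _ (MeasurableSpace.measurableSet_generateFrom hu)
  have hall : ∀ᵐ z ∂(μ.map b), ∀ s : ∀ i, C i,
      condDistrib (fun ω i => w i ω) b μ z (pi univ fun i => (s i : Set (W i))) =
        ∏ i, ν i z (s i) := by
    have : ∀ i, Countable (C i) := fun i => (hCc i).to_subtype
    rw [ae_all_iff]
    intro s
    exact key (fun i => (s i : Set (W i))) fun i => hCm i _ (s i).2
  filter_upwards [hall] with z hz
  symm
  refine Measure.pi_eq_generateFrom (C := C) ?_ ?_ ?_ ?_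
  · intro i
    rw [generateFrom_generateSetAlgebra_eq]
    exact MeasurableSpace.generateFrom_countableGeneratingSet
  · intro i
    exact isSetAlgebra_generateSetAlgebra.isSetRing.isSetSemiring.isPiSystem
  · intro i
    exact
      { set := fun _ => univ
        set_mem := fun _ => isSetAlgebra_generateSetAlgebra.univ_mem
        finite := fun _ => measure_lt_top _ _
        spanning := iUnion_const _ }
  · intro s hs
    exact hz fun i => ⟨s i, hs i⟩

end Pi

end Vale.Agent.P102.RM
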