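import Vale.Agent.P102.RM.Skeleton
import Vale.Agent.P102.RM.Functor

/-!
P102 (Rokhlin), campaign RM. Blocks LJ, D1, D2, D3, D4 in the form of `Skeleton.lean`.
-/

namespace Vale.Agent.P102.RM

open MeasureTheory Filter Topology ProbabilityTheory

theorem b_LJ : B_LJ := fun _ _ r A => exists_isLim r A

theorem b_D1 : B_D1 := fun _ _ r A f hf => tendsto_limM r A f hf

theorem b_D2 : B_D2 := fun _ _ r A i => (evF r A i).mp

theorem b_D3 : B_D3 := fun _ _ r _ _ p => (p.D r).mp

theorem b_D4 : B_D4 := fun _ _ r _ _ _ p p' h => indep_D r p p' h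

end Vale.Agent.P102.RM
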