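import Vale.Agent.P102.RM.Skeleton
import Vale.Agent.P102.RM.Functor
import Vale.Agent.P102.RM.Fibre
import Vale.Agent.P102.RM.AeMap
import Vale.Agent.P102.RM.EndDyn
import Vale.Agent.P102.RM.EndSF
import Vale.Agent.P102.RM.CharIso
import Vale.Agent.P102.RM.LJFinal

/-! P102, block CE: the constancy of the groups of characters and the end of the proof. -/

set_option linter.unusedSectionVars false

namespace Vale.Agent.P102.RM

open MeasureTheory ProbabilityTheory Filter Topology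

variable {ι : Type} [Fintype ι] [DecidableEq ι]

/-- over almost every base line of the second pair, the two lines below have isomorphic groups of
characters -/
theorem ae_ciso {X : Sys} {P : Adm X} {r : Ultrafilter (ι → ℤ)} (hc : 3 ≤ Fintype.card ι)
    {p q : ι} (hpq : p ≠ q) (F : ExF P r p q)
    (hT : ∀ᵐ η ∂(D r P.Y).μ, Total (F.E.y.lineK r η) p q) (d : PD F) :
    ∀ᵐ η ∂(D r d.Y0).μ, CIso p q (F.E.y.lineK r (fun i => d.v1.f (η i))) F.xi.f
      (F.E.y.lineK r (fun i => d.v2.f (η i))) F.xi.f := by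
  have hT1 : ∀ᵐ η ∂(D r d.Y0).μ, Total (F.E.y.lineK r (fun i => d.v1.f (η i))) p q :=
    (d.v1.D r).mp.quasiMeasurePreserving.ae hT
  have hT2 : ∀ᵐ η ∂(D r d.Y0).μ, Total (F.E.y.lineK r (fun i => d.v2.f (η i))) p q :=
    (d.v2.D r).mp.quasiMeasurePreserving.ae hT
  have hx1 : ∀ᵐ z ∂(D r d.Z).μ, F.xi.f (d.f1.f (z q)) = F.xi.f (d.f2.f (z q)) :=
    (evF r d.Z q).mp.quasiMeasurePreserving.ae d.hx
  have hmy : Measurable (fun (z : (D r d.Z).C) (i : ι) => d.y0.f (z i)) :=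
    (d.y0.D r).mp.measurable
  have hx2 : ∀ᵐ η ∂((D r d.Z).μ.map (fun (z : (D r d.Z).C) (i : ι) => d.y0.f (z i))),
      ∀ᵐ z ∂(d.y0.lineK r η), F.xi.f (d.f1.f (z q)) = F.xi.f (d.f2.f (z q)) := by
    unfold Fac.lineK
    exact ae_condDistrib_of_ae (D r d.Z).μ hmy measurable_id
      (P := fun _ z => F.xi.f (d.f1.f (z q)) = F.xi.f (d.f2.f (z q))) hx1
  rw [show (D r d.Z).μ.map (fun (z : (D r d.Z).C) (i : ι) => d.y0.f (z i)) = (D r d.Y0).μ from
    (d.y0.D r).mp.map_eq] at hx2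
  filter_upwards [hT1, hT2, hx2, d.ki, d.m1, d.m2] with η h1 h2 h3 h4 h5 h6
  have hK0 : IsProbabilityMeasure (d.y0.lineK r η) := by
    unfold Fac.lineK; infer_instance
  refine ciso_of_pull hc hpq h4 d.f1.meas d.f2.meas h5 h6 h1 h2 F.xi.meas F.xi.meas ?_
  have hs : MeasurableSet {z | F.xi.f (d.f1.f z) = F.xi.f (d.f2.f z)} :=
    measurableSet_eq_fun (F.xi.meas.comp d.f1.meas) (F.xi.meas.comp d.f2.meas)
  have hmq : Measurable (fun z : ι → d.Z.C => z q) := measurable_pi_apply q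
  exact (ae_map_iff hmq.aemeasurable hs).2 h3

/-- independence of the points of almost every line of the exact factor -/
theorem ae_ki {X : Sys} {P : Adm X} {r : Ultrafilter (ι → ℤ)} {p q : ι} (F : ExF P r p q)
    (d : PD F) : ∀ᵐ η ∂(D r P.Y).μ, KI (F.E.y.lineK r η) := by
  have h : ∀ᵐ η ∂(D r d.Y0).μ, KI (F.E.y.lineK r ((d.v1.D r).f η)) := by
    filter_upwards [d.ki, d.m1] with η h1 h2
    have hK0 : IsProbabilityMeasure (d.y0.lineK r η) := by
      unfold Fac.lineK; infer_instance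
    have h3 := h1.map (w := d.f1.f) d.f1.meas
    have h4 : (d.y0.lineK r η).map (lmap ι d.f1.f) = F.E.y.lineK r ((d.v1.D r).f η) := h2
    rw [h4] at h3
    exact h3
  have h2 := ae_map_of_ae (m := (D r d.Y0).μ) (f := (d.v1.D r).f) (d.v1.D r).meas
    (P := fun η => KI (F.E.y.lineK r η)) h
  rw [(d.v1.D r).mp.map_eq] at h2
  exact h2

/-- the time differences along `r`, Fubini for the base lines -/
theorem ae_ae_ciso {X : Sys} {P : Adm X} {r : Ultrafilter (ι → ℤ)} (hc : 3 ≤ Fintype.card ι)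
    {p q : ι} (hpq : p ≠ q) (F : ExF P r p q)
    (hT : ∀ᵐ η ∂(D r P.Y).μ, Total (F.E.y.lineK r η) p q) (d : PD F) :
    ∀ᵐ η ∂(D r P.Y).μ, ∀ᵐ η' ∂(D r P.Y).μ,
      CIso p q (F.E.y.lineK r η) F.xi.f (F.E.y.lineK r η') F.xi.f := by
  have h1 := indep_D r d.v1 d.v2 d.indY
  rw [indepFun_iff_map_prod_eq_prod_map_map (d.v1.D r).meas.aemeasurable
    (d.v2.D r).meas.aemeasurable, (d.v1.D r).mp.map_eq, (d.v2.D r).mp.map_eq] at h1
  exact ae_ae_of_ae_pair (d.v1.D r).meas (d.v2.D r).meas h1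
    (P := fun a b => CIso p q (F.E.y.lineK r a) F.xi.f (F.E.y.lineK r b) F.xi.f)
    (ae_ciso hc hpq F hT d)

theorem b_ce : B_CE := by
  intro X P ι _ _ r hc hr _ hmix p q hpq F hT d
  -- good lines
  have hgood : ∀ᵐ η ∂(D r P.Y).μ, (Total (F.E.y.lineK r η) p q ∧ KI (F.E.y.lineK r η)) ∧
      (F.E.y.lineK r (fun i => P.Y.S (η i)) =
        (F.E.y.lineK r η).map (fun v i => F.E.V.S (v i)) ∧
      MeasurePreserving F.xi.f ((F.E.y.lineK r η).map fun v : ι → F.E.V.C => v q) F.Xe.μ) :=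
    (hT.and (ae_ki F d)).and ((lineK_equiv r F.E.y).and F.lineK_xi)
  obtain ⟨η, η', ⟨⟨ht, hki⟩, heq, hxi⟩, -, -, hR, hR'⟩ :=
    exists_two_lines r hgood (ae_ae_ciso hc hpq F hT d)
  have hprob : IsProbabilityMeasure (F.E.y.lineK r η) := by
    unfold Fac.lineK; infer_instance
  have hiso : CIso p q (F.E.y.lineK r η) F.xi.f
      ((F.E.y.lineK r η).map (lmap ι F.E.V.S)) F.xi.f := by
    have h1 := hR.trans hR'.symm
    rw [heq] at h1
    exact h1
  obtain ⟨St, hSt⟩ := exists_static hc hpq hki ht F.E.V.S F.Xe.S F.xi.meas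
    (Eventually.of_forall fun v => F.xi.eqv v) hiso
  have hm : IsProbabilityMeasure (marg (F.E.y.lineK r η) q) := by
    unfold marg
    exact Measure.isProbabilityMeasure_map (measurable_pi_apply q).aemeasurable
  obtain ⟨φ, hφ, hφ0, hne⟩ := F.nt
  apply hne
  have hpos : 0 < Fintype.card ι := by omega
  obtain ⟨l⟩ : Nonempty ι := Fintype.card_pos_iff.1 hpos
  exact end_static F.ax hmix (marg (F.E.y.lineK r η) q) F.xi.f hxi St hSt r hr φ hφ l (hφ0 l) _
    (b_D1 ι r F.Xe φ hφ)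

end Vale.Agent.P102.RM
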