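import Mathlib

/-! Conditional expectation toolkit (block CI, part B) for P102. -/

namespace Vale.Agent.P102.RM

open MeasureTheory Filter Topology ComplexConjugate ProbabilityTheory
open scoped ENNReal

variable {Ω Ω' : Type*} {m m' m₁ m₂ : MeasurableSpace Ω} {n : MeasurableSpace Ω'}
  {mΩ : MeasurableSpace Ω} {mΩ' : MeasurableSpace Ω'} {μ : Measure Ω} {μ' : Measure Ω'}

/-! ### Pull-out and self-adjointness -/

theorem condExp_mul_left {f g : Ω → ℂ} (hf : AEStronglyMeasurable[m] f μ)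
    (hfg : Integrable (fun x => f x * g x) μ) (hg : Integrable g μ) :
    μ[fun x => f x * g x | m] =ᵐ[μ] fun x => f x * (μ[g | m]) x :=
  condExp_bilin_of_aestronglyMeasurable_left (ContinuousLinearMap.mul ℝ ℂ) hf hfg hg

theorem condExp_mul_right {f g : Ω → ℂ} (hg : AEStronglyMeasurable[m] g μ)
    (hfg : Integrable (fun x => f x * g x) μ) (hf : Integrable f μ) :
    μ[fun x => f x * g x | m] =ᵐ[μ] fun x => (μ[f | m]) x * g x :=
  condExp_bilin_of_aestronglyMeasurable_right (ContinuousLinearMap.mul ℝ ℂ) hg hfg hf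

theorem condExp_conj (f : Ω → ℂ) :
    μ[fun x => conj (f x) | m] =ᵐ[μ] fun x => conj ((μ[f | m]) x) := by
  by_cases hm : m ≤ mΩ
  swap
  · rw [condExp_of_not_le hm, condExp_of_not_le hm]
    exact ae_of_all _ fun x => by simp
  by_cases hσ : SigmaFinite (μ.trim hm)
  swap
  · rw [condExp_of_not_sigmaFinite hm hσ, condExp_of_not_sigmaFinite hm hσ]
    exact ae_of_all _ fun x => by simp
  by_cases hf : Integrable f μ
  · have := (Complex.conjCLE : ℂ →L[ℝ] ℂ).comp_condExp_comm hf (m := m)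
    exact this.symm
  · have hf' : ¬ Integrable (fun x => conj (f x)) μ := by
      intro h
      apply hf
      have := (Complex.conjCLE : ℂ →L[ℝ] ℂ).integrable_comp h
      simpa using this
    rw [condExp_of_not_integrable hf, condExp_of_not_integrable hf']
    exact ae_of_all _ fun x => by simp

theorem integrable_mul_of_memLp {f g : Ω → ℂ} (hf : MemLp f 2 μ) (hg : MemLp g 2 μ) :
    Integrable (fun x => f x * g x) μ := hf.integrable_mul hg

theorem integral_mul_condExp_of_aesm [IsFiniteMeasure μ] (hm : m ≤ mΩ) {f g : Ω → ℂ}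
    (hf : AEStronglyMeasurable[m] f μ) (hfg : Integrable (fun x => f x * g x) μ)
    (hg : Integrable g μ) :
    ∫ x, f x * (μ[g | m]) x ∂μ = ∫ x, f x * g x ∂μ := by
  rw [← integral_condExp hm (f := fun x => f x * g x)]
  exact integral_congr_ae (condExp_mul_left hf hfg hg).symm

theorem memLp_condExp {f : Ω → ℂ} (hf : MemLp f 2 μ) : MemLp (μ[f | m]) 2 μ :=
  hf.condExp (by norm_num)

theorem integral_condExp_mul_condExp [IsFiniteMeasure μ] (hm : m ≤ mΩ) {f g : Ω → ℂ}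
    (hf : MemLp f 2 μ) (hg : MemLp g 2 μ) :
    ∫ x, (μ[f | m]) x * (μ[g | m]) x ∂μ = ∫ x, (μ[f | m]) x * g x ∂μ :=
  integral_mul_condExp_of_aesm hm stronglyMeasurable_condExp.aestronglyMeasurable
    (integrable_mul_of_memLp (memLp_condExp hf) hg) (hg.integrable (by norm_num))

/-- Self-adjointness of the conditional expectation. -/
theorem integral_condExp_mul_comm [IsFiniteMeasure μ] (hm : m ≤ mΩ) {f g : Ω → ℂ}
    (hf : MemLp f 2 μ) (hg : MemLp g 2 μ) :
    ∫ x, (μ[f | m]) x * g x ∂μ = ∫ x, f x * (μ[g | m]) x ∂μ := by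
  rw [← integral_condExp_mul_condExp hm hf hg]
  have := integral_condExp_mul_condExp hm hg hf
  calc ∫ x, (μ[f | m]) x * (μ[g | m]) x ∂μ = ∫ x, (μ[g | m]) x * (μ[f | m]) x ∂μ := by
        simp_rw [mul_comm]
    _ = _ := by rw [this]; simp_rw [mul_comm]

theorem integral_normSq_eq {f : Ω → ℂ} :
    ((∫ x, ‖f x‖ ^ 2 ∂μ : ℝ) : ℂ) = ∫ x, f x * conj (f x) ∂μ := by
  rw [← integral_complex_ofReal]
  refine integral_congr_ae (ae_of_all _ fun x => ?_)
  simp only [Complex.mul_conj, Complex.normSq_eq_norm_sq]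

theorem memLp_conj {f : Ω → ℂ} (hf : MemLp f 2 μ) : MemLp (fun x => conj (f x)) 2 μ := by
  refine ⟨(Complex.continuous_conj.comp_aestronglyMeasurable hf.1), ?_⟩
  have : eLpNorm (fun x => conj (f x)) 2 μ = eLpNorm f 2 μ := by
    refine eLpNorm_congr_norm_ae (ae_of_all _ fun x => ?_)
    simp
  rw [this]; exact hf.2

theorem integral_normSq_condExp [IsFiniteMeasure μ] (hm : m ≤ mΩ) {f : Ω → ℂ}
    (hf : MemLp f 2 μ) :
    ((∫ x, ‖(μ[f | m]) x‖ ^ 2 ∂μ : ℝ) : ℂ) = ∫ x, (μ[f | m]) x * conj (f x) ∂μ := by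
  rw [integral_normSq_eq]
  have h1 := integral_condExp_mul_condExp hm hf (memLp_conj hf)
  rw [← h1]
  refine integral_congr_ae ?_
  filter_upwards [condExp_conj (m := m) (μ := μ) f] with x hx
  rw [hx]

/-- Pythagoras. -/
theorem integral_normSq_sub_condExp [IsFiniteMeasure μ] (hm : m ≤ mΩ) {f : Ω → ℂ}
    (hf : MemLp f 2 μ) :
    ∫ x, ‖f x - (μ[f | m]) x‖ ^ 2 ∂μ = ∫ x, ‖f x‖ ^ 2 ∂μ - ∫ x, ‖(μ[f | m]) x‖ ^ 2 ∂μ := by
  have hE : MemLp (μ[f | m]) 2 μ := memLp_condExp hf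
  have key : ((∫ x, ‖f x - (μ[f | m]) x‖ ^ 2 ∂μ : ℝ) : ℂ)
      = ((∫ x, ‖f x‖ ^ 2 ∂μ - ∫ x, ‖(μ[f | m]) x‖ ^ 2 ∂μ : ℝ) : ℂ) := by
    rw [integral_normSq_eq (f := fun x => f x - (μ[f | m]) x)]
    have e1 : ∀ x, (f x - (μ[f | m]) x) * conj (f x - (μ[f | m]) x)
        = f x * conj (f x) - (μ[f | m]) x * conj (f x) - f x * conj ((μ[f | m]) x)
          + (μ[f | m]) x * conj ((μ[f | m]) x) := by
      intro x; simp only [map_sub]; ring
    simp_rw [e1]
    have i1 := integrable_mul_of_memLp hf (memLp_conj hf)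
    have i2 := integrable_mul_of_memLp hE (memLp_conj hf)
    have i3 := integrable_mul_of_memLp hf (memLp_conj hE)
    have i4 := integrable_mul_of_memLp hE (memLp_conj hE)
    have i12 : Integrable (fun x => f x * conj (f x) - (μ[f | m]) x * conj (f x)) μ := i1.sub i2
    have i123 : Integrable (fun x => f x * conj (f x) - (μ[f | m]) x * conj (f x)
      - f x * conj ((μ[f | m]) x)) μ := i12.sub i3
    rw [integral_add i123 i4, integral_sub i12 i3, integral_sub i1 i2]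
    rw [← integral_normSq_condExp hm hf, ← integral_normSq_eq (f := f),
      ← integral_normSq_eq (f := μ[f | m])]
    have e2 : ∫ x, f x * conj ((μ[f | m]) x) ∂μ = conj (∫ x, (μ[f | m]) x * conj (f x) ∂μ) := by
      rw [← integral_conj]
      refine integral_congr_ae (ae_of_all _ fun x => ?_)
      simp [mul_comm]
    rw [e2, ← integral_normSq_condExp hm hf, Complex.conj_ofReal]
    push_cast
    ring
  exact_mod_cast key

theorem integral_normSq_condExp_le [IsFiniteMeasure μ] (hm : m ≤ mΩ) {f : Ω → ℂ}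
    (hf : MemLp f 2 μ) :
    ∫ x, ‖(μ[f | m]) x‖ ^ 2 ∂μ ≤ ∫ x, ‖f x‖ ^ 2 ∂μ := by
  have h := integral_normSq_sub_condExp hm hf
  have : 0 ≤ ∫ x, ‖f x - (μ[f | m]) x‖ ^ 2 ∂μ := integral_nonneg fun x => by positivity
  linarith

theorem ae_eq_of_integral_normSq_sub {f g : Ω → ℂ} (hf : MemLp f 2 μ) (hg : MemLp g 2 μ)
    (h : ∫ x, ‖f x - g x‖ ^ 2 ∂μ ≤ 0) : f =ᵐ[μ] g := by
  have h0 : ∫ x, ‖f x - g x‖ ^ 2 ∂μ = 0 :=
    le_antisymm h (integral_nonneg fun x => by positivity)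
  have hi : Integrable (fun x => ‖f x - g x‖ ^ 2) μ := (hf.sub hg).integrable_norm_pow (by norm_num)
  rw [integral_eq_zero_iff_of_nonneg (fun x => by positivity) hi] at h0
  filter_upwards [h0] with x hx
  have : ‖f x - g x‖ ^ 2 = 0 := hx
  have : f x - g x = 0 := by simpa using this
  exact sub_eq_zero.1 this

/-- (B1a) if the norm of the conditional expectation is full then `f` is measurable. -/
theorem condExp_ae_eq_self_of_norm [IsFiniteMeasure μ] (hm : m ≤ mΩ) {f : Ω → ℂ}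
    (hf : MemLp f 2 μ) (h : ∫ x, ‖f x‖ ^ 2 ∂μ ≤ ∫ x, ‖(μ[f | m]) x‖ ^ 2 ∂μ) :
    μ[f | m] =ᵐ[μ] f := by
  refine (ae_eq_of_integral_normSq_sub hf (memLp_condExp hf) ?_).symm
  rw [integral_normSq_sub_condExp hm hf]; linarith

/-- (B1) the norm lemma: nested conditional expectations with the same norm are equal. -/
theorem condExp_ae_eq_of_norm_le [IsFiniteMeasure μ] (hmm : m ≤ m') (hm' : m' ≤ mΩ) {f : Ω → ℂ}
    (hf : MemLp f 2 μ)
    (h : ∫ x, ‖(μ[f | m']) x‖ ^ 2 ∂μ ≤ ∫ x, ‖(μ[f | m]) x‖ ^ 2 ∂μ) :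
    μ[f | m'] =ᵐ[μ] μ[f | m] := by
  have hE : MemLp (μ[f | m']) 2 μ := memLp_condExp hf
  have h1 : μ[μ[f | m'] | m] =ᵐ[μ] μ[f | m] := condExp_condExp_of_le hmm hm'
  have h2 : μ[μ[f | m'] | m] =ᵐ[μ] μ[f | m'] := by
    refine condExp_ae_eq_self_of_norm (hmm.trans hm') hE ?_
    refine h.trans (le_of_eq ?_)
    refine integral_congr_ae ?_
    filter_upwards [h1] with x hx
    rw [hx]
  exact h2.symm.trans h1

theorem integral_normSq_condExp_mono [IsFiniteMeasure μ] (hmm : m ≤ m') (hm' : m' ≤ mΩ)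
    {f : Ω → ℂ} (hf : MemLp f 2 μ) :
    ∫ x, ‖(μ[f | m]) x‖ ^ 2 ∂μ ≤ ∫ x, ‖(μ[f | m']) x‖ ^ 2 ∂μ := by
  have h1 : μ[μ[f | m'] | m] =ᵐ[μ] μ[f | m] := condExp_condExp_of_le hmm hm'
  refine le_trans (le_of_eq ?_) (integral_normSq_condExp_le (hmm.trans hm') (memLp_condExp hf))
  refine integral_congr_ae ?_
  filter_upwards [h1] with x hx
  rw [hx]

/-! ### Measurability up to null sets -/

theorem condExp_ae_eq_self_iff [IsFiniteMeasure μ] (hm : m ≤ mΩ) {f : Ω → ℂ}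
    (hf : Integrable f μ) : μ[f | m] =ᵐ[μ] f ↔ AEStronglyMeasurable[m] f μ :=
  ⟨fun h => ⟨μ[f | m], stronglyMeasurable_condExp, h.symm⟩,
    fun h => condExp_of_aestronglyMeasurable' hm h hf⟩

/-- (B3) the exactness criterion: `Φ` is `m₁`-measurable and
`∫ kΦ = ∫ E[E[k|m₂]|m₁] Φ` for `k = conj Φ`; then `Φ` is `m₂`-measurable. -/
theorem condExp_ae_eq_self_of_exactness [IsFiniteMeasure μ] (hm₁ : m₁ ≤ mΩ) (hm₂ : m₂ ≤ mΩ)
    {Φ : Ω → ℂ} (hΦ : MemLp Φ 2 μ) (hΦm : AEStronglyMeasurable[m₁] Φ μ)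
    (h : ∫ x, conj (Φ x) * Φ x ∂μ
      = ∫ x, (μ[μ[fun y => conj (Φ y) | m₂] | m₁]) x * Φ x ∂μ) :
    μ[Φ | m₂] =ᵐ[μ] Φ := by
  have hc : MemLp (fun y => conj (Φ y)) 2 μ := memLp_conj hΦ
  have hc2 : MemLp (μ[fun y => conj (Φ y) | m₂]) 2 μ := memLp_condExp hc
  have e1 : ∫ x, (μ[μ[fun y => conj (Φ y) | m₂] | m₁]) x * Φ x ∂μ
      = ∫ x, (μ[fun y => conj (Φ y) | m₂]) x * Φ x ∂μ := by
    rw [integral_condExp_mul_comm hm₁ hc2 hΦ]
    refine integral_congr_ae ?_
    filter_upwards [(condExp_ae_eq_self_iff hm₁ (hΦ.integrable (by norm_num))).2 hΦm] with x hx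
    rw [hx]
  have e2 : ∫ x, (μ[fun y => conj (Φ y) | m₂]) x * Φ x ∂μ
      = ((∫ x, ‖(μ[Φ | m₂]) x‖ ^ 2 ∂μ : ℝ) : ℂ) := by
    rw [integral_condExp_mul_comm hm₂ hc hΦ, integral_normSq_condExp hm₂ hΦ]
    simp_rw [mul_comm]
  have e3 : ∫ x, conj (Φ x) * Φ x ∂μ = ((∫ x, ‖Φ x‖ ^ 2 ∂μ : ℝ) : ℂ) := by
    rw [integral_normSq_eq]; simp_rw [mul_comm]
  rw [e3, e1, e2] at h
  exact condExp_ae_eq_self_of_norm hm₂ hΦ (le_of_eq (by exact_mod_cast h))

/-! ### Pull-back under measure preserving maps -/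

/-- (B2) conditional expectation commutes with measure preserving maps. -/
theorem condExp_comp_comap [IsFiniteMeasure μ] (hm : m ≤ mΩ) {π : Ω' → Ω}
    (hπ : MeasurePreserving π μ' μ) {f : Ω → ℂ} (hf : Integrable f μ) :
    μ'[f ∘ π | m.comap π] =ᵐ[μ'] (μ[f | m]) ∘ π := by
  have : IsFiniteMeasure μ' := ⟨by
    rw [← Set.preimage_univ (f := π), hπ.measure_preimage MeasurableSet.univ.nullMeasurableSet]
    exact measure_lt_top _ _⟩
  have hle : m.comap π ≤ mΩ' := by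
    rintro s ⟨t, ht, rfl⟩
    exact hπ.measurable (hm t ht)
  symm
  refine ae_eq_condExp_of_forall_setIntegral_eq hle (hπ.integrable_comp_of_integrable hf) ?_ ?_ ?_
  · intro s _ _
    exact (hπ.integrable_comp_of_integrable integrable_condExp).integrableOn
  · rintro s ⟨t, ht, rfl⟩ _
    have h1 : ∫ x in π ⁻¹' t, ((μ[f | m]) ∘ π) x ∂μ' = ∫ y in t, (μ[f | m]) y ∂μ := by
      have e1 : ∀ (F : Ω → ℂ), ∫ x in π ⁻¹' t, (F ∘ π) x ∂μ'
          = ∫ x, (t.indicator F) (π x) ∂μ' := by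
        intro F
        rw [← integral_indicator (hπ.measurable (hm t ht))]
        rfl
      rw [e1, ← integral_indicator (hm t ht), ← hπ.map_eq]
      rw [integral_map hπ.measurable.aemeasurable]
      rw [hπ.map_eq]
      exact (integrable_condExp.indicator (hm t ht)).aestronglyMeasurable
    have h2 : ∫ x in π ⁻¹' t, (f ∘ π) x ∂μ' = ∫ y in t, f y ∂μ := by
      have e1 : ∀ (F : Ω → ℂ), ∫ x in π ⁻¹' t, (F ∘ π) x ∂μ'
          = ∫ x, (t.indicator F) (π x) ∂μ' := by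
        intro F
        rw [← integral_indicator (hπ.measurable (hm t ht))]
        rfl
      rw [e1, ← integral_indicator (hm t ht), ← hπ.map_eq]
      rw [integral_map hπ.measurable.aemeasurable]
      rw [hπ.map_eq]
      exact (hf.indicator (hm t ht)).aestronglyMeasurable
    rw [h1, h2, setIntegral_condExp hm hf ht]
  · refine StronglyMeasurable.aestronglyMeasurable ?_
    exact (stronglyMeasurable_condExp (f := f) (m := m) (μ := μ)).comp_measurable
      (fun s hs => ⟨s, hs, rfl⟩)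

theorem comap_le_of_measurable {π : Ω' → Ω} (hm : m ≤ mΩ) (hπ : Measurable π) :
    m.comap π ≤ mΩ' := by
  rintro s ⟨t, ht, rfl⟩
  exact hπ (hm t ht)

theorem integral_normSq_condExp_comap [IsFiniteMeasure μ] (hm : m ≤ mΩ) {π : Ω' → Ω}
    (hπ : MeasurePreserving π μ' μ) {f : Ω → ℂ} (hf : Integrable f μ) :
    ∫ x, ‖(μ'[f ∘ π | m.comap π]) x‖ ^ 2 ∂μ' = ∫ x, ‖(μ[f | m]) x‖ ^ 2 ∂μ := by
  have h1 : ∫ x, ‖(μ'[f ∘ π | m.comap π]) x‖ ^ 2 ∂μ' = ∫ x, ‖(μ[f | m]) (π x)‖ ^ 2 ∂μ' := by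
    refine integral_congr_ae ?_
    filter_upwards [condExp_comp_comap hm hπ hf] with x hx
    rw [hx]; rfl
  rw [h1, ← hπ.map_eq, integral_map hπ.measurable.aemeasurable]
  rw [hπ.map_eq]
  exact (integrable_condExp.aestronglyMeasurable.norm.pow 2)

theorem aesm_comp_comap {π : Ω' → Ω} (hπ : MeasurePreserving π μ' μ) {f : Ω → ℂ}
    (hf : AEStronglyMeasurable[m] f μ) : AEStronglyMeasurable[m.comap π] (f ∘ π) μ' := by
  obtain ⟨g, hg, hfg⟩ := hf
  refine ⟨g ∘ π, hg.comp_measurable (fun s hs => ⟨s, hs, rfl⟩), ?_⟩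
  exact hπ.quasiMeasurePreserving.ae_eq_comp hfg

theorem ae_eq_of_comp_ae_eq {π : Ω' → Ω} (hπ : MeasurePreserving π μ' μ) {f g : Ω → ℂ}
    (hf : AEStronglyMeasurable f μ) (hg : AEStronglyMeasurable g μ)
    (h : f ∘ π =ᵐ[μ'] g ∘ π) : f =ᵐ[μ] g := by
  have h1 : hf.mk f ∘ π =ᵐ[μ'] hg.mk g ∘ π :=
    ((hπ.quasiMeasurePreserving.ae_eq_comp hf.ae_eq_mk).symm.trans h).trans
      (hπ.quasiMeasurePreserving.ae_eq_comp hg.ae_eq_mk)
  have h2 : hf.mk f =ᵐ[μ] hg.mk g := by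
    have hms : MeasurableSet {x | hf.mk f x = hg.mk g x} :=
      measurableSet_eq_fun hf.measurable_mk hg.measurable_mk
    have h3 : ∀ᵐ y ∂(μ'.map π), hf.mk f y = hg.mk g y :=
      (ae_map_iff hπ.measurable.aemeasurable hms).2 h1
    rw [hπ.map_eq] at h3
    exact h3
  exact (hf.ae_eq_mk.trans h2).trans hg.ae_eq_mk.symm

theorem aesm_of_comp_comap [IsFiniteMeasure μ] (hm : m ≤ mΩ) {π : Ω' → Ω}
    (hπ : MeasurePreserving π μ' μ) {f : Ω → ℂ} (hf : Integrable f μ)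
    (h : AEStronglyMeasurable[m.comap π] (f ∘ π) μ') : AEStronglyMeasurable[m] f μ := by
  rw [← condExp_ae_eq_self_iff hm hf]
  refine ae_eq_of_comp_ae_eq hπ integrable_condExp.aestronglyMeasurable hf.aestronglyMeasurable ?_
  refine (condExp_comp_comap hm hπ hf).symm.trans ?_
  have : IsFiniteMeasure μ' := ⟨by
    rw [← Set.preimage_univ (f := π), hπ.measure_preimage MeasurableSet.univ.nullMeasurableSet]
    exact measure_lt_top _ _⟩
  exact (condExp_ae_eq_self_iff (comap_le_of_measurable hm hπ.measurable)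
    (hπ.integrable_comp_of_integrable hf)).2 h

/-- limits of a.e. `m`-measurable functions. -/
theorem aesm_of_tendsto_ae {f : ℕ → Ω → ℂ} {g : Ω → ℂ}
    (hf : ∀ n, AEStronglyMeasurable[m] (f n) μ)
    (lim : ∀ᵐ x ∂μ, Tendsto (fun n => f n x) atTop (𝓝 (g x))) : AEStronglyMeasurable[m] g μ := by
  choose h hh heq using hf
  refine ⟨fun x => limUnder atTop (fun n => h n x), ?_, ?_⟩
  · exact @StronglyMeasurable.limUnder _ _ _ m _ _ _ _ _ _ _ hh
  · filter_upwards [lim, ae_all_iff.2 heq] with x hx hx2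
    symm
    refine Tendsto.limUnder_eq ?_
    refine hx.congr fun n => ?_
    rw [hx2 n]

/-- limits in `L²` of a.e. `m`-measurable functions. -/
theorem aesm_of_tendsto_L2 [IsFiniteMeasure μ] (hm : m ≤ mΩ) {f : ℕ → Ω → ℂ} {g : Ω → ℂ}
    (hf : ∀ n, AEStronglyMeasurable[m] (f n) μ) (hf2 : ∀ n, MemLp (f n) 2 μ) (hg : MemLp g 2 μ)
    (lim : Tendsto (fun n => ∫ x, ‖f n x - g x‖ ^ 2 ∂μ) atTop (𝓝 0)) :
    AEStronglyMeasurable[m] g μ := by
  rw [← condExp_ae_eq_self_iff hm (hg.integrable (by norm_num))]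
  refine (ae_eq_of_integral_normSq_sub hg (memLp_condExp hg) ?_).symm
  -- ‖g - E g‖² ≤ ‖g - f n‖²
  have key : ∀ n, ∫ x, ‖g x - (μ[g | m]) x‖ ^ 2 ∂μ ≤ ∫ x, ‖f n x - g x‖ ^ 2 ∂μ := by
    intro n
    have hd : MemLp (fun x => g x - f n x) 2 μ := hg.sub (hf2 n)
    have h1 := integral_normSq_sub_condExp hm hd
    have h2 : μ[fun x => g x - f n x | m] =ᵐ[μ] fun x => (μ[g | m]) x - f n x := by
      have := condExp_sub (hg.integrable (by norm_num)) ((hf2 n).integrable (by norm_num)) m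
      refine this.trans ?_
      filter_upwards [(condExp_ae_eq_self_iff hm ((hf2 n).integrable (by norm_num))).2 (hf n)]
        with x hx
      simp [hx]
    have h3 : ∫ x, ‖g x - (μ[g | m]) x‖ ^ 2 ∂μ
        = ∫ x, ‖(g x - f n x) - (μ[fun x => g x - f n x | m]) x‖ ^ 2 ∂μ := by
      refine integral_congr_ae ?_
      filter_upwards [h2] with x hx
      rw [hx]; congr 2; ring
    rw [h3, h1]
    have h4 : 0 ≤ ∫ x, ‖(μ[fun x => g x - f n x | m]) x‖ ^ 2 ∂μ :=
      integral_nonneg fun x => by positivity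
    have h5 : ∫ x, ‖g x - f n x‖ ^ 2 ∂μ = ∫ x, ‖f n x - g x‖ ^ 2 ∂μ := by
      simp_rw [norm_sub_rev]
    linarith
  exact ge_of_tendsto' lim key

/-! ### The exact factor -/

/-- Given `π : Ω' → Ω` and a sub-σ-algebra `n` of `Ω'`, the σ-algebra of all measurable
`A ⊆ Ω` such that `π ⁻¹' A` is a.e. equal to a set of `n`. -/
@[reducible] def exFactor {Ω Ω' : Type*} {mΩ' : MeasurableSpace Ω'} (mΩ : MeasurableSpace Ω)
    (μ' : Measure Ω') (π : Ω' → Ω) (n : MeasurableSpace Ω') : MeasurableSpace Ω where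
  MeasurableSet' A := MeasurableSet[mΩ] A ∧ ∃ B, MeasurableSet[n] B ∧ π ⁻¹' A =ᵐ[μ'] B
  measurableSet_empty := ⟨MeasurableSet.empty, ∅, @MeasurableSet.empty _ n, by simp⟩
  measurableSet_compl := by
    rintro A ⟨hA, B, hB, h⟩
    exact ⟨hA.compl, Bᶜ, @MeasurableSet.compl _ _ n hB, by
      rw [Set.preimage_compl]; exact h.compl⟩
  measurableSet_iUnion := by
    intro f hf
    choose h1 B hB h2 using hf
    refine ⟨MeasurableSet.iUnion h1, ⋃ i, B i, @MeasurableSet.iUnion _ _ n _ _ hB, ?_⟩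
    rw [Set.preimage_iUnion]
    exact Filter.EventuallyEq.countable_iUnion h2

theorem exFactor_le (π : Ω' → Ω) (n : MeasurableSpace Ω') : exFactor mΩ μ' π n ≤ mΩ :=
  fun _ h => h.1

theorem measurableSet_exFactor {π : Ω' → Ω} {n : MeasurableSpace Ω'} {A : Set Ω} :
    MeasurableSet[exFactor mΩ μ' π n] A ↔
      MeasurableSet[mΩ] A ∧ ∃ B, MeasurableSet[n] B ∧ π ⁻¹' A =ᵐ[μ'] B := Iff.rfl

theorem aesm_exFactor_of {π : Ω' → Ω}
    (hπ : MeasurePreserving π μ' μ) {f : Ω → ℂ} (hf : AEStronglyMeasurable f μ)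
    (h : AEStronglyMeasurable[n] (f ∘ π) μ') :
    AEStronglyMeasurable[exFactor mΩ μ' π n] f μ := by
  refine ⟨hf.mk f, ?_, hf.ae_eq_mk⟩
  obtain ⟨g, hg, hfg⟩ := h
  have h1 : hf.mk f ∘ π =ᵐ[μ'] g :=
    (hπ.quasiMeasurePreserving.ae_eq_comp hf.ae_eq_mk).symm.trans hfg
  refine Measurable.stronglyMeasurable ?_
  intro S hS
  refine ⟨hf.measurable_mk hS, g ⁻¹' S, hg.measurable hS, ?_⟩
  filter_upwards [h1] with x hx
  have : (hf.mk f ∘ π) x = g x := hx
  show (π x ∈ hf.mk f ⁻¹' S) = (x ∈ g ⁻¹' S)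
  simp only [Set.mem_preimage]
  rw [← this]; rfl

theorem aesm_comp_of_exFactor {π : Ω' → Ω}
    (hπ : MeasurePreserving π μ' μ) {f : Ω → ℂ}
    (h : AEStronglyMeasurable[exFactor mΩ μ' π n] f μ) :
    AEStronglyMeasurable[n] (f ∘ π) μ' := by
  obtain ⟨g, hg, hfg⟩ := h
  have h1 : AEStronglyMeasurable[n] (g ∘ π) μ' := by
    refine aesm_of_tendsto_ae (f := fun k => hg.approx k ∘ π) (fun k => ?_)
      (ae_of_all _ fun x => hg.tendsto_approx (π x))
    -- simple functions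
    have hs : ∀ (s : @SimpleFunc Ω (exFactor mΩ μ' π n) ℂ),
        AEStronglyMeasurable[n] (s ∘ π) μ' := by
      intro s
      refine @SimpleFunc.induction _ _ (exFactor mΩ μ' π n) _
        (fun s => AEStronglyMeasurable[n] (s ∘ π) μ') ?_ ?_ s
      · intro c A hA
        obtain ⟨_, B, hB, hAB⟩ := hA
        have hBm : StronglyMeasurable[n] (B.indicator fun _ => c) :=
          StronglyMeasurable.indicator stronglyMeasurable_const hB
        refine ⟨B.indicator fun _ => c, hBm, ?_⟩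
        filter_upwards [hAB] with x hx
        have hx' : (π x ∈ A) ↔ (x ∈ B) := iff_of_eq hx
        by_cases hxB : x ∈ B
        · have hxA : π x ∈ A := hx'.2 hxB
          rw [Set.indicator_of_mem hxB]
          exact (@SimpleFunc.piecewise_apply _ _ (exFactor mΩ μ' π n) _ _ _ _ _).trans (if_pos hxA)
        · have hxA : π x ∉ A := fun h => hxB (hx'.1 h)
          rw [Set.indicator_of_notMem hxB]
          exact (@SimpleFunc.piecewise_apply _ _ (exFactor mΩ μ' π n) _ _ _ _ _).trans (if_neg hxA)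
      · intro f g _ hf hg
        exact hf.add hg
    exact hs _
  exact h1.congr (hπ.quasiMeasurePreserving.ae_eq_comp hfg).symm

theorem aesm_exFactor_iff {π : Ω' → Ω}
    (hπ : MeasurePreserving π μ' μ) {f : Ω → ℂ} (hf : AEStronglyMeasurable f μ) :
    AEStronglyMeasurable[exFactor mΩ μ' π n] f μ ↔ AEStronglyMeasurable[n] (f ∘ π) μ' :=
  ⟨aesm_comp_of_exFactor hπ, aesm_exFactor_of hπ hf⟩


/-! ### Products generate (B4) -/

theorem isPiSystem_iInter {ι : Type*} (n : ι → MeasurableSpace Ω) :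
    IsPiSystem {t : Set Ω | ∃ s : ι → Set Ω, (∀ i, MeasurableSet[n i] (s i)) ∧ t = ⋂ i, s i} := by
  rintro _ ⟨s, hs, rfl⟩ _ ⟨s', hs', rfl⟩ _
  exact ⟨fun i => s i ∩ s' i, fun i => (hs i).inter (hs' i), by rw [Set.iInter_inter_distrib]⟩

theorem generateFrom_iInter {ι : Type*} [Countable ι] (n : ι → MeasurableSpace Ω) :
    (⨆ i, n i) = MeasurableSpace.generateFrom
      {t : Set Ω | ∃ s : ι → Set Ω, (∀ i, MeasurableSet[n i] (s i)) ∧ t = ⋂ i, s i} := by
  classical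
  apply le_antisymm
  · refine iSup_le fun i t ht => ?_
    refine MeasurableSpace.measurableSet_generateFrom
      ⟨fun j => if j = i then t else Set.univ, fun j => ?_, ?_⟩
    · by_cases h : j = i
      · subst h; simpa using ht
      · simp [h]
    · ext x
      simp only [Set.mem_iInter]
      constructor
      · intro hx j
        by_cases h : j = i <;> simp [h, hx]
      · intro hx
        simpa using hx i
  · refine MeasurableSpace.generateFrom_le ?_
    rintro _ ⟨s, hs, rfl⟩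
    exact MeasurableSet.iInter fun i => (le_iSup n i) _ (hs i)

theorem setIntegral_eq_zero_of_iSup {ι : Type*} [Countable ι] {n : ι → MeasurableSpace Ω}
    (hn : ∀ i, n i ≤ mΩ) {F : Ω → ℂ} (hF : Integrable F μ)
    (h : ∀ s : ι → Set Ω, (∀ i, MeasurableSet[n i] (s i)) → ∫ x in ⋂ i, s i, F x ∂μ = 0)
    {t : Set Ω} (ht : MeasurableSet[⨆ i, n i] t) : ∫ x in t, F x ∂μ = 0 := by
  have hle : (⨆ i, n i) ≤ mΩ := iSup_le hn
  refine MeasurableSpace.induction_on_inter (m := ⨆ i, n i)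
    (C := fun t _ => ∫ x in t, F x ∂μ = 0) (generateFrom_iInter n) (isPiSystem_iInter n)
    (by simp) ?_ ?_ ?_ t ht
  · rintro _ ⟨s, hs, rfl⟩
    exact h s hs
  · intro t ht h0
    have h1 := integral_add_compl (hle t ht) hF
    have h2 := h (fun _ => Set.univ) (fun _ => MeasurableSet.univ)
    simp only [Set.iInter_univ, Measure.restrict_univ] at h2
    rw [h0, h2, zero_add] at h1
    exact h1
  · intro f hd hm h0
    rw [integral_iUnion (fun i => hle _ (hm i)) hd hF.integrableOn]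
    simp [h0]

theorem condExp_iSup_ae_eq_zero [IsFiniteMeasure μ] {ι : Type*} [Countable ι]
    {n : ι → MeasurableSpace Ω}
    (hn : ∀ i, n i ≤ mΩ) {F : Ω → ℂ} (hF : Integrable F μ)
    (h : ∀ s : ι → Set Ω, (∀ i, MeasurableSet[n i] (s i)) → ∫ x in ⋂ i, s i, F x ∂μ = 0) :
    μ[F | ⨆ i, n i] =ᵐ[μ] 0 := by
  symm
  refine ae_eq_condExp_of_forall_setIntegral_eq (iSup_le hn) hF
    (fun s _ _ => integrableOn_zero) (fun s hs _ => ?_) aestronglyMeasurable_zero
  rw [setIntegral_eq_zero_of_iSup hn hF h hs]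
  simp

/-- (B4) identification of a conditional expectation with respect to `⨆ i, n i` by testing on
intersections. -/
theorem condExp_iSup_ae_eq [IsFiniteMeasure μ] {ι : Type*} [Countable ι]
    {n : ι → MeasurableSpace Ω}
    (hn : ∀ i, n i ≤ mΩ) {F G : Ω → ℂ} (hF : Integrable F μ) (hG : Integrable G μ)
    (hGm : AEStronglyMeasurable[⨆ i, n i] G μ)
    (h : ∀ s : ι → Set Ω, (∀ i, MeasurableSet[n i] (s i)) →
      ∫ x in ⋂ i, s i, F x ∂μ = ∫ x in ⋂ i, s i, G x ∂μ) :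
    μ[F | ⨆ i, n i] =ᵐ[μ] G := by
  have h0 : μ[F - G | ⨆ i, n i] =ᵐ[μ] 0 := by
    refine condExp_iSup_ae_eq_zero hn (hF.sub hG) fun s hs => ?_
    have : ∫ x in ⋂ i, s i, (F - G) x ∂μ
        = ∫ x in ⋂ i, s i, F x ∂μ - ∫ x in ⋂ i, s i, G x ∂μ :=
      integral_sub hF.integrableOn hG.integrableOn
    rw [this, h s hs, sub_self]
  have h1 := condExp_sub hF hG (⨆ i, n i)
  have h2 := (condExp_ae_eq_self_iff (iSup_le hn) hG).2 hGm
  filter_upwards [h0, h1, h2] with x hx0 hx1 hx2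
  rw [hx0] at hx1
  simp only [Pi.zero_apply, Pi.sub_apply, hx2] at hx1
  exact (sub_eq_zero.1 hx1.symm)

theorem prod_indicator_one {ι : Type*} [Fintype ι] (s : ι → Set Ω) (x : Ω) :
    (∏ i, (s i).indicator (fun _ => (1 : ℂ)) x) = (⋂ i, s i).indicator (fun _ => (1 : ℂ)) x := by
  classical
  by_cases h : x ∈ ⋂ i, s i
  · rw [Set.indicator_of_mem h]
    exact Finset.prod_eq_one fun i _ => Set.indicator_of_mem (Set.mem_iInter.1 h i) _
  · rw [Set.indicator_of_notMem h]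
    simp only [Set.mem_iInter, not_forall] at h
    obtain ⟨i, hi⟩ := h
    exact Finset.prod_eq_zero (Finset.mem_univ i) (Set.indicator_of_notMem hi _)

/-- (B4') the same by testing on products of bounded measurable functions. -/
theorem condExp_iSup_ae_eq_of_prod [IsFiniteMeasure μ] {ι : Type*} [Fintype ι]
    {n : ι → MeasurableSpace Ω}
    (hn : ∀ i, n i ≤ mΩ) {F G : Ω → ℂ} (hF : Integrable F μ) (hG : Integrable G μ)
    (hGm : AEStronglyMeasurable[⨆ i, n i] G μ)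
    (h : ∀ f : ι → Ω → ℂ, (∀ i, StronglyMeasurable[n i] (f i)) → (∀ i x, ‖f i x‖ ≤ 1) →
      ∫ x, F x * ∏ i, f i x ∂μ = ∫ x, G x * ∏ i, f i x ∂μ) :
    μ[F | ⨆ i, n i] =ᵐ[μ] G := by
  refine condExp_iSup_ae_eq hn hF hG hGm fun s hs => ?_
  have hms : MeasurableSet (⋂ i, s i) := MeasurableSet.iInter fun i => hn i _ (hs i)
  have key := h (fun i => (s i).indicator fun _ => (1 : ℂ))
    (fun i => stronglyMeasurable_const.indicator (hs i))
    (fun i x => by
      by_cases hx : x ∈ s i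
      · rw [Set.indicator_of_mem hx]; simp
      · rw [Set.indicator_of_notMem hx]; simp)
  simp only [prod_indicator_one] at key
  have e : ∀ H : Ω → ℂ, ∫ x in ⋂ i, s i, H x ∂μ
      = ∫ x, H x * (⋂ i, s i).indicator (fun _ => (1 : ℂ)) x ∂μ := by
    intro H
    rw [← integral_indicator hms]
    refine integral_congr_ae (ae_of_all _ fun x => ?_)
    by_cases hx : x ∈ ⋂ i, s i
    · simp only [Set.indicator_of_mem hx, mul_one]
    · simp only [Set.indicator_of_notMem hx, mul_zero]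
  rw [e F, e G, key]

/-- binary version -/
theorem condExp_sup_ae_eq_of_mul [IsFiniteMeasure μ] (h₁ : m₁ ≤ mΩ) (h₂ : m₂ ≤ mΩ)
    {F G : Ω → ℂ} (hF : Integrable F μ) (hG : Integrable G μ)
    (hGm : AEStronglyMeasurable[m₁ ⊔ m₂] G μ)
    (h : ∀ f g : Ω → ℂ, StronglyMeasurable[m₁] f → StronglyMeasurable[m₂] g →
      (∀ x, ‖f x‖ ≤ 1) → (∀ x, ‖g x‖ ≤ 1) →
      ∫ x, F x * (f x * g x) ∂μ = ∫ x, G x * (f x * g x) ∂μ) :
    μ[F | m₁ ⊔ m₂] =ᵐ[μ] G := by
  have e : m₁ ⊔ m₂ = ⨆ b : Bool, (if b then m₁ else m₂) := by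
    rw [iSup_bool_eq]; simp
  rw [e] at hGm ⊢
  refine condExp_iSup_ae_eq_of_prod (fun b => by cases b <;> simpa) hF hG hGm ?_
  intro f hf hf1
  have := h (f true) (f false) (by simpa using hf true) (by simpa using hf false)
    (hf1 true) (hf1 false)
  simpa [Fintype.prod_bool] using this

/-! ### Increasing limits (B5) -/

theorem ae_tendsto_condExp_iSup [IsFiniteMeasure μ] {n : ℕ → MeasurableSpace Ω} (hmono : Monotone n)
    (hn : ∀ k, n k ≤ mΩ) {f : Ω → ℂ} (hf : Integrable f μ) :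
    ∀ᵐ x ∂μ, Tendsto (fun k => (μ[f | n k]) x) atTop (𝓝 ((μ[f | ⨆ k, n k]) x)) := by
  let ℱ : Filtration ℕ mΩ := ⟨n, hmono, hn⟩
  have hre := tendsto_ae_condExp (μ := μ) (ℱ := ℱ) (fun x => (f x).re)
  have him := tendsto_ae_condExp (μ := μ) (ℱ := ℱ) (fun x => (f x).im)
  have e1 : ∀ (q : MeasurableSpace Ω), (fun x => ((μ[f | q]) x).re) =ᵐ[μ] μ[fun x => (f x).re | q] :=
    fun q => Complex.reCLM.comp_condExp_comm hf (m := q)
  have e2 : ∀ (q : MeasurableSpace Ω), (fun x => ((μ[f | q]) x).im) =ᵐ[μ] μ[fun x => (f x).im | q] :=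
    fun q => Complex.imCLM.comp_condExp_comm hf (m := q)
  filter_upwards [hre, him, ae_all_iff.2 (fun k => e1 (n k)), ae_all_iff.2 (fun k => e2 (n k)),
    e1 (⨆ k, n k), e2 (⨆ k, n k)] with x h1 h2 h3 h4 h5 h6
  have h1' : Tendsto (fun k => ((μ[f | n k]) x).re) atTop (𝓝 (((μ[f | ⨆ k, n k]) x).re)) := by
    simp only [h3, h5]; exact h1
  have h2' : Tendsto (fun k => ((μ[f | n k]) x).im) atTop (𝓝 (((μ[f | ⨆ k, n k]) x).im)) := by
    simp only [h4, h6]; exact h2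
  have h1c := (Complex.continuous_ofReal.tendsto _).comp h1'
  have h2c := (Complex.continuous_ofReal.tendsto _).comp h2'
  have := h1c.add (h2c.mul_const Complex.I)
  simpa only [Function.comp_def, Complex.re_add_im] using this

/-- the norms of conditional expectations of a bounded function converge along an increasing
sequence of σ-algebras. -/
theorem tendsto_integral_normSq_condExp_iSup [IsFiniteMeasure μ] {n : ℕ → MeasurableSpace Ω}
    (hmono : Monotone n) (hn : ∀ k, n k ≤ mΩ) {f : Ω → ℂ} (hf : AEStronglyMeasurable f μ)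
    {C : ℝ} (hC : ∀ᵐ x ∂μ, ‖f x‖ ≤ C) :
    Tendsto (fun k => ∫ x, ‖(μ[f | n k]) x‖ ^ 2 ∂μ) atTop
      (𝓝 (∫ x, ‖(μ[f | ⨆ k, n k]) x‖ ^ 2 ∂μ)) := by
  have hfi : Integrable f μ := Integrable.of_bound hf C hC
  refine tendsto_integral_of_dominated_convergence (fun _ => C ^ 2) ?_ (integrable_const _) ?_ ?_
  · intro k
    exact integrable_condExp.aestronglyMeasurable.norm.pow 2
  · intro k
    filter_upwards [ae_bdd_norm_condExp_of_ae_bdd_norm (m := n k) hC] with x hx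
    rw [Real.norm_of_nonneg (by positivity)]
    exact pow_le_pow_left₀ (norm_nonneg _) hx 2
  · filter_upwards [ae_tendsto_condExp_iSup hmono hn hfi] with x hx
    exact (hx.norm.pow 2)

theorem tendsto_integral_normSq_sub_condExp_iSup [IsFiniteMeasure μ] {n : ℕ → MeasurableSpace Ω}
    (hmono : Monotone n) (hn : ∀ k, n k ≤ mΩ) {f : Ω → ℂ} (hf : AEStronglyMeasurable f μ)
    {C : ℝ} (hC : ∀ᵐ x ∂μ, ‖f x‖ ≤ C) :
    Tendsto (fun k => ∫ x, ‖(μ[f | n k]) x - (μ[f | ⨆ k, n k]) x‖ ^ 2 ∂μ) atTop (𝓝 0) := by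
  have hfi : Integrable f μ := Integrable.of_bound hf C hC
  have : (0 : ℝ) = ∫ _x, (0 : ℝ) ∂μ := by simp
  rw [this]
  refine tendsto_integral_of_dominated_convergence (fun _ => (C + C) ^ 2) ?_
    (integrable_const _) ?_ ?_
  · intro k
    exact ((integrable_condExp.aestronglyMeasurable.sub
      integrable_condExp.aestronglyMeasurable).norm.pow 2)
  · intro k
    filter_upwards [ae_bdd_norm_condExp_of_ae_bdd_norm (m := n k) hC,
      ae_bdd_norm_condExp_of_ae_bdd_norm (m := ⨆ k, n k) hC] with x hx hx'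
    rw [Real.norm_of_nonneg (by positivity)]
    exact pow_le_pow_left₀ (norm_nonneg _) ((norm_sub_le _ _).trans (add_le_add hx hx')) 2
  · filter_upwards [ae_tendsto_condExp_iSup hmono hn hfi] with x hx
    have := ((hx.sub_const ((μ[f | ⨆ k, n k]) x)).norm.pow 2)
    simpa using this


end Vale.Agent.P102.RM
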