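import Vale.Agent.P102.RM.Functor
import Vale.Agent.P102.RM.CondExpB

/-!
P102, block EXF, R3: conditional expectations `Fac.ce` under factor maps, and transfer of
`LineInd` / `GridInd` to a factor over the same base.
-/

namespace Vale.Agent.P102.RM

open MeasureTheory Filter ProbabilityTheory

section ce

variable {A B V Y : Sys}

theorem Fac.ce_meas (p : Fac A B) {f : A.C → ℂ} (hf : Bdd f) : Measurable (p.ce f) := by
  unfold Fac.ce
  have h1 : StronglyMeasurable f := hf.1.stronglyMeasurable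
  exact (h1.integral_kernel (κ := p.om)).measurable

theorem Fac.ce_bdd (p : Fac A B) {f : A.C → ℂ} (hf : Bdd f) : Bdd (p.ce f) := by
  obtain ⟨C, hC⟩ := hf.2
  refine ⟨p.ce_meas hf, C, fun b => ?_⟩
  unfold Fac.ce
  have h1 := norm_integral_le_of_norm_le_const (μ := p.om b) (Eventually.of_forall hC)
  simpa using h1

/-- `ce` is the conditional expectation. -/
theorem Fac.ce_condExp (p : Fac A B) {f : A.C → ℂ} (hf : Bdd f) :
    A.μ[f | MeasurableSpace.comap p.f inferInstance] =ᵐ[A.μ] fun a => p.ce f (p.f a) :=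
  condExp_ae_eq_integral_condDistrib_id (μ := A.μ) p.meas (hf.integrable A.μ)

/-- `ce` does not change under factors over the same base. -/
theorem Fac.ce_comp (e : Fac A V) (y : Fac A Y) (z : Fac V Y) (h : ∀ a, z.f (e.f a) = y.f a)
    {f : V.C → ℂ} (hf : Bdd f) : y.ce (fun a => f (e.f a)) =ᵐ[Y.μ] z.ce f := by
  have hfe : Bdd (fun a => f (e.f a)) := hf.comp e.meas
  have h1 := y.ce_condExp hfe
  have h2 := z.ce_condExp hf
  have h3 : A.μ[f ∘ e.f | (MeasurableSpace.comap z.f Y.mC).comap e.f] =ᵐ[A.μ]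
      (V.μ[f | MeasurableSpace.comap z.f Y.mC]) ∘ e.f :=
    condExp_comp_comap z.meas.comap_le e.mp (hf.integrable V.μ)
  have h4 : (MeasurableSpace.comap z.f Y.mC).comap e.f = MeasurableSpace.comap y.f Y.mC := by
    rw [MeasurableSpace.comap_comp]
    congr 1
    funext a
    exact h a
  rw [h4] at h3
  have h5 : ∀ᵐ a ∂A.μ, y.ce (fun a => f (e.f a)) (y.f a) = z.ce f (y.f a) := by
    have h6 := e.mp.quasiMeasurePreserving.ae h2
    filter_upwards [h1, h3, h6] with a ha1 ha3 ha6
    have : (fun a => f (e.f a)) = f ∘ e.f := rfl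
    rw [this] at ha1
    rw [this, ← ha1, ha3, Function.comp_apply, ha6, h a]
  rw [← y.mp.map_eq]
  exact (ae_map_iff y.meas.aemeasurable (measurableSet_eq_fun (y.ce_meas hfe)
    (z.ce_meas hf))).2 h5

end ce

section trans

variable {ι : Type} [Fintype ι] [DecidableEq ι] {A V Y : Sys} {r : Ultrafilter (ι → ℤ)}

/-- transfer of `LineInd` to a factor over the same base -/
theorem LineInd.map (e : Fac A V) (y : Fac A Y) (z : Fac V Y) (h : ∀ a, z.f (e.f a) = y.f a)
    {s : ι} (hl : LineInd r y s) : LineInd r z s := by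
  intro f g hf hg
  have hm := (e.D r).mp
  have hbd : ∀ i, Bdd (fun a => f i (e.f a)) := fun i => (hf i).comp e.meas
  have hyD : Measurable (fun (d : ι → V.C) (i : ι) => z.f (d i)) :=
    measurable_pi_lambda _ fun i => z.meas.comp (measurable_pi_apply i)
  -- left side
  have hL : Bdd (fun d : ι → V.C => g (fun i => z.f (d i)) *
      ∏ j ∈ Finset.univ.erase s, f j (d j)) :=
    (hg.comp hyD).mul (Bdd.prod _ fun j _ => (hf j).comp (measurable_pi_apply j))
  have hR : Bdd (fun d : ι → V.C => g (fun i => z.f (d i)) *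
      ∏ j ∈ Finset.univ.erase s, z.ce (f j) (z.f (d j))) :=
    (hg.comp hyD).mul (Bdd.prod _ fun j _ =>
      (z.ce_bdd (hf j)).comp (z.meas.comp (measurable_pi_apply j)))
  have e1 : ∫ d, g (fun i => z.f (d i)) * ∏ j ∈ Finset.univ.erase s, f j (d j) ∂(D r V).μ =
      ∫ d, g (fun i => z.f (e.f (d i))) * ∏ j ∈ Finset.univ.erase s, f j (e.f (d j))
        ∂(D r A).μ := by
    rw [← hm.map_eq, integral_map (e.D r).meas.aemeasurable
      (hL.1.stronglyMeasurable.aestronglyMeasurable)]
    rfl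
  have e2 : ∫ d, g (fun i => z.f (d i)) * ∏ j ∈ Finset.univ.erase s, z.ce (f j) (z.f (d j))
      ∂(D r V).μ = ∫ d, g (fun i => z.f (e.f (d i))) *
        ∏ j ∈ Finset.univ.erase s, z.ce (f j) (z.f (e.f (d j))) ∂(D r A).μ := by
    rw [← hm.map_eq, integral_map (e.D r).meas.aemeasurable
      (hR.1.stronglyMeasurable.aestronglyMeasurable)]
    rfl
  rw [e1, e2]
  simp_rw [h]
  rw [hl (fun j a => f j (e.f a)) g hbd hg]
  refine integral_congr_ae ?_
  have hae : ∀ j, ∀ᵐ d ∂(D r A).μ,
      y.ce (fun a => f j (e.f a)) (y.f (d j)) = z.ce (f j) (y.f (d j)) := by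
    intro j
    have h1 := Fac.ce_comp e y z h (hf j)
    have h2 := (y.mp.comp (evF r A j).mp).quasiMeasurePreserving.ae h1
    exact h2
  filter_upwards [ae_all_iff.2 hae] with d hd
  congr 1
  exact Finset.prod_congr rfl fun j _ => hd j

/-- transfer of `GridInd` to a factor over the same base -/
theorem GridInd.map (e : Fac A V) (y : Fac A Y) (z : Fac V Y) (h : ∀ a, z.f (e.f a) = y.f a)
    {s s' : ι} (hl : GridInd r y s s') : GridInd r z s s' := by
  intro f g hf hg
  have hm := ((e.D r).D r).mp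
  have hbd : ∀ i j, Bdd (fun a => f i j (e.f a)) := fun i j => (hf i j).comp e.meas
  have hev : ∀ i j, Measurable (fun d : ι → ι → V.C => d i j) := fun i j =>
    (measurable_pi_apply j).comp (measurable_pi_apply i)
  have hyD : Measurable (fun (d : ι → ι → V.C) (i j : ι) => z.f (d i j)) :=
    measurable_pi_lambda _ fun i => measurable_pi_lambda _ fun j => z.meas.comp (hev i j)
  have hL : Bdd (fun d : ι → ι → V.C => g (fun i j => z.f (d i j)) *
      ∏ i ∈ Finset.univ.erase s, ∏ j ∈ Finset.univ.erase s', f i j (d i j)) :=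
    (hg.comp hyD).mul (Bdd.prod _ fun i _ => Bdd.prod _ fun j _ => (hf i j).comp (hev i j))
  have hR : Bdd (fun d : ι → ι → V.C => g (fun i j => z.f (d i j)) *
      ∏ i ∈ Finset.univ.erase s, ∏ j ∈ Finset.univ.erase s', z.ce (f i j) (z.f (d i j))) :=
    (hg.comp hyD).mul (Bdd.prod _ fun i _ => Bdd.prod _ fun j _ =>
      (z.ce_bdd (hf i j)).comp (z.meas.comp (hev i j)))
  have e1 : ∫ d, g (fun i j => z.f (d i j)) * ∏ i ∈ Finset.univ.erase s,
      ∏ j ∈ Finset.univ.erase s', f i j (d i j) ∂(D r (D r V)).μ =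
      ∫ d, g (fun i j => z.f (e.f (d i j))) * ∏ i ∈ Finset.univ.erase s,
        ∏ j ∈ Finset.univ.erase s', f i j (e.f (d i j)) ∂(D r (D r A)).μ := by
    rw [← hm.map_eq, integral_map ((e.D r).D r).meas.aemeasurable
      (hL.1.stronglyMeasurable.aestronglyMeasurable)]
    rfl
  have e2 : ∫ d, g (fun i j => z.f (d i j)) * ∏ i ∈ Finset.univ.erase s,
      ∏ j ∈ Finset.univ.erase s', z.ce (f i j) (z.f (d i j)) ∂(D r (D r V)).μ =
      ∫ d, g (fun i j => z.f (e.f (d i j))) * ∏ i ∈ Finset.univ.erase s,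
        ∏ j ∈ Finset.univ.erase s', z.ce (f i j) (z.f (e.f (d i j))) ∂(D r (D r A)).μ := by
    rw [← hm.map_eq, integral_map ((e.D r).D r).meas.aemeasurable
      (hR.1.stronglyMeasurable.aestronglyMeasurable)]
    rfl
  rw [e1, e2]
  simp_rw [h]
  rw [hl (fun i j a => f i j (e.f a)) g hbd hg]
  refine integral_congr_ae ?_
  have hae : ∀ i j, ∀ᵐ d ∂(D r (D r A)).μ,
      y.ce (fun a => f i j (e.f a)) (y.f (d i j)) = z.ce (f i j) (y.f (d i j)) := by
    intro i j
    have h1 := Fac.ce_comp e y z h (hf i j)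
    have h2 := (y.mp.comp ((evF r A j).mp.comp (evF r (D r A) i).mp)).quasiMeasurePreserving.ae h1
    exact h2
  filter_upwards [ae_all_iff.2 fun i => ae_all_iff.2 fun j => hae i j] with d hd
  congr 1
  exact Finset.prod_congr rfl fun i _ => Finset.prod_congr rfl fun j _ => hd i j

end trans

end Vale.Agent.P102.RM
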