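import Vale.Agent.P102.RM.Rep

/-!
P102, block EXF / REP (helper177), part 2: the factor `Xe` of `X` generated by finitely many
functions which are measurable with respect to the represented σ-algebra, as a factor of `V`.
-/

namespace Vale.Agent.P102.RM

open MeasureTheory Filter Topology ProbabilityTheory Set
open Vale.Agent.P102.RM.ExF (LeAE slot)

/-- the map to the product space generated by functions and all their translates -/
def transMap (B : Sys) {J : Type} (g : J → B.C → ℂ) : B.C → (ℤ × J → ℂ) :=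
  fun v mn => g mn.2 (B.it mn.1 v)

theorem measurable_transMap (B : Sys) {J : Type} {g : J → B.C → ℂ} (hg : ∀ j, Measurable (g j)) :
    Measurable (transMap B g) :=
  measurable_pi_lambda _ fun mn => (hg mn.2).comp (measurable_iter B.S mn.1)

theorem transMap_eqv (B : Sys) {J : Type} (g : J → B.C → ℂ) (v : B.C) :
    transMap B g (B.S v) = shiftE J ℂ (transMap B g v) := by
  funext mn
  simp only [transMap, shiftE_apply]
  congr 1
  exact (iter_add_one B.S mn.1 v).symm

/-- (R2) the factor of `X` generated by finitely many functions `φ j` such that all `φ j ∘ x` are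
`m`-measurable modulo null sets is a factor of the represented factor `V` of `m` -/
theorem exists_Xe {X A V : Sys} (x : Fac A X) (e : Fac A V) (m : A.Sub)
    (hgen : LeAE A.μ m.1 (MeasurableSpace.comap e.f V.mC))
    {J : Type} [Countable J] (φ : J → X.C → ℂ) (hφ : ∀ j, Bdd (φ j))
    (hm : ∀ j, LeAE A.μ (MeasurableSpace.comap (fun w => φ j (x.f w)) inferInstance) m.1) :
    ∃ (Xe : Sys) (ax : Fac X Xe) (xi : Fac V Xe),
      (∀ᵐ w ∂A.μ, xi.f (e.f w) = ax.f (x.f w)) ∧
      ∃ ψ : J → Xe.C → ℂ, (∀ j, Bdd (ψ j)) ∧ ∀ j a, ψ j (ax.f a) = φ j a := by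
  classical
  have hφm : ∀ j, Measurable (φ j) := fun j => (hφ j).1
  have hax := measurable_transMap X hφm
  let Xe : Sys := X.image (ℤ × J → ℂ) (transMap X φ) hax (shiftE J ℂ) (transMap_eqv X φ)
  let ax : Fac X Xe := X.imageFac (ℤ × J → ℂ) (transMap X φ) hax (shiftE J ℂ) (transMap_eqv X φ)
  have hg : ∀ j, ∃ g : V.C → ℂ, Measurable g ∧
      (fun w => φ j (x.f w)) =ᵐ[A.μ] fun w => g (e.f w) := by
    intro j
    refine exists_comp_ae_eq (P := A.μ) (B := fun w => φ j (x.f w)) (A := e.f) fun s hs => ?_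
    exact ((hm j).trans hgen) _ ⟨s, hs, rfl⟩
  choose g hgm hgae using hg
  have hxm := measurable_transMap V hgm
  have hae : ∀ᵐ w ∂A.μ, transMap V g (e.f w) = transMap X φ (x.f w) := by
    have h1 : ∀ᵐ w ∂A.μ, ∀ (mn : ℤ × J),
        φ mn.2 (x.f (iter A.S mn.1 w)) = g mn.2 (e.f (iter A.S mn.1 w)) := by
      rw [ae_all_iff]
      intro mn
      exact (iter_mp A.S A.mp mn.1).quasiMeasurePreserving.ae (hgae mn.2)
    filter_upwards [h1] with w hw
    funext mn
    have h2 := hw mn
    rw [Fac.iter, Fac.iter] at h2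
    exact h2.symm
  have hmap : V.μ.map (transMap V g) = Xe.μ := by
    change V.μ.map (transMap V g) = X.μ.map (transMap X φ)
    rw [← e.mp.map_eq, ← x.mp.map_eq, Measure.map_map hxm e.meas, Measure.map_map hax x.meas]
    exact Measure.map_congr hae
  let xi : Fac V Xe := ⟨transMap V g, ⟨hxm, hmap⟩, transMap_eqv V g⟩
  refine ⟨Xe, ax, xi, hae, ?_⟩
  choose C hC using fun j => (hφ j).2
  refine ⟨fun j c => if ‖(c : ℤ × J → ℂ) (0, j)‖ ≤ C j then (c : ℤ × J → ℂ) (0, j) else 0,
    fun j => ⟨?_, |C j|, fun c => ?_⟩, fun j a => ?_⟩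
  · have h0 : Measurable fun c : ℤ × J → ℂ => c (0, j) := measurable_pi_apply _
    exact Measurable.ite (measurableSet_le h0.norm measurable_const) h0 measurable_const
  · dsimp only
    split_ifs with h
    · exact h.trans (le_abs_self _)
    · simp
  · have h1 : (ax.f a : ℤ × J → ℂ) (0, j) = φ j a := by
      change φ j (X.it 0 a) = φ j a
      rw [Sys.it, iter_zero]
    change (if ‖(ax.f a : ℤ × J → ℂ) (0, j)‖ ≤ C j then (ax.f a : ℤ × J → ℂ) (0, j) else 0) = _
    rw [h1, if_pos (hC j a)]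

/-- means and joining integrals of the represented functions -/
theorem integral_rep {X Xe : Sys} (ax : Fac X Xe) {ι : Type} [Fintype ι]
    (r : Ultrafilter (ι → ℤ)) {φ : ι → X.C → ℂ} {ψ : ι → Xe.C → ℂ} (hψ : ∀ i, Bdd (ψ i))
    (h : ∀ i a, ψ i (ax.f a) = φ i a) :
    (∀ i, ∫ b, ψ i b ∂Xe.μ = ∫ a, φ i a ∂X.μ) ∧
      ∫ d, ∏ i, ψ i (d i) ∂(D r Xe).μ = ∫ d, ∏ i, φ i (d i) ∂(D r X).μ := by
  constructor
  · intro i
    rw [← ax.mp.map_eq, integral_map ax.meas.aemeasurable
      (by rw [ax.mp.map_eq]; exact (hψ i).1.aestronglyMeasurable)]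
    exact integral_congr_ae (ae_of_all _ fun a => h i a)
  · have hm : Measurable (fun d : ι → Xe.C => ∏ i, ψ i (d i)) :=
      Finset.measurable_prod _ fun i _ => (hψ i).1.comp (measurable_pi_apply i)
    have h1 := (ax.D r).mp.map_eq
    rw [← h1, integral_map (ax.D r).meas.aemeasurable
      (by rw [h1]; exact hm.aestronglyMeasurable)]
    refine integral_congr_ae (ae_of_all _ fun d => ?_)
    change ∏ i, ψ i (ax.f (d i)) = ∏ i, φ i (d i)
    simp only [h]

end Vale.Agent.P102.RM
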