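import Vale.Agent.P102.RM.ExFR4
import Vale.Agent.P102.RM.ExFTrans
import Vale.Agent.P102.RM.RepX

/-!
P102, block EXF: assembly of the exact factor.
-/

namespace Vale.Agent.P102.RM

open MeasureTheory Filter ProbabilityTheory ExF

/-- **Block EXF** from the line and grid independence and the ideal property. -/
theorem b_exf_of (hLINE : B_LINE) (hGRID : B_GRID) (hIDEAL : B_IDEAL) : B_EXF := by
  intro X P ι _ _ r hcard hK hM hN p q hpq hφ
  obtain ⟨φ, hφb, hφe, hφ0, hφn⟩ := hφ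
  classical
  let I : Set ι := {p, q}
  have hpI : p ∈ I := Set.mem_insert _ _
  have hqI : q ∈ I := Set.mem_insert_of_mem _ rfl
  have hI : I.Nonempty := ⟨p, hpI⟩
  let m : P.W.Sub := ⟨P.mX r I, P.mX_le r hI⟩
  have hideal : ∀ s ∈ I, ∀ (t b : ι), t ≠ b → ∀ (f : ι → P.W.C → ℂ), (∀ i, Bdd (f i)) →
      ∀ Φ ∈ Exa P r s, cl r P.W t (fun d => (∏ a ∈ (Finset.univ.erase t).erase b, f a (d a)) *
        Φ (d b)) ∈ Exa P r s :=
    fun s _ t b htb f hf Φ hΦ => hIDEAL X P ι r hcard hK hM hN s t b htb f hf Φ hΦ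
  have hex : ∀ s ∈ I, LeAE (D r P.W).μ (slot s m.1)
      ((⨆ j, ⨆ (_ : j ≠ s), slot j m.1) ⊔ slot s (MeasurableSpace.comap P.y.f P.Y.mC)) :=
    fun s hs => Adm.exact_mX hideal hs
  have hy : Measurable[m.1] P.y.f := by
    rw [measurable_iff_comap_le]
    exact P.sa_le_mX r I
  obtain ⟨V, z, e, hz, he, hgen⟩ := exists_rep P.y m hy (P.measurable_S_mX r I)
    (P.measurable_S_symm_mX r I)
  obtain ⟨Rp, mRp, hRp⟩ := exists_exact_map P.y m z e hz he hgen r p (hex p hpI)
  obtain ⟨Rq, mRq, hRq⟩ := exists_exact_map P.y m z e hz he hgen r q (hex q hqI)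
  -- the exact part of `X`
  have hφm : ∀ i, LeAE P.W.μ (MeasurableSpace.comap (fun w => φ i (P.x.f w)) inferInstance)
      m.1 := by
    intro i
    refine LeAE.of_le ?_
    have h1 : Measurable[m.1] (fun w => φ i (P.x.f w)) := by
      refine exa_measurable_mX (I := I) ?_
      rintro s (rfl | hs)
      · exact (hφe i).1
      · rw [Set.mem_singleton_iff] at hs
        rw [hs]
        exact (hφe i).2
    exact measurable_iff_comap_le.1 h1
  obtain ⟨Xe, ax, xi, hxi, ψ, hψ, hψφ⟩ := exists_Xe P.x e m hgen φ hφb hφm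
  obtain ⟨hint0, hintD⟩ := integral_rep ax r hψ hψφ
  refine ⟨{
    E := {
      V := V
      y := z
      Rp := Rp
      Rq := Rq
      mRp := mRp
      mRq := mRq
      hRp := hRp
      hRq := hRq
      line := fun s => LineInd.map e P.y z hz (hLINE X P ι r hM hK s)
      grid := fun s s' => GridInd.map e P.y z hz (hGRID X P ι r hM hK s s') }
    e := e
    hy := hz
    Xe := Xe
    ax := ax
    xi := xi
    hxi := hxi
    nt := ⟨ψ, hψ, fun i => ?_, ?_⟩ }⟩
  · rw [hint0, hφ0]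
  · rw [hintD]
    exact hφn

end Vale.Agent.P102.RM
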