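import Vale.Agent.P102.RM.Grid
import Vale.Agent.P102.RM.Skeleton
import Mathlib.Probability.Independence.Integration

/-!
P102, blocks LJ, D1-D4, and LINE, GRID from UP.
-/

namespace Vale.Agent.P102.RM

open MeasureTheory Filter Topology ProbabilityTheory

theorem b_lj : B_LJ := fun _ _ r A => exists_isLim r A

theorem b_d1 : B_D1 := fun _ _ r A f hf => tendsto_limM r A f hf

theorem b_d2 : B_D2 := fun _ _ r A i => (evF r A i).mp

theorem b_d3 : B_D3 := fun _ _ r _ _ p => (p.D r).mp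

theorem b_d4 : B_D4 := fun _ _ r _ _ _ p p' h => indep_D r p p' h

/-- `∫ h(b) ∏ φ_c(a_c) = (∫ h(b)) ∏ ∫ φ_c` for an i.i.d. family which is independent of `b` -/
theorem integral_mul_prod_of_law {Ω C B : Type*} [MeasurableSpace Ω] [Fintype C]
    {X : Type*} [MeasurableSpace X] [MeasurableSpace B] (P : Measure Ω) [IsProbabilityMeasure P]
    (μ : Measure X) [IsProbabilityMeasure μ] (a : C → Ω → X) (b : Ω → B)
    (ha : ∀ c, Measurable (a c)) (hb : Measurable b)
    (hlaw : P.map (fun ω c => a c ω) = Measure.pi fun _ => μ)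
    (hind : IndepFun (fun ω c => a c ω) b P) (φ : C → X → ℂ) (h : B → ℂ) (hφ : ∀ c, Bdd (φ c))
    (hh : Bdd h) :
    ∫ ω, h (b ω) * ∏ c, φ c (a c ω) ∂P = (∫ ω, h (b ω) ∂P) * ∏ c, ∫ x, φ c x ∂μ := by
  have hm : Measurable (fun ω c => a c ω) := measurable_pi_lambda _ ha
  have hΦ : Bdd (fun v : C → X => ∏ c, φ c (v c)) :=
    Bdd.prod _ fun c _ => (hφ c).comp (measurable_pi_apply c)
  have h1 : IndepFun (fun ω => h (b ω)) (fun ω => ∏ c, φ c (a c ω)) P :=
    (hind.symm.comp hh.1 hΦ.1)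
  have h2 := h1.integral_fun_mul_eq_mul_integral (hh.1.comp hb).aestronglyMeasurable
    (hΦ.1.comp hm).aestronglyMeasurable
  rw [h2]
  congr 1
  have h3 : ∫ ω, ∏ c, φ c (a c ω) ∂P = ∫ v, ∏ c, φ c (v c) ∂(P.map (fun ω c => a c ω)) := by
    rw [integral_map hm.aemeasurable hΦ.1.aestronglyMeasurable]
  rw [h3, hlaw]
  exact integral_fintype_prod_eq_prod φ

theorem b_line (hUP : B_UP) : B_LINE := by
  intro X P ι _ _ r hM hk s f h hf hh
  have key := hUP X P hM (D r P.W) (D r P.Y) (P.y.D r) {j : ι // j ≠ s}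
    (fun c => evF r P.W c) (fun c e => e c) (fun c => measurable_pi_apply _)
    (fun c z => rfl) ?_ (fun c => f c) h (fun c => hf c) hh
  · have h2 : ∀ g : ι → ℂ, ∏ i ∈ Finset.univ.erase s, g i = ∏ j : {j : ι // j ≠ s}, g j := by
      intro g
      rw [← Finset.prod_subtype (Finset.univ.erase s) (p := fun j => j ≠ s) (by simp)]
    simp only [h2]
    exact key
  · intro φ h hφ hh
    exact integral_mul_prod_of_law (D r P.W).μ X.μ
      (fun (j : {j : ι // j ≠ s}) (d : ι → P.W.C) => P.x.f (d j)) (P.y.D r).f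
      (fun j => P.x.meas.comp (measurable_pi_apply _)) (P.y.D r).meas
      (xline_map_eq hk P.x s) (xline_indepFun P.x P.y P.ind s) φ h hφ hh

theorem b_grid (hUP : B_UP) : B_GRID := by
  intro X P ι _ _ r hM hk s s' f h hf hh
  have key := hUP X P hM (D r (D r P.W)) (D r (D r P.Y)) ((P.y.D r).D r) (GIx s s')
    (fun c => (evF r P.W c.1.2).comp (rowF r P.W c.1.1)) (fun c e => e c.1.1 c.1.2)
    (fun c => (measurable_pi_apply _).comp (measurable_pi_apply _))
    (fun c z => rfl) ?_ (fun c => f c.1.1 c.1.2) h (fun c => hf _ _) hh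
  · simp only [prod_GIx s s']
    exact key
  · intro φ h hφ hh
    exact integral_mul_prod_of_law (D r (D r P.W)).μ X.μ
      (fun (c : GIx s s') (d : ι → ι → P.W.C) => P.x.f (d c.1.1 c.1.2)) ((P.y.D r).D r).f
      (fun c => P.x.meas.comp ((measurable_pi_apply _).comp (measurable_pi_apply _)))
      ((P.y.D r).D r).meas
      (xgrid_map_eq hk P.x s s') (xgrid_indepFun P.x P.y P.ind s s') φ h hφ hh

end Vale.Agent.P102.RM
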