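import Mathlib.Probability.Kernel.CondDistrib

/-! Conditional distributions: refinement of the conditioning map, pushforward, equivariance
(P102, block CONST, helper41). -/

namespace Vale.Agent.P102.RM

open MeasureTheory ProbabilityTheory Filter Set

section

variable {Ω A A' B : Type*} [MeasurableSpace Ω] [MeasurableSpace A] [MeasurableSpace A']
  [MeasurableSpace B] [StandardBorelSpace B] [Nonempty B]

/-- If `b` has the same conditional probabilities given `a'` and given `q ∘ a'`, then the
conditional distribution given `a'` factors through `q`. -/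
theorem condDistrib_refine {P : Measure Ω} [IsProbabilityMeasure P] {a' : Ω → A'} {b : Ω → B}
    {q : A' → A} (ha' : Measurable a') (hb : Measurable b) (hq : Measurable q)
    (h : ∀ t : Set B, MeasurableSet t →
      P⟦b ⁻¹' t | MeasurableSpace.comap a' inferInstance⟧ =ᵐ[P]
        P⟦b ⁻¹' t | MeasurableSpace.comap (q ∘ a') inferInstance⟧) :
    ∀ᵐ z ∂(P.map a'), condDistrib b a' P z = condDistrib b (q ∘ a') P (q z) := by
  have hkey : P.map (fun x => (a' x, b x)) =
      P.map a' ⊗ₘ ((condDistrib b (q ∘ a') P).comap q hq) := by
    have hm : Measurable (fun x => (a' x, b x)) := ha'.prodMk hb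
    have : IsProbabilityMeasure (P.map (fun x => (a' x, b x))) :=
      Measure.isProbabilityMeasure_map hm.aemeasurable
    have : IsProbabilityMeasure (P.map a') := Measure.isProbabilityMeasure_map ha'.aemeasurable
    refine Measure.ext_prod fun {s t} hs ht => ?_
    rw [Measure.map_apply hm (hs.prod ht), Measure.compProd_apply_prod hs ht,
      setLIntegral_map hs (Kernel.measurable_coe _ ht) ha']
    have h1 : (fun x => (a' x, b x)) ⁻¹' (s ×ˢ t) = a' ⁻¹' s ∩ b ⁻¹' t := rfl
    rw [h1]
    simp only [Kernel.comap_apply]
    have h2 : ∀ᵐ x ∂P, (condDistrib b (q ∘ a') P (q (a' x))).real t =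
        (P⟦b ⁻¹' t | MeasurableSpace.comap a' inferInstance⟧) x := by
      have h3 := condDistrib_ae_eq_condExp (μ := P) (hq.comp ha') hb ht
      filter_upwards [h3, h t ht] with x hx1 hx2
      rw [hx2, ← hx1]
      rfl
    have hcm : MeasurableSpace.comap a' inferInstance ≤ ‹MeasurableSpace Ω› := ha'.comap_le
    have h4 : ∫ x in a' ⁻¹' s, (condDistrib b (q ∘ a') P (q (a' x))).real t ∂P =
        P.real (a' ⁻¹' s ∩ b ⁻¹' t) := by
      rw [setIntegral_congr_ae (g := P⟦b ⁻¹' t | MeasurableSpace.comap a' inferInstance⟧)
        (ha' hs) (by filter_upwards [h2] with x hx _ using hx)]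
      rw [setIntegral_condExp hcm ((integrable_const _).indicator (hb ht)) ⟨s, hs, rfl⟩]
      rw [integral_indicator (hb ht), Measure.restrict_restrict (hb ht)]
      simp [measureReal_def, inter_comm]
    have h5 : ∫⁻ x in a' ⁻¹' s, condDistrib b (q ∘ a') P (q (a' x)) t ∂P =
        ENNReal.ofReal (∫ x in a' ⁻¹' s, (condDistrib b (q ∘ a') P (q (a' x))).real t ∂P) := by
      rw [ofReal_integral_eq_lintegral_ofReal]
      · refine lintegral_congr fun x => ?_
        rw [measureReal_def, ENNReal.ofReal_toReal (measure_ne_top _ _)]
      · refine Integrable.integrableOn ?_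
        refine Integrable.of_bound (C := 1) ?_ (Eventually.of_forall fun x => ?_)
        · exact (((Kernel.measurable_coe _ ht).comp
            (hq.comp ha')).ennreal_toReal).aestronglyMeasurable
        · rw [Real.norm_of_nonneg measureReal_nonneg]
          exact measureReal_le_one
      · exact Eventually.of_forall fun x => measureReal_nonneg
    rw [h5, h4, measureReal_def, ENNReal.ofReal_toReal (measure_ne_top _ _)]
  filter_upwards [condDistrib_ae_eq_of_measure_eq_compProd a' hb.aemeasurable hkey] with z hz
  rw [hz, Kernel.comap_apply]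

end

end Vale.Agent.P102.RM
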