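import Mathlib.Probability.Kernel.CondDistrib
import Mathlib.MeasureTheory.Constructions.Pi
import Mathlib.Probability.ConditionalExpectation

/-!
P102, Rokhlin: block FIB (disintegration over the base line / grid), static part.
-/

open MeasureTheory ProbabilityTheory Set
open scoped ENNReal

namespace Vale.Agent.P102.RM

section PiKernel

variable {I 𝒴 : Type*} [Fintype I] [MeasurableSpace 𝒴] {V : I → Type*}
  [∀ i, MeasurableSpace (V i)]

/-- Product kernel `a ↦ ⨂ᵢ κᵢ(a)`. -/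
noncomputable def piKernel (κ : ∀ i, Kernel 𝒴 (V i)) [∀ i, IsMarkovKernel (κ i)] :
    Kernel 𝒴 (∀ i, V i) where
  toFun a := Measure.pi (fun i => κ i a)
  measurable' := by
    refine Measurable.measure_of_isPiSystem_of_isProbabilityMeasure generateFrom_pi.symm
      isPiSystem_pi ?_
    rintro _ ⟨t, ht, rfl⟩
    simp only [Measure.pi_pi]
    refine Finset.measurable_prod _ fun i _ => ?_
    exact (κ i).measurable_coe (ht i (mem_univ i))

@[simp] theorem piKernel_apply (κ : ∀ i, Kernel 𝒴 (V i)) [∀ i, IsMarkovKernel (κ i)] (a : 𝒴) :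
    piKernel κ a = Measure.pi (fun i => κ i a) := rfl

instance (κ : ∀ i, Kernel 𝒴 (V i)) [∀ i, IsMarkovKernel (κ i)] :
    IsMarkovKernel (piKernel κ) := ⟨fun a => by rw [piKernel_apply]; infer_instance⟩

variable {Ω : Type*} [MeasurableSpace Ω]

/-- Two finite measures on `𝒴 × Π V` agreeing on boxes are equal. -/
theorem ext_prod_pi {m n : Measure (𝒴 × ∀ i, V i)} [IsFiniteMeasure m]
    (h : ∀ (C : Set 𝒴) (s : ∀ i, Set (V i)), MeasurableSet C → (∀ i, MeasurableSet (s i)) →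
      m (C ×ˢ Set.pi univ s) = n (C ×ˢ Set.pi univ s)) : m = n := by
  have hgen : MeasurableSpace.generateFrom
      (image2 (· ×ˢ ·) {C : Set 𝒴 | MeasurableSet C}
        (Set.pi univ '' Set.pi univ fun i => {s : Set (V i) | MeasurableSet s})) =
      (inferInstance : MeasurableSpace (𝒴 × ∀ i, V i)) := by
    refine generateFrom_eq_prod MeasurableSpace.generateFrom_measurableSet generateFrom_pi
      isCountablySpanning_measurableSet ?_
    exact ⟨fun _ => univ, fun _ => ⟨fun _ => univ, fun i _ => MeasurableSet.univ, by simp⟩,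
      iUnion_const _⟩
  refine ext_of_generate_finite _ hgen.symm
    (MeasurableSpace.isPiSystem_measurableSet.prod isPiSystem_pi) ?_ ?_
  · rintro _ ⟨C, hC, _, ⟨s, hs, rfl⟩, rfl⟩
    exact h C s hC fun i => hs i (mem_univ i)
  · have := h univ (fun _ => univ) MeasurableSet.univ fun _ => MeasurableSet.univ
    simpa using this

/-- (F1) If `P(A ∈ C, Bᵢ ∈ sᵢ ∀ i) = ∫_C ∏ κᵢ(a)(sᵢ)`, the law of `(A, (Bᵢ))` is
`law(A) ⊗ₘ ⨂ κᵢ`. -/
theorem map_eq_compProd_piKernel {P : Measure Ω} [IsProbabilityMeasure P] {A : Ω → 𝒴}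
    (hA : Measurable A) {B : ∀ i, Ω → V i} (hB : ∀ i, Measurable (B i))
    (κ : ∀ i, Kernel 𝒴 (V i)) [∀ i, IsMarkovKernel (κ i)]
    (h : ∀ (C : Set 𝒴) (s : ∀ i, Set (V i)), MeasurableSet C → (∀ i, MeasurableSet (s i)) →
      P (A ⁻¹' C ∩ ⋂ i, B i ⁻¹' s i) = ∫⁻ ω in A ⁻¹' C, ∏ i, κ i (A ω) (s i) ∂P) :
    P.map (fun ω => (A ω, fun i => B i ω)) = P.map A ⊗ₘ piKernel κ := by
  have hm : Measurable (fun ω => (A ω, fun i => B i ω)) :=
    hA.prodMk (measurable_pi_lambda _ hB)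
  have : IsProbabilityMeasure (P.map A) := Measure.isProbabilityMeasure_map hA.aemeasurable
  have : IsProbabilityMeasure (P.map (fun ω => (A ω, fun i => B i ω))) :=
    Measure.isProbabilityMeasure_map hm.aemeasurable
  refine ext_prod_pi fun C s hC hs => ?_
  have hCs : MeasurableSet (C ×ˢ Set.pi univ s) := hC.prod (MeasurableSet.univ_pi hs)
  rw [Measure.map_apply hm hCs, Measure.compProd_apply_prod hC (MeasurableSet.univ_pi hs)]
  have h1 : (fun ω => (A ω, fun i => B i ω)) ⁻¹' (C ×ˢ Set.pi univ s) =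
      A ⁻¹' C ∩ ⋂ i, B i ⁻¹' s i := by
    ext ω; simp
  rw [h1, h C s hC hs]
  rw [setLIntegral_map hC ((piKernel κ).measurable_coe (MeasurableSet.univ_pi hs)) hA]
  simp

/-- (F1) in terms of `condDistrib`. -/
theorem condDistrib_ae_eq_piKernel [∀ i, StandardBorelSpace (V i)] [∀ i, Nonempty (V i)]
    {P : Measure Ω} [IsProbabilityMeasure P] {A : Ω → 𝒴}
    (hA : Measurable A) {B : ∀ i, Ω → V i} (hB : ∀ i, Measurable (B i))
    (κ : ∀ i, Kernel 𝒴 (V i)) [∀ i, IsMarkovKernel (κ i)]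
    (h : ∀ (C : Set 𝒴) (s : ∀ i, Set (V i)), MeasurableSet C → (∀ i, MeasurableSet (s i)) →
      P (A ⁻¹' C ∩ ⋂ i, B i ⁻¹' s i) = ∫⁻ ω in A ⁻¹' C, ∏ i, κ i (A ω) (s i) ∂P) :
    condDistrib (fun ω i => B i ω) A P =ᵐ[P.map A] piKernel κ :=
  condDistrib_ae_eq_of_measure_eq_compProd A (measurable_pi_lambda _ hB).aemeasurable
    (map_eq_compProd_piKernel hA hB κ h)

end PiKernel

section Ae

variable {Ω 𝒴 𝒱 : Type*} [MeasurableSpace Ω] [MeasurableSpace 𝒴] [MeasurableSpace 𝒱]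
  [StandardBorelSpace 𝒱] [Nonempty 𝒱]

/-- (F2) a.e. statements about `(A, B)` hold a.e. in the fibres. -/
theorem ae_fibre_of_ae {P : Measure Ω} [IsFiniteMeasure P] {A : Ω → 𝒴}
    (hA : Measurable A) {B : Ω → 𝒱} (hB : Measurable B) {Q : 𝒴 × 𝒱 → Prop}
    (hQ : MeasurableSet {p | Q p}) (h : ∀ᵐ ω ∂P, Q (A ω, B ω)) :
    ∀ᵐ a ∂(P.map A), ∀ᵐ b ∂(condDistrib B A P a), Q (a, b) := by
  have h1 : ∀ᵐ p ∂(P.map (fun ω => (A ω, B ω))), Q p := by
    rw [ae_map_iff (hA.prodMk hB).aemeasurable hQ]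
    exact h
  rw [← compProd_map_condDistrib hB.aemeasurable] at h1
  exact Measure.ae_ae_of_ae_compProd h1

end Ae

end Vale.Agent.P102.RM
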