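import Mathlib.MeasureTheory.Function.ConditionalExpectation.Real
import Mathlib.MeasureTheory.Function.ConditionalExpectation.PullOut
import Mathlib.Probability.Kernel.CondDistrib

/-!
Abstract part of the second extension (P102, block WXW): transfer of the conditional law of a
line given the base line to the conditional law given the base line of an extension.
Everything happens on one probability space with sub-σ-algebras.
-/

namespace Vale.Agent.P102.RM.SecondExt

open MeasureTheory ProbabilityTheory Filter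

variable {Ω : Type*} {m0 : MeasurableSpace Ω} {P : Measure Ω} [IsProbabilityMeasure P]

/-- The real indicator function of a set. -/
noncomputable abbrev ind (a : Set Ω) : Ω → ℝ := a.indicator (fun _ => (1 : ℝ))

/-- `Same P A G G0`: for sets of `A`, conditioning on `G0` is the same as conditioning on
`G`. -/
def Same (P : Measure Ω) (A G G0 : MeasurableSpace Ω) : Prop :=
  ∀ a, MeasurableSet[A] a → P[ind a | G0] =ᵐ[P] P[ind a | G]

lemma integrable_ind {a : Set Ω} (ha : MeasurableSet a) : Integrable (ind a) P :=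
  (integrable_const (1 : ℝ)).indicator ha

lemma abs_ind_le (a : Set Ω) (ω : Ω) : |ind a ω| ≤ 1 := by
  by_cases h : ω ∈ a <;> simp [ind, h]

lemma ind_inter (a b : Set Ω) : ind (a ∩ b) = fun ω => ind a ω * ind b ω := by
  funext ω
  by_cases h : ω ∈ a <;> by_cases h' : ω ∈ b <;> simp [ind, h, h']

omit [IsProbabilityMeasure P] in
lemma integral_ind_mul {a : Set Ω} (ha : MeasurableSet a) (f : Ω → ℝ) :
    ∫ ω, ind a ω * f ω ∂P = ∫ ω in a, f ω ∂P := by
  rw [← integral_indicator ha]
  congr 1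
  funext ω
  by_cases h : ω ∈ a <;> simp [ind, h]

omit [IsProbabilityMeasure P] in
lemma abs_condExp_le {g : Ω → ℝ} {C : ℝ} (hg : ∀ᵐ ω ∂P, |g ω| ≤ C) (G : MeasurableSpace Ω) :
    ∀ᵐ ω ∂P, |P[g | G] ω| ≤ C :=
  ae_bdd_abs_condExp_of_ae_bdd_abs (m := G) (μ := P) (f := g) (R := C) hg

/-- Conditional expectation is self-adjoint. -/
lemma integral_condExp_mul {f g : Ω → ℝ} (hf : Integrable f P) {C : ℝ}
    (hg : ∀ᵐ ω ∂P, |g ω| ≤ C) (hgm : AEStronglyMeasurable g P) {G : MeasurableSpace Ω}
    (hG : G ≤ m0) :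
    ∫ ω, P[f | G] ω * g ω ∂P = ∫ ω, f ω * P[g | G] ω ∂P := by
  have hgi : Integrable g P := Integrable.of_bound hgm C (by simpa using hg)
  have hb := abs_condExp_le hg G
  have h1 : ∫ ω, P[f | G] ω * g ω ∂P = ∫ ω, P[f | G] ω * P[g | G] ω ∂P := by
    have hi : Integrable (fun ω => P[f | G] ω * g ω) P := by
      refine Integrable.mul_bdd (c := C) integrable_condExp hgm ?_
      simpa using hg
    have h2 : P[fun ω => P[f | G] ω * g ω | G] =ᵐ[P] fun ω => P[f | G] ω * P[g | G] ω :=
      condExp_mul_of_stronglyMeasurable_left stronglyMeasurable_condExp hi hgi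
    rw [← integral_condExp hG (f := fun ω => P[f | G] ω * g ω)]
    exact integral_congr_ae h2
  have h3 : ∫ ω, f ω * P[g | G] ω ∂P = ∫ ω, P[f | G] ω * P[g | G] ω ∂P := by
    have hi : Integrable (fun ω => f ω * P[g | G] ω) P := by
      refine Integrable.mul_bdd (c := C) hf
        (stronglyMeasurable_condExp.mono hG).aestronglyMeasurable ?_
      simpa using hb
    have h2 : P[fun ω => f ω * P[g | G] ω | G] =ᵐ[P] fun ω => P[f | G] ω * P[g | G] ω :=
      condExp_mul_of_stronglyMeasurable_right stronglyMeasurable_condExp hi hf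
    rw [← integral_condExp hG (f := fun ω => f ω * P[g | G] ω)]
    exact integral_congr_ae h2
  rw [h1, h3]

/-- Set integrals of a conditional expectation: for every integrable `f` and measurable `b`,
`∫_b P[f | G] = ∫ f * P[1_b | G]`. -/
lemma setIntegral_condExp' {f : Ω → ℝ} (hf : Integrable f P) {b : Set Ω}
    (hb : MeasurableSet b) {G : MeasurableSpace Ω} (hG : G ≤ m0) :
    ∫ ω in b, P[f | G] ω ∂P = ∫ ω, f ω * P[ind b | G] ω ∂P := by
  rw [← integral_condExp_mul hf (C := 1) (g := ind b)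
    (Eventually.of_forall (abs_ind_le b)) (integrable_ind hb).aestronglyMeasurable hG,
    ← integral_ind_mul hb]
  simp_rw [mul_comm]

/-- If `P[1_b | A] = P[P[1_b | G] | A]` for all `b` in `G0`, then `P[f | G0] = P[f | G]` for
all integrable `A`-measurable `f`. -/
lemma condExp_eq_of_adjoint {A G G0 : MeasurableSpace Ω} (hA : A ≤ m0) (hG : G ≤ G0)
    (hG0 : G0 ≤ m0)
    (h : ∀ b, MeasurableSet[G0] b → P[ind b | A] =ᵐ[P] P[P[ind b | G] | A])
    {f : Ω → ℝ} (hf : Integrable[m0] f P) (hfm : AEStronglyMeasurable[A] f P) :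
    P[f | G0] =ᵐ[P] P[f | G] := by
  symm
  refine ae_eq_condExp_of_forall_setIntegral_eq hG0 hf
    (fun s _ _ => integrable_condExp.integrableOn) (fun s hs _ => ?_)
    (stronglyMeasurable_condExp.mono hG).aestronglyMeasurable
  have hs0 : MeasurableSet[m0] s := hG0 s hs
  have hfA : P[f | A] =ᵐ[P] f := condExp_of_aestronglyMeasurable' hA hfm hf
  have hb1 : ∀ᵐ ω ∂P, |P[ind s | G] ω| ≤ 1 :=
    abs_condExp_le (Eventually.of_forall (abs_ind_le s)) G
  have hm1 : AEStronglyMeasurable[m0] (P[ind s | G]) P :=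
    (stronglyMeasurable_condExp.mono (hG.trans hG0)).aestronglyMeasurable
  calc ∫ ω in s, P[f | G] ω ∂P = ∫ ω, f ω * P[ind s | G] ω ∂P :=
        setIntegral_condExp' hf hs0 (hG.trans hG0)
    _ = ∫ ω, P[f | A] ω * P[ind s | G] ω ∂P := by
        refine integral_congr_ae ?_
        filter_upwards [hfA] with ω hω using by rw [hω]
    _ = ∫ ω, f ω * P[P[ind s | G] | A] ω ∂P := integral_condExp_mul hf hb1 hm1 hA
    _ = ∫ ω, f ω * P[ind s | A] ω ∂P := by
        refine integral_congr_ae ?_
        filter_upwards [h s hs] with ω hω using by rw [hω]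
    _ = ∫ ω, P[f | A] ω * ind s ω ∂P :=
        (integral_condExp_mul hf (Eventually.of_forall (abs_ind_le s))
          (integrable_ind hs0).aestronglyMeasurable hA).symm
    _ = ∫ ω, ind s ω * f ω ∂P := by
        refine integral_congr_ae ?_
        filter_upwards [hfA] with ω hω using by rw [hω, mul_comm]
    _ = ∫ ω in s, f ω ∂P := integral_ind_mul hs0 f

/-- For a fixed set `b` of `G0`, the sets `a` with `P (a ∩ b) = ∫_a P[1_b | G]`. -/
def Good (P : Measure Ω) (G : MeasurableSpace Ω) (b a : Set Ω) : Prop :=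
  ∫ ω in a, ind b ω ∂P = ∫ ω in a, P[ind b | G] ω ∂P

lemma good_of_generate {A G : MeasurableSpace Ω} {C : Set (Set Ω)} (hA : A ≤ m0)
    (hG : G ≤ m0) (hgen : A = MeasurableSpace.generateFrom C) (hpi : IsPiSystem C)
    {b : Set Ω} (hb : @MeasurableSet _ m0 b) (hC : ∀ a ∈ C, Good P G b a)
    {a : Set Ω} (ha : MeasurableSet[A] a) : Good P G b a := by
  have i1 : Integrable[m0] (ind b) P := integrable_ind hb
  have i2 : Integrable[m0] (P[ind b | G]) P := integrable_condExp
  have huniv : ∫ ω, ind b ω ∂P = ∫ ω, P[ind b | G] ω ∂P := (integral_condExp hG).symm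
  induction a, ha using MeasurableSpace.induction_on_inter hgen hpi with
  | empty => simp [Good]
  | basic t ht => exact hC t ht
  | compl t ht ih =>
    have e1 := integral_add_compl (hA t ht) i1
    have e2 := integral_add_compl (hA t ht) i2
    unfold Good at ih ⊢
    linarith
  | iUnion f hd hf ih =>
    unfold Good at ih ⊢
    rw [integral_iUnion (fun i => hA _ (hf i)) hd i1.integrableOn,
      integral_iUnion (fun i => hA _ (hf i)) hd i2.integrableOn]
    exact tsum_congr ih

lemma good_of_same {A G G0 : MeasurableSpace Ω} (hA : A ≤ m0) (hG : G ≤ m0) (hG0 : G0 ≤ m0)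
    {a b : Set Ω} (ha : MeasurableSet[A] a) (hb : MeasurableSet[G0] b)
    (h : P[ind a | G0] =ᵐ[P] P[ind a | G]) : Good P G b a := by
  unfold Good
  have e1 : ∫ ω in a, P[ind b | G] ω ∂P = ∫ ω in b, P[ind a | G] ω ∂P := by
    rw [setIntegral_condExp' (integrable_ind (hG0 b hb)) (hA a ha) hG, integral_ind_mul (hG0 b hb)]
  have e2 : ∫ ω in b, P[ind a | G] ω ∂P = ∫ ω in b, P[ind a | G0] ω ∂P := by
    refine setIntegral_congr_ae (hG0 b hb) ?_
    filter_upwards [h] with ω hω _ using hω.symm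
  rw [e1, e2, setIntegral_condExp hG0 (integrable_ind (hA a ha)) hb, ← integral_ind_mul (hG0 b hb),
    ← integral_ind_mul (hA a ha)]
  simp_rw [mul_comm]

/-- `π`-`λ` for `Same`, with the conclusion for all integrable functions. -/
theorem condExp_eq_of_generate {A G G0 : MeasurableSpace Ω} {C : Set (Set Ω)} (hA : A ≤ m0)
    (hG : G ≤ G0) (hG0 : G0 ≤ m0) (hgen : A = MeasurableSpace.generateFrom C)
    (hpi : IsPiSystem C) (hC : ∀ a ∈ C, P[ind a | G0] =ᵐ[P] P[ind a | G])
    {f : Ω → ℝ} (hf : Integrable[m0] f P) (hfm : AEStronglyMeasurable[A] f P) :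
    P[f | G0] =ᵐ[P] P[f | G] := by
  refine condExp_eq_of_adjoint hA hG hG0 (fun b hb => ?_) hf hfm
  symm
  refine ae_eq_condExp_of_forall_setIntegral_eq hA (integrable_ind (hG0 b hb))
    (fun s _ _ => integrable_condExp.integrableOn) (fun s hs _ => ?_)
    stronglyMeasurable_condExp.aestronglyMeasurable
  have hgood : Good P G b s := by
    refine good_of_generate hA (hG.trans hG0) hgen hpi (hG0 b hb) (fun a ha => ?_) hs
    have haA : MeasurableSet[A] a := by
      rw [hgen]; exact MeasurableSpace.measurableSet_generateFrom ha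
    exact good_of_same hA (hG.trans hG0) hG0 haA hb (hC a ha)
  unfold Good at hgood
  rw [setIntegral_condExp hA integrable_condExp hs, hgood]

/-- Same, for the σ-algebra `A ⊔ G`. -/
theorem condExp_eq_of_generate_sup {A G G0 : MeasurableSpace Ω} {C : Set (Set Ω)} (hA : A ≤ m0)
    (hG : G ≤ G0) (hG0 : G0 ≤ m0) (hgen : A = MeasurableSpace.generateFrom C)
    (hpi : IsPiSystem C) (hC : ∀ a ∈ C, P[ind a | G0] =ᵐ[P] P[ind a | G])
    {f : Ω → ℝ} (hf : Integrable[m0] f P) (hfm : AEStronglyMeasurable[A ⊔ G] f P) :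
    P[f | G0] =ᵐ[P] P[f | G] := by
  classical
  -- the π-system of intersections
  let D : Set (Set Ω) := {s | ∃ a ∈ C ∪ {Set.univ}, ∃ g, MeasurableSet[G] g ∧ s = a ∩ g}
  have hCA : ∀ a ∈ C ∪ {Set.univ}, MeasurableSet[A] a := by
    rintro a (ha | ha)
    · rw [hgen]; exact MeasurableSpace.measurableSet_generateFrom ha
    · rw [Set.mem_singleton_iff.1 ha]; exact @MeasurableSet.univ _ A
  have hgenD : A ⊔ G = MeasurableSpace.generateFrom D := by
    apply le_antisymm
    · refine sup_le ?_ ?_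
      · rw [hgen]
        refine MeasurableSpace.generateFrom_mono (fun a ha => ?_)
        exact ⟨a, Or.inl ha, Set.univ, @MeasurableSet.univ _ G, by simp⟩
      · intro g hg
        refine MeasurableSpace.measurableSet_generateFrom ?_
        exact ⟨Set.univ, Or.inr rfl, g, hg, by simp⟩
    · refine MeasurableSpace.generateFrom_le ?_
      rintro s ⟨a, ha, g, hg, rfl⟩
      exact @MeasurableSet.inter _ (A ⊔ G) _ _ (le_sup_left (a := A) a (hCA a ha))
        (le_sup_right (b := G) g hg)
  have hpiD : IsPiSystem D := by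
    rintro s ⟨a, ha, g, hg, rfl⟩ t ⟨a', ha', g', hg', rfl⟩ hne
    have hne' : (a ∩ a').Nonempty := by
      obtain ⟨x, hx⟩ := hne
      exact ⟨x, hx.1.1, hx.2.1⟩
    refine ⟨a ∩ a', ?_, g ∩ g', @MeasurableSet.inter _ G _ _ hg hg', ?_⟩
    · rcases ha with ha | ha <;> rcases ha' with ha' | ha'
      · exact Or.inl (hpi a ha a' ha' hne')
      · rw [Set.mem_singleton_iff.1 ha']; left; simpa using ha
      · rw [Set.mem_singleton_iff.1 ha]; left; simpa using ha'
      · rw [Set.mem_singleton_iff.1 ha, Set.mem_singleton_iff.1 ha']; right; simp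
    · ext x; simp only [Set.mem_inter_iff]; tauto
  refine condExp_eq_of_generate (sup_le hA (hG.trans hG0)) hG hG0 hgenD hpiD ?_ hf hfm
  rintro s ⟨a, ha, g, hg, rfl⟩
  have ha0 : MeasurableSet[m0] a := hA a (hCA a ha)
  have hg0 : MeasurableSet[m0] g := hG0 g (hG g hg)
  have hsame : P[ind a | G0] =ᵐ[P] P[ind a | G] := by
    rcases ha with ha | ha
    · exact hC a ha
    · rw [Set.mem_singleton_iff.1 ha]
      have : ind (Set.univ : Set Ω) = fun _ => (1 : ℝ) := by funext ω; simp [ind]
      rw [this, condExp_const hG0, condExp_const (hG.trans hG0)]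
  have hprod : ∀ K : MeasurableSpace Ω, K ≤ m0 → MeasurableSet[K] g →
      P[ind (a ∩ g) | K] =ᵐ[P] fun ω => P[ind a | K] ω * ind g ω := by
    intro K hK hgK
    rw [ind_inter]
    refine condExp_mul_of_stronglyMeasurable_right ?_ ?_ (integrable_ind ha0)
    · exact StronglyMeasurable.indicator stronglyMeasurable_const hgK
    · have h := integrable_ind (P := P) (ha0.inter hg0)
      rw [ind_inter] at h
      exact h
  filter_upwards [hprod G0 hG0 (hG g hg), hprod G (hG.trans hG0) hg, hsame] with ω h1 h2 h3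
  rw [h1, h2, h3]

/-- Given `G`, sets `a j` of `A j` (`j ∈ J`) are independent, with the conditional
probabilities given `B j`. -/
def OwnFibre (P : Measure Ω) {ι : Type*} (J : Finset ι) (A B : ι → MeasurableSpace Ω)
    (G : MeasurableSpace Ω) : Prop :=
  ∀ a : ι → Set Ω, (∀ j ∈ J, MeasurableSet[A j] (a j)) →
    P[fun ω => ∏ j ∈ J, ind (a j) ω | G] =ᵐ[P] fun ω => ∏ j ∈ J, P[ind (a j) | B j] ω

variable {ι : Type*}

lemma ind_biInter (J : Finset ι) (a : ι → Set Ω) :
    ind (⋂ j ∈ J, a j) = fun ω => ∏ j ∈ J, ind (a j) ω := by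
  classical
  funext ω
  by_cases h : ∀ j ∈ J, ω ∈ a j
  · rw [Finset.prod_eq_one (fun j hj => by simp [ind, h j hj])]
    have : ω ∈ ⋂ j ∈ J, a j := by simpa using h
    simp only [ind, Set.indicator_of_mem this]
  · push Not at h
    obtain ⟨j, hj, hja⟩ := h
    rw [Finset.prod_eq_zero hj (by simp [ind, hja])]
    have : ω ∉ ⋂ j ∈ J, a j := by
      simp only [Set.mem_iInter, not_forall]
      exact ⟨j, hj, hja⟩
    simp only [ind, Set.indicator_of_notMem this]

omit [IsProbabilityMeasure P] in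
lemma OwnFibre.of_same {J : Finset ι} {A A0 B B0 : ι → MeasurableSpace Ω}
    {G0 : MeasurableSpace Ω} (hA : ∀ j ∈ J, A j ≤ A0 j)
    (h1 : ∀ j ∈ J, Same P (A j) (B j) (B0 j)) (h2 : OwnFibre P J A0 B0 G0) :
    OwnFibre P J A B G0 := by
  classical
  intro a ha
  have e : ∀ᵐ ω ∂P, ∀ j : J, P[ind (a j) | B0 j] ω = P[ind (a j) | B j] ω := by
    rw [ae_all_iff]
    exact fun j => h1 j j.2 (a j) (ha j j.2)
  filter_upwards [h2 a (fun j hj => hA j hj _ (ha j hj)), e] with ω h e
  rw [h]
  exact Finset.prod_congr rfl (fun j hj => e ⟨j, hj⟩)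

lemma OwnFibre.descend {J : Finset ι} {A B : ι → MeasurableSpace Ω} {G G0 : MeasurableSpace Ω}
    (hB : ∀ j ∈ J, B j ≤ G) (hG : G ≤ G0) (hG0 : G0 ≤ m0) (h : OwnFibre P J A B G0) :
    OwnFibre P J A B G := by
  classical
  intro a ha
  have e1 : P[P[fun ω => ∏ j ∈ J, ind (a j) ω | G0] | G] =ᵐ[P]
      P[fun ω => ∏ j ∈ J, ind (a j) ω | G] := condExp_condExp_of_le hG hG0
  have e2 : P[P[fun ω => ∏ j ∈ J, ind (a j) ω | G0] | G] =ᵐ[P]
      P[fun ω => ∏ j ∈ J, P[ind (a j) | B j] ω | G] := condExp_congr_ae (h a ha)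
  have hm : StronglyMeasurable[G] (fun ω => ∏ j ∈ J, P[ind (a j) | B j] ω) := by
    refine Finset.stronglyMeasurable_fun_prod J (fun j hj => ?_)
    exact stronglyMeasurable_condExp.mono (hB j hj)
  have hi : Integrable[m0] (fun ω => ∏ j ∈ J, P[ind (a j) | B j] ω) P := by
    have hb : ∀ᵐ ω ∂P, ∀ j : J, |P[ind (a j) | B j] ω| ≤ 1 := by
      rw [ae_all_iff]
      exact fun j => abs_condExp_le (Eventually.of_forall (abs_ind_le (a j))) (B j)
    refine Integrable.of_bound (hm.mono (hG.trans hG0)).aestronglyMeasurable 1 ?_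
    filter_upwards [hb] with ω hb
    rw [norm_prod]
    exact Finset.prod_le_one (fun j _ => norm_nonneg _) (fun j hj => hb ⟨j, hj⟩)
  rw [condExp_of_stronglyMeasurable (hG.trans hG0) hm hi] at e2
  exact e1.symm.trans e2

/-- The main transfer theorem: own-fibre laws given `G0`, `B j ≤ G ≤ G0`, imply that
conditioning on `G0` is conditioning on `G` for all functions measurable with respect to
`A j` (`j ∈ J`) and `G`. -/
theorem OwnFibre.condExp_eq {J : Finset ι} {A B : ι → MeasurableSpace Ω}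
    {G G0 : MeasurableSpace Ω} (hA : ∀ j ∈ J, A j ≤ m0)
    (hB : ∀ j ∈ J, B j ≤ G) (hG : G ≤ G0) (hG0 : G0 ≤ m0) (h : OwnFibre P J A B G0)
    {f : Ω → ℝ} (hf : Integrable[m0] f P)
    (hfm : AEStronglyMeasurable[(⨆ j ∈ J, A j) ⊔ G] f P) :
    P[f | G0] =ᵐ[P] P[f | G] := by
  classical
  have h' := h.descend hB hG hG0
  let C : Set (Set Ω) := piiUnionInter (fun n => {s | MeasurableSet[A n] s}) (J : Set ι)
  have hgen : (⨆ j ∈ J, A j) = MeasurableSpace.generateFrom C := by
    have := generateFrom_piiUnionInter_measurableSet A (J : Set ι)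
    simpa using this.symm
  have hpi : IsPiSystem C :=
    isPiSystem_piiUnionInter _ (fun x => @MeasurableSpace.isPiSystem_measurableSet _ (A x)) _
  refine condExp_eq_of_generate_sup (iSup₂_le hA) hG hG0 hgen hpi ?_ hf hfm
  rintro s ⟨t, htJ, a, ha, rfl⟩
  -- extend `a` by `univ`
  let b : ι → Set Ω := fun j => if j ∈ t then a j else Set.univ
  have hb : ∀ j ∈ J, MeasurableSet[A j] (b j) := by
    intro j _
    by_cases hj : j ∈ t
    · simp only [b, hj, if_true]; exact ha j hj
    · simp only [b, hj, if_false]; exact @MeasurableSet.univ _ (A j)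
  have hs : (⋂ j ∈ t, a j) = ⋂ j ∈ J, b j := by
    ext ω
    simp only [Set.mem_iInter, b]
    constructor
    · intro h j _
      by_cases hj : j ∈ t
      · simp only [hj, if_true]; exact h j hj
      · simp only [hj, if_false]; trivial
    · intro h j hj
      have := h j (htJ hj)
      simpa only [hj, if_true] using this
  rw [hs, ind_biInter]
  filter_upwards [h b hb, h' b hb] with ω h1 h2
  rw [h1, h2]

/-- The transfer theorem in the form needed for the second extension. -/
theorem condExp_eq_of_ext {J : Finset ι} {A A0 B B0 : ι → MeasurableSpace Ω}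
    {G G0 : MeasurableSpace Ω} (hA : ∀ j ∈ J, A j ≤ A0 j) (hA0 : ∀ j ∈ J, A0 j ≤ m0)
    (hB : ∀ j ∈ J, B j ≤ G) (hG : G ≤ G0) (hG0 : G0 ≤ m0)
    (h1 : ∀ j ∈ J, Same P (A j) (B j) (B0 j)) (h2 : OwnFibre P J A0 B0 G0)
    {f : Ω → ℝ} (hf : Integrable[m0] f P)
    (hfm : AEStronglyMeasurable[(⨆ j ∈ J, A j) ⊔ G] f P) :
    P[f | G0] =ᵐ[P] P[f | G] :=
  (h2.of_same hA h1).condExp_eq (fun j hj => (hA j hj).trans (hA0 j hj)) hB hG hG0 hf hfm

section Disint

variable {W Y Y0 : Type*} [MeasurableSpace W] [StandardBorelSpace W] [Nonempty W]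
  [mY : MeasurableSpace Y] [mY0 : MeasurableSpace Y0]

/-- Equality of conditional expectations gives equality of the regular conditional
distributions. -/
theorem condDistrib_ae_eq_comap {w : Ω → W} {y : Ω → Y} {y0 : Ω → Y0} {p : Y0 → Y}
    (hw : Measurable w) (hy : Measurable y) (hy0 : Measurable y0) (hp : Measurable p)
    (hpy : ∀ᵐ ω ∂P, p (y0 ω) = y ω)
    (h : ∀ C, MeasurableSet C →
      P[ind (w ⁻¹' C) | mY0.comap y0] =ᵐ[P] P[ind (w ⁻¹' C) | mY.comap y]) :
    condDistrib w y0 P =ᵐ[P.map y0] (condDistrib w y P).comap p hp := by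
  refine condDistrib_ae_eq_of_measure_eq_compProd_of_measurable hy0 hw ?_
  have : IsProbabilityMeasure (P.map y0) := Measure.isProbabilityMeasure_map hy0.aemeasurable
  have : IsProbabilityMeasure (P.map fun ω => (y0 ω, w ω)) :=
    Measure.isProbabilityMeasure_map (hy0.prodMk hw).aemeasurable
  refine Measure.ext_prod (fun {s t} hs ht => ?_)
  rw [Measure.map_apply (hy0.prodMk hw) (hs.prod ht), Measure.compProd_apply_prod hs ht,
    setLIntegral_map hs (Kernel.measurable_coe _ ht) hy0, Set.mk_preimage_prod]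
  have e1 : ∫⁻ ω in y0 ⁻¹' s, ((condDistrib w y P).comap p hp) (y0 ω) t ∂P =
      ∫⁻ ω in y0 ⁻¹' s, condDistrib w y P (y ω) t ∂P := by
    refine setLIntegral_congr_fun_ae (hy0 hs) ?_
    filter_upwards [hpy] with ω hω _
    rw [Kernel.comap_apply, hω]
  rw [e1]
  have e2 : (∫⁻ ω in y0 ⁻¹' s, condDistrib w y P (y ω) t ∂P).toReal =
      (P (y0 ⁻¹' s ∩ w ⁻¹' t)).toReal := by
    have hm : Measurable (fun ω => condDistrib w y P (y ω) t) :=
      (Kernel.measurable_coe _ ht).comp hy
    rw [← integral_toReal hm.aemeasurable (Eventually.of_forall fun ω => measure_lt_top _ _)]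
    have h1 : (fun ω => (condDistrib w y P (y ω)).real t) =ᵐ[P]
        P[ind (w ⁻¹' t) | mY.comap y] := condDistrib_ae_eq_condExp hy hw ht
    have h2 := h t ht
    calc ∫ ω in y0 ⁻¹' s, (condDistrib w y P (y ω) t).toReal ∂P
        = ∫ ω in y0 ⁻¹' s, P[ind (w ⁻¹' t) | mY0.comap y0] ω ∂P := by
          refine setIntegral_congr_ae (hy0 hs) ?_
          filter_upwards [h1, h2] with ω h1 h2 _
          rw [h2, ← h1]; rfl
      _ = ∫ ω in y0 ⁻¹' s, ind (w ⁻¹' t) ω ∂P :=
          setIntegral_condExp hy0.comap_le (integrable_ind (hw ht)) ⟨s, hs, rfl⟩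
      _ = (P (y0 ⁻¹' s ∩ w ⁻¹' t)).toReal := by
          rw [setIntegral_indicator (hw ht)]
          simp [Measure.real]
  have h3 : ∫⁻ ω in y0 ⁻¹' s, condDistrib w y P (y ω) t ∂P ≠ ⊤ := by
    refine ne_of_lt (lt_of_le_of_lt (lintegral_mono (g := fun _ => 1) fun ω => prob_le_one) ?_)
    simp
  exact ((ENNReal.toReal_eq_toReal_iff' h3 (measure_ne_top _ _)).1 e2).symm

end Disint

end Vale.Agent.P102.RM.SecondExt
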