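import Vale.Agent.P102.RM.Functor
import Vale.Agent.P102.RM.SecondExt
import Vale.Agent.P102.RM.ConstKer
import Vale.Agent.P102.RM.CondExpB
import Vale.Agent.P102.RM.Fib
import Vale.Agent.P102.RM.RelSq
import Vale.Agent.P102.RM.Skeleton

/-!
Block PD (P102): the pair data `PD` from a sated extension of the relative square.
-/

namespace Vale.Agent.P102.RM.PairData

open MeasureTheory Filter Topology ProbabilityTheory

/-! ### `D r` as a functor -/

section lim

variable {ι : Type} [Fintype ι]

/-- the factor map `D r A → D r B` -/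
theorem limM_map_mp (r : Ultrafilter (ι → ℤ)) {A B : Sys} (p : Fac A B) :
    MeasurePreserving (fun (d : ι → A.C) (i : ι) => p.f (d i)) (limM r A) (limM r B) :=
  ⟨measurable_pi_lambda _ fun i => p.meas.comp (measurable_pi_apply i), limM_map r p⟩

/-- marginals of the limit joining -/
theorem limM_eval_mp (r : Ultrafilter (ι → ℤ)) (A : Sys) (s : ι) :
    MeasurePreserving (fun d : ι → A.C => d s) (limM r A) A.μ :=
  ⟨measurable_pi_apply s, limM_map_eval r A s⟩

end lim

/-! ### `M`-satedness: one point -/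

section one

variable {X : Sys} {P P' : Adm X}

theorem bdd_memLp {Ω : Type*} [MeasurableSpace Ω] {μ : Measure Ω} [IsFiniteMeasure μ]
    {f : Ω → ℂ} (hf : Bdd f) : MemLp f 2 μ := by
  obtain ⟨hm, C, hC⟩ := hf
  exact MemLp.of_bound hm.aestronglyMeasurable C (Eventually.of_forall hC)

theorem bdd_integrable {Ω : Type*} [MeasurableSpace Ω] {μ : Measure Ω} [IsFiniteMeasure μ]
    {f : Ω → ℂ} (hf : Bdd f) : Integrable f μ := by
  obtain ⟨hm, C, hC⟩ := hf
  exact Integrable.of_bound hm.aestronglyMeasurable C (Eventually.of_forall hC)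

theorem bdd_comp {Ω Ω' : Type*} [MeasurableSpace Ω] [MeasurableSpace Ω'] {f : Ω → ℂ}
    (hf : Bdd f) {g : Ω' → Ω} (hg : Measurable g) : Bdd (f ∘ g) := by
  obtain ⟨hm, C, hC⟩ := hf
  exact ⟨hm.comp hg, C, fun a => hC _⟩

/-- `M`-satedness: conditioning `f ∘ w` on the base of the extension is conditioning on `y`. -/
theorem satM_condExp_eq (hM : SatM P) (e : Ext P' P) {f : P.W.C → ℂ} (hf : Bdd f) :
    P'.W.μ[f ∘ e.w.f | MeasurableSpace.comap P'.y.f inferInstance] =ᵐ[P'.W.μ]
      P'.W.μ[f ∘ e.w.f | MeasurableSpace.comap (P.y.f ∘ e.w.f) inferInstance] := by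
  have hle : MeasurableSpace.comap (P.y.f ∘ e.w.f) inferInstance ≤
      MeasurableSpace.comap P'.y.f inferInstance := by
    have h1 : P.y.f ∘ e.w.f = e.v.f ∘ P'.y.f := funext e.hy
    rw [h1, ← MeasurableSpace.comap_comp]
    exact MeasurableSpace.comap_mono e.v.meas.comap_le
  refine condExp_ae_eq_of_norm_le hle P'.y.meas.comap_le (bdd_memLp (bdd_comp hf e.w.meas)) ?_
  have h1 := hM P' e f hf
  unfold Adm.M sqN at h1
  refine h1.trans (le_of_eq ?_)
  have h2 := integral_normSq_condExp_comap (μ' := P'.W.μ) (μ := P.W.μ)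
    (m := MeasurableSpace.comap P.y.f inferInstance) P.y.meas.comap_le e.w.mp
    (f := f) (bdd_integrable hf)
  rw [MeasurableSpace.comap_comp] at h2
  exact h2.symm

theorem condExp_ofReal' {Ω : Type*} {mΩ : MeasurableSpace Ω} {μ : Measure Ω} {g : Ω → ℝ}
    (hg : Integrable g μ) (m : MeasurableSpace Ω) :
    μ[fun x => ((g x : ℝ) : ℂ) | m] =ᵐ[μ] fun x => ((μ[g | m] x : ℝ) : ℂ) :=
  (Complex.ofRealCLM.comp_condExp_comm hg (m := m)).symm

/-- the complex indicator -/
theorem bdd_ind {Ω : Type*} [MeasurableSpace Ω] {a : Set Ω} (ha : MeasurableSet a) :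
    Bdd (fun x => ((SecondExt.ind a x : ℝ) : ℂ)) := by
  refine ⟨Complex.measurable_ofReal.comp (measurable_const.indicator ha), 1, fun x => ?_⟩
  rw [Complex.norm_real]
  exact SecondExt.abs_ind_le a x

/-- `M`-satedness, pulled back to a probability space `Ω → P'.W`. -/
theorem satM_same (hM : SatM P) (e : Ext P' P) {Ω : Type*} [MeasurableSpace Ω] {R : Measure Ω}
    [IsProbabilityMeasure R] {π : Ω → P'.W.C} (hπ : MeasurePreserving π R P'.W.μ) :
    SecondExt.Same R (MeasurableSpace.comap (fun z => e.w.f (π z)) inferInstance)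
      (MeasurableSpace.comap (fun z => P.y.f (e.w.f (π z))) inferInstance)
      (MeasurableSpace.comap (fun z => P'.y.f (π z)) inferInstance) := by
  rintro _ ⟨a, ha, rfl⟩
  have hb := bdd_ind ha
  have i1 : Integrable ((fun x => ((SecondExt.ind a x : ℝ) : ℂ)) ∘ e.w.f) P'.W.μ :=
    bdd_integrable (bdd_comp hb e.w.meas)
  have h1 := condExp_comp_comap (μ := P'.W.μ) (μ' := R)
    (m := MeasurableSpace.comap P'.y.f inferInstance) P'.y.meas.comap_le hπ i1
  have h2 := condExp_comp_comap (μ := P'.W.μ) (μ' := R)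
    (m := MeasurableSpace.comap (P.y.f ∘ e.w.f) inferInstance)
    (P.y.meas.comp e.w.meas).comap_le hπ i1
  have h3 := hπ.quasiMeasurePreserving.ae_eq_comp (satM_condExp_eq hM e hb)
  rw [MeasurableSpace.comap_comp] at h1 h2
  have hset : MeasurableSet ((fun z => e.w.f (π z)) ⁻¹' a) :=
    (e.w.meas.comp hπ.measurable) ha
  have i2 : Integrable (SecondExt.ind ((fun z => e.w.f (π z)) ⁻¹' a)) R :=
    SecondExt.integrable_ind hset
  have h4 := condExp_ofReal' i2 (MeasurableSpace.comap (P'.y.f ∘ π) inferInstance)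
  have h5 := condExp_ofReal' i2 (MeasurableSpace.comap ((P.y.f ∘ e.w.f) ∘ π) inferInstance)
  have hfun : ((fun x => ((SecondExt.ind a x : ℝ) : ℂ)) ∘ e.w.f) ∘ π =
      fun x => ((SecondExt.ind ((fun z => e.w.f (π z)) ⁻¹' a) x : ℝ) : ℂ) := rfl
  rw [hfun] at h1 h2
  have h6 := ((h4.symm.trans h1).trans h3).trans (h2.symm.trans h5)
  filter_upwards [h6] with z hz
  exact_mod_cast hz

end one

/-! ### Lines -/

section line

variable {ι : Type} [Fintype ι] [DecidableEq ι] {r : Ultrafilter (ι → ℤ)}

/-- Conditional distributions are transported by measure preserving maps. -/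
theorem condDistrib_comp_mp {Ω Ω' A B : Type*} [MeasurableSpace Ω] [MeasurableSpace Ω']
    [MeasurableSpace A] [MeasurableSpace B] [StandardBorelSpace B] [Nonempty B]
    {R : Measure Ω} [IsProbabilityMeasure R] {μ : Measure Ω'} [IsProbabilityMeasure μ]
    {π : Ω → Ω'} (hπ : MeasurePreserving π R μ) {f : Ω' → A} {g : Ω' → B} (hf : Measurable f)
    (hg : Measurable g) :
    condDistrib (g ∘ π) (f ∘ π) R =ᵐ[μ.map f] condDistrib g f μ := by
  obtain ⟨hm, rfl⟩ := hπ
  have h := condDistrib_map (X := f) (Y := g) (ν := R) (f := π) hf.aemeasurable hg.aemeasurable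
    hm.aemeasurable
  rw [Measure.map_map hf hm]
  exact h.symm

theorem condDistrib_comp_mp' {Ω Ω' A B : Type*} [MeasurableSpace Ω] [MeasurableSpace Ω']
    [MeasurableSpace A] [MeasurableSpace B] [StandardBorelSpace B] [Nonempty B]
    {ρ : Measure Ω} [IsProbabilityMeasure ρ] {μ : Measure Ω'} [IsProbabilityMeasure μ]
    {π : Ω → Ω'} (hπ : MeasurePreserving π ρ μ) {f : Ω' → A} {g : Ω' → B} (hf : Measurable f)
    (hg : Measurable g) :
    ∀ᵐ z ∂ρ, condDistrib (fun z => g (π z)) (fun z => f (π z)) ρ (f (π z)) =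
      condDistrib g f μ (f (π z)) := by
  have h := condDistrib_comp_mp hπ hf hg
  exact hπ.quasiMeasurePreserving.ae (ae_of_ae_map hf.aemeasurable h)

omit [DecidableEq ι] in
/-- The conditional probabilities of one point of a line are given by the fibre measures. -/
theorem condExp_eval_eq_om {V Y : Sys} (y : Fac V Y)
    (j : ι) {b : Set V.C} (hb : MeasurableSet b) :
    (limM r V)[SecondExt.ind ((fun z : ι → V.C => z j) ⁻¹' b) |
      MeasurableSpace.comap (fun z : ι → V.C => y.f (z j)) inferInstance] =ᵐ[limM r V]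
        fun z => (y.om (y.f (z j))).real b := by
  have hev : Measurable (fun z : ι → V.C => z j) := measurable_pi_apply j
  have hmp := limM_eval_mp r V j
  have h1 := condDistrib_ae_eq_condExp (μ := limM r V) (X := fun z : ι → V.C => y.f (z j))
    (Y := fun z : ι → V.C => z j) (y.meas.comp hev) hev hb
  have h3 := condDistrib_comp_mp' hmp (f := y.f) (g := (_root_.id : V.C → V.C)) y.meas
    measurable_id
  refine h1.symm.trans ?_
  filter_upwards [h3] with z hz
  unfold Fac.om
  have hz' : condDistrib (fun z : ι → V.C => z j) (fun z : ι → V.C => y.f (z j)) (limM r V)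
      (y.f (z j)) = condDistrib _root_.id y.f V.μ (y.f (z j)) := hz
  rw [hz']

/-- `LineInd` as an own-fibre law. -/
theorem lineInd_ownFibre {V Y : Sys} {y : Fac V Y} {s : ι}
    (h : LineInd r y s) :
    SecondExt.OwnFibre (limM r V) (Finset.univ.erase s)
      (fun j => MeasurableSpace.comap (fun z : ι → V.C => z j) inferInstance)
      (fun j => MeasurableSpace.comap (fun z : ι → V.C => y.f (z j)) inferInstance)
      (MeasurableSpace.comap (fun (z : ι → V.C) (i : ι) => y.f (z i)) inferInstance) := by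
  intro a ha
  choose! b hb hab using ha
  -- the sets outside `J` are irrelevant
  let b' : ι → Set V.C := fun j => if j ∈ Finset.univ.erase s then b j else Set.univ
  have hb' : ∀ j, MeasurableSet (b' j) := by
    intro j
    by_cases hj : j ∈ Finset.univ.erase s
    · simp only [b', hj, if_true]; exact hb j hj
    · simp only [b', hj, if_false]; exact MeasurableSet.univ
  have hbb' : ∀ j ∈ Finset.univ.erase s, b' j = b j := by
    intro j hj; simp only [b', hj, if_true]
  have hyb : Measurable (fun (z : ι → V.C) (i : ι) => y.f (z i)) :=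
    measurable_pi_lambda _ fun i => y.meas.comp (measurable_pi_apply i)
  have hphi : ∀ j, Measurable (fun w : Y.C => (y.om w).real (b' j)) := fun j =>
    (Kernel.measurable_coe _ (hb' j)).ennreal_toReal
  have hE : ∀ᵐ z ∂(limM r V), ∀ j : (Finset.univ.erase s : Finset ι),
      (limM r V)[SecondExt.ind (a j) |
        MeasurableSpace.comap (fun z : ι → V.C => y.f (z j)) inferInstance] z =
        (y.om (y.f (z j))).real (b' j) := by
    rw [ae_all_iff]
    intro j
    have := condExp_eval_eq_om (r := r) y (j : ι) (hb' j)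
    rw [hbb' j j.2, hab j j.2] at this
    rw [hbb' j j.2]
    exact this
  -- the candidate
  let Φ : (ι → V.C) → ℝ := fun z => ∏ j ∈ Finset.univ.erase s, (y.om (y.f (z j))).real (b' j)
  let F : (ι → V.C) → ℝ := fun z => ∏ j ∈ Finset.univ.erase s, SecondExt.ind (a j) z
  have hΦF : (limM r V)[F |
      MeasurableSpace.comap (fun (z : ι → V.C) (i : ι) => y.f (z i)) inferInstance]
        =ᵐ[limM r V] Φ := by
    have hFm : Measurable F := by
      refine Finset.measurable_prod _ fun j hj => ?_
      refine measurable_const.indicator ?_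
      rw [← hab j hj]
      exact measurable_pi_apply j (hb j hj)
    have hFb : ∀ z, ‖F z‖ ≤ 1 := by
      intro z
      rw [norm_prod]
      exact Finset.prod_le_one (fun j _ => norm_nonneg _) (fun j _ => SecondExt.abs_ind_le _ z)
    have hΦm0 : Measurable[MeasurableSpace.comap
        (fun (z : ι → V.C) (i : ι) => y.f (z i)) inferInstance] Φ := by
      let Ψ : (ι → Y.C) → ℝ := fun w => ∏ j ∈ Finset.univ.erase s, (y.om (w j)).real (b' j)
      have hΨ : Measurable Ψ :=
        Finset.measurable_prod _ fun j _ => (hphi j).comp (measurable_pi_apply j)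
      exact hΨ.comp (comap_measurable _)
    have hΦb : ∀ z, ‖Φ z‖ ≤ 1 := by
      intro z
      rw [norm_prod]
      refine Finset.prod_le_one (fun j _ => norm_nonneg _) (fun j _ => ?_)
      rw [Real.norm_of_nonneg measureReal_nonneg]
      exact measureReal_le_one
    have hΦm : Measurable Φ := hΦm0.mono hyb.comap_le le_rfl
    symm
    refine ae_eq_condExp_of_forall_setIntegral_eq hyb.comap_le
      (Integrable.of_bound hFm.aestronglyMeasurable 1 (Eventually.of_forall hFb))
      (fun _ _ _ => (Integrable.of_bound hΦm.aestronglyMeasurable 1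
        (Eventually.of_forall hΦb)).integrableOn) ?_ hΦm0.stronglyMeasurable.aestronglyMeasurable
    rintro _ ⟨C, hC, rfl⟩ _
    have key := h (fun j x => ((SecondExt.ind (b' j) x : ℝ) : ℂ))
      (fun x => ((SecondExt.ind C x : ℝ) : ℂ)) (fun j => bdd_ind (hb' j)) (bdd_ind hC)
    have e1 : ∀ d : ι → V.C, ((SecondExt.ind C (fun i => y.f (d i)) : ℝ) : ℂ) *
        ∏ j ∈ Finset.univ.erase s, ((SecondExt.ind (b' j) (d j) : ℝ) : ℂ) =
        (((SecondExt.ind ((fun (z : ι → V.C) (i : ι) => y.f (z i)) ⁻¹' C) d * F d : ℝ)) : ℂ) := by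
      intro d
      rw [Complex.ofReal_mul]
      congr 1
      rw [← Complex.ofReal_prod]
      congr 1
      refine Finset.prod_congr rfl fun j hj => ?_
      rw [hbb' j hj, ← hab j hj]
      rfl
    have e2 : ∀ d : ι → V.C, ((SecondExt.ind C (fun i => y.f (d i)) : ℝ) : ℂ) *
        ∏ j ∈ Finset.univ.erase s,
          y.ce (fun x => ((SecondExt.ind (b' j) x : ℝ) : ℂ)) (y.f (d j)) =
        (((SecondExt.ind ((fun (z : ι → V.C) (i : ι) => y.f (z i)) ⁻¹' C) d * Φ d : ℝ)) : ℂ) := by
      intro d
      rw [Complex.ofReal_mul, Complex.ofReal_prod]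
      congr 1
      refine Finset.prod_congr rfl fun j hj => ?_
      unfold Fac.ce
      rw [integral_complex_ofReal]
      congr 1
      rw [integral_indicator (hb' j)]
      simp [Measure.real]
    have e3 : ∀ G : (ι → V.C) → ℝ,
        ∫ d, (((SecondExt.ind ((fun (z : ι → V.C) (i : ι) => y.f (z i)) ⁻¹' C) d * G d : ℝ)) : ℂ)
          ∂(limM r V) = ((∫ d in (fun (z : ι → V.C) (i : ι) => y.f (z i)) ⁻¹' C, G d
            ∂(limM r V) : ℝ) : ℂ) := by
      intro G
      rw [integral_complex_ofReal, SecondExt.integral_ind_mul (hyb hC)]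
    simp only [e1, e2] at key
    rw [e3, e3] at key
    exact_mod_cast key.symm
  filter_upwards [hΦF, hE] with z h1 h2
  rw [h1]
  exact Finset.prod_congr rfl fun j hj => (h2 ⟨j, hj⟩).symm

/-- The conditional law of a line of an exact factor, given the base line of an extension, is the
conditional law given the own base line. -/
theorem lineK_map_eq {X : Sys} {P P' : Adm X} (hM : SatM P)
    (e : Ext P' P) {p q : ι} (E : EP r p q P.Y) (f : Fac P.W E.V)
    (hf : ∀ w, E.y.f (f.f w) = P.y.f w) (hl : LineInd r P'.y p) :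
    ∀ᵐ η ∂(D r P'.Y).μ, (P'.y.lineK r η).map (fun (z : ι → P'.W.C) i => f.f (e.w.f (z i))) =
      E.y.lineK r (fun i => e.v.f (η i)) := by
  classical
  -- notation
  let a' : (ι → P'.W.C) → (ι → P'.Y.C) := fun z i => P'.y.f (z i)
  let F : (ι → P'.W.C) → (ι → E.V.C) := fun z i => f.f (e.w.f (z i))
  let κ : (ι → P'.Y.C) → (ι → P.Y.C) := fun η i => e.v.f (η i)
  have ha' : Measurable a' :=
    measurable_pi_lambda _ fun i => P'.y.meas.comp (measurable_pi_apply i)
  have hF : Measurable F :=
    measurable_pi_lambda _ fun i => (f.meas.comp e.w.meas).comp (measurable_pi_apply i)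
  have hκ : Measurable κ :=
    measurable_pi_lambda _ fun i => e.v.meas.comp (measurable_pi_apply i)
  have ha'mp : MeasurePreserving a' (limM r P'.W) (limM r P'.Y) := limM_map_mp r P'.y
  have hFmp : MeasurePreserving F (limM r P'.W) (limM r E.V) := limM_map_mp r (f.comp e.w)
  have hκmp : MeasurePreserving κ (limM r P'.Y) (limM r P.Y) := limM_map_mp r e.v
  have hymp : MeasurePreserving (fun (v : ι → E.V.C) i => E.y.f (v i)) (limM r E.V)
    (limM r P.Y) := limM_map_mp r E.y
  have hcomp : κ ∘ a' = (fun (v : ι → E.V.C) i => E.y.f (v i)) ∘ F := by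
    funext z i
    show e.v.f (P'.y.f (z i)) = E.y.f (f.f (e.w.f (z i)))
    rw [hf, e.hy]
  -- the exactness of slot `p`, on lines of `P'.W`
  have hex : ∀ᵐ z ∂(limM r P'.W), F z p =
      E.Rp ((fun j : {j : ι // j ≠ p} => F z j), κ (a' z) p) := by
    have h1 := hFmp.quasiMeasurePreserving.ae E.hRp
    filter_upwards [h1] with z hz
    rw [hz]
    congr 1
    have : E.y.f (F z p) = κ (a' z) p := by
      have := congrFun (congrFun hcomp z) p
      exact this.symm
    show ((fun j : {j : ι // j ≠ p} => F z j), E.y.f (F z p)) = _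
    rw [this]
  -- the transfer
  have hkey : ∀ t : Set (ι → E.V.C), MeasurableSet t →
      (limM r P'.W)[SecondExt.ind (F ⁻¹' t) | MeasurableSpace.comap a' inferInstance]
        =ᵐ[limM r P'.W]
      (limM r P'.W)[SecondExt.ind (F ⁻¹' t) | MeasurableSpace.comap (κ ∘ a') inferInstance] := by
    intro t ht
    refine SecondExt.condExp_eq_of_ext (J := Finset.univ.erase p)
      (A := fun j => MeasurableSpace.comap (fun z : ι → P'.W.C => e.w.f (z j)) inferInstance)
      (A0 := fun j => MeasurableSpace.comap (fun z : ι → P'.W.C => z j) inferInstance)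
      (B := fun j => MeasurableSpace.comap (fun z : ι → P'.W.C => P.y.f (e.w.f (z j)))
        inferInstance)
      (B0 := fun j => MeasurableSpace.comap (fun z : ι → P'.W.C => P'.y.f (z j)) inferInstance)
      ?_ ?_ ?_ ?_ ha'.comap_le ?_ (lineInd_ownFibre hl) (SecondExt.integrable_ind (hF ht)) ?_
    · rintro j _ _ ⟨c, hc, rfl⟩
      exact ⟨e.w.f ⁻¹' c, e.w.meas hc, rfl⟩
    · intro j _
      exact (measurable_pi_apply j).comap_le
    · rintro j _ _ ⟨c, hc, rfl⟩
      refine ⟨(fun w : ι → P.Y.C => w j) ⁻¹' c, measurable_pi_apply j hc, ?_⟩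
      ext z
      simp only [Set.mem_preimage, Function.comp_apply, κ, a']
      rw [e.hy]
    · rintro _ ⟨c, hc, rfl⟩
      exact ⟨κ ⁻¹' c, hκ hc, rfl⟩
    · intro j _
      exact satM_same hM e (limM_eval_mp r P'.W j)
    · -- measurability
      let M : MeasurableSpace (ι → P'.W.C) :=
        (⨆ j ∈ Finset.univ.erase p,
          MeasurableSpace.comap (fun z : ι → P'.W.C => e.w.f (z j)) inferInstance) ⊔
        MeasurableSpace.comap (κ ∘ a') inferInstance
      let F' : (ι → P'.W.C) → (ι → E.V.C) := fun z i =>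
        if i = p then E.Rp ((fun j : {j : ι // j ≠ p} => F z j), κ (a' z) p) else F z i
      have hFj : ∀ j, j ≠ p → Measurable[M] (fun z => F z j) := by
        intro j hj
        have h1 : MeasurableSpace.comap (fun z : ι → P'.W.C => e.w.f (z j)) inferInstance ≤ M :=
          le_trans (le_iSup₂_of_le (f := fun (j : ι) (_ : j ∈ Finset.univ.erase p) =>
            MeasurableSpace.comap (fun z : ι → P'.W.C => e.w.f (z j)) inferInstance) j
            (Finset.mem_erase.2 ⟨hj, Finset.mem_univ j⟩) le_rfl) le_sup_left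
        have h2 : Measurable[M] (fun z : ι → P'.W.C => e.w.f (z j)) :=
          (comap_measurable _).mono h1 le_rfl
        exact f.meas.comp h2
      have hyp : Measurable[M] (fun z => κ (a' z) p) := by
        have h2 : Measurable[M] (κ ∘ a') := (comap_measurable _).mono le_sup_right le_rfl
        exact (measurable_pi_apply p).comp h2
      have hF' : Measurable[M] F' := by
        refine @measurable_pi_lambda _ _ _ M _ _ fun i => ?_
        by_cases hi : i = p
        · simp only [F', hi, if_true]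
          refine E.mRp.comp ?_
          have h3 : Measurable[M] (fun z => (fun j : {j : ι // j ≠ p} => F z j)) :=
            @measurable_pi_lambda _ _ _ M _ _ fun j => hFj j j.2
          exact h3.prodMk hyp
        · simp only [F', hi, if_false]
          exact hFj i hi
      have hFF' : ∀ᵐ z ∂(limM r P'.W), F z = F' z := by
        filter_upwards [hex] with z hz
        funext i
        by_cases hi : i = p
        · subst hi; simp only [F', if_true]; exact hz
        · simp only [F', hi, if_false]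
      refine ⟨SecondExt.ind (F' ⁻¹' t), ?_, ?_⟩
      · exact StronglyMeasurable.indicator stronglyMeasurable_const (hF' ht)
      · filter_upwards [hFF'] with z hz
        simp only [SecondExt.ind, Set.indicator, Set.mem_preimage, hz]
  have s1 := condDistrib_refine (P := limM r P'.W) ha' hF hκ hkey
  have s2 : (condDistrib F a' (limM r P'.W)) =ᵐ[(limM r P'.W).map a']
      (condDistrib (_root_.id : (ι → P'.W.C) → (ι → P'.W.C)) a' (limM r P'.W)).map F :=
    condDistrib_comp a' aemeasurable_id hF
  have s3 := condDistrib_comp_mp hFmp (f := fun (v : ι → E.V.C) i => E.y.f (v i))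
    (g := (_root_.id : (ι → E.V.C) → (ι → E.V.C))) hymp.measurable measurable_id
  rw [ha'mp.map_eq] at s1 s2
  rw [hymp.map_eq] at s3
  have s4 := hκmp.quasiMeasurePreserving.ae s3
  filter_upwards [s1, s2, s4] with η h1 h2 h4
  have h5 : (P'.y.lineK r η).map F = condDistrib F a' (limM r P'.W) η := by
    rw [h2, Kernel.map_apply _ hF]
    rfl
  rw [← hcomp] at h4
  exact h5.trans (h1.trans h4)

/-- `LineInd` on boxes. -/
theorem lineInd_box {V Y : Sys} {y : Fac V Y} {s : ι} (h : LineInd r y s)
    {C : Set (ι → Y.C)} (hC : MeasurableSet C) {b : {j : ι // j ≠ s} → Set V.C}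
    (hb : ∀ j, MeasurableSet (b j)) :
    limM r V ((fun (z : ι → V.C) (i : ι) => y.f (z i)) ⁻¹' C ∩
        ⋂ j : {j : ι // j ≠ s}, (fun z : ι → V.C => z j) ⁻¹' b j) =
      ∫⁻ z in (fun (z : ι → V.C) (i : ι) => y.f (z i)) ⁻¹' C,
        ∏ j : {j : ι // j ≠ s}, y.om (y.f (z j)) (b j) ∂(limM r V) := by
  classical
  let b' : ι → Set V.C := fun j => if hj : j ≠ s then b ⟨j, hj⟩ else Set.univ
  have hb' : ∀ j, MeasurableSet (b' j) := by
    intro j
    by_cases hj : j ≠ s
    · simp only [b', dif_pos hj]; exact hb _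
    · simp only [b', dif_neg hj]; exact MeasurableSet.univ
  have hbb' : ∀ j : {j : ι // j ≠ s}, b' j = b j := by
    intro j; simp only [b', dif_pos j.2]
  have hyb : Measurable (fun (z : ι → V.C) (i : ι) => y.f (z i)) :=
    measurable_pi_lambda _ fun i => y.meas.comp (measurable_pi_apply i)
  have hCz : MeasurableSet ((fun (z : ι → V.C) (i : ι) => y.f (z i)) ⁻¹' C) := hyb hC
  have hprod : ∀ g : ι → ℝ, ∏ j ∈ Finset.univ.erase s, g j = ∏ j : {j : ι // j ≠ s}, g j := by
    intro g
    rw [← Finset.prod_coe_sort]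
    refine Fintype.prod_equiv (Equiv.subtypeEquivRight fun j => by simp) _ _ fun j => rfl
  have hphi : ∀ j, Measurable (fun z : ι → V.C => (y.om (y.f (z j))).real (b' j)) := fun j =>
    ((Kernel.measurable_coe _ (hb' j)).comp (y.meas.comp (measurable_pi_apply j))).ennreal_toReal
  let F : (ι → V.C) → ℝ := fun z => ∏ j ∈ Finset.univ.erase s, SecondExt.ind (b' j) (z j)
  let Φ : (ι → V.C) → ℝ := fun z => ∏ j ∈ Finset.univ.erase s, (y.om (y.f (z j))).real (b' j)
  have key := h (fun j x => ((SecondExt.ind (b' j) x : ℝ) : ℂ))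
    (fun x => ((SecondExt.ind C x : ℝ) : ℂ)) (fun j => bdd_ind (hb' j)) (bdd_ind hC)
  have e1 : ∀ d : ι → V.C, ((SecondExt.ind C (fun i => y.f (d i)) : ℝ) : ℂ) *
      ∏ j ∈ Finset.univ.erase s, ((SecondExt.ind (b' j) (d j) : ℝ) : ℂ) =
      (((SecondExt.ind ((fun (z : ι → V.C) (i : ι) => y.f (z i)) ⁻¹' C) d * F d : ℝ)) : ℂ) := by
    intro d
    rw [Complex.ofReal_mul]
    congr 1
    rw [← Complex.ofReal_prod]
  have e2 : ∀ d : ι → V.C, ((SecondExt.ind C (fun i => y.f (d i)) : ℝ) : ℂ) *
      ∏ j ∈ Finset.univ.erase s,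
        y.ce (fun x => ((SecondExt.ind (b' j) x : ℝ) : ℂ)) (y.f (d j)) =
      (((SecondExt.ind ((fun (z : ι → V.C) (i : ι) => y.f (z i)) ⁻¹' C) d * Φ d : ℝ)) : ℂ) := by
    intro d
    rw [Complex.ofReal_mul, Complex.ofReal_prod]
    congr 1
    refine Finset.prod_congr rfl fun j hj => ?_
    unfold Fac.ce
    rw [integral_complex_ofReal]
    congr 1
    rw [integral_indicator (hb' j)]
    simp [Measure.real]
  have e3 : ∀ G : (ι → V.C) → ℝ,
      ∫ d, (((SecondExt.ind ((fun (z : ι → V.C) (i : ι) => y.f (z i)) ⁻¹' C) d * G d : ℝ)) : ℂ)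
        ∂(limM r V) = ((∫ d in (fun (z : ι → V.C) (i : ι) => y.f (z i)) ⁻¹' C, G d
          ∂(limM r V) : ℝ) : ℂ) := by
    intro G
    rw [integral_complex_ofReal, SecondExt.integral_ind_mul hCz]
  simp only [e1, e2] at key
  rw [e3, e3] at key
  have key' : ∫ d in (fun (z : ι → V.C) (i : ι) => y.f (z i)) ⁻¹' C, F d ∂(limM r V) =
      ∫ d in (fun (z : ι → V.C) (i : ι) => y.f (z i)) ⁻¹' C, Φ d ∂(limM r V) := by
    exact_mod_cast key
  -- left-hand side
  have hFset : F = SecondExt.ind (⋂ j : {j : ι // j ≠ s}, (fun z : ι → V.C => z j) ⁻¹' b j) := by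
    funext z
    simp only [F]
    rw [hprod (fun j => SecondExt.ind (b' j) (z j))]
    have := congrFun (SecondExt.ind_biInter (Finset.univ : Finset {j : ι // j ≠ s})
      (fun j => (fun z : ι → V.C => z j) ⁻¹' b j)) z
    simp only [Finset.mem_univ, Set.iInter_true] at this
    rw [this]
    refine Finset.prod_congr rfl fun j _ => ?_
    rw [hbb' j]
    rfl
  have hIm : MeasurableSet (⋂ j : {j : ι // j ≠ s}, (fun z : ι → V.C => z j) ⁻¹' b j) :=
    MeasurableSet.iInter fun j => measurable_pi_apply (j : ι) (hb j)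
  have l1 : ∫ d in (fun (z : ι → V.C) (i : ι) => y.f (z i)) ⁻¹' C, F d ∂(limM r V) =
      (limM r V).real ((fun (z : ι → V.C) (i : ι) => y.f (z i)) ⁻¹' C ∩
        ⋂ j : {j : ι // j ≠ s}, (fun z : ι → V.C => z j) ⁻¹' b j) := by
    rw [hFset, setIntegral_indicator hIm]
    simp [Measure.real]
  -- right-hand side
  have hΦm : Measurable Φ := Finset.measurable_prod _ fun j _ => hphi j
  have hΦ0 : ∀ z, 0 ≤ Φ z := fun z => Finset.prod_nonneg fun j _ => measureReal_nonneg
  have hΦb : ∀ z, ‖Φ z‖ ≤ 1 := by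
    intro z
    rw [norm_prod]
    refine Finset.prod_le_one (fun j _ => norm_nonneg _) (fun j _ => ?_)
    rw [Real.norm_of_nonneg measureReal_nonneg]
    exact measureReal_le_one
  have r1 : ∫⁻ z in (fun (z : ι → V.C) (i : ι) => y.f (z i)) ⁻¹' C,
        ∏ j : {j : ι // j ≠ s}, y.om (y.f (z j)) (b j) ∂(limM r V) =
      ENNReal.ofReal (∫ d in (fun (z : ι → V.C) (i : ι) => y.f (z i)) ⁻¹' C, Φ d
        ∂(limM r V)) := by
    rw [ofReal_integral_eq_lintegral_ofReal]
    · refine lintegral_congr fun z => ?_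
      simp only [Φ]
      rw [hprod (fun j => (y.om (y.f (z j))).real (b' j)),
        ENNReal.ofReal_prod_of_nonneg fun j _ => measureReal_nonneg]
      refine Finset.prod_congr rfl fun j _ => ?_
      rw [hbb' j, measureReal_def, ENNReal.ofReal_toReal (measure_ne_top _ _)]
    · exact (Integrable.of_bound hΦm.aestronglyMeasurable 1
        (Eventually.of_forall hΦb)).integrableOn
    · exact Eventually.of_forall hΦ0
  rw [r1, ← key', l1, measureReal_def, ENNReal.ofReal_toReal (measure_ne_top _ _)]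

/-- Independence in the fibre lines. -/
theorem ki_of_lineInd {V Y : Sys} {y : Fac V Y}
    (h : ∀ s : ι, LineInd r y s) : ∀ᵐ η ∂(D r Y).μ, KI (y.lineK r η) := by
  have hyb : Measurable (fun (z : ι → V.C) (i : ι) => y.f (z i)) :=
    measurable_pi_lambda _ fun i => y.meas.comp (measurable_pi_apply i)
  have hmp := limM_map_mp r y
  unfold KI
  rw [ae_all_iff]
  intro s
  have h1 := condDistrib_ae_eq_piKernel (P := limM r V)
    (A := fun (z : ι → V.C) (i : ι) => y.f (z i)) hyb
    (B := fun (j : {j : ι // j ≠ s}) (z : ι → V.C) => z j) (fun j => measurable_pi_apply (j : ι))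
    (fun j => (y.om).comap (fun η : ι → Y.C => η j) (measurable_pi_apply (j : ι)))
    (fun C b hC hb => by
      rw [lineInd_box (h s) hC hb]
      rfl)
  have hr : Measurable (fun (z : ι → V.C) (j : {j : ι // j ≠ s}) => z j) :=
    measurable_pi_lambda _ fun j => measurable_pi_apply (j : ι)
  have h2 : condDistrib (fun (z : ι → V.C) (j : {j : ι // j ≠ s}) => z j)
      (fun (z : ι → V.C) (i : ι) => y.f (z i)) (limM r V)
        =ᵐ[(limM r V).map (fun (z : ι → V.C) (i : ι) => y.f (z i))]
      (condDistrib (_root_.id : (ι → V.C) → (ι → V.C))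
        (fun (z : ι → V.C) (i : ι) => y.f (z i)) (limM r V)).map
        (fun (z : ι → V.C) (j : {j : ι // j ≠ s}) => z j) :=
    condDistrib_comp _ aemeasurable_id hr
  rw [hmp.map_eq] at h1 h2
  filter_upwards [h1, h2] with η e1 e2
  have e3 : (y.lineK r η).map (fun (v : ι → V.C) (j : {j : ι // j ≠ s}) => v j) =
      Measure.pi (fun j : {j : ι // j ≠ s} => y.om (η j)) := by
    have : (y.lineK r η).map (fun (v : ι → V.C) (j : {j : ι // j ≠ s}) => v j) =
        condDistrib (fun (z : ι → V.C) (j : {j : ι // j ≠ s}) => z j)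
          (fun (z : ι → V.C) (i : ι) => y.f (z i)) (limM r V) η := by
      rw [e2, Kernel.map_apply _ hr]
      rfl
    rw [this, e1, piKernel_apply]
    rfl
  rw [e3]
  congr 1
  funext j
  have e4 : (y.lineK r η).map (fun v : ι → V.C => v j) =
      ((y.lineK r η).map (fun (v : ι → V.C) (j : {j : ι // j ≠ s}) => v j)).map
        (fun v : {j : ι // j ≠ s} → V.C => v j) := by
    rw [Measure.map_map (measurable_pi_apply j) hr]
    rfl
  rw [e4, e3]
  exact (measurePreserving_eval (fun j : {j : ι // j ≠ s} => y.om (η j)) j).map_eq.symm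

end line

end Vale.Agent.P102.RM.PairData

namespace Vale.Agent.P102.RM

open MeasureTheory Filter Topology ProbabilityTheory

/-- The pair data from a sated extension of the relative square. -/
theorem exists_pd {X : Sys} {P : Adm X} {ι : Type} [Fintype ι] [DecidableEq ι]
    {r : Ultrafilter (ι → ℤ)} (hM : SatM P) {p q : ι} (F : ExF P r p q) {P0 : Adm X}
    (e : Ext P0 P.sq) (hl : ∀ s, LineInd r P0.y s) : Nonempty (PD F) := by
  let e1 : Ext P0 P := P.sqE1.comp e
  let e2 : Ext P0 P := P.sqE2.comp e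
  refine ⟨{
    Z := P0.W
    Y0 := P0.Y
    y0 := P0.y
    f1 := F.e.comp e1.w
    f2 := F.e.comp e2.w
    v1 := e1.v
    v2 := e2.v
    h1 := fun z => (F.hy _).trans (e1.hy z)
    h2 := fun z => (F.hy _).trans (e2.hy z)
    hx := ?_
    indY := P.sq_indY e
    ki := PairData.ki_of_lineInd hl
    m1 := PairData.lineK_map_eq hM e1 F.E F.e F.hy (hl p)
    m2 := PairData.lineK_map_eq hM e2 F.E F.e F.hy (hl p) }⟩
  have h1 := e1.w.mp.quasiMeasurePreserving.ae F.hxi
  have h2 := e2.w.mp.quasiMeasurePreserving.ae F.hxi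
  filter_upwards [h1, h2] with z h1 h2
  show F.xi.f (F.e.f (e1.w.f z)) = F.xi.f (F.e.f (e2.w.f z))
  rw [h1, h2]
  exact congrArg _ (P.sq_x e z)

/-- Block PD. -/
theorem b_pd (hS : B_SAT) (hL : B_LINE) : B_PD := by
  intro X P ι _ _ r _ hK hM p q _ F
  obtain ⟨P0, e, hM0, _⟩ := hS X P.sq ι r
  exact exists_pd hM F e (hL X P0 ι r hM0 hK)

end Vale.Agent.P102.RM
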