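import Mathlib.MeasureTheory.Constructions.Polish.Basic
import Mathlib.MeasureTheory.Measure.Prod
import Mathlib.Probability.Independence.Basic
import Mathlib.Order.Filter.Ultrafilter.Defs
import Mathlib.MeasureTheory.Integral.Bochner.Set
import Vale.Agent.P102.RM.LimJoin204

/-!
# Countable inverse limits of standard Borel probability spaces
-/

open MeasureTheory Filter Topology Set
open scoped BigOperators

namespace Vale.Agent.P102.RM.InvLim

variable {Ω : ℕ → Type} (f : ∀ n, Ω (n + 1) → Ω n)

/-- The inverse limit of a tower of spaces. -/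
def Lim : Type := {w : ∀ n, Ω n // ∀ n, f n (w (n + 1)) = w n}

namespace Lim

/-- coordinate projections -/
def proj (n : ℕ) (w : Lim f) : Ω n := w.1 n

lemma f_proj (n : ℕ) (w : Lim f) : f n (proj f (n + 1) w) = proj f n w := w.2 n

lemma ext' {w w' : Lim f} (h : ∀ n, proj f n w = proj f n w') : w = w' :=
  Subtype.ext (funext h)

variable [∀ n, MeasurableSpace (Ω n)]

instance : MeasurableSpace (Lim f) := inferInstanceAs (MeasurableSpace {w : ∀ n, Ω n // _})

lemma measurable_proj (n : ℕ) : Measurable (proj f n) :=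
  (measurable_pi_apply n).comp measurable_subtype_coe

/-- the σ-algebra of the inverse limit is generated by the coordinate projections -/
lemma measurableSpace_eq :
    (inferInstance : MeasurableSpace (Lim f)) =
      ⨆ n, MeasurableSpace.comap (proj f n) inferInstance := by
  change MeasurableSpace.comap Subtype.val
    (⨆ n, MeasurableSpace.comap (fun w : (∀ i, Ω i) => w n) inferInstance) = _
  rw [MeasurableSpace.comap_iSup]
  simp only [MeasurableSpace.comap_comp]
  rfl

variable {f}

lemma measurable_of_proj {Z : Type*} [MeasurableSpace Z] {g : Z → Lim f}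
    (hg : ∀ n, Measurable fun z => proj f n (g z)) : Measurable g :=
  Measurable.subtype_mk (measurable_pi_iff.2 hg)

variable [∀ n, StandardBorelSpace (Ω n)] (hf : ∀ n, Measurable (f n))

include hf in
lemma measurableSet_consistent :
    MeasurableSet {w : ∀ n, Ω n | ∀ n, f n (w (n + 1)) = w n} := by
  rw [Set.ofPred_forall]
  exact MeasurableSet.iInter fun n =>
    measurableSet_eq_fun ((hf n).comp (measurable_pi_apply _)) (measurable_pi_apply _)

include hf in
theorem standardBorel : StandardBorelSpace (Lim f) :=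
  (measurableSet_consistent hf).standardBorel

/-- The π-system of sets depending on one coordinate. -/
def oneSets (f : ∀ n, Ω (n + 1) → Ω n) : Set (Set (Lim f)) :=
  {C | ∃ n, ∃ A : Set (Ω n), MeasurableSet A ∧ C = proj f n ⁻¹' A}

omit [∀ n, StandardBorelSpace (Ω n)] in
include hf in
lemma comap_mono : Monotone fun n => MeasurableSpace.comap (proj f n)
    (inferInstance : MeasurableSpace (Ω n)) := by
  refine monotone_nat_of_le_succ fun n => ?_
  rintro C ⟨A, hA, rfl⟩
  refine ⟨f n ⁻¹' A, hf n hA, ?_⟩
  ext w
  simp [f_proj]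

omit [∀ n, StandardBorelSpace (Ω n)] in
include hf in
lemma isPiSystem_oneSets : IsPiSystem (oneSets f) := by
  rintro _ ⟨n, A, hA, rfl⟩ _ ⟨m, B, hB, rfl⟩ -
  have h1 := comap_mono hf (le_max_left n m) _ ⟨A, hA, rfl⟩
  have h2 := comap_mono hf (le_max_right n m) _ ⟨B, hB, rfl⟩
  obtain ⟨A', hA', e1⟩ := h1
  obtain ⟨B', hB', e2⟩ := h2
  exact ⟨max n m, A' ∩ B', hA'.inter hB', by rw [Set.preimage_inter, e1, e2]⟩

omit [∀ n, StandardBorelSpace (Ω n)] in
lemma generateFrom_oneSets :
    (inferInstance : MeasurableSpace (Lim f)) = MeasurableSpace.generateFrom (oneSets f) := by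
  rw [measurableSpace_eq]
  apply le_antisymm
  · refine iSup_le fun n => ?_
    rintro C ⟨A, hA, rfl⟩
    exact MeasurableSpace.measurableSet_generateFrom ⟨n, A, hA, rfl⟩
  · refine MeasurableSpace.generateFrom_le ?_
    rintro _ ⟨n, A, hA, rfl⟩
    have : MeasurableSpace.comap (proj f n) inferInstance ≤
      ⨆ n, MeasurableSpace.comap (proj f n) inferInstance := le_iSup
        (fun n => MeasurableSpace.comap (proj f n) (inferInstance : MeasurableSpace (Ω n))) n
    exact this _ ⟨A, hA, rfl⟩

omit [∀ n, StandardBorelSpace (Ω n)] in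
include hf in
/-- a finite measure on the inverse limit is determined by its one-coordinate marginals -/
theorem measure_ext {ν ν' : Measure (Lim f)} [IsProbabilityMeasure ν] [IsProbabilityMeasure ν']
    (h : ∀ n, ν.map (proj f n) = ν'.map (proj f n)) : ν = ν' := by
  refine ext_of_generate_finite (oneSets f) generateFrom_oneSets (isPiSystem_oneSets hf) ?_
    (by simp)
  rintro _ ⟨n, A, hA, rfl⟩
  rw [← Measure.map_apply (measurable_proj f n) hA, h n,
    Measure.map_apply (measurable_proj f n) hA]

section existence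

variable (μ : ∀ n, Measure (Ω n)) [∀ n, IsProbabilityMeasure (μ n)]

/-- extension of a point of level `n` to a sequence -/
noncomputable def ext (f : ∀ n, Ω (n + 1) → Ω n) (pt : ∀ n, Ω n) : ∀ n, Ω n → ∀ i, Ω i
  | 0, w => Function.update pt 0 w
  | n + 1, w => Function.update (ext f pt n (f n w)) (n + 1) w

omit [∀ n, MeasurableSpace (Ω n)] [∀ n, StandardBorelSpace (Ω n)] in
lemma ext_self (pt : ∀ n, Ω n) (n : ℕ) (w : Ω n) : ext f pt n w n = w := by
  cases n <;> simp [ext]

omit [∀ n, MeasurableSpace (Ω n)] [∀ n, StandardBorelSpace (Ω n)] in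
lemma ext_succ (pt : ∀ n, Ω n) (n i : ℕ) (hi : i ≤ n) (w : Ω (n + 1)) :
    ext f pt (n + 1) w i = ext f pt n (f n w) i := by
  have : i ≠ n + 1 := by omega
  simp [ext, this]

omit [∀ n, MeasurableSpace (Ω n)] [∀ n, StandardBorelSpace (Ω n)] in
lemma f_ext (pt : ∀ n, Ω n) (n i : ℕ) (hi : i < n) (w : Ω n) :
    f i (ext f pt n w (i + 1)) = ext f pt n w i := by
  induction n with
  | zero => omega
  | succ n ih =>
    rcases Nat.lt_succ_iff_lt_or_eq.1 hi with h | rfl
    · rw [ext_succ _ _ _ (by omega), ext_succ _ _ _ (by omega), ih h]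
    · rw [ext_self, ext_succ _ _ _ le_rfl, ext_self]

omit [∀ n, StandardBorelSpace (Ω n)] in
include hf in
lemma measurable_ext (pt : ∀ n, Ω n) (n : ℕ) : Measurable (ext f pt n) := by
  induction n with
  | zero =>
    refine measurable_pi_iff.2 fun i => ?_
    by_cases h : i = 0
    · subst h; simpa [ext] using measurable_id'
    · simp [ext, h]
  | succ n ih =>
    refine measurable_pi_iff.2 fun i => ?_
    by_cases h : i = n + 1
    · subst h; simpa [ext] using measurable_id'
    · simpa [ext, h] using (measurable_pi_iff.1 (ih.comp (hf n)) i)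

/-- Existence of the inverse limit measure. -/
theorem exists_measure (hfm : ∀ n, MeasurePreserving (f n) (μ (n + 1)) (μ n)) :
    ∃ ν : Measure (Lim f), IsProbabilityMeasure ν ∧
      ∀ n, MeasurePreserving (proj f n) ν (μ n) := by
  have hf : ∀ n, Measurable (f n) := fun n => (hfm n).measurable
  have hne : ∀ n, Nonempty (Ω n) := fun n => (μ n).nonempty_of_neZero
  let pt : ∀ n, Ω n := fun n => Classical.choice (hne n)
  have hm := measurable_ext hf pt
  -- marginals
  have marg : ∀ n i, i ≤ n → (μ n).map (fun w => ext f pt n w i) = μ i := by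
    intro n
    induction n with
    | zero =>
      intro i hi
      obtain rfl : i = 0 := by omega
      have : (fun w => ext f pt 0 w 0) = id := by funext w; simp [ext]
      rw [this, Measure.map_id]
    | succ n ih =>
      intro i hi
      rcases Nat.lt_or_ge n i with h | h
      · obtain rfl : i = n + 1 := by omega
        have : (fun w => ext f pt (n + 1) w (n + 1)) = id := by
          funext w; rw [ext_self]; rfl
        rw [this, Measure.map_id]
      · have : (fun w => ext f pt (n + 1) w i) = (fun w => ext f pt n w i) ∘ f n := by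
          funext w; rw [ext_succ _ _ _ h]; rfl
        rw [this, ← Measure.map_map (measurable_pi_iff.1 (hm n) i) (hf n), (hfm n).map_eq, ih i h]
  let P : ℕ → Measure (∀ i, Ω i) := fun n => (μ n).map (ext f pt n)
  have hPp : ∀ n, IsProbabilityMeasure (P n) := fun n =>
    Measure.isProbabilityMeasure_map (hm n).aemeasurable
  have hP : ∀ i, ∀ᶠ n in (Filter.hyperfilter ℕ : Filter ℕ), (P n).map (fun ω => ω i) = μ i := by
    intro i
    have : ∀ᶠ n in atTop, (P n).map (fun ω => ω i) = μ i := by
      filter_upwards [eventually_ge_atTop i] with n hn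
      rw [Measure.map_map (measurable_pi_apply i) (hm n)]
      exact marg n i hn
    exact (Nat.hyperfilter_le_atTop) this
  obtain ⟨D, hD, hDm, hDl⟩ := LJ.exists_limJoin Ω (Filter.hyperfilter ℕ) μ P hP
  -- the consistency relation holds a.e.
  have hrel : ∀ i, ∀ᵐ w ∂D, f i (w (i + 1)) = w i := by
    intro i
    have hmap : D.map (fun w => (w (i + 1), w i)) = (μ (i + 1)).map (fun v => (v, f i v)) := by
      have m1 : Measurable fun w : (∀ i, Ω i) => (w (i + 1), w i) :=
        (measurable_pi_apply _).prodMk (measurable_pi_apply _)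
      have m2 : Measurable fun v : Ω (i + 1) => (v, f i v) := measurable_id.prodMk (hf i)
      have : IsProbabilityMeasure (D.map (fun w => (w (i + 1), w i))) :=
        Measure.isProbabilityMeasure_map m1.aemeasurable
      refine Measure.ext_prod fun {A B} hA hB => ?_
      rw [Measure.map_apply m1 (hA.prod hB), Measure.map_apply m2 (hA.prod hB)]
      -- use the limit formula for indicators
      classical
      let g : ∀ j, Ω j → ℂ := Function.update (Function.update (fun _ _ => 1) i
        (B.indicator 1)) (i + 1) (A.indicator 1)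
      have gi : g i = B.indicator 1 := by
        have : i ≠ i + 1 := by omega
        simp [g, this]
      have gi1 : g (i + 1) = A.indicator 1 := by simp [g]
      have gm : ∀ j, Measurable (g j) := by
        intro j
        by_cases h1 : j = i + 1
        · subst h1; rw [gi1]; exact measurable_one.indicator hA
        · by_cases h2 : j = i
          · subst h2; rw [gi]; exact measurable_one.indicator hB
          · simp only [g, Function.update_of_ne h1, Function.update_of_ne h2]
            exact measurable_const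
      have gb : ∀ j, ∃ C, ∀ v, ‖g j v‖ ≤ C := by
        intro j
        refine ⟨1, fun v => ?_⟩
        by_cases h1 : j = i + 1
        · subst h1; rw [gi1]
          by_cases hv : v ∈ A <;> simp [hv]
        · by_cases h2 : j = i
          · subst h2; rw [gi]
            by_cases hv : v ∈ B <;> simp [hv]
          · simp [g, Function.update_of_ne h1, Function.update_of_ne h2]
      have hlim := hDl {i, i + 1} g (fun j => ⟨gm j, gb j⟩)
      have hprod : ∀ ω : (∀ j, Ω j), (∏ j ∈ ({i, i + 1} : Finset ℕ), g j (ω j)) =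
          ((fun w : (∀ j, Ω j) => (w (i + 1), w i)) ⁻¹' (A ×ˢ B)).indicator 1 ω := by
        intro ω
        rw [Finset.prod_pair (by omega), gi, gi1]
        by_cases h1 : ω i ∈ B <;> by_cases h2 : ω (i + 1) ∈ A <;>
          simp [h1, h2, Set.indicator, Set.mem_prod]
      have hmeas : MeasurableSet ((fun w : (∀ j, Ω j) => (w (i + 1), w i)) ⁻¹' (A ×ˢ B)) :=
        m1 (hA.prod hB)
      simp only [hprod] at hlim
      have hval : ∀ (Q : Measure (∀ j, Ω j)) [IsProbabilityMeasure Q],
          ∫ ω, ((fun w : (∀ j, Ω j) => (w (i + 1), w i)) ⁻¹' (A ×ˢ B)).indicator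
            (1 : (∀ j, Ω j) → ℂ) ω ∂Q =
          ((Q.real ((fun w : (∀ j, Ω j) => (w (i + 1), w i)) ⁻¹' (A ×ˢ B)) : ℝ) : ℂ) := by
        intro Q _
        rw [integral_indicator hmeas]
        simp [Measure.real]
      rw [hval D] at hlim
      have hcst : ∀ᶠ n in (Filter.hyperfilter ℕ : Filter ℕ),
          ∫ ω, ((fun w : (∀ j, Ω j) => (w (i + 1), w i)) ⁻¹' (A ×ˢ B)).indicator
            (1 : (∀ j, Ω j) → ℂ) ω ∂(P n) =
          (((μ (i + 1)).real ((fun v => (v, f i v)) ⁻¹' (A ×ˢ B)) : ℝ) : ℂ) := by
        have : ∀ᶠ n in atTop, ∫ ω, ((fun w : (∀ j, Ω j) => (w (i + 1), w i)) ⁻¹'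
            (A ×ˢ B)).indicator (1 : (∀ j, Ω j) → ℂ) ω ∂(P n) =
          (((μ (i + 1)).real ((fun v => (v, f i v)) ⁻¹' (A ×ˢ B)) : ℝ) : ℂ) := by
          filter_upwards [eventually_ge_atTop (i + 1)] with n hn
          rw [hval (P n)]
          congr 1
          have e1 : (P n).real ((fun w : (∀ j, Ω j) => (w (i + 1), w i)) ⁻¹' (A ×ˢ B)) =
              (μ n).real ((fun w => ext f pt n w (i + 1)) ⁻¹'
                ((fun v => (v, f i v)) ⁻¹' (A ×ˢ B))) := by
            simp only [Measure.real, P]
            rw [Measure.map_apply (hm n) hmeas]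
            congr 2
            ext w
            simp only [Set.mem_preimage, f_ext pt n i hn w]
          rw [e1]
          simp only [Measure.real]
          rw [← Measure.map_apply (measurable_pi_iff.1 (hm n) (i + 1)) (m2 (hA.prod hB)),
            marg n (i + 1) hn]
        exact (Nat.hyperfilter_le_atTop) this
      have hlim2 := tendsto_nhds_unique hlim
        ((tendsto_const_nhds).congr' (EventuallyEq.symm hcst))
      have hlim3 := Complex.ofReal_injective hlim2
      simp only [Measure.real] at hlim3
      exact (ENNReal.toReal_eq_toReal_iff' (measure_ne_top _ _) (measure_ne_top _ _)).1 hlim3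
    have hae : ∀ᵐ p ∂(D.map (fun w => (w (i + 1), w i))), f i p.1 = p.2 := by
      rw [hmap]
      have hS : MeasurableSet {p : Ω (i + 1) × Ω i | f i p.1 = p.2} :=
        measurableSet_eq_fun ((hf i).comp measurable_fst) measurable_snd
      have m2 : Measurable fun v : Ω (i + 1) => (v, f i v) := measurable_id.prodMk (hf i)
      rw [ae_map_iff m2.aemeasurable hS]
      exact Eventually.of_forall fun v => rfl
    exact ae_of_ae_map ((measurable_pi_apply _).prodMk (measurable_pi_apply _)).aemeasurable hae
  have hS := measurableSet_consistent hf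
  have hall : ∀ᵐ w ∂D, w ∈ {w : ∀ n, Ω n | ∀ n, f n (w (n + 1)) = w n} := by
    have := ae_all_iff.2 hrel
    exact this
  let vl : Lim f → ∀ n, Ω n := fun w => w.1
  have hemb : MeasurableEmbedding vl := MeasurableEmbedding.subtype_coe hS
  have hrange : Set.range vl = {w : ∀ n, Ω n | ∀ n, f n (w (n + 1)) = w n} :=
    Subtype.range_coe
  refine ⟨D.comap vl, ?_, ?_⟩
  · constructor
    rw [hemb.comap_apply, Set.image_univ, hrange]
    exact (prob_compl_eq_zero_iff hS).1 hall
  · intro n
    refine ⟨measurable_proj f n, ?_⟩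
    have h1 : (D.comap vl).map vl = D := by
      rw [hemb.map_comap, hrange]
      exact Measure.restrict_eq_self_of_ae_mem hall
    have h2 : (fun w : Lim f => proj f n w) = (fun ω : (∀ j, Ω j) => ω n) ∘ vl := rfl
    change (D.comap vl).map (fun w : Lim f => proj f n w) = μ n
    rw [h2, ← Measure.map_map (measurable_pi_apply n) hemb.measurable, h1, hDm n]

end existence

section dynamics

variable (T : ∀ n, Ω n ≃ᵐ Ω n) (hT : ∀ n w, f n (T (n + 1) w) = T n (f n w))

omit [∀ n, StandardBorelSpace (Ω n)] in
include hT in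
lemma symm_comm (n : ℕ) (w : Ω (n + 1)) : f n ((T (n + 1)).symm w) = (T n).symm (f n w) := by
  apply (T n).injective
  rw [← hT]
  simp

/-- the inverse limit of the transformations -/
def limT : Lim f ≃ᵐ Lim f where
  toFun w := ⟨fun n => T n (w.1 n), fun n => by rw [hT, w.2]⟩
  invFun w := ⟨fun n => (T n).symm (w.1 n), fun n => by rw [symm_comm T hT, w.2]⟩
  left_inv w := by
    apply Subtype.ext
    funext n
    simp
  right_inv w := by
    apply Subtype.ext
    funext n
    simp
  measurable_toFun := measurable_of_proj fun n => (T n).measurable.comp (measurable_proj f n)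
  measurable_invFun :=
    measurable_of_proj fun n => (T n).symm.measurable.comp (measurable_proj f n)

omit [∀ n, StandardBorelSpace (Ω n)] in
@[simp] lemma proj_limT (n : ℕ) (w : Lim f) : proj f n (limT T hT w) = T n (proj f n w) := rfl

omit [∀ n, StandardBorelSpace (Ω n)] in
include hf in
theorem measurePreserving_limT {μ : ∀ n, Measure (Ω n)} [∀ n, IsProbabilityMeasure (μ n)]
    {ν : Measure (Lim f)} [IsProbabilityMeasure ν]
    (hν : ∀ n, MeasurePreserving (proj f n) ν (μ n))
    (hTm : ∀ n, MeasurePreserving (T n) (μ n) (μ n)) :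
    MeasurePreserving (limT T hT) ν ν := by
  refine ⟨(limT T hT).measurable, ?_⟩
  have : IsProbabilityMeasure (ν.map (limT T hT)) :=
    Measure.isProbabilityMeasure_map (limT T hT).measurable.aemeasurable
  refine measure_ext hf fun n => ?_
  rw [Measure.map_map (measurable_proj f n) (limT T hT).measurable]
  have e : proj f n ∘ limT T hT = T n ∘ proj f n := rfl
  rw [e, ← Measure.map_map (T n).measurable (measurable_proj f n), (hν n).map_eq,
    (hTm n).map_eq]

end dynamics

end Lim

end Vale.Agent.P102.RM.InvLim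

namespace Vale.Agent.P102.RM.InvLim.Lim

section sigma

variable {Ω : ℕ → Type} {f : ∀ n, Ω (n + 1) → Ω n} (mY : ∀ n, MeasurableSpace (Ω n))

/-- the limit of the sub-σ-algebras -/
def limY : MeasurableSpace (Lim f) := ⨆ n, (mY n).comap (proj f n)

lemma comap_le_limY (n : ℕ) : (mY n).comap (proj f n) ≤ limY (f := f) mY :=
  le_iSup (fun n => (mY n).comap (proj f n)) n

lemma limY_le [∀ n, MeasurableSpace (Ω n)] (hle : ∀ n, mY n ≤ (inferInstance : MeasurableSpace (Ω n))) :
    limY (f := f) mY ≤ (inferInstance : MeasurableSpace (Lim f)) := by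
  refine iSup_le fun n => ?_
  rintro _ ⟨A, hA, rfl⟩
  exact measurable_proj f n (hle n A hA)

lemma mono_comapY (hstep : ∀ n, (mY n).comap (f n) ≤ mY (n + 1)) :
    Monotone fun n => (mY n).comap (proj f n) := by
  refine monotone_nat_of_le_succ fun n => ?_
  have e : proj f n = f n ∘ proj f (n + 1) := by
    funext w; exact (f_proj f n w).symm
  calc (mY n).comap (proj f n) = ((mY n).comap (f n)).comap (proj f (n + 1)) := by
        rw [MeasurableSpace.comap_comp, ← e]
    _ ≤ (mY (n + 1)).comap (proj f (n + 1)) := MeasurableSpace.comap_mono (hstep n)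

lemma comap_limT_limY [∀ n, MeasurableSpace (Ω n)] (T : ∀ n, Ω n ≃ᵐ Ω n) (hT : ∀ n w, f n (T (n + 1) w) = T n (f n w))
    (hinv : ∀ n, (mY n).comap (T n) = mY n) :
    (limY (f := f) mY).comap (limT T hT) = limY (f := f) mY := by
  unfold limY
  rw [MeasurableSpace.comap_iSup]
  congr 1
  funext n
  rw [MeasurableSpace.comap_comp]
  have e : proj f n ∘ limT T hT = T n ∘ proj f n := rfl
  rw [e, ← MeasurableSpace.comap_comp, hinv n]

/-- independence passes to the inverse limit -/
theorem indep_limY [∀ n, MeasurableSpace (Ω n)] {μ : ∀ n, Measure (Ω n)} [∀ n, IsProbabilityMeasure (μ n)]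
    {ν : Measure (Lim f)} [IsProbabilityMeasure ν]
    (hν : ∀ n, MeasurePreserving (proj f n) ν (μ n))
    {X : Type*} [MeasurableSpace X] (x : ∀ n, Ω n → X) (hx : ∀ n, Measurable (x n))
    (hxf : ∀ n, ∀ᵐ w ∂(μ (n + 1)), x n (f n w) = x (n + 1) w)
    (hle : ∀ n, mY n ≤ (inferInstance : MeasurableSpace (Ω n)))
    (hstep : ∀ n, (mY n).comap (f n) ≤ mY (n + 1))
    (hind : ∀ n, ProbabilityTheory.Indep ((inferInstance : MeasurableSpace X).comap (x n))
      (mY n) (μ n)) :
    ProbabilityTheory.Indep ((inferInstance : MeasurableSpace X).comap (x 0 ∘ proj f 0))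
      (limY (f := f) mY) ν := by
  have hx0 : ∀ n, ∀ᵐ w ∂ν, x n (proj f n w) = x 0 (proj f 0 w) := by
    intro n
    induction n with
    | zero => exact Eventually.of_forall fun _ => rfl
    | succ n ih =>
      have := (hν (n + 1)).quasiMeasurePreserving.ae (hxf n)
      filter_upwards [this, ih] with w h1 h2
      rw [← h1, f_proj f n w, h2]
  refine (ProbabilityTheory.indep_iSup_of_monotone (m := fun n => (mY n).comap (proj f n))
    (m1 := (inferInstance : MeasurableSpace X).comap (x 0 ∘ proj f 0)) (fun n => ?_)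
    (fun n => ?_) ?_ (mono_comapY mY hstep)).symm
  · rw [ProbabilityTheory.Indep_iff]
    rintro _ _ ⟨B, hB, rfl⟩ ⟨A, hA, rfl⟩
    have h1 : (x 0 ∘ proj f 0) ⁻¹' A =ᵐ[ν] proj f n ⁻¹' (x n ⁻¹' A) := by
      filter_upwards [hx0 n] with w hw
      apply propext
      change x 0 (proj f 0 w) ∈ A ↔ x n (proj f n w) ∈ A
      rw [hw]
    have h2 := (ProbabilityTheory.Indep_iff _ _ _).1 (hind n) _ _ ⟨A, hA, rfl⟩ hB
    have hBm : MeasurableSet B := hle n B hB
    have hAm : MeasurableSet (x n ⁻¹' A) := hx n hA
    rw [measure_congr ((ae_eq_refl (proj f n ⁻¹' B)).inter h1), measure_congr h1,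
      ← Set.preimage_inter,
      (hν n).measure_preimage (hBm.inter hAm).nullMeasurableSet,
      (hν n).measure_preimage hBm.nullMeasurableSet,
      (hν n).measure_preimage hAm.nullMeasurableSet, Set.inter_comm, h2, mul_comm]
  · rintro _ ⟨B, hB, rfl⟩
    exact measurable_proj f n (hle n B hB)
  · rintro _ ⟨A, hA, rfl⟩
    exact ((hx 0).comp (measurable_proj f 0)) hA

end sigma

end Vale.Agent.P102.RM.InvLim.Lim
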