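import Vale.Agent.P102.RM.Defs
import Vale.Agent.P102.RM.InvLim

/-!
# Inverse limits of systems and of admissible pairs
-/

namespace Vale.Agent.P102.RM

open MeasureTheory Filter Topology ProbabilityTheory
open Vale.Agent.P102.RM.InvLim

section sys

variable (A : ℕ → Sys) (p : ∀ n, Fac (A (n + 1)) (A n))

/-- the carriers of a sequence of systems -/
abbrev Sq (n : ℕ) : Type := (A n).C

/-- the underlying maps of a tower -/
abbrev pf : ∀ n, Sq A (n + 1) → Sq A n := fun n => (p n).f

theorem exists_limMeas : ∃ ν : Measure (Lim (Ω := Sq A) (pf A p)), IsProbabilityMeasure ν ∧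
    ∀ n, MeasurePreserving (Lim.proj (Ω := Sq A) (pf A p) n) ν (A n).μ :=
  Lim.exists_measure (Ω := Sq A) (f := pf A p) (fun n => (A n).μ) (fun n => (p n).mp)

/-- the measure of the inverse limit -/
noncomputable def limMeas : Measure (Lim (Ω := Sq A) (pf A p)) := (exists_limMeas A p).choose

instance limMeas_prob : IsProbabilityMeasure (limMeas A p) := (exists_limMeas A p).choose_spec.1

theorem limMeas_proj (n : ℕ) :
    MeasurePreserving (Lim.proj (Ω := Sq A) (pf A p) n) (limMeas A p) (A n).μ :=
  (exists_limMeas A p).choose_spec.2 n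

/-- the inverse limit of a tower of systems -/
@[reducible] noncomputable def limSys : Sys where
  C := Lim (Ω := Sq A) (pf A p)
  mC := inferInstance
  sC := Lim.standardBorel (Ω := Sq A) fun n => (p n).meas
  μ := limMeas A p
  pμ := inferInstance
  S := Lim.limT (Ω := Sq A) (f := pf A p) (fun n => (A n).S) (fun n w => (p n).eqv w)
  mp := Lim.measurePreserving_limT (Ω := Sq A) (fun n => (p n).meas) _ _
    (limMeas_proj A p) (fun n => (A n).mp)

/-- the factor maps of the inverse limit -/
noncomputable def limFac (n : ℕ) : Fac (limSys A p) (A n) where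
  f := Lim.proj (Ω := Sq A) (pf A p) n
  mp := limMeas_proj A p n
  eqv _ := rfl

theorem limFac_step (n : ℕ) (a : (limSys A p).C) :
    (limFac A p n).f a = (p n).f ((limFac A p (n + 1)).f a) :=
  (Lim.f_proj (Ω := Sq A) (pf A p) n a).symm

theorem limSys_mC : (limSys A p).mC = ⨆ n, MeasurableSpace.comap (limFac A p n).f (A n).mC :=
  Lim.measurableSpace_eq (Ω := Sq A) (pf A p)

/-- the underlying map into the inverse limit -/
def limLiftFun {W : Sys} (q : ∀ n, Fac W (A n))
    (hq : ∀ n a, (q n).f a = (p n).f ((q (n + 1)).f a)) (a : W.C) :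
    Lim (Ω := Sq A) (pf A p) :=
  ⟨fun n => (q n).f a, fun n => (hq n a).symm⟩

/-- a map into the inverse limit -/
noncomputable def limLift {W : Sys} (q : ∀ n, Fac W (A n))
    (hq : ∀ n a, (q n).f a = (p n).f ((q (n + 1)).f a)) : Fac W (limSys A p) where
  f := limLiftFun A p q hq
  mp := by
    have hm : Measurable (limLiftFun A p q hq) :=
      Lim.measurable_of_proj (Ω := Sq A) fun n => (q n).meas
    refine ⟨hm, ?_⟩
    have : IsProbabilityMeasure (W.μ.map (limLiftFun A p q hq)) :=
      Measure.isProbabilityMeasure_map hm.aemeasurable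
    refine Lim.measure_ext (Ω := Sq A) (f := pf A p) (fun n => (p n).meas) fun n => ?_
    rw [Measure.map_map (Lim.measurable_proj (Ω := Sq A) (pf A p) n) hm]
    exact (q n).mp.map_eq.trans (limMeas_proj A p n).map_eq.symm
  eqv a := by
    apply Lim.ext' (Ω := Sq A)
    intro n
    exact (q n).eqv a

theorem limLift_fac {W : Sys} (q : ∀ n, Fac W (A n))
    (hq : ∀ n a, (q n).f a = (p n).f ((q (n + 1)).f a)) (n : ℕ) (a : W.C) :
    (limFac A p n).f ((limLift A p q hq).f a) = (q n).f a := rfl

end sys

variable {X : Sys}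

/-- **Inverse limits of admissible pairs.** -/
theorem exists_invLim (B : ℕ → Adm X) (e : ∀ n, Ext (B (n + 1)) (B n)) :
    ∃ (L : Adm X) (f : ∀ n, Ext L (B n)),
      (∀ n a, (f n).w.f a = (e n).w.f ((f (n + 1)).w.f a)) ∧
      (∀ n a, (f n).v.f a = (e n).v.f ((f (n + 1)).v.f a)) ∧
      L.W.mC = ⨆ n, MeasurableSpace.comap (f n).w.f (B n).W.mC := by
  let AW : ℕ → Sys := fun n => (B n).W
  let pW : ∀ n, Fac (AW (n + 1)) (AW n) := fun n => (e n).w
  let AY : ℕ → Sys := fun n => (B n).Y
  let pY : ∀ n, Fac (AY (n + 1)) (AY n) := fun n => (e n).v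
  let W := limSys AW pW
  let πW : ∀ n, Fac W (B n).W := limFac AW pW
  let q : ∀ n, Fac W (AY n) := fun n => (B n).y.comp (πW n)
  have hq : ∀ n a, (q n).f a = (pY n).f ((q (n + 1)).f a) := by
    intro n a
    have h1 : (πW n).f a = (e n).w.f ((πW (n + 1)).f a) := limFac_step AW pW n a
    change (B n).y.f ((πW n).f a) = (e n).v.f ((B (n + 1)).y.f ((πW (n + 1)).f a))
    rw [h1, (e n).hy]
  let y : Fac W (limSys AY pY) := limLift AY pY q hq
  -- compatibility with the maps to `X`
  have hx0 : ∀ n, ∀ᵐ a ∂W.μ, (B n).x.f ((πW n).f a) = (B 0).x.f ((πW 0).f a) := by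
    intro n
    induction n with
    | zero => exact Eventually.of_forall fun _ => rfl
    | succ n ih =>
      have h1 := (πW (n + 1)).mp.quasiMeasurePreserving.ae (e n).hx
      filter_upwards [h1, ih] with a h2 h3
      rw [← h2, ← h3]
      exact congrArg _ (limFac_step AW pW n a).symm
  have hind : IndepFun ((B 0).x.comp (πW 0)).f y.f W.μ := by
    have key := Lim.indep_limY (Ω := Sq AW) (f := pf AW pW)
      (fun n => MeasurableSpace.comap (B n).y.f (B n).Y.mC) (μ := fun n => (AW n).μ)
      (ν := W.μ) (fun n => (πW n).mp) (fun n => (B n).x.f) (fun n => (B n).x.meas)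
      (fun n => (e n).hx) (fun n => (B n).y.meas.comap_le) (fun n => ?_) (fun n => (B n).ind)
    · have h2 : MeasurableSpace.comap y.f (limSys AY pY).mC =
          Lim.limY (Ω := Sq AW) (f := pf AW pW)
            (fun n => MeasurableSpace.comap (B n).y.f (B n).Y.mC) := by
        rw [limSys_mC, MeasurableSpace.comap_iSup]
        unfold Lim.limY
        congr 1
        funext n
        rw [MeasurableSpace.comap_comp, MeasurableSpace.comap_comp]
        rfl
      change Indep _ (MeasurableSpace.comap y.f (limSys AY pY).mC) W.μ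
      rw [h2]
      exact key
    · rw [MeasurableSpace.comap_comp]
      have h3 : (B n).y.f ∘ (pW n).f = (e n).v.f ∘ (B (n + 1)).y.f := by
        funext a
        exact (e n).hy a
      rw [h3, ← MeasurableSpace.comap_comp]
      exact MeasurableSpace.comap_mono (e n).v.meas.comap_le
  refine ⟨⟨W, limSys AY pY, (B 0).x.comp (πW 0), y, hind⟩,
    fun n => ⟨πW n, limFac AY pY n, hx0 n, fun a => rfl⟩, fun n a => limFac_step AW pW n a,
    fun n a => limFac_step AY pY n a, limSys_mC AW pW⟩

end Vale.Agent.P102.RM
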