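import Vale.Agent.P102.RM.Sat3

/-! # SAT, part 3b: dense increasing unions -/

namespace Vale.Agent.P102.RM.Sat

open MeasureTheory Filter Topology Set

variable {Ω : Type} {m m1 m2 m0 : MeasurableSpace Ω} {P : Measure Ω}
variable {E : Type} [NormedAddCommGroup E] [NormedSpace ℝ E] [CompleteSpace E]
variable {V : Type} [mV : MeasurableSpace V] {g : Ω → V}

/-- (3f) equality of conditional expectations for indicators of sets from an increasing sequence
of `σ`-algebras exhausting `mV` gives equality for all integrable functions. -/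
theorem condExp_comp_eq_of_iSup [IsFiniteMeasure P] (hg : Measurable[m0] g)
    (h1 : m1 ≤ m0) (h2 : m2 ≤ m0) (F : ℕ → MeasurableSpace V) (hF : Monotone F)
    (hsup : mV = ⨆ n, F n)
    (h : ∀ n A, MeasurableSet[F n] A → P[(g ⁻¹' A).indicator (fun _ => (1 : ℝ))|m1]
      =ᵐ[P] P[(g ⁻¹' A).indicator (fun _ => (1 : ℝ))|m2]) (k : V → E)
    (hk : Integrable k (P.map g)) :
    P[fun ω => k (g ω)|m1] =ᵐ[P] P[fun ω => k (g ω)|m2] := by
  refine condExp_comp_eq_of_piSystem hg h1 h2
    (C := ⋃ n, {A | MeasurableSet[F n] A}) ?_ ?_ ?_ k hk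
  · rw [hsup]
    exact (MeasurableSpace.generateFrom_iUnion_measurableSet F).symm
  · exact isPiSystem_iUnion_of_monotone _ (fun n => @MeasurableSpace.isPiSystem_measurableSet V (F n))
      (fun n m hnm A hA => hF hnm A hA)
  · intro A hA
    obtain ⟨n, hn⟩ := mem_iUnion.1 hA
    exact h n A hn

/-- (3g) the same with random variables: `mV` is generated by the maps `f n : V → A n`, and the
hypothesis is known for bounded measurable functions of `f n`. -/
theorem condExp_comp_eq_of_chain [IsFiniteMeasure P] (hg : Measurable[m0] g)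
    (h1 : m1 ≤ m0) (h2 : m2 ≤ m0) {A : ℕ → Type} [∀ n, MeasurableSpace (A n)]
    (f : ∀ n, V → A n) (hmono : Monotone fun n => MeasurableSpace.comap (f n) inferInstance)
    (hsup : mV = ⨆ n, MeasurableSpace.comap (f n) inferInstance)
    (h : ∀ n (k : A n → ℝ), Measurable k → (∀ a, |k a| ≤ 1) →
      P[fun ω => k (f n (g ω))|m1] =ᵐ[P] P[fun ω => k (f n (g ω))|m2]) (k : V → E)
    (hk : Integrable k (P.map g)) :
    P[fun ω => k (g ω)|m1] =ᵐ[P] P[fun ω => k (g ω)|m2] := by
  refine condExp_comp_eq_of_iSup hg h1 h2 _ hmono hsup ?_ k hk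
  rintro n B ⟨S, hS, rfl⟩
  have h3 := h n (S.indicator fun _ => (1 : ℝ)) (measurable_const.indicator hS) (fun a => by
    by_cases ha : a ∈ S
    · simp [ha]
    · simp [ha])
  exact h3

/-- (3h) `L²`-convergence of `E[f|F n]` to `f` when `⨆ F n = m0`. -/
theorem tendsto_integral_sq_sub_condExp [IsFiniteMeasure P] (F : ℕ → MeasurableSpace Ω)
    (hmono : Monotone F) (hle : ∀ n, F n ≤ m0) (hsup : ⨆ n, F n = m0) (f : Ω → ℝ) (C : ℝ)
    (hf : AEStronglyMeasurable f P) (hC : ∀ᵐ ω ∂P, |f ω| ≤ C) :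
    Tendsto (fun n => ∫ ω, (f ω - (P[f|F n]) ω) ^ 2 ∂P) atTop (𝓝 0) := by
  have h1 := tendsto_integral_sq_condExp (P := P) F hmono hle f C hC
  have hf2 : MemLp f 2 P := memLp_two_of_bdd hf hC
  have e : P[f|m0] =ᵐ[P] f := condExp_of_aestronglyMeasurable' le_rfl hf
    (hf2.integrable (by norm_num))
  rw [hsup] at h1
  have h2 : Tendsto (fun n => ∫ ω, (P[f|m0]) ω ^ 2 ∂P - ∫ ω, (P[f|F n]) ω ^ 2 ∂P) atTop
      (𝓝 0) := by
    have := (tendsto_const_nhds (x := ∫ ω, (P[f|m0]) ω ^ 2 ∂P)).sub h1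
    simpa using this
  refine h2.congr fun n => ?_
  rw [← integral_sq_sub_condExp (hle n) le_rfl hf2]
  refine integral_congr_ae ?_
  filter_upwards [e] with ω hω
  rw [hω]

end Vale.Agent.P102.RM.Sat
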