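import Mathlib.Order.ConditionallyCompleteLattice.Basic
import Mathlib.Data.Real.Archimedean
import Mathlib.Data.Nat.Pairing
import Mathlib.Tactic.Linarith

/-!
# Abstract dovetailing: existence of sated extensions
-/

namespace Vale.Agent.P102.RM.SatAbs

universe u v w

/-- An abstract category of extensions with monotone bounded functionals of tests. -/
structure Frame where
  Obj : Type u
  Hom : Obj → Obj → Type v
  Test : Obj → Type w
  comp : ∀ {P Q R : Obj}, Hom P Q → Hom Q R → Hom P R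
  idH : ∀ P, Hom P P
  pb : ∀ {Q P : Obj}, Hom Q P → Test P → Test Q
  pb_comp : ∀ {R Q P : Obj} (g : Hom R Q) (f : Hom Q P) (τ : Test P),
    pb (comp g f) τ = pb g (pb f τ)
  N : ∀ P, Test P → ℝ
  N_le : ∀ P τ, N P τ ≤ 1
  mono : ∀ {Q P : Obj} (f : Hom Q P) (τ : Test P), N P τ ≤ N Q (pb f τ)

variable (F : Frame.{u, v, w})

lemma exists_near (P : F.Obj) (τ : F.Test P) (ε : ℝ) (hε : 0 < ε) :
    ∃ (Q : F.Obj) (f : F.Hom Q P), ∀ (R : F.Obj) (g : F.Hom R P),
      F.N R (F.pb g τ) ≤ F.N Q (F.pb f τ) + ε := by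
  let S : Set ℝ := {r | ∃ (R : F.Obj) (g : F.Hom R P), r = F.N R (F.pb g τ)}
  have hne : S.Nonempty := ⟨_, P, F.idH P, rfl⟩
  have hbd : BddAbove S := ⟨1, by rintro r ⟨R, g, rfl⟩; exact F.N_le _ _⟩
  obtain ⟨r, ⟨Q, f, rfl⟩, hr⟩ := exists_lt_of_lt_csSup hne (sub_lt_self (sSup S) hε)
  refine ⟨Q, f, fun R g => ?_⟩
  have := le_csSup hbd ⟨R, g, rfl⟩
  linarith

/-- state of the recursion: an object with a doubly indexed family of tests -/
structure St where
  P : F.Obj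
  τ : ℕ → ℕ → F.Test P

/-- indices handled at stage `j` -/
def hi (j : ℕ) : ℕ := (Nat.unpair (Nat.unpair j).1).1
def hn (j : ℕ) : ℕ := (Nat.unpair (Nat.unpair j).1).2

lemma exists_stage (i n m : ℕ) : ∃ j, m ≤ j ∧ i ≤ j ∧ hi j = i ∧ hn j = n := by
  refine ⟨Nat.pair (Nat.pair i n) m, Nat.right_le_pair _ _, ?_, ?_, ?_⟩
  · exact (Nat.left_le_pair i n).trans (Nat.left_le_pair _ _)
  · simp [hi]
  · simp [hn]

section
variable (tst : ∀ P : F.Obj, ℕ → F.Test P)

noncomputable def stepQ (j : ℕ) (s : St F) : F.Obj :=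
  Classical.choose (exists_near F s.P (s.τ (hi j) (hn j)) (1 / (j + 1)) (by positivity))

noncomputable def stepf (j : ℕ) (s : St F) : F.Hom (stepQ F j s) s.P :=
  Classical.choose (Classical.choose_spec
    (exists_near F s.P (s.τ (hi j) (hn j)) (1 / (j + 1)) (by positivity)))

lemma step_spec (j : ℕ) (s : St F) (R : F.Obj) (g : F.Hom R s.P) :
    F.N R (F.pb g (s.τ (hi j) (hn j))) ≤
      F.N (stepQ F j s) (F.pb (stepf F j s) (s.τ (hi j) (hn j))) + 1 / (j + 1) :=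
  Classical.choose_spec (Classical.choose_spec
    (exists_near F s.P (s.τ (hi j) (hn j)) (1 / (j + 1)) (by positivity))) R g

open Classical in
noncomputable def stepSt (j : ℕ) (s : St F) : St F where
  P := stepQ F j s
  τ := fun i n => if i = j + 1 then tst _ n else F.pb (stepf F j s) (s.τ i n)

noncomputable def st (P₀ : F.Obj) : ℕ → St F
  | 0 => ⟨P₀, fun _ n => tst P₀ n⟩
  | j + 1 => stepSt F tst j (st P₀ j)

/-- **Abstract dovetailing lemma.** -/
theorem exists_tower (P₀ : F.Obj) :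
    ∃ (P : ℕ → F.Obj) (f : ∀ n, F.Hom (P (n + 1)) (P n)) (τ : ∀ j, ℕ → ℕ → F.Test (P j)),
      ∃ (h0 : P₀ = P 0), (∀ i n, τ i i n = tst (P i) n) ∧
        (∀ j i n, i ≤ j → τ (j + 1) i n = F.pb (f j) (τ j i n)) ∧
        (∀ j (R : F.Obj) (g : F.Hom R (P j)), F.N R (F.pb g (τ j (hi j) (hn j))) ≤
          F.N (P (j + 1)) (F.pb (f j) (τ j (hi j) (hn j))) + 1 / (j + 1)) := by
  refine ⟨fun j => (st F tst P₀ j).P, fun j => stepf F j (st F tst P₀ j),
    fun j => (st F tst P₀ j).τ, rfl, ?_, ?_, ?_⟩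
  · intro i n
    cases i with
    | zero => rfl
    | succ i => simp [st, stepSt]
  · intro j i n hij
    have : i ≠ j + 1 := by omega
    simp [st, stepSt, this]
  · intro j R g
    exact step_spec F j (st F tst P₀ j) R g

/-- In the limit of a suitable tower all tests of the countable families are saturated. -/
theorem exists_sated_tests (P₀ : F.Obj)
    (Nice : ∀ (P : ℕ → F.Obj) (_ : ∀ n, F.Hom (P (n + 1)) (P n)) (L : F.Obj)
      (_ : ∀ n, F.Hom L (P n)), Prop)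
    (lim : ∀ (P : ℕ → F.Obj) (f : ∀ n, F.Hom (P (n + 1)) (P n)),
      ∃ (L : F.Obj) (π : ∀ n, F.Hom L (P n)), Nice P f L π ∧
        ∀ n, F.comp (π (n + 1)) (f n) = π n) :
    ∃ (P : ℕ → F.Obj) (f : ∀ n, F.Hom (P (n + 1)) (P n)) (L : F.Obj)
      (π : ∀ n, F.Hom L (P n)), P₀ = P 0 ∧ Nice P f L π ∧
      ∀ i n (R : F.Obj) (g : F.Hom R L),
        F.N R (F.pb g (F.pb (π i) (tst (P i) n))) = F.N L (F.pb (π i) (tst (P i) n)) := by
  obtain ⟨P, f, τ, h0, h1, h2, h3⟩ := exists_tower F tst P₀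
  obtain ⟨L, π, hnice, hπ⟩ := lim P f
  have key : ∀ i n k, F.pb (π (i + k)) (τ (i + k) i n) = F.pb (π i) (tst (P i) n) := by
    intro i n k
    induction k with
    | zero => rw [Nat.add_zero, h1]
    | succ k ih =>
      rw [← Nat.add_assoc, h2 (i + k) i n (Nat.le_add_right _ _), ← F.pb_comp, hπ, ih]
  refine ⟨P, f, L, π, h0, hnice, fun i n R g => le_antisymm ?_ (F.mono _ _)⟩
  refine le_of_forall_pos_le_add fun ε hε => ?_
  obtain ⟨m, hm⟩ := exists_nat_one_div_lt hε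
  obtain ⟨j, hmj, hij, hji, hjn⟩ := exists_stage i n m
  obtain ⟨k, rfl⟩ := Nat.exists_eq_add_of_le hij
  have e1 := h3 (i + k) R (F.comp g (π (i + k)))
  rw [hji, hjn, F.pb_comp, key i n k] at e1
  have e2 := F.mono (π (i + k + 1)) (F.pb (f (i + k)) (τ (i + k) i n))
  rw [← F.pb_comp, hπ, key i n k] at e2
  have e3 : (1 : ℝ) / ((i + k : ℕ) + 1) ≤ 1 / (m + 1) := by
    apply one_div_le_one_div_of_le (by positivity)
    have : (m : ℝ) ≤ ((i + k : ℕ) : ℝ) := by exact_mod_cast hmj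
    linarith
  have e4 : F.N L (F.pb (π i) (tst (P i) n)) + 1 / (((i + k : ℕ) : ℝ) + 1) ≤
      F.N L (F.pb (π i) (tst (P i) n)) + ε := by linarith
  linarith

end

end Vale.Agent.P102.RM.SatAbs
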