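import Vale.Agent.P102.RM.Skeleton
import Vale.Agent.P102.RM.Functor
import Vale.Agent.P102.RM.CondExpB
import Vale.Agent.P102.RM.Sat3b
import Vale.Agent.P102.RM.SatAbs
import Vale.Agent.P102.RM.InvLimAdm

/-!
# Block SAT: existence of sated extensions
-/

namespace Vale.Agent.P102.RM

open MeasureTheory Filter Topology ProbabilityTheory

namespace SatF

variable {X : Sys} {ι : Type} [Fintype ι] [DecidableEq ι] (r : Ultrafilter (ι → ℤ))

/-- the system on which the functional lives -/
noncomputable def pS (P : Adm X) : Option ι → Sys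
  | none => P.W
  | some _ => D r P.W

/-- the point -/
noncomputable def pρ (P : Adm X) : ∀ c : Option ι, Fac (pS r P c) P.W
  | none => Fac.id P.W
  | some s => evF r P.W s

/-- the σ-algebra -/
@[reducible] noncomputable def pσ (P : Adm X) : ∀ c : Option ι, MeasurableSpace (pS r P c).C
  | none => MeasurableSpace.comap P.y.f inferInstance
  | some s => MeasurableSpace.comap (P.y.side s) inferInstance

/-- functoriality -/
noncomputable def pπ {P Q : Adm X} (e : Ext Q P) : ∀ c : Option ι, Fac (pS r Q c) (pS r P c)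
  | none => e.w
  | some _ => e.w.D r

lemma measurable_side {V Y : Sys} (y : Fac V Y) (s : ι) :
    Measurable (y.side s : (ι → V.C) → ({j : ι // j ≠ s} → V.C) × Y.C) := by
  unfold Fac.side
  exact (measurable_pi_lambda _ fun j => measurable_pi_apply _).prodMk
    (y.meas.comp (measurable_pi_apply s))

lemma pσ_le (P : Adm X) (c : Option ι) : pσ r P c ≤ (pS r P c).mC := by
  cases c with
  | none => exact P.y.meas.comap_le
  | some s => exact (measurable_side P.y s).comap_le

lemma pρ_pπ {P Q : Adm X} (e : Ext Q P) (c : Option ι) (d : (pS r Q c).C) :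
    (pρ r P c).f ((pπ r e c).f d) = e.w.f ((pρ r Q c).f d) := by
  cases c with
  | none => rfl
  | some s => rfl

lemma pσ_comap {P Q : Adm X} (e : Ext Q P) (c : Option ι) :
    (pσ r P c).comap (pπ r e c).f ≤ pσ r Q c := by
  cases c with
  | none =>
    change MeasurableSpace.comap e.w.f (MeasurableSpace.comap P.y.f _) ≤
      MeasurableSpace.comap Q.y.f _
    rw [MeasurableSpace.comap_comp]
    have h : P.y.f ∘ e.w.f = e.v.f ∘ Q.y.f := funext e.hy
    rw [h, ← MeasurableSpace.comap_comp]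
    exact MeasurableSpace.comap_mono e.v.meas.comap_le
  | some s =>
    change MeasurableSpace.comap (e.w.D r).f (MeasurableSpace.comap (P.y.side s) _) ≤
      MeasurableSpace.comap (Q.y.side s) _
    rw [MeasurableSpace.comap_comp]
    let F : ({j : ι // j ≠ s} → Q.W.C) × Q.Y.C → ({j : ι // j ≠ s} → P.W.C) × P.Y.C :=
      fun p => (fun j => e.w.f (p.1 j), e.v.f p.2)
    have hF : Measurable F := by
      refine Measurable.prodMk (measurable_pi_lambda _ fun j => ?_) (e.v.meas.comp measurable_snd)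
      exact e.w.meas.comp ((measurable_pi_apply j).comp measurable_fst)
    have h : (P.y.side s) ∘ (e.w.D r).f = F ∘ (Q.y.side s) := by
      funext d
      simp only [Function.comp_apply, Fac.side, F, Fac.D_apply, e.hy]
    rw [h, ← MeasurableSpace.comap_comp]
    exact MeasurableSpace.comap_mono hF.comap_le

/-- all functionals at once -/
noncomputable def NN (P : Adm X) (c : Option ι) (f : P.W.C → ℂ) : ℝ :=
  ∫ d, ‖((pS r P c).μ[f ∘ (pρ r P c).f | pσ r P c]) d‖ ^ 2 ∂(pS r P c).μ

omit [DecidableEq ι] in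
lemma bdd_memLp {A : Sys} {f : A.C → ℂ} (hf : Bdd f) : MemLp f 2 A.μ := by
  obtain ⟨hm, C, hC⟩ := hf
  exact MemLp.of_bound hm.aestronglyMeasurable C (ae_of_all _ hC)

lemma NN_comap {P Q : Adm X} (e : Ext Q P) (c : Option ι) {f : P.W.C → ℂ} (hf : Bdd f) :
    ∫ d, ‖((pS r Q c).μ[(f ∘ e.w.f) ∘ (pρ r Q c).f | (pσ r P c).comap (pπ r e c).f]) d‖ ^ 2
      ∂(pS r Q c).μ = NN r P c f := by
  have h : (f ∘ e.w.f) ∘ (pρ r Q c).f = (f ∘ (pρ r P c).f) ∘ (pπ r e c).f := by
    funext d
    simp only [Function.comp_apply, pρ_pπ]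
  rw [h]
  exact integral_normSq_condExp_comap (pσ_le r P c) (pπ r e c).mp
    ((hf.comp (pρ r P c).meas).integrable _)

lemma NN_mono {P Q : Adm X} (e : Ext Q P) (c : Option ι) {f : P.W.C → ℂ} (hf : Bdd f) :
    NN r P c f ≤ NN r Q c (f ∘ e.w.f) := by
  rw [← NN_comap r e c hf]
  exact integral_normSq_condExp_mono (pσ_comap r e c) (pσ_le r Q c)
    (bdd_memLp ((hf.comp e.w.meas).comp (pρ r Q c).meas))

lemma NN_eq {P Q : Adm X} (e : Ext Q P) (c : Option ι) {f : P.W.C → ℂ} (hf : Bdd f)
    (h : NN r Q c (f ∘ e.w.f) ≤ NN r P c f) :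
    (pS r Q c).μ[(f ∘ e.w.f) ∘ (pρ r Q c).f | pσ r Q c] =ᵐ[(pS r Q c).μ]
      (pS r Q c).μ[(f ∘ e.w.f) ∘ (pρ r Q c).f | (pσ r P c).comap (pπ r e c).f] := by
  refine condExp_ae_eq_of_norm_le (pσ_comap r e c) (pσ_le r Q c)
    (bdd_memLp ((hf.comp e.w.meas).comp (pρ r Q c).meas)) ?_
  rw [NN_comap r e c hf]
  exact h

lemma NN_le_of_eq {P Q : Adm X} (e : Ext Q P) (c : Option ι) {f : P.W.C → ℂ} (hf : Bdd f)
    (h : (pS r Q c).μ[(f ∘ e.w.f) ∘ (pρ r Q c).f | pσ r Q c] =ᵐ[(pS r Q c).μ]
      (pS r Q c).μ[(f ∘ e.w.f) ∘ (pρ r Q c).f | (pσ r P c).comap (pπ r e c).f]) :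
    NN r Q c (f ∘ e.w.f) ≤ NN r P c f := by
  rw [← NN_comap r e c hf]
  refine le_of_eq (integral_congr_ae ?_)
  filter_upwards [h] with d hd
  rw [hd]

/-- the indicator function -/
noncomputable def ind {Ω : Type} (A : Set Ω) : Ω → ℂ := A.indicator fun _ => 1

omit [DecidableEq ι] in
lemma ind_bdd {A : Sys} {S : Set A.C} (hS : MeasurableSet S) : Bdd (ind S) :=
  ⟨measurable_const.indicator hS, 1, fun a => by
    by_cases h : a ∈ S <;> simp [ind, h]⟩

lemma ind_comp {Ω Ω' : Type} (A : Set Ω) (g : Ω' → Ω) : ind A ∘ g = ind (g ⁻¹' A) := rfl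

lemma NN_ind_le (P : Adm X) (c : Option ι) {S : Set P.W.C} (hS : MeasurableSet S) :
    NN r P c (ind S) ≤ 1 := by
  have h1 : NN r P c (ind S) ≤ ∫ d, ‖(ind S ∘ (pρ r P c).f) d‖ ^ 2 ∂(pS r P c).μ :=
    integral_normSq_condExp_le (pσ_le r P c) (bdd_memLp ((ind_bdd hS).comp (pρ r P c).meas))
  refine h1.trans ?_
  have h2 : ∫ d, ‖(ind S ∘ (pρ r P c).f) d‖ ^ 2 ∂(pS r P c).μ ≤
      ∫ _, (1 : ℝ) ∂(pS r P c).μ := by
    refine integral_mono_of_nonneg (ae_of_all _ fun d => by positivity) (integrable_const _)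
      (ae_of_all _ fun d => ?_)
    simp only [Function.comp_apply, ind]
    by_cases h : (pρ r P c).f d ∈ S <;> simp [h]
  simpa using h2

/-- the frame of the abstract dovetailing lemma -/
noncomputable def frame (X : Sys) : SatAbs.Frame where
  Obj := Adm X
  Hom := fun Q P => Ext Q P
  Test := fun P => Option ι × {S : Set P.W.C // MeasurableSet S}
  comp := fun g f => f.comp g
  idH := fun P => Ext.refl P
  pb := fun f τ => (τ.1, ⟨f.w.f ⁻¹' τ.2.1, f.w.meas τ.2.2⟩)
  pb_comp := fun g f τ => rfl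
  N := fun P τ => NN r P τ.1 (ind τ.2.1)
  N_le := fun P τ => NN_ind_le r P τ.1 τ.2.2
  mono := fun f τ => NN_mono r f τ.1 (ind_bdd τ.2.2)

lemma ext_ext {P Q : Adm X} {e e' : Ext Q P} (h1 : ∀ a, e.w.f a = e'.w.f a)
    (h2 : ∀ a, e.v.f a = e'.v.f a) : e = e' := by
  obtain ⟨⟨w, _, _⟩, ⟨v, _, _⟩, _, _⟩ := e
  obtain ⟨⟨w', _, _⟩, ⟨v', _, _⟩, _, _⟩ := e'
  obtain rfl : w = w' := funext h1
  obtain rfl : v = v' := funext h2
  rfl

/-- a countable generating π-system -/
def piSets (V : Sys) (F : Finset ℕ) : Set V.C :=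
  ⋂ n ∈ F, MeasurableSpace.natGeneratingSequence V.C n

lemma piSets_meas (V : Sys) (F : Finset ℕ) : MeasurableSet (piSets V F) :=
  Finset.measurableSet_biInter F fun n _ =>
    MeasurableSpace.measurableSet_natGeneratingSequence n

lemma piSets_pi (V : Sys) : IsPiSystem (Set.range (piSets V)) := by
  classical
  rintro _ ⟨F, rfl⟩ _ ⟨G, rfl⟩ -
  refine ⟨F ∪ G, ?_⟩
  simp only [piSets, Finset.mem_union]
  ext a
  simp only [Set.mem_iInter, Set.mem_inter_iff]
  constructor
  · intro h
    exact ⟨fun n hn => h n (Or.inl hn), fun n hn => h n (Or.inr hn)⟩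
  · rintro ⟨h1, h2⟩ n (hn | hn)
    · exact h1 n hn
    · exact h2 n hn

lemma piSets_gen (V : Sys) : V.mC = MeasurableSpace.generateFrom (Set.range (piSets V)) := by
  apply le_antisymm
  · conv_lhs => rw [← MeasurableSpace.generateFrom_natGeneratingSequence V.C]
    refine MeasurableSpace.generateFrom_le ?_
    rintro _ ⟨n, rfl⟩
    refine MeasurableSpace.measurableSet_generateFrom ⟨{n}, ?_⟩
    simp [piSets]
  · refine MeasurableSpace.generateFrom_le ?_
    rintro _ ⟨F, rfl⟩
    exact piSets_meas V F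

lemma real_of_ind {Ω : Type} {m1 m2 m0 : MeasurableSpace Ω} {μ : Measure Ω}
    [IsProbabilityMeasure μ] {T : Set Ω} (hT : MeasurableSet T)
    (h : μ[ind T | m1] =ᵐ[μ] μ[ind T | m2]) :
    μ[T.indicator (fun _ => (1 : ℝ)) | m1] =ᵐ[μ] μ[T.indicator (fun _ => (1 : ℝ)) | m2] := by
  have hi : Integrable (ind T) μ := (integrable_const (1 : ℂ)).indicator hT
  have e : T.indicator (fun _ => (1 : ℝ)) = Complex.reCLM ∘ (ind T) := by
    funext ω
    by_cases hω : ω ∈ T <;> simp [ind, hω]
  rw [e]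
  refine (Complex.reCLM.comp_condExp_comm (m := m1) hi).symm.trans ?_
  refine EventuallyEq.trans ?_ (Complex.reCLM.comp_condExp_comm (m := m2) hi)
  filter_upwards [h] with ω hω
  simp only [Function.comp_apply, hω]

end SatF

open SatF in
theorem b_SAT : B_SAT := by
  intro X P₀ ι _ _ r
  obtain ⟨en, hen⟩ := exists_surjective_nat (Option ι × Finset ℕ)
  let F := frame r X
  let tst : ∀ P : Adm X, ℕ → Option ι × {S : Set P.W.C // MeasurableSet S} := fun P n =>
    ((en n).1, ⟨piSets P.W (en n).2, piSets_meas P.W _⟩)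
  obtain ⟨P, f, L, π, h0, hnice, hsat⟩ := SatAbs.exists_sated_tests F tst P₀
    (fun P f L π => (∀ n a, (π n).w.f a = (f n).w.f ((π (n + 1)).w.f a)) ∧
      L.W.mC = ⨆ n, MeasurableSpace.comap (π n).w.f (P n).W.mC)
    (fun B e => by
      obtain ⟨L, π, h1, h2, h3⟩ := exists_invLim B e
      refine ⟨L, π, ⟨h1, h3⟩, fun n => ext_ext (fun a => (h1 n a).symm) (fun a => (h2 n a).symm)⟩)
  obtain ⟨hstep, hmC⟩ := hnice
  have key : ∀ (R : Adm X) (g : Ext R L) (c : Option ι) (k : L.W.C → ℂ), Bdd k →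
      NN r R c (k ∘ g.w.f) ≤ NN r L c k := by
    intro R g c k hk
    refine NN_le_of_eq r g c hk ?_
    have hgm : Measurable (fun d : (pS r R c).C => g.w.f ((pρ r R c).f d)) :=
      g.w.meas.comp (pρ r R c).meas
    have hm1 : (pσ r L c).comap (pπ r g c).f ≤ (pS r R c).mC :=
      (pσ_comap r g c).trans (pσ_le r R c)
    -- indicators of the sets of the π-systems
    have stepA : ∀ (i : ℕ) (S : Set (P i).W.C), S ∈ Set.range (piSets (P i).W) →
        (pS r R c).μ[((fun d => (π i).w.f (g.w.f ((pρ r R c).f d))) ⁻¹' S).indicator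
          (fun _ => (1 : ℝ)) | (pσ r L c).comap (pπ r g c).f] =ᵐ[(pS r R c).μ]
        (pS r R c).μ[((fun d => (π i).w.f (g.w.f ((pρ r R c).f d))) ⁻¹' S).indicator
          (fun _ => (1 : ℝ)) | pσ r R c] := by
      rintro i _ ⟨G, rfl⟩
      obtain ⟨n, hn⟩ := hen (c, G)
      have h1 := hsat i n R g
      have htst : tst (P i) n = (c, ⟨piSets (P i).W G, piSets_meas (P i).W G⟩) := by
        simp only [tst, hn]
      rw [htst] at h1
      have h2 : NN r R c (ind ((π i).w.f ⁻¹' piSets (P i).W G) ∘ g.w.f) ≤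
          NN r L c (ind ((π i).w.f ⁻¹' piSets (P i).W G)) := le_of_eq h1
      have h3 := NN_eq r g c (ind_bdd ((π i).w.meas (piSets_meas (P i).W G))) h2
      exact real_of_ind (hgm.comp measurable_id' ((π i).w.meas (piSets_meas (P i).W G))) h3.symm
    have hmono : Monotone fun n => MeasurableSpace.comap (π n).w.f (P n).W.mC := by
      refine monotone_nat_of_le_succ fun n => ?_
      have e : (π n).w.f = (f n).w.f ∘ (π (n + 1)).w.f := funext fun a => hstep n a
      simp only [e]
      rw [← MeasurableSpace.comap_comp]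
      exact MeasurableSpace.comap_mono (f n).w.meas.comap_le
    have stepC := Sat.condExp_comp_eq_of_chain (P := (pS r R c).μ)
      (m1 := (pσ r L c).comap (pπ r g c).f) (m2 := pσ r R c)
      (g := fun d => g.w.f ((pρ r R c).f d)) hgm hm1 (pσ_le r R c)
      (A := fun n => (P n).W.C) (fun n => (π n).w.f) hmono hmC
      (fun n k hk hkb => by
        have hmn : Measurable (fun d => (π n).w.f (g.w.f ((pρ r R c).f d))) :=
          (π n).w.meas.comp hgm
        have hint : Integrable k ((pS r R c).μ.map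
            (fun d => (π n).w.f (g.w.f ((pρ r R c).f d)))) := by
          haveI : IsProbabilityMeasure ((pS r R c).μ.map
            (fun d => (π n).w.f (g.w.f ((pρ r R c).f d)))) :=
            Measure.isProbabilityMeasure_map hmn.aemeasurable
          exact Integrable.of_bound hk.aestronglyMeasurable 1 (ae_of_all _ fun a => by
            simpa using hkb a)
        exact Sat.condExp_comp_eq_of_piSystem (P := (pS r R c).μ)
          (m1 := (pσ r L c).comap (pπ r g c).f) (m2 := pσ r R c)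
          (g := fun d => (π n).w.f (g.w.f ((pρ r R c).f d))) hmn hm1 (pσ_le r R c)
          (piSets_gen (P n).W) (piSets_pi (P n).W) (stepA n) k hint)
      k (by
        haveI : IsProbabilityMeasure ((pS r R c).μ.map (fun d => g.w.f ((pρ r R c).f d))) :=
          Measure.isProbabilityMeasure_map hgm.aemeasurable
        exact hk.integrable _)
    exact stepC.symm
  subst h0
  exact ⟨L, π 0, fun P' e f hf => key P' e none f hf, fun s P' e f hf => key P' e (some s) f hf⟩

end Vale.Agent.P102.RM
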