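import Vale.Agent.P102.RM.TotGrid
import Vale.Agent.P102.RM.Skeleton
import Vale.Agent.P102.RM.AeMap

/-!
P102, Rokhlin: block TOT, part 4: the block `B_TOT` from the static mediality theorem.
-/

namespace Vale.Agent.P102.RM

open MeasureTheory Filter Topology ProbabilityTheory Set

/-- the static mediality theorem -/
def MedThm : Prop := ∀ (ι V : Type) [Fintype ι] [DecidableEq ι] [MeasurableSpace V]
  [StandardBorelSpace V] (p q : ι), p ≠ q → 3 ≤ Fintype.card ι →
  ∀ (ν : ι → ι → Measure V) (G : Measure (ι → ι → V)), GridHyp p q ν G →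
    Total (G.map fun w i => w i p) p q

theorem tot_of_med (h : MedThm) : B_TOT := by
  intro ι _ _ r p q hpq hc Y E
  have h1 : ∀ᵐ g ∂(D r (D r Y)).μ, Total (E.y.lineK r ((colF r Y p).f g)) p q := by
    filter_upwards [E.gridHyp hpq] with g hg
    have h2 := h ι E.V.C p q hpq hc _ _ hg.1
    rw [hg.2] at h2
    exact h2
  have h3 := ae_map_of_ae (m := (D r (D r Y)).μ) (f := (colF r Y p).f) (colF r Y p).meas
    (P := fun η => Total (E.y.lineK r η) p q) h1
  rw [(colF r Y p).mp.map_eq] at h3
  exact h3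

end Vale.Agent.P102.RM
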