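import Mathlib.MeasureTheory.Function.ConditionalExpectation.PullOut
import Mathlib.MeasureTheory.Function.ConditionalExpectation.Real
import Mathlib.MeasureTheory.Function.L2Space
import Mathlib.Probability.Notation
import Mathlib.Probability.Independence.Integration

/-!
# P102, block UP : the upgrade lemma (static form, complex valued functions)

`C` is a finite set of points. `mW c`, `mX c ≤ mW c`, `mY c` are the sigma-algebras of the points
`w_c`, `x_c`, `y_c`, and `B` is a base sigma-algebra containing all `mY c`.  If the `x_c` are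
jointly independent and independent of `B`, and if every `mW c` has the saturation property
(`mX c` independent of `G` implies that `mW c` is conditionally independent of `G` given `mY c`)
for the sigma-algebras `G` produced by the process, then, given `B`, the `w_c` are independent with
their own fibre laws.
-/

open MeasureTheory Filter ProbabilityTheory
open scoped ENNReal

namespace Vale.Agent.P102.RM.Up972

variable {Ω : Type*} {m0 : MeasurableSpace Ω} {P : Measure Ω}

/-- A complex function which is a.e. bounded. -/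
def AEBddC (P : Measure Ω) (f : Ω → ℂ) : Prop := ∃ C : ℝ, ∀ᵐ ω ∂P, ‖f ω‖ ≤ C

theorem AEBddC.condExp {f : Ω → ℂ} (hf : AEBddC P f) (m : MeasurableSpace Ω) :
    AEBddC P (P[f|m]) := by
  obtain ⟨C, hC⟩ := hf
  exact ⟨C, ae_bdd_norm_condExp_of_ae_bdd_norm hC⟩

theorem AEBddC.mul {f g : Ω → ℂ} (hf : AEBddC P f) (hg : AEBddC P g) : AEBddC P (f * g) := by
  obtain ⟨C, hC⟩ := hf
  obtain ⟨D, hD⟩ := hg
  refine ⟨C * D, ?_⟩
  filter_upwards [hC, hD] with ω h1 h2
  rw [Pi.mul_apply, norm_mul]
  exact mul_le_mul h1 h2 (norm_nonneg _) ((norm_nonneg _).trans h1)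

theorem AEBddC.congr {f g : Ω → ℂ} (hf : AEBddC P f) (h : f =ᵐ[P] g) : AEBddC P g := by
  obtain ⟨C, hC⟩ := hf
  refine ⟨C, ?_⟩
  filter_upwards [hC, h] with ω h1 h2
  rwa [← h2]

theorem AEBddC.integrable [IsProbabilityMeasure P] {f : Ω → ℂ} (hf : AEBddC P f)
    (hm : AEStronglyMeasurable[m0] f P) : Integrable f P := by
  obtain ⟨C, hC⟩ := hf
  exact Integrable.of_bound hm C hC

/-- `∫ A * F = ∫ A * E[F|m]` for bounded `m`-measurable `A`. -/
theorem integral_mul_condExpC_right [IsProbabilityMeasure P] {m : MeasurableSpace Ω}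
    (hm : m ≤ m0) {A F : Ω → ℂ} (hA : AEStronglyMeasurable[m] A P) (hAb : AEBddC P A)
    (hF : AEStronglyMeasurable[m0] F P) (hFb : AEBddC P F) :
    ∫ ω, A ω * F ω ∂P = ∫ ω, A ω * (P[F|m]) ω ∂P := by
  have hAi : AEStronglyMeasurable[m0] A P := hA.mono hm
  have hint : Integrable (fun ω => A ω * F ω) P := (hAb.mul hFb).integrable (hAi.mul hF)
  have h1 : P[fun ω => A ω * F ω|m] =ᵐ[P] fun ω => A ω * (P[F|m]) ω :=
    condExp_bilin_of_aestronglyMeasurable_left (.mul ℝ ℂ) hA hint (hFb.integrable hF)
  have h2 : ∫ ω, (P[fun ω => A ω * F ω|m]) ω ∂P = ∫ ω, A ω * F ω ∂P := integral_condExp hm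
  rw [← h2]
  exact integral_congr_ae h1

theorem integral_indicator_oneC {A : Set Ω} (hA : MeasurableSet[m0] A) :
    ∫ ω, A.indicator (fun _ => (1 : ℂ)) ω ∂P = ((P.real A : ℝ) : ℂ) := by
  rw [integral_indicator_const _ hA]
  simp

/-- a.e. bounded and a.e. measurable with respect to `m` -/
def BMC (P : Measure Ω) (m : MeasurableSpace Ω) (f : Ω → ℂ) : Prop :=
  AEStronglyMeasurable[m] f P ∧ AEBddC P f

theorem BMC.mono {m m' : MeasurableSpace Ω} {f : Ω → ℂ} (hf : BMC P m f) (h : m ≤ m') :
    BMC P m' f := ⟨hf.1.mono h, hf.2⟩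

theorem BMC.mul {m : MeasurableSpace Ω} {f g : Ω → ℂ} (hf : BMC P m f) (hg : BMC P m g) :
    BMC P m (f * g) := ⟨hf.1.mul hg.1, hf.2.mul hg.2⟩

theorem BMC.congr {m : MeasurableSpace Ω} {f g : Ω → ℂ} (hf : BMC P m f) (h : f =ᵐ[P] g) :
    BMC P m g := ⟨hf.1.congr h, hf.2.congr h⟩

theorem BMC.condExp' (m : MeasurableSpace Ω) {f : Ω → ℂ} (hf : AEBddC P f) :
    BMC P m (P[f|m]) :=
  ⟨stronglyMeasurable_condExp.aestronglyMeasurable, hf.condExp m⟩

theorem BMC.const (m : MeasurableSpace Ω) (c : ℂ) : BMC P m (fun _ => c) :=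
  ⟨aestronglyMeasurable_const, ‖c‖, Eventually.of_forall fun _ => le_rfl⟩

theorem BMC.prod {m : MeasurableSpace Ω} {ι : Type*} (s : Finset ι) {f : ι → Ω → ℂ}
    (hf : ∀ i ∈ s, BMC P m (f i)) : BMC P m (∏ i ∈ s, f i) := by
  classical
  induction s using Finset.induction_on with
  | empty =>
    rw [Finset.prod_empty]
    exact BMC.const m 1
  | insert a s ha ih =>
    rw [Finset.prod_insert ha]
    exact (hf a (Finset.mem_insert_self _ _)).mul
      (ih fun i hi => hf i (Finset.mem_insert_of_mem hi))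

theorem BMC.integrable [IsProbabilityMeasure P] {m : MeasurableSpace Ω} (hm : m ≤ m0)
    {f : Ω → ℂ} (hf : BMC P m f) : Integrable f P := hf.2.integrable (hf.1.mono hm)

theorem BMC.indicator {m : MeasurableSpace Ω} {A : Set Ω} (hA : MeasurableSet[m] A) :
    BMC P m (A.indicator fun _ => (1 : ℂ)) := by
  refine ⟨(stronglyMeasurable_const.indicator hA).aestronglyMeasurable, 1,
    Eventually.of_forall fun ω => ?_⟩
  by_cases h : ω ∈ A
  · rw [Set.indicator_of_mem h]; simp
  · rw [Set.indicator_of_notMem h]; simp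

section Upgrade

variable {C : Type*} [DecidableEq C]

/-- the sigma-algebra of the point `d` at the stage where the points of `s` are already known -/
@[reducible] def mZ (mW mX : C → MeasurableSpace Ω) (s : Finset C) (d : C) : MeasurableSpace Ω :=
  if d ∈ s then mW d else mX d

/-- base and points as one family -/
@[reducible] def mF (mW mX : C → MeasurableSpace Ω) (B : MeasurableSpace Ω) (s : Finset C) :
    Option C → MeasurableSpace Ω
  | none => B
  | some d => mZ mW mX s d

/-- the sigma-algebra generated by all the points except `c` (whole points for `d ∈ s`, the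
`x`-part for the others) and the base `B` -/
@[reducible] def mG (mW mX : C → MeasurableSpace Ω) (B : MeasurableSpace Ω) (s : Finset C)
    (c : C) : MeasurableSpace Ω :=
  ⨆ o ∈ ({some c}ᶜ : Set (Option C)), mF mW mX B s o

/-- the factor replacing `f c` in the formula at stage `s` -/
noncomputable def eUC (P : Measure Ω) (mY : C → MeasurableSpace Ω) (s : Finset C)
    (f : C → Ω → ℂ) (c : C) : Ω → ℂ :=
  if c ∈ s then P[f c|mY c] else fun _ => ∫ ω, f c ω ∂P

variable {mW mX mY : C → MeasurableSpace Ω} {B : MeasurableSpace Ω}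

theorem mF_le_mG (s : Finset C) (c : C) {o : Option C} (ho : o ≠ some c) :
    mF mW mX B s o ≤ mG mW mX B s c :=
  le_iSup₂_of_le o (by simpa using ho) le_rfl

theorem base_le_mG (s : Finset C) (c : C) : B ≤ mG mW mX B s c :=
  mF_le_mG (o := none) s c (by simp)

theorem mZ_le_mG (s : Finset C) {c d : C} (h : d ≠ c) : mZ mW mX s d ≤ mG mW mX B s c :=
  mF_le_mG (o := some d) s c (by simpa using h)

theorem mG_le (hW : ∀ c, mW c ≤ m0) (hXW : ∀ c, mX c ≤ mW c) (hB : B ≤ m0) (s : Finset C)
    (c : C) : mG mW mX B s c ≤ m0 := by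
  refine iSup₂_le fun o _ => ?_
  cases o with
  | none => exact hB
  | some d =>
    show mZ mW mX s d ≤ m0
    unfold mZ
    split_ifs
    · exact hW d
    · exact (hXW d).trans (hW d)

variable [Fintype C]

/-- The formula at stage `s`. -/
def UpIC (P : Measure Ω) (mW mX mY : C → MeasurableSpace Ω) (B : MeasurableSpace Ω)
    (s : Finset C) : Prop :=
  ∀ (f : C → Ω → ℂ) (b : Ω → ℂ), (∀ c, BMC P (mZ mW mX s c) (f c)) → BMC P B b →
    ∫ ω, (∏ c, f c ω) * b ω ∂P = ∫ ω, (∏ c, eUC P mY s f c ω) * b ω ∂P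

/-- At stage `s` the `x`-part of a point not yet processed is independent of everything else. -/
theorem UpIC.indep [IsProbabilityMeasure P] (hW : ∀ c, mW c ≤ m0) (hXW : ∀ c, mX c ≤ mW c)
    (hB : B ≤ m0) {s : Finset C} (h : UpIC P mW mX mY B s) {c : C} (hc : c ∉ s) :
    Indep (mX c) (mG mW mX B s c) P := by
  have hX0 : mX c ≤ m0 := (hXW c).trans (hW c)
  have hG0 := mG_le (mW := mW) (mX := mX) hW hXW hB s c
  refine IndepSets.indep hX0 hG0 (@MeasurableSpace.isPiSystem_measurableSet Ω (mX c))
    (isPiSystem_piiUnionInter (fun o => {t | MeasurableSet[mF mW mX B s o] t})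
      (fun o => @MeasurableSpace.isPiSystem_measurableSet Ω (mF mW mX B s o))
      ({some c}ᶜ : Set (Option C)))
    (@MeasurableSpace.generateFrom_measurableSet Ω (mX c)).symm
    (generateFrom_piiUnionInter_measurableSet (mF mW mX B s) _).symm ?_
  rw [IndepSets_iff]
  rintro A D hA ⟨t, ht, g, hg, rfl⟩
  -- the functions
  let g' : Option C → Set Ω := fun o => if o ∈ t then g o else Set.univ
  have hg' : ∀ o, MeasurableSet[mF mW mX B s o] (g' o) := by
    intro o
    by_cases ho : o ∈ t
    · simp only [g', ho, if_true]; exact hg o ho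
    · simp only [g', ho, if_false]; exact @MeasurableSet.univ Ω _
  have hct : some c ∉ t := fun hh => ht hh rfl
  have hD : (⋂ o ∈ t, g o) = ⋂ o, g' o := by
    ext ω
    simp only [Set.mem_iInter, g']
    constructor
    · intro hx o
      by_cases ho : o ∈ t
      · simp only [ho, if_true]; exact hx o ho
      · simp only [ho, if_false]; trivial
    · intro hx o ho
      have := hx o
      simpa only [ho, if_true] using this
  have hDm : MeasurableSet[m0] (⋂ o ∈ t, g o) := by
    refine t.measurableSet_biInter fun o ho => ?_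
    have h1 : mF mW mX B s o ≤ m0 := (mF_le_mG s c (fun hh => hct (hh ▸ ho))).trans hG0
    exact h1 _ (hg o ho)
  -- formula for a set `A'` of `mX c`
  have key : ∀ A' : Set Ω, MeasurableSet[mX c] A' →
      P.real (A' ∩ ⋂ o ∈ t, g o) = P.real A' *
        ∫ ω, (∏ d ∈ Finset.univ.erase c, eUC P mY s
          (fun d => (g' (some d)).indicator fun _ => (1:ℂ)) d ω) *
          (g' none).indicator (fun _ => (1:ℂ)) ω ∂P := by
    intro A' hA'
    let f : C → Ω → ℂ := fun d => if d = c then A'.indicator (fun _ => (1:ℂ))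
      else (g' (some d)).indicator fun _ => (1:ℂ)
    have hf : ∀ d, BMC P (mZ mW mX s d) (f d) := by
      intro d
      by_cases hd : d = c
      · subst hd
        simp only [f, if_true]
        have : mZ mW mX s d = mX d := by simp [mZ, hc]
        rw [this]
        exact BMC.indicator hA'
      · simp only [f, hd, if_false]
        exact BMC.indicator (hg' (some d))
    have h1 := h f ((g' none).indicator fun _ => (1:ℂ)) hf (BMC.indicator (hg' none))
    have hA0 : MeasurableSet[m0] A' := hX0 _ hA'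
    have h2 : ∫ ω, (∏ d, f d ω) * (g' none).indicator (fun _ => (1:ℂ)) ω ∂P =
        P.real (A' ∩ ⋂ o ∈ t, g o) := by
      rw [← integral_indicator_oneC (hA0.inter hDm)]
      refine integral_congr_ae (Eventually.of_forall fun ω => ?_)
      simp only
      rw [hD]
      by_cases hω : ω ∈ A' ∩ ⋂ o, g' o
      · rw [Set.indicator_of_mem hω]
        have hx := Set.mem_iInter.1 hω.2
        rw [Set.indicator_of_mem (hx none), Finset.prod_eq_one, mul_one]
        intro d _
        by_cases hd : d = c
        · simp only [f, hd, if_true]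
          rw [Set.indicator_of_mem hω.1]
        · simp only [f, hd, if_false]
          rw [Set.indicator_of_mem (hx (some d))]
      · rw [Set.indicator_of_notMem hω]
        by_cases hA1 : ω ∈ A'
        · have : ∃ o, ω ∉ g' o := by
            by_contra hcon
            push Not at hcon
            exact hω ⟨hA1, Set.mem_iInter.2 hcon⟩
          obtain ⟨o, ho⟩ := this
          cases o with
          | none => rw [Set.indicator_of_notMem ho, mul_zero]
          | some d =>
            by_cases hd : d = c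
            · subst hd
              exact absurd (by simp only [g', hct, if_false]; trivial) ho
            · rw [Finset.prod_eq_zero (Finset.mem_univ d), zero_mul]
              simp only [f, hd, if_false]
              rw [Set.indicator_of_notMem ho]
        · rw [Finset.prod_eq_zero (Finset.mem_univ c), zero_mul]
          simp only [f, if_true]
          rw [Set.indicator_of_notMem hA1]
    rw [← h2, h1]
    have h3 : ∀ ω, (∏ d, eUC P mY s f d ω) * (g' none).indicator (fun _ => (1:ℂ)) ω =
        P.real A' * ((∏ d ∈ Finset.univ.erase c, eUC P mY s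
          (fun d => (g' (some d)).indicator fun _ => (1:ℂ)) d ω) *
          (g' none).indicator (fun _ => (1:ℂ)) ω) := by
      intro ω
      rw [← Finset.mul_prod_erase Finset.univ _ (Finset.mem_univ c)]
      have e1 : eUC P mY s f c ω = P.real A' := by
        simp only [eUC, hc, if_false, f, if_true]
        exact integral_indicator_oneC hA0
      have e2 : ∏ d ∈ Finset.univ.erase c, eUC P mY s f d ω =
          ∏ d ∈ Finset.univ.erase c, eUC P mY s
            (fun d => (g' (some d)).indicator fun _ => (1:ℂ)) d ω := by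
        refine Finset.prod_congr rfl fun d hd => ?_
        have hdc : d ≠ c := Finset.ne_of_mem_erase hd
        simp only [eUC, f, hdc, if_false]
      rw [e1, e2, mul_assoc]
    rw [integral_congr_ae (Eventually.of_forall h3), integral_const_mul]
  have k1 := key A hA
  have k2 := key Set.univ (@MeasurableSet.univ Ω (mX c))
  rw [Set.univ_inter, probReal_univ, Complex.ofReal_one, one_mul] at k2
  rw [← k2] at k1
  rw [← Complex.ofReal_mul, Complex.ofReal_inj] at k1
  rw [measureReal_def, measureReal_def, measureReal_def, ← ENNReal.toReal_mul] at k1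
  exact (ENNReal.toReal_eq_toReal_iff' (measure_ne_top _ _)
    (ENNReal.mul_ne_top (measure_ne_top _ _) (measure_ne_top _ _))).1 k1

/-- The induction step. -/
theorem UpIC.step [IsProbabilityMeasure P] (hW : ∀ c, mW c ≤ m0) (hXW : ∀ c, mX c ≤ mW c)
    (hYB : ∀ c, mY c ≤ B) (hB : B ≤ m0) {s : Finset C} (h : UpIC P mW mX mY B s) {c : C}
    (hc : c ∉ s)
    (hsat : ∀ f, BMC P (mW c) f → P[f|mG mW mX B s c] =ᵐ[P] P[f|mY c]) :
    UpIC P mW mX mY B (insert c s) := by
  intro f b hf hb
  have hG0 := mG_le (mW := mW) (mX := mX) hW hXW hB s c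
  have hfc : BMC P (mW c) (f c) := by
    have := hf c
    simpa [mZ] using this
  have hfd : ∀ d, d ≠ c → BMC P (mZ mW mX s d) (f d) := by
    intro d hd
    have := hf d
    simpa [mZ, hd] using this
  -- the function `H`
  have hH : BMC P (mG mW mX B s c) ((∏ d ∈ Finset.univ.erase c, f d) * b) := by
    refine BMC.mul (BMC.prod _ fun d hd => ?_) (hb.mono (base_le_mG s c))
    exact (hfd d (Finset.ne_of_mem_erase hd)).mono (mZ_le_mG s (Finset.ne_of_mem_erase hd))
  have h1 : ∫ ω, (∏ d, f d ω) * b ω ∂P =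
      ∫ ω, ((∏ d ∈ Finset.univ.erase c, f d) * b) ω * f c ω ∂P := by
    refine integral_congr_ae (Eventually.of_forall fun ω => ?_)
    simp only [Pi.mul_apply, Finset.prod_apply]
    rw [← Finset.mul_prod_erase Finset.univ (fun d => f d ω) (Finset.mem_univ c)]
    ring
  rw [h1, integral_mul_condExpC_right hG0 hH.1 hH.2 (hfc.1.mono (hW c)) hfc.2]
  -- replace by the conditional expectation given `mY c`
  let f' : C → Ω → ℂ := Function.update f c (fun _ => 1)
  have hf' : ∀ d, BMC P (mZ mW mX s d) (f' d) := by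
    intro d
    by_cases hd : d = c
    · subst hd
      simp only [f', Function.update_self]
      exact BMC.const _ _
    · simp only [f', Function.update_of_ne hd]
      exact hfd d hd
  have hb' : BMC P B (b * P[f c|mY c]) :=
    hb.mul ((BMC.condExp' (mY c) hfc.2).mono (hYB c))
  have h2 := h f' (b * P[f c|mY c]) hf' hb'
  have h3 : ∫ ω, ((∏ d ∈ Finset.univ.erase c, f d) * b) ω * (P[f c|mG mW mX B s c]) ω ∂P =
      ∫ ω, (∏ d, f' d ω) * (b * P[f c|mY c]) ω ∂P := by
    refine integral_congr_ae ?_
    filter_upwards [hsat (f c) hfc] with ω hω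
    rw [hω]
    simp only [Pi.mul_apply, Finset.prod_apply]
    rw [← Finset.mul_prod_erase Finset.univ (fun d => f' d ω) (Finset.mem_univ c)]
    have e1 : f' c ω = 1 := by simp [f']
    have e2 : ∏ d ∈ Finset.univ.erase c, f' d ω = ∏ d ∈ Finset.univ.erase c, f d ω := by
      refine Finset.prod_congr rfl fun d hd => ?_
      simp only [f', Function.update_of_ne (Finset.ne_of_mem_erase hd)]
    rw [e1, e2]; ring
  rw [h3, h2]
  refine integral_congr_ae (Eventually.of_forall fun ω => ?_)
  simp only [Pi.mul_apply]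
  rw [← Finset.mul_prod_erase Finset.univ (fun d => eUC P mY s f' d ω) (Finset.mem_univ c),
    ← Finset.mul_prod_erase Finset.univ (fun d => eUC P mY (insert c s) f d ω)
      (Finset.mem_univ c)]
  have e1 : eUC P mY s f' c ω = 1 := by simp [eUC, hc, f']
  have e2 : eUC P mY (insert c s) f c ω = (P[f c|mY c]) ω := by simp [eUC]
  have e3 : ∏ d ∈ Finset.univ.erase c, eUC P mY s f' d ω =
      ∏ d ∈ Finset.univ.erase c, eUC P mY (insert c s) f d ω := by
    refine Finset.prod_congr rfl fun d hd => ?_
    have hdc := Finset.ne_of_mem_erase hd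
    simp [eUC, f', hdc]
  rw [e1, e2, e3]; ring

/-- The formula at stage `∅` from joint independence. -/
theorem UpIC.empty [IsProbabilityMeasure P] (hW : ∀ c, mW c ≤ m0) (hXW : ∀ c, mX c ≤ mW c)
    (hB : B ≤ m0) (hind : iIndep (mF mX mX B ∅) P) : UpIC P mW mX mY B ∅ := by
  intro f b hf hb
  have hf0 : ∀ c, BMC P (mX c) (f c) := fun c => by simpa [mZ] using hf c
  -- measurable representatives
  let F : Option C → Ω → ℂ
    | none => hb.1.mk b
    | some c => (hf0 c).1.mk (f c)
  have hF : ∀ o, StronglyMeasurable[mF mX mX B ∅ o] (F o) := by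
    intro o
    cases o with
    | none => exact hb.1.stronglyMeasurable_mk
    | some c =>
      have : mF mX mX B ∅ (some c) = mX c := by simp [mF, mZ]
      rw [this]
      exact (hf0 c).1.stronglyMeasurable_mk
  have hle : ∀ o, mF mX mX B ∅ o ≤ m0 := by
    intro o
    cases o with
    | none => exact hB
    | some c =>
      have : mF mX mX B ∅ (some c) = mX c := by simp [mF, mZ]
      rw [this]
      exact (hXW c).trans (hW c)
  have hi : iIndepFun F P := by
    rw [iIndepFun_iff_iIndep]
    refine (iIndep_iff _ _).2 fun S t ht => ?_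
    refine (iIndep_iff _ _).1 hind S fun o ho => ?_
    obtain ⟨u, hu, hu2⟩ := ht o ho
    rw [← hu2]
    exact (hF o).measurable hu
  have h1 := hi.integral_fun_prod_eq_prod_integral
    (fun o => ((hF o).mono (hle o)).aestronglyMeasurable)
  rw [Fintype.prod_option] at h1
  have eb : b =ᵐ[P] F none := hb.1.ae_eq_mk
  have ef : ∀ c, f c =ᵐ[P] F (some c) := fun c => (hf0 c).1.ae_eq_mk
  have ef' : ∀ᵐ ω ∂P, ∀ c, f c ω = F (some c) ω := ae_all_iff.2 fun c => ef c
  have h2 : ∫ ω, (∏ c, f c ω) * b ω ∂P = ∫ ω, ∏ o, F o ω ∂P := by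
    refine integral_congr_ae ?_
    filter_upwards [eb, ef'] with ω h3 h4
    rw [Fintype.prod_option, h3, mul_comm]
    congr 1
    exact Finset.prod_congr rfl fun c _ => h4 c
  rw [h2, h1]
  have h3 : ∀ ω, (∏ c, eUC P mY ∅ f c ω) * b ω = (∏ c, ∫ ω, f c ω ∂P) * b ω := by
    intro ω
    simp [eUC]
  rw [integral_congr_ae (Eventually.of_forall h3), integral_const_mul, mul_comm]
  congr 1
  · exact Finset.prod_congr rfl fun c _ => integral_congr_ae (ef c).symm
  · exact integral_congr_ae eb.symm

/-- **Upgrade lemma (static form).** -/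
theorem upgrade_static [IsProbabilityMeasure P] (hW : ∀ c, mW c ≤ m0) (hXW : ∀ c, mX c ≤ mW c)
    (hYB : ∀ c, mY c ≤ B) (hB : B ≤ m0) (h0 : UpIC P mW mX mY B ∅)
    (hsat : ∀ (s : Finset C) (c : C), c ∉ s → Indep (mX c) (mG mW mX B s c) P →
      ∀ f, BMC P (mW c) f → P[f|mG mW mX B s c] =ᵐ[P] P[f|mY c]) (s : Finset C) :
    UpIC P mW mX mY B s := by
  induction s using Finset.induction_on with
  | empty => exact h0
  | insert c s hc ih =>
    exact ih.step hW hXW hYB hB hc (hsat s c hc (ih.indep hW hXW hB hc))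

/-- Output 1: at every stage, the `x`-part is independent of everything else. -/
theorem upgrade_indep [IsProbabilityMeasure P] (hW : ∀ c, mW c ≤ m0) (hXW : ∀ c, mX c ≤ mW c)
    (hYB : ∀ c, mY c ≤ B) (hB : B ≤ m0) (h0 : UpIC P mW mX mY B ∅)
    (hsat : ∀ (s : Finset C) (c : C), c ∉ s → Indep (mX c) (mG mW mX B s c) P →
      ∀ f, BMC P (mW c) f → P[f|mG mW mX B s c] =ᵐ[P] P[f|mY c]) {s : Finset C} {c : C}
    (hc : c ∉ s) : Indep (mX c) (mG mW mX B s c) P :=
  (upgrade_static hW hXW hYB hB h0 hsat s).indep hW hXW hB hc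

/-- Output 2: at every stage, a whole point is conditionally independent of everything else given
its own `y`. -/
theorem upgrade_condExp [IsProbabilityMeasure P] (hW : ∀ c, mW c ≤ m0)
    (hXW : ∀ c, mX c ≤ mW c) (hYB : ∀ c, mY c ≤ B) (hB : B ≤ m0)
    (h0 : UpIC P mW mX mY B ∅)
    (hsat : ∀ (s : Finset C) (c : C), c ∉ s → Indep (mX c) (mG mW mX B s c) P →
      ∀ f, BMC P (mW c) f → P[f|mG mW mX B s c] =ᵐ[P] P[f|mY c]) {s : Finset C} {c : C}
    (hc : c ∉ s) {f : Ω → ℂ} (hf : BMC P (mW c) f) :
    P[f|mG mW mX B s c] =ᵐ[P] P[f|mY c] :=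
  hsat s c hc (upgrade_indep hW hXW hYB hB h0 hsat hc) f hf

/-- Output 3: the product formula `E[(∏ f_c) b] = E[(∏ E[f_c|y_c]) b]`. -/
theorem upgrade_integral [IsProbabilityMeasure P] (hW : ∀ c, mW c ≤ m0)
    (hXW : ∀ c, mX c ≤ mW c) (hYB : ∀ c, mY c ≤ B) (hB : B ≤ m0)
    (h0 : UpIC P mW mX mY B ∅)
    (hsat : ∀ (s : Finset C) (c : C), c ∉ s → Indep (mX c) (mG mW mX B s c) P →
      ∀ f, BMC P (mW c) f → P[f|mG mW mX B s c] =ᵐ[P] P[f|mY c])
    {f : C → Ω → ℂ} {b : Ω → ℂ} (hf : ∀ c, BMC P (mW c) (f c)) (hb : BMC P B b) :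
    ∫ ω, (∏ c, f c ω) * b ω ∂P = ∫ ω, (∏ c, (P[f c|mY c]) ω) * b ω ∂P := by
  have h := upgrade_static hW hXW hYB hB h0 hsat Finset.univ f b
    (fun c => by simpa [mZ] using hf c) hb
  rw [h]
  simp [eUC]

end Upgrade

end Vale.Agent.P102.RM.Up972
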