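import Vale.Agent.P102.RM.Skeleton
import Vale.Agent.P102.RM.UpStaticC
import Vale.Agent.P102.RM.CondExpB
import Mathlib.MeasureTheory.Function.FactorsThrough

/-!
# P102, block UP : the upgrade lemma `b_up : B_UP`
-/

namespace Vale.Agent.P102.RM

open MeasureTheory Filter Topology ProbabilityTheory

namespace Up972

/-! ### Functions measurable with respect to a comap -/

/-- Doob-Dynkin for bounded complex functions. -/
theorem BMC.exists_comp {Ω G : Type*} {m0 : MeasurableSpace Ω} [mG : MeasurableSpace G]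
    {P : Measure Ω} {g : Ω → G} {F : Ω → ℂ} (hF : BMC P (mG.comap g) F) :
    ∃ f : G → ℂ, Bdd f ∧ F =ᵐ[P] fun ω => f (g ω) := by
  obtain ⟨hm, K, hK⟩ := hF
  obtain ⟨f, hf, hfe⟩ := hm.stronglyMeasurable_mk.exists_eq_measurable_comp
  refine ⟨fun y => if ‖f y‖ ≤ K then f y else 0, ⟨?_, |K|, fun y => ?_⟩, ?_⟩
  · refine Measurable.ite ?_ hf.measurable measurable_const
    exact measurableSet_le hf.measurable.norm measurable_const
  · by_cases h : ‖f y‖ ≤ K
    · simp only [h, if_true]; exact h.trans (le_abs_self K)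
    · simp only [h, if_false, norm_zero]; exact abs_nonneg K
  · filter_upwards [hm.ae_eq_mk, hK] with ω h1 h2
    have h3 : hm.mk F ω = f (g ω) := congrFun hfe ω
    have h4 : ‖f (g ω)‖ ≤ K := by rw [← h3, ← h1]; exact h2
    simp only [h4, if_true]
    rw [h1, h3]

theorem BMC.of_comp {Ω G : Type*} {m0 : MeasurableSpace Ω} [mG : MeasurableSpace G]
    {P : Measure Ω} {g : Ω → G} {f : G → ℂ} (hf : Bdd f) :
    BMC P (mG.comap g) (fun ω => f (g ω)) := by
  obtain ⟨hm, K, hK⟩ := hf
  refine ⟨?_, K, ae_of_all _ fun ω => hK (g ω)⟩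
  have h1 : @Measurable Ω ℂ (mG.comap g) _ (fun ω => f (g ω)) :=
    hm.comp (comap_measurable g)
  exact (Measurable.stronglyMeasurable h1).aestronglyMeasurable

/-! ### The joint system of a finite family of factor maps -/

/-- a factor of `Z` -/
def FT (Z : Sys) : Type 1 := Σ A : Sys, Fac Z A

/-- the joint map -/
def jmap {Z : Sys} {I : Type} (Q : I → FT Z) (z : Z.C) (i : I) : (Q i).1.C := (Q i).2.f z

theorem measurable_jmap {Z : Sys} {I : Type} (Q : I → FT Z) : Measurable (jmap Q) :=
  measurable_pi_lambda _ fun i => (Q i).2.meas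

/-- the joint system -/
@[reducible] noncomputable def joint {Z : Sys} {I : Type} [Countable I] (Q : I → FT Z) : Sys :=
  Z.image (∀ i, (Q i).1.C) (jmap Q) (measurable_jmap Q)
    (MeasurableEquiv.piCongrRight fun i => (Q i).1.S) (fun z => by
      funext i
      exact (Q i).2.eqv z)

/-- the factor map onto the joint system -/
noncomputable def jointF {Z : Sys} {I : Type} [Countable I] (Q : I → FT Z) : Fac Z (joint Q) :=
  Z.imageFac (∀ i, (Q i).1.C) (jmap Q) (measurable_jmap Q)
    (MeasurableEquiv.piCongrRight fun i => (Q i).1.S) (fun z => by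
      funext i
      exact (Q i).2.eqv z)

/-- the coordinate of the joint system -/
noncomputable def jointE {Z : Sys} {I : Type} [Countable I] (Q : I → FT Z) (i : I) :
    Fac (joint Q) (Q i).1 where
  f := fun g => g i
  mp := by
    refine ⟨measurable_pi_apply i, ?_⟩
    show (Z.μ.map (jmap Q)).map (fun g => g i) = (Q i).1.μ
    rw [Measure.map_map (measurable_pi_apply i) (measurable_jmap Q)]
    exact (Q i).2.mp.map_eq
  eqv := fun _ => rfl

theorem comap_jmap {Z : Sys} {I : Type} (Q : I → FT Z) :
    MeasurableSpace.comap (jmap Q) MeasurableSpace.pi =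
      ⨆ i, MeasurableSpace.comap (Q i).2.f inferInstance := by
  unfold MeasurableSpace.pi
  rw [MeasurableSpace.comap_iSup]
  refine iSup_congr fun i => ?_
  rw [MeasurableSpace.comap_comp]
  rfl

/-! ### The satedness hypothesis -/

section

variable {X : Sys} {P : Adm X} {Z B : Sys} {κ : Type} [DecidableEq κ]

/-- the factors at stage `s` -/
noncomputable def FQ (β : Fac Z B) (w : κ → Fac Z P.W) (s : Finset κ) : Option κ → FT Z
  | none => ⟨B, β⟩
  | some d => if d ∈ s then ⟨P.W, w d⟩ else ⟨X, P.x.comp (w d)⟩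

/-- the factors generating the side information at stage `(s, c)` -/
noncomputable def FQc (β : Fac Z B) (w : κ → Fac Z P.W) (s : Finset κ) (c : κ) :
    Option {o : Option κ // o ≠ some c} → FT Z
  | none => ⟨P.Y, P.y.comp (w c)⟩
  | some o => FQ β w s o.1

theorem comap_FQ (β : Fac Z B) (w : κ → Fac Z P.W) (s : Finset κ) (o : Option κ) :
    MeasurableSpace.comap (FQ β w s o).2.f inferInstance =
      mF (fun c => MeasurableSpace.comap (w c).f inferInstance)
        (fun c => MeasurableSpace.comap (P.x.comp (w c)).f inferInstance)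
        (MeasurableSpace.comap β.f inferInstance) s o := by
  cases o with
  | none => rfl
  | some d =>
    by_cases hd : d ∈ s
    · have h : FQ β w s (some d) = ⟨P.W, w d⟩ := if_pos hd
      rw [h]
      simp only [mF, mZ, hd, if_true]
    · have h : FQ β w s (some d) = ⟨X, P.x.comp (w d)⟩ := if_neg hd
      rw [h]
      simp only [mF, mZ, hd, if_false]

theorem comap_FQc [Fintype κ] (β : Fac Z B) (w : κ → Fac Z P.W) (s : Finset κ) (c : κ)
    (hY : MeasurableSpace.comap (P.y.comp (w c)).f inferInstance ≤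
      MeasurableSpace.comap β.f inferInstance) :
    MeasurableSpace.comap (jmap (FQc β w s c)) MeasurableSpace.pi =
      mG (fun c => MeasurableSpace.comap (w c).f inferInstance)
        (fun c => MeasurableSpace.comap (P.x.comp (w c)).f inferInstance)
        (MeasurableSpace.comap β.f inferInstance) s c := by
  rw [comap_jmap]
  apply le_antisymm
  · refine iSup_le fun i => ?_
    cases i with
    | none => exact hY.trans (base_le_mG s c)
    | some o =>
      refine le_trans (le_of_eq (comap_FQ β w s o.1)) ?_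
      exact mF_le_mG s c o.2
  · refine iSup₂_le fun o ho => ?_
    refine le_trans (le_of_eq (comap_FQ β w s o).symm) ?_
    exact le_iSup (fun i => MeasurableSpace.comap ((FQc β w s c) i).2.f inferInstance)
      (some ⟨o, by simpa using ho⟩)

theorem comap_comp_eq {Z A B : Sys} (q : Fac A B) (p : Fac Z A) :
    MeasurableSpace.comap p.f (MeasurableSpace.comap q.f inferInstance) =
      MeasurableSpace.comap (q.comp p).f inferInstance := MeasurableSpace.comap_comp

/-- `M`-satedness gives the conditional independence of `w_c` and the side information. -/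
theorem sat_condExp [Fintype κ] (hP : SatM P) (β : Fac Z B) (w : κ → Fac Z P.W) (s : Finset κ)
    (c : κ)
    (hY : MeasurableSpace.comap (P.y.comp (w c)).f inferInstance ≤
      MeasurableSpace.comap β.f inferInstance)
    (hind : Indep (MeasurableSpace.comap (P.x.comp (w c)).f inferInstance)
      (mG (fun c => MeasurableSpace.comap (w c).f inferInstance)
        (fun c => MeasurableSpace.comap (P.x.comp (w c)).f inferInstance)
        (MeasurableSpace.comap β.f inferInstance) s c) Z.μ)
    {F : Z.C → ℂ} (hF : BMC Z.μ (MeasurableSpace.comap (w c).f inferInstance) F) :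
    Z.μ[F|mG (fun c => MeasurableSpace.comap (w c).f inferInstance)
        (fun c => MeasurableSpace.comap (P.x.comp (w c)).f inferInstance)
        (MeasurableSpace.comap β.f inferInstance) s c] =ᵐ[Z.μ]
      Z.μ[F|MeasurableSpace.comap (P.y.comp (w c)).f inferInstance] := by
  obtain ⟨f, hf, hFe⟩ := hF.exists_comp
  rw [← comap_FQc β w s c hY] at hind ⊢
  -- the extension
  let P' : Adm X :=
    { W := Z
      Y := joint (FQc β w s c)
      x := P.x.comp (w c)
      y := jointF (FQc β w s c)
      ind := hind }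
  let e : Ext P' P :=
    { w := w c
      v := jointE (FQc β w s c) none
      hx := ae_of_all _ fun _ => rfl
      hy := fun _ => rfl }
  have h1 := hP P' e f hf
  have hfi : MemLp (f ∘ (w c).f) 2 Z.μ := by
    obtain ⟨hm, K, hK⟩ := hf
    exact MemLp.of_bound (hm.comp (w c).meas).aestronglyMeasurable K
      (ae_of_all _ fun z => hK _)
  have hfi' : Integrable f P.W.μ := by
    obtain ⟨hm, K, hK⟩ := hf
    exact Integrable.of_bound hm.aestronglyMeasurable K (ae_of_all _ hK)
  have h2 : P.M f = ∫ z, ‖(Z.μ[f ∘ (w c).f|MeasurableSpace.comap (P.y.comp (w c)).f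
      inferInstance]) z‖ ^ 2 ∂Z.μ := by
    rw [← comap_comp_eq]
    exact (integral_normSq_condExp_comap (P.y.meas.comap_le) (w c).mp hfi').symm
  have hle : MeasurableSpace.comap (P.y.comp (w c)).f inferInstance ≤
      MeasurableSpace.comap (jmap (FQc β w s c)) MeasurableSpace.pi := by
    rw [comap_jmap]
    exact le_iSup (fun i => MeasurableSpace.comap ((FQc β w s c) i).2.f inferInstance) none
  have h3 : Z.μ[f ∘ (w c).f|MeasurableSpace.comap (jmap (FQc β w s c)) MeasurableSpace.pi]
      =ᵐ[Z.μ] Z.μ[f ∘ (w c).f|MeasurableSpace.comap (P.y.comp (w c)).f inferInstance] := by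
    refine condExp_ae_eq_of_norm_le hle (measurable_jmap _).comap_le hfi ?_
    rw [← h2]
    exact h1
  exact ((condExp_congr_ae hFe).trans h3).trans (condExp_congr_ae hFe).symm

/-- `E[f∘w | y]` in terms of the fibre measures. -/
theorem condExp_comp_ce (w : Fac Z P.W) {f : P.W.C → ℂ} (hf : Bdd f) :
    Z.μ[fun z => f (w.f z)|MeasurableSpace.comap (P.y.comp w).f inferInstance] =ᵐ[Z.μ]
      fun z => P.y.ce f (P.y.f (w.f z)) := by
  have hfi' : Integrable f P.W.μ := by
    obtain ⟨hm, K, hK⟩ := hf
    exact Integrable.of_bound hm.aestronglyMeasurable K (ae_of_all _ hK)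
  rw [← comap_comp_eq]
  have h1 := condExp_comp_comap (μ := P.W.μ) (μ' := Z.μ) (P.y.meas.comap_le) w.mp hfi'
  refine h1.trans ?_
  have h2 := condExp_ae_eq_integral_condDistrib_id (μ := P.W.μ) P.y.meas hfi'
  exact w.mp.quasiMeasurePreserving.ae_eq_comp h2

end

/-- the sigma-algebras of the points -/
@[reducible] def cW {X : Sys} {P : Adm X} {Z : Sys} {κ : Type} (w : κ → Fac Z P.W) (c : κ) :
    MeasurableSpace Z.C := MeasurableSpace.comap (w c).f inferInstance

/-- the sigma-algebras of the `X`-parts -/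
@[reducible] def cX {X : Sys} {P : Adm X} {Z : Sys} {κ : Type} (w : κ → Fac Z P.W) (c : κ) :
    MeasurableSpace Z.C := MeasurableSpace.comap (P.x.comp (w c)).f inferInstance

/-- the sigma-algebras of the `Y`-parts -/
@[reducible] def cY {X : Sys} {P : Adm X} {Z : Sys} {κ : Type} (w : κ → Fac Z P.W) (c : κ) :
    MeasurableSpace Z.C := MeasurableSpace.comap (P.y.comp (w c)).f inferInstance

/-- the sigma-algebra of the base -/
@[reducible] def cB {Z B : Sys} (β : Fac Z B) : MeasurableSpace Z.C :=
  MeasurableSpace.comap β.f inferInstance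

end Up972

/-- **Upgrade lemma.** -/
theorem b_up : B_UP := by
  intro X P hP Z B β κ _ _ w η hη hyη hind f h hf hh
  classical
  have hW : ∀ c, (Up972.cW w) c ≤ Z.mC := fun c => (w c).meas.comap_le
  have hXW : ∀ c, (Up972.cX w) c ≤ (Up972.cW w) c := by
    intro c
    show MeasurableSpace.comap (P.x.comp (w c)).f inferInstance ≤ _
    rw [← Up972.comap_comp_eq]
    exact MeasurableSpace.comap_mono P.x.meas.comap_le
  have hYB : ∀ c, (Up972.cY w) c ≤ (Up972.cB β) := by
    intro c
    have e : (P.y.comp (w c)).f = η c ∘ β.f := by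
      funext z
      exact hyη c z
    show MeasurableSpace.comap (P.y.comp (w c)).f inferInstance ≤ _
    rw [e, ← MeasurableSpace.comap_comp]
    exact MeasurableSpace.comap_mono (hη c).comap_le
  have hB : (Up972.cB β) ≤ Z.mC := β.meas.comap_le
  have h0 : Up972.UpIC Z.μ (Up972.cW w) (Up972.cX w) (Up972.cY w) (Up972.cB β) ∅ := by
    intro F b hF hb
    have hF' : ∀ c, Up972.BMC Z.μ ((Up972.cX w) c) (F c) := fun c => by simpa [Up972.mZ] using hF c
    choose φ hφ hφe using fun c => (hF' c).exists_comp
    obtain ⟨b', hb', hbe⟩ := hb.exists_comp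
    have hall : ∀ᵐ z ∂Z.μ, ∀ c, F c z = φ c ((P.x.comp (w c)).f z) := ae_all_iff.2 hφe
    have e1 : ∫ z, (∏ c, F c z) * b z ∂Z.μ =
        ∫ z, b' (β.f z) * ∏ c, φ c (P.x.f ((w c).f z)) ∂Z.μ := by
      refine integral_congr_ae ?_
      filter_upwards [hall, hbe] with z h1 h2
      rw [h2, mul_comm]
      congr 1
      exact Finset.prod_congr rfl fun c _ => h1 c
    rw [e1, hind φ b' hφ hb']
    have e2 : ∀ c, ∫ x, φ c x ∂X.μ = ∫ z, F c z ∂Z.μ := by
      intro c
      rw [← (P.x.comp (w c)).mp.map_eq, integral_map (P.x.comp (w c)).meas.aemeasurable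
        (hφ c).1.aestronglyMeasurable]
      exact integral_congr_ae (hφe c).symm
    have e3 : ∀ z, (∏ c, Up972.eUC Z.μ (Up972.cY w) ∅ F c z) * b z = (∏ c, ∫ x, φ c x ∂X.μ) * b z := by
      intro z
      simp [Up972.eUC, e2]
    rw [integral_congr_ae (ae_of_all _ e3), integral_const_mul, mul_comm]
    congr 1
    exact integral_congr_ae hbe.symm
  have hsat : ∀ (s : Finset κ) (c : κ), c ∉ s → Indep ((Up972.cX w) c) (Up972.mG (Up972.cW w) (Up972.cX w) (Up972.cB β) s c) Z.μ →
      ∀ F, Up972.BMC Z.μ ((Up972.cW w) c) F → Z.μ[F|Up972.mG (Up972.cW w) (Up972.cX w) (Up972.cB β) s c] =ᵐ[Z.μ] Z.μ[F|(Up972.cY w) c] :=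
    fun s c _ hi F hF => Up972.sat_condExp hP β w s c (hYB c) hi hF
  have key := Up972.upgrade_integral hW hXW hYB hB h0 hsat
    (f := fun c z => f c ((w c).f z)) (b := fun z => h (β.f z))
    (fun c => Up972.BMC.of_comp (hf c)) (Up972.BMC.of_comp hh)
  calc ∫ z, h (β.f z) * ∏ c, f c ((w c).f z) ∂Z.μ
      = ∫ z, (∏ c, f c ((w c).f z)) * h (β.f z) ∂Z.μ := by simp_rw [mul_comm]
    _ = _ := key
    _ = ∫ z, h (β.f z) * ∏ c, P.y.ce (f c) (η c (β.f z)) ∂Z.μ := by
        have hall : ∀ᵐ z ∂Z.μ, ∀ c, (Z.μ[fun z => f c ((w c).f z)|(Up972.cY w) c]) z =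
            P.y.ce (f c) (P.y.f ((w c).f z)) :=
          ae_all_iff.2 fun c => Up972.condExp_comp_ce (w c) (hf c)
        refine integral_congr_ae ?_
        filter_upwards [hall] with z hz
        rw [mul_comm]
        congr 1
        refine Finset.prod_congr rfl fun c _ => ?_
        rw [hz c, hyη c z]

end Vale.Agent.P102.RM
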