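import Vale.Agent.P102.RM.Defs
import Vale.Agent.P102.RM.Functor

/-!
P102, block WL: API for the conditional expectations `cE`, `Fac.ce`, `cl` as functions on the
target, and the test function criterion on finite products.
-/

namespace Vale.Agent.P102.RM

open MeasureTheory Filter Topology ProbabilityTheory

section cE

variable {Ω G : Type*} [mΩ : MeasurableSpace Ω] [StandardBorelSpace Ω] [Nonempty Ω]
  [mG : MeasurableSpace G] {μ : Measure Ω} [IsFiniteMeasure μ] {g : Ω → G} {F : Ω → ℂ}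

theorem cE_comp_ae_eq (hg : Measurable g) (hF : Integrable F μ) :
    (fun a => cE μ g F (g a)) =ᵐ[μ] μ[F|MeasurableSpace.comap g mG] :=
  (condExp_ae_eq_integral_condDistrib_id hg hF).symm

theorem norm_cE_le {C : ℝ} (hC : ∀ a, ‖F a‖ ≤ C) (y : G) : ‖cE μ g F y‖ ≤ C := by
  unfold cE
  have h1 : ‖∫ a, F a ∂(condDistrib _root_.id g μ y)‖
      ≤ C * (condDistrib _root_.id g μ y).real Set.univ :=
    norm_integral_le_of_norm_le_const (Eventually.of_forall hC)
  simpa using h1

theorem measurable_cE (hF : Measurable F) : Measurable (cE μ g F) := by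
  have h1 : StronglyMeasurable (fun q : G × Ω => F q.2) :=
    hF.stronglyMeasurable.comp_measurable measurable_snd
  exact (h1.integral_condDistrib (μ := μ) (X := g) (Y := _root_.id)).measurable

theorem Bdd.cE (hF : Bdd F) : Bdd (cE μ g F) := by
  obtain ⟨hm, C, hC⟩ := hF
  exact ⟨measurable_cE hm, C, norm_cE_le hC⟩

/-- the defining property of `cE`, tested against bounded functions of `g` -/
theorem integral_comp_mul_cE (hg : Measurable g) (hF : Bdd F) {H : G → ℂ} (hH : Bdd H) :
    ∫ a, H (g a) * F a ∂μ = ∫ a, H (g a) * RM.cE μ g F (g a) ∂μ := by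
  have hm : MeasurableSpace.comap g mG ≤ mΩ := hg.comap_le
  have hHm : StronglyMeasurable[MeasurableSpace.comap g mG] (fun a => H (g a)) :=
    (hH.1.comp (comap_measurable g)).stronglyMeasurable
  have hint : Integrable ((fun a => H (g a)) * F) μ := ((hH.comp hg).mul hF).integrable μ
  have h1 : μ[(fun a => H (g a)) * F|MeasurableSpace.comap g mG]
      =ᵐ[μ] (fun a => H (g a)) * μ[F|MeasurableSpace.comap g mG] :=
    condExp_bilin_of_aestronglyMeasurable_left (ContinuousLinearMap.mul ℝ ℂ)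
      hHm.aestronglyMeasurable hint (hF.integrable μ)
  have h2 := cE_comp_ae_eq (μ := μ) hg (hF.integrable μ)
  calc ∫ a, H (g a) * F a ∂μ = ∫ a, ((fun a => H (g a)) * F) a ∂μ := rfl
    _ = ∫ a, (μ[(fun a => H (g a)) * F|MeasurableSpace.comap g mG]) a ∂μ :=
        (integral_condExp hm).symm
    _ = ∫ a, H (g a) * RM.cE μ g F (g a) ∂μ := integral_congr_ae (by
        filter_upwards [h1, h2] with a h1 h2
        rw [h1, Pi.mul_apply, ← h2])

theorem integral_comp_mul_cE_map (hg : Measurable g) (hF : Bdd F) {H : G → ℂ} (hH : Bdd H) :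
    ∫ a, H (g a) * F a ∂μ = ∫ y, H y * RM.cE μ g F y ∂(μ.map g) := by
  rw [integral_comp_mul_cE hg hF hH, integral_map hg.aemeasurable]
  exact (hH.mul (hF.cE)).1.aestronglyMeasurable

end cE

/-! ### Test functions -/

theorem ae_eq_of_forall_test {G : Type*} [MeasurableSpace G] {ν : Measure G} [IsFiniteMeasure ν]
    {u v : G → ℂ} (hu : Integrable u ν) (hv : Integrable v ν)
    (h : ∀ H : G → ℂ, Bdd H → ∫ a, H a * u a ∂ν = ∫ a, H a * v a ∂ν) : u =ᵐ[ν] v := by
  refine Integrable.ae_eq_of_forall_setIntegral_eq _ _ hu hv fun s hs _ => ?_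
  have h1 := h (s.indicator 1) (Bdd.indicator hs)
  have e : ∀ w : G → ℂ, ∫ a in s, w a ∂ν = ∫ a, s.indicator (1 : G → ℂ) a * w a ∂ν := by
    intro w
    rw [← integral_indicator hs]
    refine integral_congr_ae (Eventually.of_forall fun a => ?_)
    by_cases ha : a ∈ s <;> simp [ha]
  rw [e, e, h1]

/-- two integrable functions on a finite product with the same integrals against products of
bounded functions of the coordinates are a.e. equal -/
theorem ae_eq_of_forall_prod {κ : Type*} [Fintype κ] {V : κ → Type*} [∀ i, MeasurableSpace (V i)]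
    {ν : Measure (∀ i, V i)} [IsFiniteMeasure ν] {u v : (∀ i, V i) → ℂ}
    (hu : Integrable u ν) (hv : Integrable v ν)
    (h : ∀ f : ∀ i, V i → ℂ, (∀ i, Bdd (f i)) →
      ∫ a, (∏ i, f i (a i)) * u a ∂ν = ∫ a, (∏ i, f i (a i)) * v a ∂ν) : u =ᵐ[ν] v := by
  suffices key : ∀ s, MeasurableSet s → ∫ a in s, u a ∂ν = ∫ a in s, v a ∂ν from
    Integrable.ae_eq_of_forall_setIntegral_eq _ _ hu hv fun s hs _ => key s hs
  have hgen : (MeasurableSpace.pi : MeasurableSpace (∀ i, V i)) = MeasurableSpace.generateFrom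
      (Set.pi Set.univ '' Set.pi Set.univ fun i => {s : Set (V i) | MeasurableSet s}) :=
    generateFrom_pi.symm
  have hpi : IsPiSystem (Set.pi Set.univ '' Set.pi Set.univ
      fun i => {s : Set (V i) | MeasurableSet s}) := isPiSystem_pi
  intro s hs
  induction s, hs using MeasurableSpace.induction_on_inter hgen hpi with
  | empty => simp
  | basic t ht =>
    obtain ⟨A, hA, rfl⟩ := ht
    have hA' : ∀ i, MeasurableSet (A i) := fun i => hA i (Set.mem_univ i)
    have e : ∀ w : (∀ i, V i) → ℂ, ∫ a in Set.univ.pi A, w a ∂ν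
        = ∫ a, (∏ i, (A i).indicator (1 : V i → ℂ) (a i)) * w a ∂ν := by
      intro w
      rw [← integral_indicator (MeasurableSet.univ_pi hA')]
      refine integral_congr_ae (Eventually.of_forall fun a => ?_)
      by_cases ha : a ∈ Set.univ.pi A
      · have h2 : ∏ i, (A i).indicator (1 : V i → ℂ) (a i) = 1 :=
          Finset.prod_eq_one fun i _ => by
            rw [Set.indicator_of_mem (ha i (Set.mem_univ i))]; rfl
        simp only [Set.indicator_of_mem ha, h2, one_mul]
      · have h2 : ∏ i, (A i).indicator (1 : V i → ℂ) (a i) = 0 := by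
          rw [Set.mem_univ_pi, not_forall] at ha
          obtain ⟨i, hi⟩ := ha
          exact Finset.prod_eq_zero (Finset.mem_univ i) (Set.indicator_of_notMem hi _)
        simp only [Set.indicator_of_notMem ha, h2, zero_mul]
    rw [e, e]
    exact h _ fun i => Bdd.indicator (hA' i)
  | compl t ht ih =>
    have h1 := h (fun _ _ => 1) (fun _ => Bdd.const 1)
    simp only [Finset.prod_const_one, one_mul] at h1
    rw [setIntegral_compl ht hu, setIntegral_compl ht hv, ih, h1]
  | iUnion t hdis ht ih =>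
    rw [integral_iUnion ht hdis hu.integrableOn, integral_iUnion ht hdis hv.integrableOn]
    exact tsum_congr fun i => ih i

section cE2

variable {Ω G : Type*} [mΩ : MeasurableSpace Ω] [StandardBorelSpace Ω] [Nonempty Ω]
  [mG : MeasurableSpace G] {μ : Measure Ω} [IsFiniteMeasure μ] {g : Ω → G} {F : Ω → ℂ}

/-- uniqueness of `cE` -/
theorem cE_ae_eq_of_test (hg : Measurable g) (hF : Bdd F) {h : G → ℂ} (hh : Bdd h)
    (H : ∀ u : G → ℂ, Bdd u → ∫ a, u (g a) * F a ∂μ = ∫ a, u (g a) * h (g a) ∂μ) :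
    cE μ g F =ᵐ[μ.map g] h := by
  refine ae_eq_of_forall_test (hF.cE.integrable _) (hh.integrable _) fun u hu => ?_
  rw [← integral_comp_mul_cE_map hg hF hu, H u hu, integral_map hg.aemeasurable]
  exact (hu.mul hh).1.aestronglyMeasurable

/-- uniqueness of `cE`, product test functions -/
theorem cE_ae_eq_of_prod {κ : Type*} [Fintype κ] {V : κ → Type*} [∀ i, MeasurableSpace (V i)]
    {g : Ω → ∀ i, V i} (hg : Measurable g) (hF : Bdd F) {h : (∀ i, V i) → ℂ} (hh : Bdd h)
    (H : ∀ f : ∀ i, V i → ℂ, (∀ i, Bdd (f i)) →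
      ∫ a, (∏ i, f i (g a i)) * F a ∂μ = ∫ a, (∏ i, f i (g a i)) * h (g a) ∂μ) :
    cE μ g F =ᵐ[μ.map g] h := by
  refine ae_eq_of_forall_prod (hF.cE.integrable _) (hh.integrable _) fun f hf => ?_
  have hp : Bdd (fun v : ∀ i, V i => ∏ i, f i (v i)) :=
    Bdd.prod _ fun i _ => (hf i).comp (measurable_pi_apply i)
  rw [← integral_comp_mul_cE_map hg hF hp, H f hf, integral_map hg.aemeasurable]
  exact (hp.mul hh).1.aestronglyMeasurable

end cE2

/-! ### Factor maps -/

section fac

variable {A B : Sys}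

theorem Bdd.ce (p : Fac A B) {F : A.C → ℂ} (hF : Bdd F) : Bdd (p.ce F) :=
  hF.cE (μ := A.μ) (g := p.f)

theorem Fac.ce_eq_cE (p : Fac A B) (F : A.C → ℂ) : p.ce F = cE A.μ p.f F := rfl

theorem Fac.ce_comp_ae_eq (p : Fac A B) {F : A.C → ℂ} (hF : Bdd F) :
    (fun a => p.ce F (p.f a)) =ᵐ[A.μ] A.μ[F|MeasurableSpace.comap p.f inferInstance] :=
  cE_comp_ae_eq p.meas (hF.integrable _)

theorem Fac.integral_mul_ce (p : Fac A B) {F : A.C → ℂ} (hF : Bdd F) {H : B.C → ℂ}
    (hH : Bdd H) : ∫ a, H (p.f a) * F a ∂A.μ = ∫ b, H b * p.ce F b ∂B.μ := by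
  have h1 := integral_comp_mul_cE_map (μ := A.μ) p.meas hF hH
  rw [p.mp.map_eq] at h1
  exact h1

theorem Fac.integral_comp (p : Fac A B) {H : B.C → ℂ} (hH : Bdd H) :
    ∫ a, H (p.f a) ∂A.μ = ∫ b, H b ∂B.μ := by
  rw [← p.mp.map_eq, integral_map p.meas.aemeasurable]
  exact hH.1.aestronglyMeasurable

theorem Fac.integral_mul_ce' (p : Fac A B) {F : A.C → ℂ} (hF : Bdd F) {H : B.C → ℂ}
    (hH : Bdd H) : ∫ a, H (p.f a) * F a ∂A.μ = ∫ a, H (p.f a) * p.ce F (p.f a) ∂A.μ := by
  rw [p.integral_mul_ce hF hH]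
  exact (p.integral_comp (hH.mul (hF.ce p))).symm

theorem Fac.ce_ae_eq_of_test (p : Fac A B) {F : A.C → ℂ} (hF : Bdd F) {h : B.C → ℂ}
    (hh : Bdd h) (H : ∀ u : B.C → ℂ, Bdd u → ∫ a, u (p.f a) * F a ∂A.μ = ∫ b, u b * h b ∂B.μ) :
    p.ce F =ᵐ[B.μ] h := by
  refine ae_eq_of_forall_test ((hF.ce p).integrable _) (hh.integrable _) fun u hu => ?_
  rw [← p.integral_mul_ce hF hu, H u hu]

end fac

end Vale.Agent.P102.RM
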