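import Vale.Agent.P102.RM.Skeleton
import Vale.Agent.P102.RM.CE

/-!
P102, block WL (weak limit calculus) on the level of systems and factor maps: `b_D6`, `b_D7` and
their general forms (an arbitrary bounded function of the whole column; two independent factors).
-/

namespace Vale.Agent.P102.RM

open MeasureTheory Filter Topology ProbabilityTheory

section

variable {ι : Type} [Fintype ι]

/-- conditional expectation given slot `s`: defining property -/
theorem integral_mul_cl (r : Ultrafilter (ι → ℤ)) (A : Sys) (s : ι) {G : (ι → A.C) → ℂ}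
    (hG : Bdd G) {F : A.C → ℂ} (hF : Bdd F) :
    ∫ d, F (d s) * G d ∂(D r A).μ = ∫ a, F a * cl r A s G a ∂A.μ :=
  (evF r A s).integral_mul_ce (F := G) hG hF

theorem Bdd.cl (r : Ultrafilter (ι → ℤ)) (A : Sys) (s : ι) {G : (ι → A.C) → ℂ} (hG : Bdd G) :
    Bdd (cl r A s G) :=
  Bdd.ce (evF r A s) (F := G) hG

/-- uniqueness of `cl` -/
theorem cl_ae_eq_of_test (r : Ultrafilter (ι → ℤ)) (A : Sys) (s : ι) {G : (ι → A.C) → ℂ}
    (hG : Bdd G) {h : A.C → ℂ} (hh : Bdd h)
    (H : ∀ u : A.C → ℂ, Bdd u → ∫ d, u (d s) * G d ∂(D r A).μ = ∫ a, u a * h a ∂A.μ) :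
    RM.cl r A s G =ᵐ[A.μ] h :=
  (evF r A s).ce_ae_eq_of_test (F := G) hG hh H

theorem iter_symm_comp (A : Sys) (m n : ℤ) (a : A.C) :
    iter A.S m a = iter A.S (m - n) (iter A.S n a) := by
  rw [← iter_add, sub_add_cancel]

/-- change of variables by a power -/
theorem integral_iter (A : Sys) (n : ℤ) (F : A.C → ℂ) :
    ∫ a, F (iter A.S n a) ∂A.μ = ∫ a, F a ∂A.μ := by
  have hmp := iter_mp A.S A.mp n
  let e : A.C ≃ᵐ A.C :=
    { toEquiv := (A.S.toEquiv ^ n : Equiv.Perm A.C)
      measurable_toFun := measurable_iter A.S n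
      measurable_invFun := by
        have := measurable_iter A.S (-n)
        simpa [iter, zpow_neg] using this }
  exact hmp.integral_comp' (f := e) F

variable [DecidableEq ι]

/-- the finite level: shifting by `-t s` -/
theorem integral_shift (A : Sys) (s : ι) (t : ι → ℤ) (f : ι → A.C → ℂ) (F : A.C → ℂ) :
    ∫ a, F (iter A.S (t s) a) * ∏ i ∈ Finset.univ.erase s, f i (iter A.S (t i) a) ∂A.μ
      = ∫ a, F a * ∏ i ∈ Finset.univ.erase s, f i (iter A.S (t i - t s) a) ∂A.μ := by
  rw [← integral_iter A (t s) (fun a => F a * ∏ i ∈ Finset.univ.erase s,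
    f i (iter A.S (t i - t s) a))]
  refine integral_congr_ae (Eventually.of_forall fun a => ?_)
  simp only
  congr 1
  refine Finset.prod_congr rfl fun i _ => ?_
  rw [← iter_symm_comp]

/-- the limit of the correlations with slot `s` singled out -/
theorem tendsto_limM_slot (r : Ultrafilter (ι → ℤ)) (A : Sys) (s : ι) (f : ι → A.C → ℂ)
    (F : A.C → ℂ) (hf : ∀ i, Bdd (f i)) (hF : Bdd F) :
    Tendsto (fun t : ι → ℤ => ∫ a, F (iter A.S (t s) a) *
        ∏ i ∈ Finset.univ.erase s, f i (iter A.S (t i) a) ∂A.μ) r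
      (𝓝 (∫ d, F (d s) * ∏ i ∈ Finset.univ.erase s, f i (d i) ∂(D r A).μ)) := by
  have h1 := tendsto_limM r A (Function.update f s F) (by
    intro i
    by_cases hi : i = s
    · subst hi; rw [Function.update_self]; exact hF
    · rw [Function.update_of_ne hi]; exact hf i)
  have h2 : ∀ g : ι → A.C, ∏ i, (Function.update f s F) i (g i)
      = F (g s) * ∏ i ∈ Finset.univ.erase s, f i (g i) := by
    intro g
    rw [← Finset.mul_prod_erase _ _ (Finset.mem_univ s), Function.update_self]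
    congr 1
    refine Finset.prod_congr rfl fun i hi => ?_
    rw [Function.update_of_ne (Finset.ne_of_mem_erase hi)]
  simp only [h2] at h1
  exact h1

omit [Fintype ι] [DecidableEq ι] in
theorem bdd_prod_coord {A : Sys} (s : Finset ι) {f : ι → A.C → ℂ} (hf : ∀ i, Bdd (f i)) :
    Bdd (fun d : ι → A.C => ∏ i ∈ s, f i (d i)) :=
  Bdd.prod s fun i _ => (hf i).comp (measurable_pi_apply i)

/-- weak limits -/
theorem tendsto_weak (r : Ultrafilter (ι → ℤ)) (A : Sys) (s : ι) (f : ι → A.C → ℂ)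
    (F : A.C → ℂ) (hf : ∀ i, Bdd (f i)) (hF : Bdd F) :
    Tendsto (fun t : ι → ℤ => ∫ a, F a *
        ∏ i ∈ Finset.univ.erase s, f i (iter A.S (t i - t s) a) ∂A.μ) r
      (𝓝 (∫ a, F a * cl r A s (fun d => ∏ i ∈ Finset.univ.erase s, f i (d i)) a ∂A.μ)) := by
  have h1 := tendsto_limM_slot r A s f F hf hF
  rw [integral_mul_cl r A s (bdd_prod_coord _ hf) hF] at h1
  exact h1.congr fun t => integral_shift A s t f F

theorem b_D6 : B_D6 := by
  intro ι _ _ r A s f F hf hF
  exact tendsto_weak r A s f F hf hF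

/-- in `D r Z`, a function of slot `s` tested against a product of functions of the `p`-parts of
the other slots -/
theorem integral_row_prod (r : Ultrafilter (ι → ℤ)) {Z A : Sys} (p : Fac Z A) (s : ι)
    (f : ι → A.C → ℂ) (F : Z.C → ℂ) (hf : ∀ i, Bdd (f i)) (hF : Bdd F) :
    ∫ z, F (z s) * ∏ o ∈ Finset.univ.erase s, f o (p.f (z o)) ∂(D r Z).μ
      = ∫ a, p.ce F (a s) * ∏ o ∈ Finset.univ.erase s, f o (a o) ∂(D r A).μ := by
  have h1 := tendsto_limM_slot r Z s (fun o z => f o (p.f z)) F (fun o => (hf o).comp p.meas) hF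
  have h2 := tendsto_limM_slot r A s f (p.ce F) hf (hF.ce p)
  refine tendsto_nhds_unique h1 (h2.congr fun t => ?_)
  rw [integral_shift A s t f (p.ce F), integral_shift Z s t (fun o z => f o (p.f z)) F]
  have hb : Bdd (fun a => ∏ i ∈ Finset.univ.erase s, f i (iter A.S (t i - t s) a)) :=
    Bdd.prod _ fun i _ => (hf i).comp (measurable_iter A.S _)
  have h3 := p.integral_mul_ce hF hb
  calc ∫ a, p.ce F a * ∏ i ∈ Finset.univ.erase s, f i (iter A.S (t i - t s) a) ∂A.μ
      = ∫ a, (∏ i ∈ Finset.univ.erase s, f i (iter A.S (t i - t s) a)) * p.ce F a ∂A.μ := by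
        simp only [mul_comm]
    _ = ∫ z, (∏ i ∈ Finset.univ.erase s, f i (iter A.S (t i - t s) (p.f z))) * F z ∂Z.μ := h3.symm
    _ = ∫ z, F z * ∏ i ∈ Finset.univ.erase s, f i (p.f (iter Z.S (t i - t s) z)) ∂Z.μ := by
        refine integral_congr_ae (Eventually.of_forall fun z => ?_)
        simp only [Fac.iter]
        rw [mul_comm]

/-- **WL3, column form**: the conditional expectation of a function of slot `s` given the
`p`-column is `p.ce F` of the corner. -/
theorem cE_col (r : Ultrafilter (ι → ℤ)) {Z A : Sys} (p : Fac Z A) (s : ι)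
    (F : Z.C → ℂ) (hF : Bdd F) :
    (p.D r).ce (fun z : ι → Z.C => F (z s)) =ᵐ[(D r A).μ] fun a : ι → A.C => p.ce F (a s) := by
  have hFs : Bdd (fun z : (D r Z).C => F (z s)) := hF.comp (measurable_pi_apply s)
  have hb : Bdd (fun a : (D r A).C => p.ce F (a s)) := (hF.ce p).comp (measurable_pi_apply s)
  refine ae_eq_of_forall_prod ((hFs.ce (p.D r)).integrable _) (hb.integrable _) fun f hf => ?_
  have h1 := (p.D r).integral_mul_ce hFs (H := fun a : ι → A.C => ∏ i, f i (a i))
    (bdd_prod_coord _ hf)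
  have hfs : Bdd (fun z : Z.C => f s (p.f z) * F z) := ((hf s).comp p.meas).mul hF
  have h2 := integral_row_prod r p s f (fun z => f s (p.f z) * F z) hf hfs
  have h3 : p.ce (fun z => f s (p.f z) * F z) =ᵐ[A.μ] fun a => f s a * p.ce F a := by
    refine p.ce_ae_eq_of_test hfs ((hf s).mul (hF.ce p)) fun u hu => ?_
    have h4 := p.integral_mul_ce hF (hu.mul (hf s))
    calc ∫ a, u (p.f a) * (f s (p.f a) * F a) ∂Z.μ
        = ∫ a, u (p.f a) * f s (p.f a) * F a ∂Z.μ := by simp only [mul_assoc]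
      _ = ∫ b, u b * f s b * p.ce F b ∂A.μ := h4
      _ = _ := by simp only [mul_assoc]
  have h5 : ∀ᵐ a ∂(D r A).μ, p.ce (fun z => f s (p.f z) * F z) (a s)
      = f s (a s) * p.ce F (a s) := (evF r A s).mp.quasiMeasurePreserving.ae h3
  calc ∫ a, (∏ i, f i (a i)) * (p.D r).ce (fun z : ι → Z.C => F (z s)) a ∂(D r A).μ
      = ∫ z, (∏ i, f i (p.f (z i))) * F (z s) ∂(D r Z).μ := h1.symm
    _ = ∫ z, (f s (p.f (z s)) * F (z s)) * ∏ o ∈ Finset.univ.erase s, f o (p.f (z o))
          ∂(D r Z).μ := by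
        refine integral_congr_ae (Eventually.of_forall fun z => ?_)
        simp only
        rw [← Finset.mul_prod_erase _ _ (Finset.mem_univ s)]
        ring
    _ = _ := h2
    _ = ∫ a, (∏ i, f i (a i)) * p.ce F (a s) ∂(D r A).μ := integral_congr_ae (by
        filter_upwards [h5] with a ha
        rw [ha, ← Finset.mul_prod_erase _ _ (Finset.mem_univ s)]
        ring)

/-- **WL3 (general column functions)**. -/
theorem integral_row_col' (r : Ultrafilter (ι → ℤ)) {Z A : Sys} (p : Fac Z A) (s : ι)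
    (F : Z.C → ℂ) (hF : Bdd F) (G : (ι → A.C) → ℂ) (hG : Bdd G) :
    ∫ z : ι → Z.C, F (z s) * G (fun o => p.f (z o)) ∂(D r Z).μ
      = ∫ a, p.ce F (a s) * G a ∂(D r A).μ := by
  have hFs : Bdd (fun z : (D r Z).C => F (z s)) := hF.comp (measurable_pi_apply s)
  have h1 := (p.D r).integral_mul_ce hFs (H := G) hG
  calc ∫ z : ι → Z.C, F (z s) * G (fun o => p.f (z o)) ∂(D r Z).μ
      = ∫ z : ι → Z.C, G (fun o => p.f (z o)) * F (z s) ∂(D r Z).μ := by simp only [mul_comm]
    _ = _ := h1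
    _ = ∫ a, p.ce F (a s) * G a ∂(D r A).μ := integral_congr_ae (by
        filter_upwards [cE_col r p s F hF] with a ha
        rw [ha, mul_comm])

/-- **Row and column are conditionally independent given the corner**: `F` a function of slot `s`,
`G` a function of the `p`-parts of all slots. -/
theorem integral_row_col (r : Ultrafilter (ι → ℤ)) {Z A : Sys} (p : Fac Z A) (s : ι)
    (F : Z.C → ℂ) (hF : Bdd F) (G : (ι → A.C) → ℂ) (hG : Bdd G) :
    ∫ z : ι → Z.C, F (z s) * G (fun o => p.f (z o)) ∂(D r Z).μ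
      = ∫ z, F z * cl r A s G (p.f z) ∂Z.μ := by
  rw [integral_row_col' r p s F hF G hG]
  have h1 := integral_mul_cl r A s hG (hF.ce p)
  have h2 := p.integral_mul_ce hF (hG.cl r A s)
  calc ∫ a, p.ce F (a s) * G a ∂(D r A).μ = ∫ a, p.ce F a * cl r A s G a ∂A.μ := h1
    _ = ∫ a, cl r A s G a * p.ce F a ∂A.μ := by simp only [mul_comm]
    _ = ∫ z, cl r A s G (p.f z) * F z ∂Z.μ := h2.symm
    _ = _ := by simp only [mul_comm]

theorem b_D7 : B_D7 := by
  intro ι _ _ r A s t f F hf hF
  exact integral_row_col r (evF r A t) s F hF (fun a => ∏ o ∈ Finset.univ.erase s, f o (a o))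
    (bdd_prod_coord _ hf)

end

end Vale.Agent.P102.RM
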