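import Mathlib.Data.Fintype.Basic
import Mathlib.Data.Finset.Insert
import Mathlib.Logic.Function.Basic
import Mathlib.Data.Fintype.Card

/-!
# Combinatorial core of the nontriviality of the exact factor (block XE)

`F` is a type of (bounded measurable) functions, `Λ c` says that the multilinear form of the tuple
`c : ι → F` does not vanish, `M s c` is the function in slot `s` dual to the other entries.
-/

namespace Vale.Agent.P102.RM

/-- Three rounds of replacing the entries of a tuple by their dual functions lead to a tuple all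
of whose entries belong to every `E s`. -/
theorem XE_abstract {ι F : Type*} [Fintype ι] [DecidableEq ι]
    (G : Set F) (Λ : (ι → F) → Prop) (M : ι → (ι → F) → F) (E Ψ : ι → Set F)
    (hcard : ∀ t : ι, ∃ b : ι, b ≠ t)
    (hG : ∀ s c, (∀ i, c i ∈ G) → M s c ∈ G)
    (hΛ : ∀ s c, (∀ i, c i ∈ G) → Λ c → Λ (Function.update c s (M s c)))
    (hΨ : ∀ s c, (∀ i, c i ∈ G) → M s c ∈ Ψ s)
    (base : ∀ s t c, (∀ i, c i ∈ G) → s ≠ t → c s ∈ Ψ s → M t c ∈ E s)
    (clos : ∀ s t b c, (∀ i, c i ∈ G) → b ≠ t → c b ∈ E s → M t c ∈ E s)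
    (c₀ : ι → F) (h₀ : ∀ i, c₀ i ∈ G) (hΛ₀ : Λ c₀) :
    ∃ c : ι → F, (∀ i, c i ∈ G) ∧ Λ c ∧ ∀ i s, c i ∈ E s := by
  -- first round
  have r1 : ∀ A : Finset ι, ∃ c : ι → F, (∀ i, c i ∈ G) ∧ Λ c ∧ ∀ i ∈ A, c i ∈ Ψ i := by
    intro A
    induction A using Finset.induction_on with
    | empty => exact ⟨c₀, h₀, hΛ₀, by simp⟩
    | insert t A _ ih =>
      obtain ⟨c, hc, hl, hp⟩ := ih
      refine ⟨Function.update c t (M t c), ?_, hΛ t c hc hl, ?_⟩
      · intro i
        by_cases h : i = t
        · subst h; simpa using hG i c hc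
        · simpa [Function.update_of_ne h] using hc i
      · intro i hi
        by_cases h : i = t
        · subst h; simpa using hΨ i c hc
        · have : i ∈ A := by simpa [h] using hi
          simpa [Function.update_of_ne h] using hp i this
  obtain ⟨c₁, hc₁, hl₁, hp₁⟩ := r1 Finset.univ
  have hp₁ : ∀ i, c₁ i ∈ Ψ i := fun i => hp₁ i (Finset.mem_univ i)
  -- second round
  have r2 : ∀ A : Finset ι, ∃ c : ι → F, (∀ i, c i ∈ G) ∧ Λ c ∧ (∀ i, c i ∈ Ψ i) ∧
      ∀ i ∈ A, ∀ s, s ≠ i → c i ∈ E s := by
    intro A
    induction A using Finset.induction_on with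
    | empty => exact ⟨c₁, hc₁, hl₁, hp₁, by simp⟩
    | insert t A _ ih =>
      obtain ⟨c, hc, hl, hp, he⟩ := ih
      refine ⟨Function.update c t (M t c), ?_, hΛ t c hc hl, ?_, ?_⟩
      · intro i
        by_cases h : i = t
        · subst h; simpa using hG i c hc
        · simpa [Function.update_of_ne h] using hc i
      · intro i
        by_cases h : i = t
        · subst h; simpa using hΨ i c hc
        · simpa [Function.update_of_ne h] using hp i
      · intro i hi s hs
        by_cases h : i = t
        · subst h; simpa using base s i c hc hs (hp s)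
        · have : i ∈ A := by simpa [h] using hi
          simpa [Function.update_of_ne h] using he i this s hs
  obtain ⟨c₂, hc₂, hl₂, hp₂, he₂⟩ := r2 Finset.univ
  have he₂ : ∀ i s, s ≠ i → c₂ i ∈ E s := fun i => he₂ i (Finset.mem_univ i)
  -- third round
  have r3 : ∀ A : Finset ι, ∃ c : ι → F, (∀ i, c i ∈ G) ∧ Λ c ∧ (∀ i, c i ∈ Ψ i) ∧
      (∀ i s, s ≠ i → c i ∈ E s) ∧ ∀ i ∈ A, ∀ s, c i ∈ E s := by
    intro A
    induction A using Finset.induction_on with
    | empty => exact ⟨c₂, hc₂, hl₂, hp₂, he₂, by simp⟩
    | insert t A _ ih =>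
      obtain ⟨c, hc, hl, hp, he, hA⟩ := ih
      have key : ∀ s, M t c ∈ E s := by
        intro s
        by_cases hst : s = t
        · obtain ⟨b, hb⟩ := hcard t
          exact clos s t b c hc hb (he b s (by rw [hst]; exact hb.symm))
        · exact base s t c hc hst (hp s)
      refine ⟨Function.update c t (M t c), ?_, hΛ t c hc hl, ?_, ?_, ?_⟩
      · intro i
        by_cases h : i = t
        · subst h; simpa using hG i c hc
        · simpa [Function.update_of_ne h] using hc i
      · intro i
        by_cases h : i = t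
        · subst h; simpa using hΨ i c hc
        · simpa [Function.update_of_ne h] using hp i
      · intro i s hs
        by_cases h : i = t
        · subst h; simpa using key s
        · simpa [Function.update_of_ne h] using he i s hs
      · intro i hi s
        by_cases h : i = t
        · subst h; simpa using key s
        · have : i ∈ A := by simpa [h] using hi
          simpa [Function.update_of_ne h] using hA i this s
  obtain ⟨c, hc, hl, -, -, hA⟩ := r3 Finset.univ
  exact ⟨c, hc, hl, fun i s => hA i (Finset.mem_univ i) s⟩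

end Vale.Agent.P102.RM
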