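import Vale.Agent.P102.RM.XEcl
import Vale.Agent.P102.RM.XEabs

/-!
P102 (Rokhlin), campaign RM, block XE: the limit joining is not the product on the functions
which are exact in all slots. `b_XE_of : B_THE → B_IDEAL → B_XE`.
-/

namespace Vale.Agent.P102.RM

open MeasureTheory Filter Topology ProbabilityTheory

namespace XE

variable {ι : Type} [Fintype ι] [DecidableEq ι] (r : Ultrafilter (ι → ℤ))

/-- the multilinear form -/
noncomputable def Lam (X : Sys) (c : ι → X.C → ℂ) : ℂ := ∫ d, ∏ i, c i (d i) ∂(D r X).μ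

/-- the dual function in slot `t` -/
noncomputable def dual (X : Sys) (t : ι) (c : ι → X.C → ℂ) : X.C → ℂ :=
  cl r X t (fun d => ∏ i ∈ Finset.univ.erase t, c i (d i))

theorem dual_bdd (X : Sys) (t : ι) {c : ι → X.C → ℂ} (hc : ∀ i, Bdd (c i)) :
    Bdd (dual r X t c) :=
  cl_bdd r X t (bdd_prod X _ hc)

theorem dual_conj (X : Sys) (t : ι) (c : ι → X.C → ℂ) (a : X.C) :
    dual r X t (fun i x => (starRingEnd ℂ) (c i x)) a = (starRingEnd ℂ) (dual r X t c a) := by
  unfold dual
  rw [← cl_conj]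
  congr 1
  funext d
  rw [map_prod]

theorem Lam_update (X : Sys) (t : ι) {c : ι → X.C → ℂ} (hc : ∀ i, Bdd (c i)) {h : X.C → ℂ}
    (hh : Bdd h) :
    Lam r X (Function.update c t h) = ∫ a, dual r X t c a * h a ∂X.μ := by
  unfold Lam dual
  rw [← integral_mul_cl r X t (bdd_prod X _ hc) hh]
  refine integral_congr_ae (Eventually.of_forall fun d => ?_)
  simp only
  rw [← Finset.prod_erase_mul _ _ (Finset.mem_univ t), Function.update_self]
  congr 1
  refine Finset.prod_congr rfl fun j hj => ?_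
  rw [Function.update_of_ne (Finset.ne_of_mem_erase hj)]

theorem Lam_eq (X : Sys) (t : ι) {c : ι → X.C → ℂ} (hc : ∀ i, Bdd (c i)) :
    Lam r X c = ∫ a, dual r X t c a * c t a ∂X.μ := by
  rw [← Lam_update r X t hc (hc t), Function.update_eq_self]

theorem Lam_update_ne_zero (X : Sys) (t : ι) {c : ι → X.C → ℂ} (hc : ∀ i, Bdd (c i))
    (h : Lam r X c ≠ 0) :
    Lam r X (Function.update c t fun x => (starRingEnd ℂ) (dual r X t c x)) ≠ 0 := by
  intro h0
  have hb := dual_bdd r X t hc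
  rw [Lam_update r X t hc hb.star] at h0
  have h4 : ∀ a, dual r X t c a * (starRingEnd ℂ) (dual r X t c a)
      = ((‖dual r X t c a‖ ^ 2 : ℝ) : ℂ) := by
    intro a; rw [RCLike.mul_conj]; norm_cast
  simp_rw [h4] at h0
  rw [integral_complex_ofReal] at h0
  have h3 : ∫ a, ‖dual r X t c a‖ ^ 2 ∂X.μ = 0 := by exact_mod_cast h0
  have hi : Integrable (fun a => ‖dual r X t c a‖ ^ 2) X.μ := by
    obtain ⟨hm, C, hC⟩ := hb
    refine Integrable.of_bound (hm.norm.pow_const 2).aestronglyMeasurable (C ^ 2)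
      (Eventually.of_forall fun a => ?_)
    rw [Real.norm_eq_abs, abs_pow, abs_norm]
    exact pow_le_pow_left₀ (norm_nonneg _) (hC a) 2
  have h5 := (integral_eq_zero_iff_of_nonneg (fun a => by positivity) hi).1 h3
  apply h
  rw [Lam_eq r X t hc]
  have h6 : (fun a => dual r X t c a * c t a) =ᵐ[X.μ] fun _ => 0 := by
    filter_upwards [h5] with a ha
    have h7 : ‖dual r X t c a‖ ^ 2 = 0 := by simpa using ha
    have h8 : dual r X t c a = 0 := by simpa using h7
    simp [h8]
  rw [integral_congr_ae h6]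
  simp

/-- the mean of the dual function -/
theorem integral_dual (X : Sys) (hK : KInd r X) (t : ι) {c : ι → X.C → ℂ} (hc : ∀ i, Bdd (c i)) :
    ∫ a, dual r X t c a ∂X.μ = ∏ i ∈ Finset.univ.erase t, ∫ x, c i x ∂X.μ := by
  have h1 := integral_mul_cl r X t (bdd_prod X (Finset.univ.erase t) hc)
    (Bdd.const (Ω := X.C) (1 : ℂ))
  simp only [mul_one] at h1
  rw [← hK t c hc, h1]
  rfl

theorem Lam_sub_const (X : Sys) (hK : KInd r X) (t : ι) {c : ι → X.C → ℂ} (hc : ∀ i, Bdd (c i))
    (m : ℂ) :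
    Lam r X (Function.update c t fun x => c t x - m)
      = Lam r X c - m * ∏ j ∈ Finset.univ.erase t, ∫ x, c j x ∂X.μ := by
  have hb := dual_bdd r X t hc
  rw [Lam_update r X t hc ((hc t).sub (Bdd.const m)), Lam_eq r X t hc, ← integral_dual r X hK t hc]
  calc ∫ a, dual r X t c a * (c t a - m) ∂X.μ
      = ∫ a, (dual r X t c a * c t a - m * dual r X t c a) ∂X.μ := by
        refine integral_congr_ae (Eventually.of_forall fun a => ?_)
        simp only; ring
    _ = _ := by
        rw [integral_sub ((hb.mul (hc t)).integrable _) ((hb.integrable _).const_mul m),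
          integral_const_mul]

theorem exists_mean_zero (X : Sys) (hK : KInd r X) (t₀ : ι) {f : ι → X.C → ℂ}
    (hf : ∀ i, Bdd (f i)) (hne : Lam r X f ≠ ∏ i, ∫ x, f i x ∂X.μ) :
    ∃ c : ι → X.C → ℂ, (∀ i, Bdd (c i)) ∧ Lam r X c ≠ 0 ∧ ∀ i, ∫ x, c i x ∂X.μ = 0 := by
  have hsub : ∀ (g : X.C → ℂ), Bdd g → ∫ y, (g y - ∫ z, g z ∂X.μ) ∂X.μ = 0 := by
    intro g hg
    rw [integral_sub (hg.integrable _) (integrable_const _)]
    simp
  have hzero : ∀ A : Finset ι, ∃ c : ι → X.C → ℂ, (∀ i, Bdd (c i)) ∧ Lam r X c ≠ 0 ∧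
      (∫ y, c t₀ y ∂X.μ = 0) ∧ ∀ i ∈ A, ∫ y, c i y ∂X.μ = 0 := by
    intro A
    induction A using Finset.induction_on with
    | empty =>
      refine ⟨Function.update f t₀ fun y => f t₀ y - ∫ z, f t₀ z ∂X.μ, ?_, ?_, ?_, by simp⟩
      · intro i
        by_cases h : i = t₀
        · subst h; simpa using (hf i).sub (Bdd.const _)
        · simpa [Function.update_of_ne h] using hf i
      · rw [Lam_sub_const r X hK t₀ hf,
          Finset.mul_prod_erase _ (fun j => ∫ y, f j y ∂X.μ) (Finset.mem_univ t₀)]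
        exact sub_ne_zero.2 hne
      · simpa using hsub (f t₀) (hf t₀)
    | insert t A _ ih =>
      obtain ⟨c, hc, hl, h0, hA⟩ := ih
      by_cases ht : t = t₀
      · refine ⟨c, hc, hl, h0, fun i hi => ?_⟩
        rcases Finset.mem_insert.1 hi with h | h
        · rw [h, ht]; exact h0
        · exact hA i h
      refine ⟨Function.update c t fun y => c t y - ∫ z, c t z ∂X.μ, ?_, ?_, ?_, ?_⟩
      · intro i
        by_cases h : i = t
        · subst h; simpa using (hc i).sub (Bdd.const _)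
        · simpa [Function.update_of_ne h] using hc i
      · rw [Lam_sub_const r X hK t hc,
          Finset.prod_eq_zero (Finset.mem_erase.2 ⟨fun h => ht h.symm, Finset.mem_univ t₀⟩) h0]
        simpa using hl
      · rw [Function.update_of_ne (fun h => ht h.symm)]
        exact h0
      · intro i hi
        by_cases h : i = t
        · subst h; simpa using hsub (c i) (hc i)
        · have : i ∈ A := by simpa [h] using hi
          simpa [Function.update_of_ne h] using hA i this
  obtain ⟨c, hc, hl, -, hA⟩ := hzero Finset.univ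
  exact ⟨c, hc, hl, fun i => hA i (Finset.mem_univ i)⟩

variable {X : Sys} (P : Adm X)

omit [DecidableEq ι] in
/-- `Exa` is closed under a.e. equality -/
theorem Exa_congr [DecidableEq ι] {s : ι} {Φ Ψ : P.W.C → ℂ} (h : Φ ∈ Exa P r s) (hΨ : Bdd Ψ)
    (he : Ψ =ᵐ[P.W.μ] Φ) : Ψ ∈ Exa P r s := by
  obtain ⟨-, g, hg, hgd⟩ := h
  refine ⟨hΨ, g, hg, ?_⟩
  have h1 : MeasurePreserving (fun d : ι → P.W.C => d s) (D r P.W).μ P.W.μ := (evF r P.W s).mp
  filter_upwards [hgd, h1.quasiMeasurePreserving.ae he] with d hd1 hd2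
  rw [← hd1]
  exact hd2

omit [DecidableEq ι] in
theorem Exa_conj [DecidableEq ι] {s : ι} {Φ : P.W.C → ℂ} (h : Φ ∈ Exa P r s) :
    (fun a => (starRingEnd ℂ) (Φ a)) ∈ Exa P r s := by
  obtain ⟨hΦ, g, hg, hgd⟩ := h
  refine ⟨hΦ.star, fun z => (starRingEnd ℂ) (g z), Complex.continuous_conj.measurable.comp hg, ?_⟩
  filter_upwards [hgd] with d hd
  rw [hd]

/-- dual functions, seen on `W` -/
theorem dual_comp_mem {s t b : ι} (hbt : b ≠ t) {c : ι → X.C → ℂ} (hc : ∀ i, Bdd (c i))
    (h : cl r P.W t (fun d => (∏ a ∈ (Finset.univ.erase t).erase b, c a (P.x.f (d a))) *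
      c b (P.x.f (d b))) ∈ Exa P r s) :
    (fun w => (starRingEnd ℂ) (dual r X t c (P.x.f w))) ∈ Exa P r s := by
  have h1 : (fun w => dual r X t c (P.x.f w)) ∈ Exa P r s := by
    refine Exa_congr r P h ((dual_bdd r X t hc).comp P.x.meas) ?_
    have h2 := cl_comp r P.W X P.x t hc
    have h3 : (fun d : ι → P.W.C => (∏ a ∈ (Finset.univ.erase t).erase b, c a (P.x.f (d a))) *
        c b (P.x.f (d b))) = fun d => ∏ i ∈ Finset.univ.erase t, c i (P.x.f (d i)) := by
      funext d
      exact Finset.prod_erase_mul _ _ (Finset.mem_erase.2 ⟨hbt, Finset.mem_univ b⟩)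
    rw [h3]
    exact h2.symm
  exact Exa_conj r P h1

end XE

open XE in
/-- **Block XE** -/
theorem b_XE_of (hTHE : B_THE) (hID : B_IDEAL) : B_XE := by
  intro X P ι _ _ r hcard hK hM hN hne p q _
  obtain ⟨φ, hφ, hφne⟩ := hne
  obtain ⟨c₀, hc₀, hl₀, hm₀⟩ := exists_mean_zero r X hK p hφ hφne
  have hb : ∀ t : ι, ∃ b : ι, b ≠ t := by
    intro t
    by_contra hcon
    push Not at hcon
    have : Fintype.card ι ≤ 1 := Fintype.card_le_one_iff.2 fun a b => by rw [hcon a, hcon b]
    omega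
  obtain ⟨c, hcG, hcl, hcE⟩ := XE_abstract (ι := ι) (F := X.C → ℂ)
    {g | Bdd g ∧ ∫ x, g x ∂X.μ = 0} (fun c => Lam r X c ≠ 0)
    (fun t c x => (starRingEnd ℂ) (dual r X t c x))
    (fun s => {ψ | (fun w => ψ (P.x.f w)) ∈ Exa P r s})
    (fun s => {ψ | ∃ g : ι → X.C → ℂ, (∀ i, Bdd (g i)) ∧ ψ = dual r X s g}) hb
    (by
      intro s c hc
      have hcb : ∀ i, Bdd (c i) := fun i => (hc i).1
      refine ⟨(dual_bdd r X s hcb).star, ?_⟩
      rw [integral_conj, integral_dual r X hK s hcb]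
      obtain ⟨b, hb⟩ := hb s
      rw [Finset.prod_eq_zero (Finset.mem_erase.2 ⟨hb, Finset.mem_univ b⟩) (hc b).2]
      simp)
    (by
      intro s c hc hl
      exact Lam_update_ne_zero r X s (fun i => (hc i).1) hl)
    (by
      intro s c hc
      refine ⟨fun i x => (starRingEnd ℂ) (c i x), fun i => (hc i).1.star, ?_⟩
      funext a
      exact (dual_conj r X s c a).symm)
    (by
      rintro s t c hc hst ⟨g, hg, hgc⟩
      refine dual_comp_mem r P hst (fun i => (hc i).1) ?_
      have h1 := hTHE X P ι r hcard hK hM hN s t s (Ne.symm hst) (fun a w => c a (P.x.f w)) g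
        (fun i => ((hc i).1).comp P.x.meas) hg
      rw [show c s = cl r X s (fun d => ∏ o ∈ Finset.univ.erase s, g o (d o)) from hgc]
      exact h1)
    (by
      intro s t b c hc hbt hb
      refine dual_comp_mem r P hbt (fun i => (hc i).1) ?_
      exact hID X P ι r hcard hK hM hN s t b hbt.symm (fun a w => c a (P.x.f w))
        (fun i => ((hc i).1).comp P.x.meas) _ hb)
    c₀ (fun i => ⟨hc₀ i, hm₀ i⟩) hl₀
  exact ⟨c, fun i => (hcG i).1, fun i => ⟨hcE i p, hcE i q⟩, fun i => (hcG i).2, hcl⟩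

end Vale.Agent.P102.RM
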