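import Vale.Agent.P102.RM.Assembly
import Vale.Agent.P102.RM.LJFinal
import Vale.Agent.P102.RM.Line
import Vale.Agent.P102.RM.Up
import Vale.Agent.P102.RM.WLdyn
import Vale.Agent.P102.RM.SatFinal
import Vale.Agent.P102.RM.XEdyn
import Vale.Agent.P102.RM.ExFAsm
import Vale.Agent.P102.RM.TotOfMed
import Vale.Agent.P102.RM.PairData
import Vale.Agent.P102.RM.BCE

/-!
P102 (Rokhlin), campaign RM: everything that is proved so far put together. The three remaining
blocks are Theorem E (`B_THE`), its ideal form (`B_IDEAL`) and the medial theorem (`MedThm`).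
-/

namespace Vale.Agent.P102.RM

open MeasureTheory Filter Topology ProbabilityTheory

theorem rokhlin_of_three (hTHE : B_THE) (hIDEAL : B_IDEAL) (hMED : MedThm)
    {Ω : Type*} [MeasurableSpace Ω] (μ : Measure Ω) [IsProbabilityMeasure μ] (T : Ω ≃ᵐ Ω)
    (hT : MeasurePreserving T μ μ) (h : MixingOfOrder μ T.toEquiv 2) (k : ℕ) :
    MixingOfOrder μ T.toEquiv k :=
  rokhlin_of b_LJ b_SAT (b_XE_of hTHE hIDEAL) (b_exf_of (b_line b_up) (b_grid b_up) hIDEAL)
    (tot_of_med hMED) (b_pd b_SAT (b_line b_up)) b_ce μ T hT h k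

theorem core_of_three (hTHE : B_THE) (hIDEAL : B_IDEAL) (hMED : MedThm) : CoreThm :=
  core_of b_SAT (b_XE_of hTHE hIDEAL) (b_exf_of (b_line b_up) (b_grid b_up) hIDEAL)
    (tot_of_med hMED) (b_pd b_SAT (b_line b_up)) b_ce

theorem mainStd_of_three (hTHE : B_THE) (hIDEAL : B_IDEAL) (hMED : MedThm) : MainStd :=
  mainStd_of_core (fun _ r X => b_LJ _ r X) (core_of_three hTHE hIDEAL hMED)

end Vale.Agent.P102.RM
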