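import Vale.Agent.P102.RM.CEDyn
import Vale.Agent.P102.RM.EndSF

/-! P102, block CE (helper41, from 688's `exists_static` and 630's `end_static`). -/

namespace Vale.Agent.P102.RM

open MeasureTheory ProbabilityTheory Filter

theorem b_ce : B_CE := by
  intro X P ι _ _ r hc hr _ hmix p q hpq F hT d
  obtain ⟨η, hKI, hTot, hxi, hiso⟩ := exists_good hc hpq F hT d
  have hK : IsProbabilityMeasure (F.E.y.lineK r η) := by
    unfold Fac.lineK; infer_instance
  have hm : IsProbabilityMeasure ((F.E.y.lineK r η).map fun v => v q) :=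
    Measure.isProbabilityMeasure_map (measurable_pi_apply q).aemeasurable
  obtain ⟨St, hSt⟩ := exists_static hc hpq hKI hTot F.E.V.S F.Xe.S F.xi.meas
    (Eventually.of_forall F.xi.eqv) hiso
  obtain ⟨φ, hφ, h0, hne⟩ := F.nt
  have hι : Nonempty ι := ⟨p⟩
  refine hne ?_
  have hlim := tendsto_limM r F.Xe φ hφ
  exact end_static F.ax hmix _ F.xi.f hxi St hSt r hr φ hφ p (h0 p) _ hlim

end Vale.Agent.P102.RM
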