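import Vale.Agent.P102.RM.Skeleton
import Vale.Agent.P102.RM.Functor
import Vale.Agent.P102.RM.Fib

/-! P102: `LineInd` in all slots gives `KI` for almost every line kernel (helper41). -/

namespace Vale.Agent.P102.RM

open MeasureTheory ProbabilityTheory Filter Set
open scoped ENNReal

/-- complex integral form ⇒ box formula -/
theorem box_of_complex {I 𝒴 Ω : Type*} [Fintype I] [MeasurableSpace 𝒴] {V : I → Type*}
    [∀ i, MeasurableSpace (V i)] [MeasurableSpace Ω] {P : Measure Ω} [IsProbabilityMeasure P]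
    {A : Ω → 𝒴} (hA : Measurable A) {B : ∀ i, Ω → V i} (hB : ∀ i, Measurable (B i))
    (κ : ∀ i, Kernel 𝒴 (V i)) [∀ i, IsMarkovKernel (κ i)]
    (C : Set 𝒴) (s : ∀ i, Set (V i)) (hC : MeasurableSet C) (hs : ∀ i, MeasurableSet (s i))
    (h : ∫ ω, C.indicator (fun _ => (1 : ℂ)) (A ω) * ∏ i, (s i).indicator (fun _ => (1 : ℂ))
        (B i ω) ∂P = ∫ ω, C.indicator (fun _ => (1 : ℂ)) (A ω) * ∏ i, (((κ i (A ω)).real (s i) : ℝ) : ℂ) ∂P) :
    P (A ⁻¹' C ∩ ⋂ i, B i ⁻¹' s i) = ∫⁻ ω in A ⁻¹' C, ∏ i, κ i (A ω) (s i) ∂P := by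
  classical
  have hE : MeasurableSet (A ⁻¹' C ∩ ⋂ i, B i ⁻¹' s i) :=
    (hA hC).inter (MeasurableSet.iInter fun i => (hB i) (hs i))
  have h1 : ∀ ω, C.indicator (fun _ => (1 : ℂ)) (A ω) * ∏ i, (s i).indicator
      (fun _ => (1 : ℂ)) (B i ω) = ((A ⁻¹' C ∩ ⋂ i, B i ⁻¹' s i).indicator
        (fun _ => (1 : ℝ)) ω : ℝ) := by
    intro ω
    by_cases hω : ω ∈ A ⁻¹' C ∩ ⋂ i, B i ⁻¹' s i
    · rw [indicator_of_mem hω, indicator_of_mem (show A ω ∈ C from hω.1),
        Finset.prod_eq_one fun i _ => indicator_of_mem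
          (show B i ω ∈ s i from mem_iInter.1 hω.2 i) _]
      simp
    · rw [indicator_of_notMem hω]
      by_cases hωC : A ω ∈ C
      · have : ∃ i, B i ω ∉ s i := by
          by_contra hcon
          push Not at hcon
          exact hω ⟨hωC, mem_iInter.2 hcon⟩
        obtain ⟨i, hi⟩ := this
        rw [Finset.prod_eq_zero (Finset.mem_univ i) (indicator_of_notMem hi _)]
        simp
      · rw [indicator_of_notMem hωC]; simp
  have h2 : ∀ ω, C.indicator (fun _ => (1 : ℂ)) (A ω) * ∏ i, (((κ i (A ω)).real (s i) : ℝ) : ℂ)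
      = (((A ⁻¹' C).indicator (fun ω => ∏ i, (κ i (A ω)).real (s i)) ω : ℝ) : ℂ) := by
    intro ω
    by_cases hω : A ω ∈ C
    · rw [indicator_of_mem hω, indicator_of_mem (show ω ∈ A ⁻¹' C from hω)]
      push_cast; simp
    · rw [indicator_of_notMem hω, indicator_of_notMem (show ω ∉ A ⁻¹' C from hω)]
      simp
  simp only [h1, h2] at h
  rw [integral_complex_ofReal, integral_complex_ofReal] at h
  have h3 : ∫ ω, (A ⁻¹' C ∩ ⋂ i, B i ⁻¹' s i).indicator (fun _ => (1 : ℝ)) ω ∂P =
      ∫ ω, (A ⁻¹' C).indicator (fun ω => ∏ i, (κ i (A ω)).real (s i)) ω ∂P := by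
    exact_mod_cast h
  rw [integral_indicator_const _ hE, smul_eq_mul, mul_one, integral_indicator (hA hC)] at h3
  have hmeas : Measurable fun ω => ∏ i, κ i (A ω) (s i) :=
    Finset.measurable_prod _ fun i _ => ((κ i).measurable_coe (hs i)).comp hA
  have hle : ∀ ω, ∏ i, κ i (A ω) (s i) ≤ 1 := fun ω =>
    Finset.prod_le_one' fun i _ => prob_le_one
  have h4 : ∫ ω in A ⁻¹' C, ∏ i, (κ i (A ω)).real (s i) ∂P =
      (∫⁻ ω in A ⁻¹' C, ∏ i, κ i (A ω) (s i) ∂P).toReal := by
    rw [← integral_toReal hmeas.aemeasurable.restrict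
      (Filter.Eventually.of_forall fun ω => (hle ω).trans_lt ENNReal.one_lt_top)]
    refine integral_congr_ae (Filter.Eventually.of_forall fun ω => ?_)
    simp [measureReal_def, ENNReal.toReal_prod]
  rw [h4, measureReal_def] at h3
  have h5 : ∫⁻ ω in A ⁻¹' C, ∏ i, κ i (A ω) (s i) ∂P ≠ ∞ := by
    have : ∫⁻ ω in A ⁻¹' C, ∏ i, κ i (A ω) (s i) ∂P ≤ 1 := by
      calc _ ≤ ∫⁻ _ in A ⁻¹' C, 1 ∂P := lintegral_mono hle
        _ = P (A ⁻¹' C) := by simp
        _ ≤ 1 := prob_le_one
    exact (this.trans_lt ENNReal.one_lt_top).ne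
  exact (ENNReal.toReal_eq_toReal_iff' (measure_ne_top _ _) h5).1 h3

/-- `ce` of an indicator -/
theorem Fac.ce_indicator {V Y : Sys} (y : Fac V Y) {t : Set V.C} (ht : MeasurableSet t)
    (b : Y.C) : y.ce (t.indicator fun _ => (1 : ℂ)) b = (((y.om b).real t : ℝ) : ℂ) := by
  unfold Fac.ce
  rw [integral_indicator_const _ ht]
  simp

variable {ι : Type} [Fintype ι] [DecidableEq ι]

theorem prod_erase_eq_subtype {M : Type*} [CommMonoid M] (s : ι) (g : ι → M) :
    ∏ j ∈ Finset.univ.erase s, g j = ∏ j : {j : ι // j ≠ s}, g j := by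
  rw [Finset.prod_subtype (p := fun j => j ≠ s) (Finset.univ.erase s) (by simp)]

/-- the law of the points outside slot `s` given the base line -/
theorem lineK_restrict {r : Ultrafilter (ι → ℤ)} {V Y : Sys} (y : Fac V Y) (s : ι)
    (h : LineInd r y s) : ∀ᵐ η ∂(D r Y).μ,
      (y.lineK r η).map (fun (v : ι → V.C) (j : {j : ι // j ≠ s}) => v j) =
        Measure.pi fun j : {j : ι // j ≠ s} => y.om (η j) := by
  classical
  have hA : Measurable (fun (d : (D r V).C) (i : ι) => y.f (d i)) := (y.D r).mp.measurable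
  have hB : Measurable (fun (v : ι → V.C) (j : {j : ι // j ≠ s}) => v j) :=
    measurable_pi_lambda _ fun j => measurable_pi_apply _
  let κ : ∀ _ : {j : ι // j ≠ s}, Kernel (ι → Y.C) V.C :=
    fun j => y.om.comap (fun η => η j) (measurable_pi_apply _)
  have hκ : ∀ j, IsMarkovKernel (κ j) := fun j => inferInstance
  have h1 := condDistrib_ae_eq_piKernel (P := (D r V).μ) hA
    (B := fun (j : {j : ι // j ≠ s}) (d : (D r V).C) => d j)
    (fun j => measurable_pi_apply _) κ (by
      intro C t hC ht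
      refine box_of_complex hA (fun j => measurable_pi_apply _) κ C t hC ht ?_
      have h2 := h (fun j => if hj : j ≠ s then (t ⟨j, hj⟩).indicator (fun _ => (1 : ℂ)) else 0)
        (C.indicator fun _ => (1 : ℂ)) (by
          intro j
          by_cases hj : j ≠ s
          · simp only [hj, ne_eq, not_false_eq_true, dif_pos]
            exact Bdd.indicator (ht _)
          · simp only [hj, ne_eq, dif_neg, not_false_eq_true]
            exact Bdd.const 0) (Bdd.indicator hC)
      simp only [prod_erase_eq_subtype] at h2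
      convert h2 using 2
      · funext d
        congr 1
        refine Finset.prod_congr rfl fun j _ => ?_
        simp [j.2]
      · funext d
        congr 1
        refine Finset.prod_congr rfl fun j _ => ?_
        simp only [j.2, ne_eq, not_false_eq_true, dif_pos]
        rw [y.ce_indicator (ht _)]
        rfl)
  have h6 := condDistrib_comp (μ := (D r V).μ) (mβ := MeasurableSpace.pi)
    (fun (d : (D r V).C) (i : ι) => y.f (d i))
    (Y := (_root_.id : (D r V).C → (ι → V.C))) measurable_id.aemeasurable hB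
  rw [show (D r V).μ.map (fun (d : (D r V).C) (i : ι) => y.f (d i)) = (D r Y).μ from
    (y.D r).mp.map_eq] at h1 h6
  filter_upwards [h1, h6] with η h7 h8
  have h9 : (y.lineK r η).map (fun (v : ι → V.C) (j : {j : ι // j ≠ s}) => v j) =
      ((condDistrib (_root_.id : (D r V).C → (ι → V.C))
        (fun (d : (D r V).C) (i : ι) => y.f (d i)) (D r V).μ).map
          (fun (v : ι → V.C) (j : {j : ι // j ≠ s}) => v j)) η := by
    rw [Kernel.map_apply _ hB]; rfl
  rw [h9, ← h8]
  exact h7

/-- from the law outside slot `s` -/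
theorem KI_of_restrict {V : Type} [MeasurableSpace V] {K : Measure (ι → V)}
    [IsProbabilityMeasure K] (m : ι → Measure V) [∀ i, IsProbabilityMeasure (m i)]
    (h : ∀ s : ι, K.map (fun (v : ι → V) (j : {j : ι // j ≠ s}) => v j) =
      Measure.pi fun j : {j : ι // j ≠ s} => m j) : KI K := by
  intro s
  rw [h s]
  congr 1
  funext j
  have h1 : K.map (fun v : ι → V => v j) =
      (K.map (fun (v : ι → V) (i : {i : ι // i ≠ s}) => v i)).map (fun w => w j) := by
    have hm1 : Measurable (fun (v : ι → V) (i : {i : ι // i ≠ s}) => v i) :=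
      measurable_pi_lambda _ fun i => measurable_pi_apply _
    have hm2 : Measurable (fun w : {i : ι // i ≠ s} → V => w j) := measurable_pi_apply _
    rw [Measure.map_map hm2 hm1]
    rfl
  rw [h1, h s]
  exact ((measurePreserving_eval (fun j : {j : ι // j ≠ s} => m j) j).map_eq).symm

/-- **`LineInd` in all slots gives `KI` in almost every fibre** -/
theorem lineK_KI {r : Ultrafilter (ι → ℤ)} {V Y : Sys} (y : Fac V Y)
    (h : ∀ s, LineInd r y s) : ∀ᵐ η ∂(D r Y).μ, KI (y.lineK r η) := by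
  have h1 : ∀ᵐ η ∂(D r Y).μ, ∀ s : ι,
      (y.lineK r η).map (fun (v : ι → V.C) (j : {j : ι // j ≠ s}) => v j) =
        Measure.pi fun j : {j : ι // j ≠ s} => y.om (η j) :=
    ae_all_iff.2 fun s => lineK_restrict y s (h s)
  filter_upwards [h1] with η hη
  have : IsProbabilityMeasure (y.lineK r η) := by unfold Fac.lineK; infer_instance
  exact KI_of_restrict (fun i => y.om (η i)) hη

end Vale.Agent.P102.RM
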