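import Vale.Agent.P102.RM.Skeleton
import Vale.Agent.P102.RM.Functor
import Vale.Agent.P102.RM.Fibre
import Vale.Agent.P102.RM.EndDyn
import Vale.Agent.P102.RM.LineKI
import Vale.Agent.P102.RM.CharIso

/-! P102, block CE, dynamic part (helper41): isomorphisms along the pair data and the choice of
one good line. -/

namespace Vale.Agent.P102.RM

open MeasureTheory ProbabilityTheory Filter

variable {ι : Type} [Fintype ι] [DecidableEq ι]

theorem ae_ciso {X : Sys} {P : Adm X} {r : Ultrafilter (ι → ℤ)} (hc : 3 ≤ Fintype.card ι)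
    {p q : ι} (hpq : p ≠ q) (F : ExF P r p q)
    (hT : ∀ᵐ η ∂(D r P.Y).μ, Total (F.E.y.lineK r η) p q) (d : PD F) :
    ∀ᵐ η ∂(D r d.Y0).μ, CIso p q (F.E.y.lineK r (fun i => d.v1.f (η i))) F.xi.f
      (F.E.y.lineK r (fun i => d.v2.f (η i))) F.xi.f := by
  have hT1 : ∀ᵐ η ∂(D r d.Y0).μ, Total (F.E.y.lineK r (fun i => d.v1.f (η i))) p q :=
    (d.v1.D r).mp.quasiMeasurePreserving.ae hT
  have hT2 : ∀ᵐ η ∂(D r d.Y0).μ, Total (F.E.y.lineK r (fun i => d.v2.f (η i))) p q :=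
    (d.v2.D r).mp.quasiMeasurePreserving.ae hT
  have hx1 : ∀ᵐ z ∂(D r d.Z).μ, F.xi.f (d.f1.f (z q)) = F.xi.f (d.f2.f (z q)) :=
    (evF r d.Z q).mp.quasiMeasurePreserving.ae d.hx
  have hmy : Measurable (fun (z : (D r d.Z).C) (i : ι) => d.y0.f (z i)) :=
    (d.y0.D r).mp.measurable
  have hx2 : ∀ᵐ η ∂((D r d.Z).μ.map (fun (z : (D r d.Z).C) (i : ι) => d.y0.f (z i))),
      ∀ᵐ z ∂(d.y0.lineK r η), F.xi.f (d.f1.f (z q)) = F.xi.f (d.f2.f (z q)) := by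
    unfold Fac.lineK
    exact ae_condDistrib_of_ae (D r d.Z).μ hmy measurable_id
      (P := fun _ z => F.xi.f (d.f1.f (z q)) = F.xi.f (d.f2.f (z q))) hx1
  rw [show (D r d.Z).μ.map (fun (z : (D r d.Z).C) (i : ι) => d.y0.f (z i)) = (D r d.Y0).μ from
    (d.y0.D r).mp.map_eq] at hx2
  filter_upwards [hT1, hT2, hx2, d.ki, d.m1, d.m2] with η h1 h2 h3 h4 h5 h6
  have hK0 : IsProbabilityMeasure (d.y0.lineK r η) := by
    unfold Fac.lineK; infer_instance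
  have hs : MeasurableSet {z | F.xi.f (d.f1.f z) = F.xi.f (d.f2.f z)} :=
    measurableSet_eq_fun (F.xi.meas.comp d.f1.meas) (F.xi.meas.comp d.f2.meas)
  have hmq : Measurable (fun z : ι → d.Z.C => z q) := measurable_pi_apply q
  exact ciso_of_pull hc hpq h4 d.f1.meas d.f2.meas h5 h6 h1 h2 F.xi.meas F.xi.meas
    ((ae_map_iff hmq.aemeasurable hs).2 h3)

theorem exists_good {X : Sys} {P : Adm X} {r : Ultrafilter (ι → ℤ)} (hc : 3 ≤ Fintype.card ι)
    {p q : ι} (hpq : p ≠ q) (F : ExF P r p q)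
    (hT : ∀ᵐ η ∂(D r P.Y).μ, Total (F.E.y.lineK r η) p q) (d : PD F) :
    ∃ η : ι → P.Y.C, KI (F.E.y.lineK r η) ∧ Total (F.E.y.lineK r η) p q ∧
      MeasurePreserving F.xi.f ((F.E.y.lineK r η).map fun v => v q) F.Xe.μ ∧
      CIso p q (F.E.y.lineK r η) F.xi.f ((F.E.y.lineK r η).map (lmap ι F.E.V.S)) F.xi.f := by
  have h1 := ae_ciso hc hpq F hT d
  have h2 : IndepFun (d.v1.D r).f (d.v2.D r).f (D r d.Y0).μ := indep_D r d.v1 d.v2 d.indY
  have hm1 := (d.v1.D r).mp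
  have hm2 := (d.v2.D r).mp
  have h3 : (D r d.Y0).μ.map (fun η => ((d.v1.D r).f η, (d.v2.D r).f η)) =
      (D r P.Y).μ.prod (D r P.Y).μ := by
    rw [(indepFun_iff_map_prod_eq_prod_map_map hm1.measurable.aemeasurable
      hm2.measurable.aemeasurable).1 h2, hm1.map_eq, hm2.map_eq]
  have h4 := ae_ae_of_ae_pair (P := fun η η' : ι → P.Y.C => CIso p q (F.E.y.lineK r η) F.xi.f
    (F.E.y.lineK r η') F.xi.f) hm1.measurable hm2.measurable h3 h1
  have hgood : ∀ᵐ η ∂(D r P.Y).μ, KI (F.E.y.lineK r η) ∧ Total (F.E.y.lineK r η) p q ∧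
      MeasurePreserving F.xi.f ((F.E.y.lineK r η).map fun v => v q) F.Xe.μ ∧
      F.E.y.lineK r (fun i => P.Y.S (η i)) = (F.E.y.lineK r η).map (lmap ι F.E.V.S) := by
    filter_upwards [lineK_KI F.E.y F.E.line, hT, F.lineK_xi, lineK_equiv r F.E.y]
      with η a b c e
    exact ⟨a, b, c, e⟩
  obtain ⟨η, η', ⟨a, b, c, e⟩, _, _, g1, g2⟩ := exists_two_lines r hgood h4
  refine ⟨η, a, b, c, ?_⟩
  rw [← e]
  exact g1.trans g2.symm

end Vale.Agent.P102.RM
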