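import Vale.Agent.P102.RM.Defs
import Vale.Agent.P102.SF.Static
import Mathlib.Analysis.InnerProductSpace.l2Space
import Mathlib.Probability.Independence.Integration

/-! Characters of a line: for a probability measure `K` on `ι → V` any `|ι| - 1` coordinates of
which are independent, the unimodular functions which occur in a multiplicative relation along the
line form a group; modulo the almost everywhere constant ones they are pairwise orthogonal. -/

set_option linter.unusedSectionVars false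

namespace Vale.Agent.P102.RM

open MeasureTheory Filter Topology ProbabilityTheory Vale.Agent.P102.SF
open scoped ComplexConjugate

variable {ι : Type} [Fintype ι] [DecidableEq ι] {V V' X : Type}
  [MeasurableSpace V] [MeasurableSpace V'] [MeasurableSpace X]

/-- the law of the point in slot `q` -/
noncomputable abbrev marg (K : Measure (ι → V)) (q : ι) : Measure V := K.map fun v => v q

instance (K : Measure (ι → V)) [IsProbabilityMeasure K] (q : ι) :
    IsProbabilityMeasure (marg K q) :=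
  Measure.isProbabilityMeasure_map (measurable_pi_apply q).aemeasurable

theorem Uni.mul {Ω : Type*} [MeasurableSpace Ω] {f g : Ω → ℂ} (hf : Uni f) (hg : Uni g) :
    Uni (fun a => f a * g a) :=
  ⟨hf.1.mul hg.1, fun a => by rw [norm_mul, hf.2, hg.2, one_mul]⟩

theorem Uni.inv {Ω : Type*} [MeasurableSpace Ω] {f : Ω → ℂ} (hf : Uni f) :
    Uni (fun a => (f a)⁻¹) :=
  ⟨hf.1.inv, fun a => by rw [norm_inv, hf.2, inv_one]⟩

theorem Uni.one {Ω : Type*} [MeasurableSpace Ω] : Uni (fun _ : Ω => (1 : ℂ)) :=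
  ⟨measurable_const, fun _ => norm_one⟩

theorem Uni.bm {Ω : Type*} [MeasurableSpace Ω] {f : Ω → ℂ} (hf : Uni f) : BM f :=
  ⟨hf.1, 1, fun a => (hf.2 a).le⟩

/-- the group of the characters of the line in slot `q` -/
noncomputable def lineChars (K : Measure (ι → V)) (p q : ι) : Subgroup (V → Circle) where
  carrier := {F | (fun v => (F v : ℂ)) ∈ SChar K p q}
  mul_mem' := by
    rintro F F' ⟨h1, F1, F2, h2, h3, h4⟩ ⟨h1', F1', F2', h2', h3', h4'⟩
    refine ⟨?_, _, _, h2.mul h2', h3.mul h3', ?_⟩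
    · have := h1.mul h1'
      simpa only [Pi.mul_apply, Circle.coe_mul] using this
    · filter_upwards [h4, h4'] with v hv hv'
      simp only [Pi.mul_apply, Circle.coe_mul, hv, hv']
      ring
  one_mem' := ⟨by simpa using Uni.one, _, _, Uni.one, Uni.one, by simp⟩
  inv_mem' := by
    rintro F ⟨h1, F1, F2, h2, h3, h4⟩
    refine ⟨?_, _, _, h2.inv, h3.inv, ?_⟩
    · have := h1.inv
      simpa only [Pi.inv_apply, Circle.coe_inv] using this
    · filter_upwards [h4] with v hv
      simp only [Pi.inv_apply, Circle.coe_inv, hv, mul_inv]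

theorem lineChars_uni {K : Measure (ι → V)} {p q : ι} {F : V → Circle}
    (h : F ∈ lineChars K p q) : Uni (fun v => (F v : ℂ)) := h.1

theorem exists_lineChars {K : Measure (ι → V)} {p q : ι} {F : V → ℂ}
    (h : F ∈ SChar K p q) : ∃ G ∈ lineChars K p q, ∀ v, (G v : ℂ) = F v := by
  refine ⟨fun v => ⟨F v, mem_sphere_zero_iff_norm.2 (h.1.2 v)⟩, h, fun v => rfl⟩

/-- the group of the almost everywhere constant functions -/
def aeConst (ν : Measure V) : Subgroup (V → Circle) where
  carrier := {F | ∃ c : Circle, ∀ᵐ v ∂ν, F v = c}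
  mul_mem' := by
    rintro F F' ⟨c, h⟩ ⟨c', h'⟩
    refine ⟨c * c', ?_⟩
    filter_upwards [h, h'] with v hv hv'
    rw [Pi.mul_apply, hv, hv']
  one_mem' := ⟨1, by simp⟩
  inv_mem' := by
    rintro F ⟨c, h⟩
    refine ⟨c⁻¹, ?_⟩
    filter_upwards [h] with v hv
    rw [Pi.inv_apply, hv]

/-- the group of characters of the line in slot `s`, modulo constants, written additively -/
abbrev Gam (K : Measure (ι → V)) (p q : ι) : Type _ :=
  Additive (lineChars K p q ⧸ (aeConst (marg K q)).subgroupOf (lineChars K p q))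

/-- the class of a character -/
noncomputable def cls {K : Measure (ι → V)} {p q : ι} (F : lineChars K p q) : Gam K p q :=
  Additive.ofMul (QuotientGroup.mk F)

/-- a representative of a class of characters -/
noncomputable def rp {K : Measure (ι → V)} {p q : ι} (u : Gam K p q) : lineChars K p q :=
  Quotient.out (Additive.toMul u)

/-- a representative of a class of characters, as a function -/
noncomputable def rep {K : Measure (ι → V)} {p q : ι} (u : Gam K p q) (v : V) : ℂ :=
  ((rp u).1 v : ℂ)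

theorem cls_rp {K : Measure (ι → V)} {p q : ι} (u : Gam K p q) : cls (rp u) = u := by
  unfold cls rp
  exact congrArg Additive.ofMul (QuotientGroup.out_eq' (Additive.toMul u))

theorem cls_mul {K : Measure (ι → V)} {p q : ι} (F F' : lineChars K p q) :
    cls (F * F') = cls F + cls F' := rfl

theorem cls_inv {K : Measure (ι → V)} {p q : ι} (F : lineChars K p q) :
    cls F⁻¹ = - cls F := rfl

theorem cls_eq_zero {K : Measure (ι → V)} {p q : ι} (F : lineChars K p q) :
    cls F = 0 ↔ ∃ c : Circle, ∀ᵐ v ∂(marg K q), F.1 v = c := by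
  unfold cls
  rw [ofMul_eq_zero, QuotientGroup.eq_one_iff, Subgroup.mem_subgroupOf]
  rfl

theorem cls_eq {K : Measure (ι → V)} {p q : ι} (F F' : lineChars K p q) :
    cls F = cls F' ↔ ∃ c : Circle, ∀ᵐ v ∂(marg K q), F.1 v = c * F'.1 v := by
  rw [← sub_eq_zero, sub_eq_add_neg, ← cls_inv, ← cls_mul, cls_eq_zero]
  refine exists_congr fun c => ?_
  constructor
  · intro h
    filter_upwards [h] with v hv
    have : F.1 v * (F'.1 v)⁻¹ = c := hv
    rw [← this]; simp
  · intro h
    filter_upwards [h] with v hv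
    show F.1 v * (F'.1 v)⁻¹ = c
    rw [hv]; simp

theorem rep_measurable {K : Measure (ι → V)} {p q : ι} (u : Gam K p q) :
    Measurable (rep u) :=
  (lineChars_uni (rp u).2).1

theorem rep_norm {K : Measure (ι → V)} {p q : ι} (u : Gam K p q) (v : V) :
    ‖rep u v‖ = 1 := Circle.norm_coe _

theorem rep_bm {K : Measure (ι → V)} {p q : ι} (u : Gam K p q) : BM (rep u) :=
  ⟨rep_measurable u, 1, fun v => (rep_norm u v).le⟩

theorem rep_add {K : Measure (ι → V)} {p q : ι} (u u' : Gam K p q) :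
    ∃ c : ℂ, ‖c‖ = 1 ∧ ∀ᵐ v ∂(marg K q), rep (u + u') v = c * (rep u v * rep u' v) := by
  have h : cls (rp (u + u')) = cls (rp u * rp u') := by
    rw [cls_rp, cls_mul, cls_rp, cls_rp]
  obtain ⟨c, hc⟩ := (cls_eq _ _).1 h
  refine ⟨c, Circle.norm_coe c, ?_⟩
  filter_upwards [hc] with v hv
  unfold rep
  rw [hv]
  simp

/-- three numbers each of which is the product of the others -/
theorem abs_trichotomy {a b c : ℝ} (ha0 : 0 ≤ a) (h1 : a = b * c) (h2 : b = a * c)
    (h3 : c = a * b) (ha : a ≠ 0) : a = 1 := by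
  have hb : b ≠ 0 := by
    intro h; apply ha; rw [h1, h, zero_mul]
  have h4 : a * a = 1 := by
    have h5 : a * a * b = 1 * b := by
      rw [one_mul]
      calc a * a * b = a * (a * b) := by ring
        _ = b := by rw [← h3, ← h2]
    exact mul_right_cancel₀ hb h5
  nlinarith

theorem KI.iIndep {K : Measure (ι → V)} [IsProbabilityMeasure K] (h : KI K) (s : ι) :
    iIndepFun (fun (j : {j : ι // j ≠ s}) (v : ι → V) => v j) K :=
  (iIndepFun_iff_map_fun_eq_pi_map (f := fun (j : {j : ι // j ≠ s}) (v : ι → V) => v j)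
    fun j => (measurable_pi_apply (j : ι)).aemeasurable).2 (h s)

/-- one point is independent of the others, the point `s` excepted -/
theorem KI.indep_rest {K : Measure (ι → V)} [IsProbabilityMeasure K] (h : KI K) {a s : ι}
    (has : a ≠ s) : IndepFun (fun v : ι → V => v a)
      (fun (v : ι → V) (j : {j : ι // j ≠ a ∧ j ≠ s}) => v j) K := by
  have h1 := (h.iIndep s).indepFun_finset {⟨a, has⟩} (Finset.univ.erase ⟨a, has⟩) (by simp)
    fun j => measurable_pi_apply _
  have m1 : Measurable (fun w : (({⟨a, has⟩} : Finset {j : ι // j ≠ s}) → V) =>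
      w ⟨⟨a, has⟩, by simp⟩) := measurable_pi_apply _
  have m2 : Measurable (fun (w : ((Finset.univ.erase ⟨a, has⟩ : Finset {j : ι // j ≠ s}) → V))
      (j : {j : ι // j ≠ a ∧ j ≠ s}) => w ⟨⟨j.1, j.2.2⟩, by
        simp only [Finset.mem_erase, Finset.mem_univ, and_true]
        intro h
        exact j.2.1 (congrArg Subtype.val h)⟩) :=
    measurable_pi_lambda _ fun j => measurable_pi_apply _
  exact h1.comp m1 m2

theorem KI.indep_rest' {K : Measure (ι → V)} [IsProbabilityMeasure K] (h : KI K) {a s : ι}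
    (has : a ≠ s) : IndepFun (fun v : ι → V => v a)
      (fun (v : ι → V) (j : {j : ι // j ≠ s ∧ j ≠ a}) => v j) K := by
  have h2 := (h.indep_rest has).comp (φ := fun w : V => w)
    (ψ := fun (w : {j : ι // j ≠ a ∧ j ≠ s} → V) (j : {j : ι // j ≠ s ∧ j ≠ a}) =>
      w ⟨j.1, j.2.2, j.2.1⟩)
    measurable_id (measurable_pi_lambda _ fun j => measurable_pi_apply _)
  exact h2

theorem KI.indep_pair {K : Measure (ι → V)} [IsProbabilityMeasure K] (h : KI K)
    (hc : 3 ≤ Fintype.card ι) {p q : ι} (hpq : p ≠ q) :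
    IndepFun (fun v : ι → V => v p) (fun v : ι → V => v q) K := by
  obtain ⟨s, hs⟩ : ∃ s : ι, s ∉ ({p, q} : Finset ι) := by
    by_contra hcon
    push Not at hcon
    have h1 : (Finset.univ : Finset ι) ⊆ {p, q} := fun x _ => hcon x
    have h2 := Finset.card_le_card h1
    rw [Finset.card_univ] at h2
    have h3 := Finset.card_le_two (a := p) (b := q)
    omega
  simp only [Finset.mem_insert, Finset.mem_singleton, not_or] at hs
  exact (h.iIndep s).indepFun (i := ⟨p, Ne.symm hs.1⟩) (j := ⟨q, Ne.symm hs.2⟩)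
    (by intro h; exact hpq (congrArg Subtype.val h))

theorem bm_circle {F : V → Circle} (h : Measurable fun v => (F v : ℂ)) :
    BM (fun v => (F v : ℂ)) := ⟨h, 1, fun _ => (Circle.norm_coe _).le⟩

theorem int_marg (K : Measure (ι → V)) (q : ι) {f : V → ℂ} (hf : Measurable f) :
    ∫ v, f v ∂(marg K q) = ∫ v, f (v q) ∂K :=
  integral_map (measurable_pi_apply q).aemeasurable hf.aestronglyMeasurable

/-- a unimodular function whose integral has modulus one is constant -/
theorem const_of_norm_integral {ν : Measure V} [IsProbabilityMeasure ν] {F : V → Circle}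
    (hF : Measurable fun v => (F v : ℂ)) (h : ‖∫ v, (F v : ℂ) ∂ν‖ = 1) :
    ∃ c : Circle, ∀ᵐ v ∂ν, F v = c := by
  set m : ℂ := ∫ v, (F v : ℂ) ∂ν with hm
  have hi : Integrable (fun v => (F v : ℂ)) ν := (bm_circle hF).integrable
  have hi2 : Integrable (fun v => (F v : ℂ) * conj m) ν := hi.mul_const _
  have hi3 : Integrable (fun v => ((F v : ℂ) * conj m).re) ν := hi2.re
  have h1 : ∀ v, ‖(F v : ℂ) - m‖ ^ 2 = 2 - 2 * ((F v : ℂ) * conj m).re := by
    intro v
    rw [Complex.sq_norm, Complex.normSq_sub, ← Complex.sq_norm, ← Complex.sq_norm, h,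
      Circle.norm_coe]
    norm_num
  have h3 : ∫ v, ((F v : ℂ) * conj m).re ∂ν = 1 := by
    have h4 : ∫ v, ((F v : ℂ) * conj m).re ∂ν = (∫ v, (F v : ℂ) * conj m ∂ν).re :=
      integral_re hi2
    rw [h4, integral_mul_const, ← hm, Complex.mul_conj, Complex.ofReal_re,
      Complex.normSq_eq_norm_sq, h]
    norm_num
  have h2 : ∫ v, ‖(F v : ℂ) - m‖ ^ 2 ∂ν = 0 := by
    simp_rw [h1]
    rw [integral_sub (integrable_const _) (hi3.const_mul 2), integral_const_mul, h3]
    simp
  have h5 : (fun v => ‖(F v : ℂ) - m‖ ^ 2) =ᵐ[ν] 0 := by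
    rw [← integral_eq_zero_iff_of_nonneg (fun v => by positivity)]
    · exact h2
    · simp_rw [h1]
      exact (integrable_const _).sub (hi3.const_mul 2)
  refine ⟨⟨m, mem_sphere_zero_iff_norm.2 h⟩, ?_⟩
  filter_upwards [h5] with v hv
  apply Circle.ext
  have h6 : ‖(F v : ℂ) - m‖ = 0 := by
    have : ‖(F v : ℂ) - m‖ ^ 2 = 0 := hv
    exact pow_eq_zero_iff (two_ne_zero) |>.1 this
  exact sub_eq_zero.1 (norm_eq_zero.1 h6)

theorem integral_indep {Ω A B : Type*} [MeasurableSpace Ω] [MeasurableSpace A]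
    [MeasurableSpace B] {μ : Measure Ω} {a : Ω → A} {b : Ω → B} (h : IndepFun a b μ)
    (ha : Measurable a) (hb : Measurable b) {f : A → ℂ} {g : B → ℂ} (hf : Measurable f)
    (hg : Measurable g) : ∫ ω, f (a ω) * g (b ω) ∂μ = (∫ ω, f (a ω) ∂μ) * ∫ ω, g (b ω) ∂μ :=
  h.integral_fun_comp_mul_comp ha.aemeasurable hb.aemeasurable hf.aestronglyMeasurable
    hg.aestronglyMeasurable

/-- **Orthogonality.** A character of the line which is not almost everywhere constant has
integral zero. -/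
theorem const_of_integral_ne_zero {K : Measure (ι → V)} [IsProbabilityMeasure K]
    (hc : 3 ≤ Fintype.card ι) (hK : KI K) {p q : ι} (hpq : p ≠ q) {F : V → Circle}
    (hF : F ∈ lineChars K p q)
    (h : ∫ v, (F v : ℂ) ∂(marg K q) ≠ 0) : ∃ c : Circle, ∀ᵐ v ∂(marg K q), F v = c := by
  obtain ⟨h0, F1, F2, h1, h2, h3⟩ := hF
  refine const_of_norm_integral h0.1 ?_
  rw [int_marg K q h0.1] at h ⊢
  have m1 : Measurable fun v : ι → V => v p := measurable_pi_apply p
  have m2 : Measurable fun v : ι → V => v q := measurable_pi_apply q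
  have m3 : Measurable fun (v : ι → V) (j : {j : ι // j ≠ p ∧ j ≠ q}) => v j :=
    measurable_pi_lambda _ fun j => measurable_pi_apply _
  have hmul : ∀ z : ℂ, ‖z‖ = 1 → z * conj z = 1 := by
    intro z hz
    rw [Complex.mul_conj, Complex.normSq_eq_norm_sq, hz]; norm_num
  set a := ∫ v, (F (v q) : ℂ) ∂K with ha
  set b := ∫ v, F1 (v p) ∂K with hb
  set c := ∫ v, F2 (fun j => v j) ∂K with hc'
  have e1 : a = b * c := by
    rw [ha, hb, hc', ← integral_indep (hK.indep_rest hpq) m1 m3 h1.1 h2.1]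
    exact integral_congr_ae h3
  have e2 : b = a * conj c := by
    have e4 := integral_indep (hK.indep_rest' (Ne.symm hpq)) m2 m3 h0.1
      (g := fun x => conj (F2 x)) (Complex.continuous_conj.measurable.comp h2.1)
    rw [integral_conj] at e4
    rw [ha, hb, hc']
    refine Eq.trans ?_ e4
    refine integral_congr_ae ?_
    filter_upwards [h3] with v hv
    show F1 (v p) = (F (v q) : ℂ) * conj (F2 fun j => v j)
    have hv' : (F (v q) : ℂ) = F1 (v p) * F2 fun j => v j := hv
    rw [hv', mul_assoc, hmul _ (h2.2 _), mul_one]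
  have e3 : c = a * conj b := by
    have e4 := integral_indep (hK.indep_pair hc (Ne.symm hpq)) m2 m1 h0.1
      (g := fun x => conj (F1 x)) (Complex.continuous_conj.measurable.comp h1.1)
    rw [integral_conj] at e4
    rw [ha, hb, hc']
    refine Eq.trans ?_ e4
    refine integral_congr_ae ?_
    filter_upwards [h3] with v hv
    show (F2 fun j => v j) = (F (v q) : ℂ) * conj (F1 (v p))
    have hv' : (F (v q) : ℂ) = F1 (v p) * F2 fun j => v j := hv
    rw [hv', mul_right_comm, hmul _ (h1.2 _), one_mul]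
  refine abs_trichotomy (b := ‖b‖) (c := ‖c‖) (norm_nonneg a) ?_ ?_ ?_ (norm_ne_zero_iff.2 h)
  · rw [← norm_mul, ← e1]
  · conv_lhs => rw [e2]
    rw [norm_mul, RCLike.norm_conj]
  · conv_lhs => rw [e3]
    rw [norm_mul, RCLike.norm_conj]

theorem rep_orth {K : Measure (ι → V)} [IsProbabilityMeasure K]
    (hc : 3 ≤ Fintype.card ι) (hK : KI K) {p q : ι} (hpq : p ≠ q) {u u' : Gam K p q} (h : u ≠ u') :
    ∫ v, rep u v * conj (rep u' v) ∂(marg K q) = 0 := by
  by_contra h1
  have h2 : ∀ v, (((rp u * (rp u')⁻¹ : lineChars K p q).1 v : Circle) : ℂ) =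
      rep u v * conj (rep u' v) := by
    intro v
    show (((rp u).1 v * ((rp u').1 v)⁻¹ : Circle) : ℂ) = _
    rw [Circle.coe_mul, Circle.coe_inv_eq_conj]
    rfl
  have h3 : ∫ v, (((rp u * (rp u')⁻¹ : lineChars K p q).1 v : Circle) : ℂ) ∂(marg K q) ≠ 0 := by
    simp_rw [h2]; exact h1
  have h4 := const_of_integral_ne_zero hc hK hpq (rp u * (rp u')⁻¹ : lineChars K p q).2 h3
  have h5 : cls (rp u * (rp u')⁻¹) = 0 := (cls_eq_zero _).2 h4
  rw [cls_mul, cls_inv, cls_rp, cls_rp, add_neg_eq_zero] at h5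
  exact h h5

theorem rep_int {K : Measure (ι → V)} [IsProbabilityMeasure K]
    (hc : 3 ≤ Fintype.card ι) (hK : KI K) {p q : ι} (hpq : p ≠ q) {u : Gam K p q} (h : u ≠ 0) : ∫ v, rep u v ∂(marg K q) = 0 := by
  by_contra h1
  have h4 := const_of_integral_ne_zero hc hK hpq (rp u).2 h1
  have h5 : cls (rp u) = 0 := (cls_eq_zero _).2 h4
  rw [cls_rp] at h5
  exact h h5

theorem norm_sq_toLp {ν : Measure V} {φ : V → ℂ} (hφ : MemLp φ 2 ν) :
    ‖hφ.toLp φ‖ ^ 2 = ∫ v, ‖φ v‖ ^ 2 ∂ν := by
  rw [← inner_self_eq_norm_sq (𝕜 := ℂ), L2.inner_def]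
  have h1 : ∫ v, inner ℂ (hφ.toLp φ v) (hφ.toLp φ v) ∂ν = ((∫ v, ‖φ v‖ ^ 2 ∂ν : ℝ) : ℂ) := by
    have h2 : ((∫ v, ‖φ v‖ ^ 2 ∂ν : ℝ) : ℂ) = ∫ v, ((‖φ v‖ ^ 2 : ℝ) : ℂ) ∂ν :=
      (integral_ofReal (𝕜 := ℂ)).symm
    rw [h2]
    refine integral_congr_ae ?_
    filter_upwards [hφ.coeFn_toLp] with v hv
    rw [hv, inner_self_eq_norm_sq_to_K]
    simp
  rw [h1]
  exact RCLike.ofReal_re _

theorem BM.memLp {ν : Measure V} [IsProbabilityMeasure ν] {φ : V → ℂ} (h : BM φ) :
    MemLp φ 2 ν := by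
  obtain ⟨h1, C, h2⟩ := h
  exact MemLp.of_bound h1.aestronglyMeasurable C (Eventually.of_forall h2)

theorem sum_toLp {ν : Measure V} {ι : Type*} (t : Finset ι) (g : ι → V → ℂ)
    (hg : ∀ i, MemLp (g i) 2 ν) (h : MemLp (fun v => ∑ i ∈ t, g i v) 2 ν) :
    ∑ i ∈ t, (hg i).toLp (g i) = h.toLp _ := by
  classical
  induction t using Finset.induction_on with
  | empty =>
    simp only [Finset.sum_empty]
    exact (MemLp.toLp_zero (by simp)).symm
  | insert a t ha ih =>
    have h1 : MemLp (fun v => ∑ i ∈ t, g i v) 2 ν := memLp_finsetSum _ fun i _ => hg i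
    rw [Finset.sum_insert ha, ih h1, ← MemLp.toLp_add]
    refine MemLp.toLp_congr _ _ (Eventually.of_forall fun v => ?_)
    simp [Finset.sum_insert ha]

/-- **Expansion.** If the characters are total then every bounded function is approximated by the
partial sums of its expansion. -/
theorem spanned {K : Measure (ι → V)} [IsProbabilityMeasure K]
    (hc : 3 ≤ Fintype.card ι) (hK : KI K) {p q : ι} (hpq : p ≠ q) (ht : Total K p q) {φ : V → ℂ} (hφ : BM φ) {ε : ℝ} (hε : 0 < ε) :
    ∃ t : Finset (Gam K p q), ∫ v, ‖φ v - ∑ u ∈ t,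
      (∫ w, φ w * conj (rep u w) ∂(marg K q)) * rep u v‖ ^ 2 ∂(marg K q) ≤ ε := by
  classical
  set ν := marg K q with hν
  let e : Gam K p q → Lp ℂ 2 ν := fun u => (BM.memLp (rep_bm u)).toLp (rep u)
  have hin : ∀ (u : Gam K p q) {ψ : V → ℂ} (hψ : MemLp ψ 2 ν),
      inner ℂ (e u) (hψ.toLp ψ) = ∫ v, ψ v * conj (rep u v) ∂ν := by
    intro u ψ hψ
    rw [L2.inner_def]
    refine integral_congr_ae ?_
    filter_upwards [hψ.coeFn_toLp, (BM.memLp (ν := ν) (rep_bm u)).coeFn_toLp] with v hv hv'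
    rw [hv, hv', RCLike.inner_apply]
  have ho : Orthonormal ℂ e := by
    rw [orthonormal_iff_ite]
    intro u u'
    rw [hin u (BM.memLp (rep_bm u'))]
    split_ifs with h
    · subst h
      have h1 : ∀ v, rep u v * conj (rep u v) = 1 := by
        intro v
        rw [Complex.mul_conj, Complex.normSq_eq_norm_sq, rep_norm]; norm_num
      simp_rw [h1]
      simp
    · exact rep_orth hc hK hpq (Ne.symm h)
  have hb : (Submodule.span ℂ (Set.range e))ᗮ = ⊥ := by
    rw [Submodule.eq_bot_iff]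
    intro x hx
    have h1 : ∀ u, inner ℂ (e u) x = 0 := fun u =>
      (Submodule.mem_orthogonal _ _).1 hx _ (Submodule.subset_span ⟨u, rfl⟩)
    have h2 : (x : V → ℂ) =ᵐ[ν] 0 := by
      refine ht x (Lp.memLp x) ?_
      intro F' hF'
      obtain ⟨F, hF, hFF⟩ := exists_lineChars hF'
      have hFF' : F' = fun v => (F v : ℂ) := funext fun v => (hFF v).symm
      rw [hFF']
      obtain ⟨c, hc⟩ := (cls_eq (⟨F, hF⟩ : lineChars K p q) (rp (cls ⟨F, hF⟩))).1
        (cls_rp _).symm
      have h3 := h1 (cls ⟨F, hF⟩)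
      have h4 : (Lp.memLp x).toLp (x : V → ℂ) = x := Lp.toLp_coeFn x _
      rw [← h4, hin] at h3
      have h5 : ∫ v, x v * conj (F v : ℂ) ∂ν =
          conj (c : ℂ) * ∫ v, x v * conj (rep (cls ⟨F, hF⟩) v) ∂ν := by
        rw [← integral_const_mul]
        refine integral_congr_ae ?_
        filter_upwards [hc] with v hv
        have h6 : (F v : ℂ) = (c : ℂ) * rep (cls ⟨F, hF⟩) v := by
          have : F v = c * (rp (cls ⟨F, hF⟩)).1 v := hv
          rw [this, Circle.coe_mul]; rfl
        rw [h6, map_mul]; ring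
      rw [h5, h3, mul_zero]
    exact Lp.eq_zero_iff_ae_eq_zero.2 h2
  let b := HilbertBasis.mkOfOrthogonalEqBot ho hb
  have hbe : ∀ u, b u = e u := fun u => by
    rw [HilbertBasis.coe_mkOfOrthogonalEqBot]
  have hφ2 : MemLp φ 2 ν := BM.memLp hφ
  have hs := b.hasSum_repr (hφ2.toLp φ)
  have hs' := (Metric.tendsto_atTop.1 hs) (Real.sqrt ε) (Real.sqrt_pos.2 hε)
  obtain ⟨t, ht'⟩ := hs'
  have h7 := ht' t le_rfl
  refine ⟨t, ?_⟩
  have hm : MemLp (fun v => φ v - ∑ u ∈ t, (∫ w, φ w * conj (rep u w) ∂ν) * rep u v) 2 ν := by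
    refine hφ2.sub (memLp_finsetSum _ fun u _ => ?_)
    exact (BM.memLp (rep_bm u)).const_mul _
  have h8 : hφ2.toLp φ - ∑ u ∈ t, b.repr (hφ2.toLp φ) u • b u = hm.toLp _ := by
    have h9 : ∀ u, b.repr (hφ2.toLp φ) u • b u =
        ((BM.memLp (ν := ν) (rep_bm u)).const_mul
          (∫ w, φ w * conj (rep u w) ∂ν)).toLp _ := by
      intro u
      rw [b.repr_apply_apply, hbe, hin]
      rfl
    rw [Finset.sum_congr rfl fun u _ => h9 u,
      sum_toLp t _ _ (memLp_finsetSum _ fun u _ => (BM.memLp (rep_bm u)).const_mul _),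
      ← MemLp.toLp_sub]
    rfl
  rw [← norm_sq_toLp hm, ← h8]
  rw [dist_comm, dist_eq_norm] at h7
  calc _ ≤ (Real.sqrt ε) ^ 2 := pow_le_pow_left₀ (norm_nonneg _) h7.le 2
    _ = ε := Real.sq_sqrt hε.le

end Vale.Agent.P102.RM
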