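import Mathlib.MeasureTheory.Function.ConditionalExpectation.PullOut
import Mathlib.MeasureTheory.Function.ConditionalExpectation.Real
import Mathlib.Probability.ConditionalExpectation

/-!
# P102, Rokhlin: conditional independence of sub-sigma-algebras

`CI μ m₁ m₂ m`: the sub-sigma-algebras `m₁` and `m₂` of `mΩ` are conditionally independent given
`m`, written with conditional expectations (no standard Borel hypothesis):
`μ[1_s | m ⊔ m₂] = μ[1_s | m]` for every `m₁`-measurable set `s`.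
-/

open MeasureTheory ProbabilityTheory Set Filter MeasurableSpace
open scoped ENNReal

namespace Vale.Agent.P102.RM

variable {Ω : Type*} {m₁ m₂ m₃ m₄ m m' : MeasurableSpace Ω} {mΩ : MeasurableSpace Ω}
  {μ : Measure Ω}
variable {E F G : Type*} [NormedAddCommGroup E] [NormedSpace ℝ E]
  [NormedAddCommGroup F] [NormedSpace ℝ F] [NormedAddCommGroup G] [NormedSpace ℝ G]

/-- The indicator of `s`, with values in `ℝ`. -/
noncomputable abbrev ind (s : Set Ω) : Ω → ℝ := s.indicator (fun _ => (1 : ℝ))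

/-- `m₁` and `m₂` are conditionally independent given `m`:
`μ[1_s | m ⊔ m₂] = μ[1_s | m]` a.e. for every `m₁`-measurable `s`. -/
def CI (μ : Measure Ω) (m₁ m₂ m : MeasurableSpace Ω) : Prop :=
  ∀ s, MeasurableSet[m₁] s → μ[ind s | m ⊔ m₂] =ᵐ[μ] μ[ind s | m]

section Basic

theorem norm_ind_le (s : Set Ω) (ω : Ω) : ‖ind s ω‖ ≤ 1 := by
  by_cases h : ω ∈ s <;> simp [h]

theorem integrable_ind [IsFiniteMeasure μ] {s : Set Ω} (hs : MeasurableSet s) :
    Integrable (ind s) μ :=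
  (integrable_const (1 : ℝ)).indicator hs

theorem stronglyMeasurable_ind {s : Set Ω} (hs : MeasurableSet[m] s) :
    StronglyMeasurable[m] (ind s) :=
  stronglyMeasurable_const.indicator hs

theorem ind_inter (s t : Set Ω) : ind (s ∩ t) = ind s * ind t := by
  ext ω
  by_cases h1 : ω ∈ s <;> by_cases h2 : ω ∈ t <;> simp [h1, h2]

theorem integral_ind_mul (s : Set Ω) (hs : MeasurableSet s) (f : Ω → ℝ) :
    ∫ ω, ind s ω * f ω ∂μ = ∫ ω in s, f ω ∂μ := by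
  rw [← integral_indicator hs]
  refine integral_congr_ae (Eventually.of_forall fun ω => ?_)
  by_cases h : ω ∈ s <;> simp [h]

end Basic

section PiSystem

theorem eq_generateFrom_self (m : MeasurableSpace Ω) : m = generateFrom {s | MeasurableSet[m] s} :=
  (@generateFrom_measurableSet Ω m).symm

theorem isPiSystem_self (m : MeasurableSpace Ω) : IsPiSystem {s | MeasurableSet[m] s} :=
  @isPiSystem_measurableSet Ω m

/-- Uniqueness of the conditional expectation, tested on a generating pi-system. -/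
theorem ae_eq_condExp_of_piSystem [CompleteSpace E] [IsFiniteMeasure μ]
    (hm : m ≤ mΩ) {S : Set (Set Ω)} (hS : m = generateFrom S) (hpi : IsPiSystem S)
    {f g : Ω → E} (hf : Integrable f μ) (hg : Integrable g μ)
    (hgm : AEStronglyMeasurable[m] g μ) (huniv : ∫ ω, g ω ∂μ = ∫ ω, f ω ∂μ)
    (h : ∀ t ∈ S, ∫ ω in t, g ω ∂μ = ∫ ω in t, f ω ∂μ) : g =ᵐ[μ] μ[f | m] := by
  refine ae_eq_condExp_of_forall_setIntegral_eq hm hf (fun _ _ _ => hg.integrableOn) ?_ hgm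
  intro s hs _
  induction s, hs using MeasurableSpace.induction_on_inter hS hpi with
  | empty => simp
  | basic t ht => exact h t ht
  | compl t ht ih =>
    have h1 := integral_add_compl (hm t ht) hg
    have h2 := integral_add_compl (hm t ht) hf
    have : ∫ ω in t, g ω ∂μ = ∫ ω in t, f ω ∂μ := ih (measure_lt_top _ _)
    rw [this] at h1
    have h3 : ∫ ω in t, f ω ∂μ + ∫ ω in tᶜ, g ω ∂μ = ∫ ω in t, f ω ∂μ + ∫ ω in tᶜ, f ω ∂μ := by
      rw [h1, h2, huniv]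
    exact add_left_cancel h3
  | iUnion u hd hu ih =>
    rw [integral_iUnion (fun i => hm _ (hu i)) hd hg.integrableOn,
      integral_iUnion (fun i => hm _ (hu i)) hd hf.integrableOn]
    exact tsum_congr fun i => ih i (measure_lt_top _ _)

/-- The pi-system of the `a ∩ t`, `a` measurable for `m`, `t ∈ S` or `t = univ`. -/
def interSystem (m : MeasurableSpace Ω) (S : Set (Set Ω)) : Set (Set Ω) :=
  {u | ∃ a t, MeasurableSet[m] a ∧ (t ∈ S ∨ t = univ) ∧ u = a ∩ t}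

theorem isPiSystem_interSystem (m : MeasurableSpace Ω) {S : Set (Set Ω)} (hS : IsPiSystem S) :
    IsPiSystem (interSystem m S) := by
  rintro _ ⟨a, t, ha, ht, rfl⟩ _ ⟨b, u, hb, hu, rfl⟩ hne
  refine ⟨a ∩ b, t ∩ u, ha.inter hb, ?_, by ext; simp; tauto⟩
  have hne' : (t ∩ u).Nonempty := by
    obtain ⟨x, hx⟩ := hne
    exact ⟨x, hx.1.2, hx.2.2⟩
  rcases ht with ht | rfl
  · rcases hu with hu | rfl
    · exact Or.inl (hS t ht u hu hne')
    · rw [inter_univ]; exact Or.inl ht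
  · rcases hu with hu | rfl
    · rw [univ_inter]; exact Or.inl hu
    · rw [univ_inter]; exact Or.inr rfl

theorem sup_generateFrom_eq (m : MeasurableSpace Ω) (S : Set (Set Ω)) :
    m ⊔ generateFrom S = generateFrom (interSystem m S) := by
  refine le_antisymm (sup_le ?_ ?_) ?_
  · intro a ha
    exact measurableSet_generateFrom ⟨a, univ, ha, Or.inr rfl, by simp⟩
  · refine generateFrom_le fun t ht => ?_
    exact measurableSet_generateFrom ⟨univ, t, MeasurableSet.univ, Or.inl ht, by simp⟩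
  · refine generateFrom_le ?_
    rintro _ ⟨a, t, ha, ht, rfl⟩
    refine MeasurableSet.inter ?_ ?_
    · exact (le_sup_left : m ≤ m ⊔ generateFrom S) a ha
    · rcases ht with ht | rfl
      · exact (le_sup_right : generateFrom S ≤ m ⊔ generateFrom S) t
          (measurableSet_generateFrom ht)
      · exact MeasurableSet.univ

variable [IsFiniteMeasure μ]

/-- Pull-out for a bounded factor on the left. -/
theorem condExp_mul_left_of_bdd (hm : m ≤ mΩ) {f g : Ω → ℝ} (hf : AEStronglyMeasurable[m] f μ)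
    {C : ℝ} (hC : ∀ᵐ ω ∂μ, ‖f ω‖ ≤ C) (hg : Integrable g μ) :
    μ[f * g | m] =ᵐ[μ] f * μ[g | m] :=
  condExp_stronglyMeasurable_mul_of_bound₀ hm hf hg C hC

/-- Pull-out for a bounded factor on the right. -/
theorem condExp_mul_right_of_bdd (hm : m ≤ mΩ) {f g : Ω → ℝ} (hg : AEStronglyMeasurable[m] g μ)
    {C : ℝ} (hC : ∀ᵐ ω ∂μ, ‖g ω‖ ≤ C) (hf : Integrable f μ) :
    μ[f * g | m] =ᵐ[μ] μ[f | m] * g := by
  have := condExp_mul_left_of_bdd hm hg hC hf
  rw [mul_comm f g, mul_comm _ g]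
  exact this

omit [IsFiniteMeasure μ] in
theorem integrable_mul_ind {f : Ω → ℝ} (hf : Integrable f μ) {t : Set Ω} (ht : MeasurableSet t) :
    Integrable (f * ind t) μ := by
  have : f * ind t = t.indicator f := by
    ext ω; by_cases h : ω ∈ t <;> simp [h]
  rw [this]
  exact hf.indicator ht

/-- If `E[f 1_t | m] = E[f | m] E[1_t | m]` for `t` in a pi-system generating `m₂`, then
`E[f | m ⊔ m₂] = E[f | m]`. -/
theorem condExp_sup_eq_of_piSystem (hm : m ≤ mΩ) (hm₂ : m₂ ≤ mΩ) {S : Set (Set Ω)}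
    (hS : m₂ = generateFrom S) (hpi : IsPiSystem S) {f : Ω → ℝ} (hf : Integrable f μ)
    (h : ∀ t ∈ S, μ[f * ind t | m] =ᵐ[μ] μ[f | m] * μ[ind t | m]) :
    μ[f | m ⊔ m₂] =ᵐ[μ] μ[f | m] := by
  have hsup : m ⊔ m₂ ≤ mΩ := sup_le hm hm₂
  symm
  refine ae_eq_condExp_of_piSystem hsup (by rw [hS, sup_generateFrom_eq])
    (isPiSystem_interSystem m hpi) hf integrable_condExp
    (show StronglyMeasurable[m ⊔ m₂] (μ[f | m]) from
      stronglyMeasurable_condExp.mono le_sup_left).aestronglyMeasurable (integral_condExp hm) ?_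
  rintro _ ⟨a, t, ha, ht, rfl⟩
  have htm : MeasurableSet t := by
    rcases ht with ht | rfl
    · exact hm₂ t (hS ▸ measurableSet_generateFrom ht)
    · exact MeasurableSet.univ
  have ham : MeasurableSet a := hm a ha
  have key : ∀ k : Ω → ℝ, ∫ ω in a ∩ t, k ω ∂μ = ∫ ω in a, (k * ind t) ω ∂μ := by
    intro k
    have : k * ind t = t.indicator k := by
      ext ω; by_cases h : ω ∈ t <;> simp [h]
    rw [this, setIntegral_indicator htm]
  rw [key, key]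
  rcases ht with ht | rfl
  · have e1 : ∫ ω in a, (f * ind t) ω ∂μ = ∫ ω in a, (μ[f * ind t | m]) ω ∂μ :=
      (setIntegral_condExp hm (integrable_mul_ind hf htm) ha).symm
    have i2 : Integrable (μ[f | m] * ind t) μ := integrable_mul_ind integrable_condExp htm
    have e2 : ∫ ω in a, (μ[f | m] * ind t) ω ∂μ = ∫ ω in a, (μ[μ[f | m] * ind t | m]) ω ∂μ :=
      (setIntegral_condExp hm i2 ha).symm
    rw [e1, e2]
    have e3 : μ[μ[f | m] * ind t | m] =ᵐ[μ] μ[f | m] * μ[ind t | m] :=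
      condExp_mul_of_stronglyMeasurable_left stronglyMeasurable_condExp i2 (integrable_ind htm)
    exact integral_congr_ae (ae_restrict_of_ae (e3.trans (h t ht).symm))
  · have : ∀ k : Ω → ℝ, k * ind (univ : Set Ω) = k := by
      intro k; ext ω; simp
    rw [this, this]
    exact setIntegral_condExp hm hf ha

end PiSystem

section Extension

variable [IsFiniteMeasure μ]

/-- If `E[1_s | m] = E[1_s | m']` for all `m₁`-measurable `s`, the same holds for all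
`m₁`-measurable functions with values in a Banach space. -/
theorem condExp_congr_of_ind [CompleteSpace E] (hm₁ : m₁ ≤ mΩ) (hm : m ≤ mΩ) (hm' : m' ≤ mΩ)
    (h : ∀ s, MeasurableSet[m₁] s → μ[ind s | m] =ᵐ[μ] μ[ind s | m'])
    {f : Ω → E} (hf : AEStronglyMeasurable[m₁] f μ) : μ[f | m] =ᵐ[μ] μ[f | m'] := by
  by_cases hfi : Integrable f μ
  swap
  · rw [condExp_of_not_integrable hfi, condExp_of_not_integrable hfi]
  rw [← memLp_one_iff_integrable] at hfi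
  refine MemLp.induction_stronglyMeasurable hm₁ ENNReal.one_ne_top
    (fun f : Ω → E => μ[f | m] =ᵐ[μ] μ[f | m']) ?_ ?_ ?_ ?_ hfi hf
  · intro c s hs _
    have hT : (s.indicator fun _ => c) =
        (ContinuousLinearMap.toSpanSingleton ℝ c : ℝ →L[ℝ] E) ∘ (ind s) := by
      ext ω; by_cases hω : ω ∈ s <;> simp [hω]
    rw [hT]
    have h1 := (ContinuousLinearMap.toSpanSingleton ℝ c : ℝ →L[ℝ] E).comp_condExp_comm
      (integrable_ind (μ := μ) (hm₁ s hs)) (m := m)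
    have h2 := (ContinuousLinearMap.toSpanSingleton ℝ c : ℝ →L[ℝ] E).comp_condExp_comm
      (integrable_ind (μ := μ) (hm₁ s hs)) (m := m')
    filter_upwards [h1, h2, h s hs] with ω e1 e2 e3
    rw [← e1, ← e2, Function.comp_apply, Function.comp_apply, e3]
  · intro f g _ hf hg _ _ ef eg
    rw [memLp_one_iff_integrable] at hf hg
    exact (condExp_add hf hg m).trans ((ef.add eg).trans (condExp_add hf hg m').symm)
  · have hset : {f : lpMeas E ℝ m₁ 1 μ | μ[(f : Ω → E) | m] =ᵐ[μ] μ[(f : Ω → E) | m']} =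
        {f : lpMeas E ℝ m₁ 1 μ | condExpL1CLM E hm μ (f : Lp E 1 μ)
          = condExpL1CLM E hm' μ (f : Lp E 1 μ)} := by
      ext f
      have hfi : Integrable ((f : Lp E 1 μ) : Ω → E) μ := L1.integrable_coeFn _
      have hfe : hfi.toL1 _ = (f : Lp E 1 μ) := Integrable.toL1_coeFn _ _
      have e1 := condExp_ae_eq_condExpL1CLM hm hfi
      have e2 := condExp_ae_eq_condExpL1CLM hm' hfi
      rw [hfe] at e1 e2
      show (μ[(f : Ω → E) | m] =ᵐ[μ] μ[(f : Ω → E) | m']) ↔ _ = _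
      rw [Lp.ext_iff]
      exact ⟨fun H => e1.symm.trans (H.trans e2), fun H => e1.trans (H.trans e2.symm)⟩
    rw [hset]
    exact isClosed_eq ((condExpL1CLM E hm μ).continuous.comp continuous_subtype_val)
      ((condExpL1CLM E hm' μ).continuous.comp continuous_subtype_val)
  · intro f g hfg _ H
    exact (condExp_congr_ae hfg.symm).trans (H.trans (condExp_congr_ae hfg))

end Extension

section CI

variable [IsFiniteMeasure μ]

/-- `E[f | m ⊔ m₂] = E[f | m]` for `m₁`-measurable `f` with values in a Banach space. -/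
theorem CI.condExp_eq [CompleteSpace E] (h : CI μ m₁ m₂ m) (hm₁ : m₁ ≤ mΩ) (hm₂ : m₂ ≤ mΩ)
    (hm : m ≤ mΩ) {f : Ω → E} (hf : AEStronglyMeasurable[m₁] f μ) :
    μ[f | m ⊔ m₂] =ᵐ[μ] μ[f | m] :=
  condExp_congr_of_ind hm₁ (sup_le hm hm₂) hm h hf

theorem CI.condExp_eq' [CompleteSpace E] (h : CI μ m₁ m₂ m) (hm₁ : m₁ ≤ mΩ) (hm₂ : m₂ ≤ mΩ)
    (hm : m ≤ mΩ) {f : Ω → E} (hf : AEStronglyMeasurable[m₁] f μ) :
    μ[f | m₂ ⊔ m] =ᵐ[μ] μ[f | m] := by
  rw [sup_comm]; exact h.condExp_eq hm₁ hm₂ hm hf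

/-- Product formula with a continuous bilinear map; `f` is bounded and `m₁`-measurable,
`g` integrable and `m ⊔ m₂`-measurable. -/
theorem CI.condExp_bilin [CompleteSpace E] [CompleteSpace F] [CompleteSpace G]
    (h : CI μ m₁ m₂ m) (hm₁ : m₁ ≤ mΩ) (hm₂ : m₂ ≤ mΩ) (hm : m ≤ mΩ)
    (B : F →L[ℝ] E →L[ℝ] G) {f : Ω → F} {g : Ω → E} (hf : AEStronglyMeasurable[m₁] f μ)
    {C : ℝ} (hC : ∀ᵐ ω ∂μ, ‖f ω‖ ≤ C) (hg : Integrable g μ)
    (hgm : AEStronglyMeasurable[m ⊔ m₂] g μ) :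
    μ[fun ω => B (f ω) (g ω) | m] =ᵐ[μ] fun ω => B (μ[f | m] ω) (μ[g | m] ω) := by
  have hsup : m ⊔ m₂ ≤ mΩ := sup_le hm hm₂
  have hfi : Integrable f μ := Integrable.of_bound (hf.mono hm₁) C hC
  have hB : Integrable (fun ω => B (f ω) (g ω)) μ :=
    B.integrable_of_bilin_of_bdd_left C (hf.mono hm₁) hC hg
  have hC' : ∀ᵐ ω ∂μ, ‖(μ[f | m]) ω‖ ≤ C := ae_bdd_norm_condExp_of_ae_bdd_norm hC
  have hB' : Integrable (fun ω => B ((μ[f | m]) ω) (g ω)) μ :=
    B.integrable_of_bilin_of_bdd_left C integrable_condExp.aestronglyMeasurable hC' hg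
  have e1 : μ[fun ω => B (f ω) (g ω) | m ⊔ m₂] =ᵐ[μ]
      fun ω => B ((μ[f | m ⊔ m₂]) ω) (g ω) :=
    condExp_bilin_of_aestronglyMeasurable_right B hgm hB hfi
  have e2 : (fun ω => B ((μ[f | m ⊔ m₂]) ω) (g ω)) =ᵐ[μ] fun ω => B ((μ[f | m]) ω) (g ω) := by
    filter_upwards [h.condExp_eq hm₁ hm₂ hm hf] with ω hω
    rw [hω]
  have e3 : μ[fun ω => B ((μ[f | m]) ω) (g ω) | m] =ᵐ[μ]
      fun ω => B (μ[f | m] ω) (μ[g | m] ω) :=
    condExp_bilin_of_aestronglyMeasurable_left B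
      stronglyMeasurable_condExp.aestronglyMeasurable hB' hg
  calc μ[fun ω => B (f ω) (g ω) | m]
      =ᵐ[μ] μ[μ[fun ω => B (f ω) (g ω) | m ⊔ m₂] | m] :=
        (condExp_condExp_of_le le_sup_left hsup).symm
    _ =ᵐ[μ] μ[fun ω => B ((μ[f | m]) ω) (g ω) | m] := condExp_congr_ae (e1.trans e2)
    _ =ᵐ[μ] _ := e3

/-- Product formula, real valued: `f` bounded `m₁`-measurable, `g` integrable
`m ⊔ m₂`-measurable. -/
theorem CI.condExp_mul (h : CI μ m₁ m₂ m) (hm₁ : m₁ ≤ mΩ) (hm₂ : m₂ ≤ mΩ) (hm : m ≤ mΩ)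
    {f g : Ω → ℝ} (hf : AEStronglyMeasurable[m₁] f μ)
    {C : ℝ} (hC : ∀ᵐ ω ∂μ, ‖f ω‖ ≤ C) (hg : Integrable g μ)
    (hgm : AEStronglyMeasurable[m ⊔ m₂] g μ) :
    μ[f * g | m] =ᵐ[μ] μ[f | m] * μ[g | m] :=
  h.condExp_bilin hm₁ hm₂ hm (.mul ℝ ℝ) hf hC hg hgm

/-- Product formula, complex valued. -/
theorem CI.condExp_mul_complex (h : CI μ m₁ m₂ m) (hm₁ : m₁ ≤ mΩ) (hm₂ : m₂ ≤ mΩ) (hm : m ≤ mΩ)
    {f g : Ω → ℂ} (hf : AEStronglyMeasurable[m₁] f μ)
    {C : ℝ} (hC : ∀ᵐ ω ∂μ, ‖f ω‖ ≤ C) (hg : Integrable g μ)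
    (hgm : AEStronglyMeasurable[m ⊔ m₂] g μ) :
    μ[f * g | m] =ᵐ[μ] μ[f | m] * μ[g | m] :=
  h.condExp_bilin hm₁ hm₂ hm (.mul ℝ ℂ) hf hC hg hgm

/-- Integral form: `∫ f g = ∫ E[f | m] g` for `f` bounded and `m₁`-measurable, `g` integrable
and `m ⊔ m₂`-measurable. -/
theorem CI.integral_mul (h : CI μ m₁ m₂ m) (hm₁ : m₁ ≤ mΩ) (hm₂ : m₂ ≤ mΩ) (hm : m ≤ mΩ)
    {f g : Ω → ℝ} (hf : AEStronglyMeasurable[m₁] f μ)
    {C : ℝ} (hC : ∀ᵐ ω ∂μ, ‖f ω‖ ≤ C) (hg : Integrable g μ)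
    (hgm : AEStronglyMeasurable[m ⊔ m₂] g μ) :
    ∫ ω, f ω * g ω ∂μ = ∫ ω, (μ[f | m]) ω * g ω ∂μ := by
  have hC' : ∀ᵐ ω ∂μ, ‖(μ[f | m]) ω‖ ≤ C := ae_bdd_norm_condExp_of_ae_bdd_norm hC
  have e1 := h.condExp_mul hm₁ hm₂ hm hf hC hg hgm
  have e2 : μ[μ[f | m] * g | m] =ᵐ[μ] μ[f | m] * μ[g | m] :=
    condExp_mul_left_of_bdd hm stronglyMeasurable_condExp.aestronglyMeasurable hC' hg
  calc ∫ ω, f ω * g ω ∂μ = ∫ ω, (μ[f * g | m]) ω ∂μ := (integral_condExp hm).symm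
    _ = ∫ ω, (μ[μ[f | m] * g | m]) ω ∂μ := integral_congr_ae (e1.trans e2.symm)
    _ = ∫ ω, (μ[f | m]) ω * g ω ∂μ := integral_condExp hm

/-- Integral form: `∫ f g = ∫ E[f | m] E[g | m]`. -/
theorem CI.integral_mul' (h : CI μ m₁ m₂ m) (hm₁ : m₁ ≤ mΩ) (hm₂ : m₂ ≤ mΩ) (hm : m ≤ mΩ)
    {f g : Ω → ℝ} (hf : AEStronglyMeasurable[m₁] f μ)
    {C : ℝ} (hC : ∀ᵐ ω ∂μ, ‖f ω‖ ≤ C) (hg : Integrable g μ)
    (hgm : AEStronglyMeasurable[m ⊔ m₂] g μ) :
    ∫ ω, f ω * g ω ∂μ = ∫ ω, (μ[f | m]) ω * (μ[g | m]) ω ∂μ := by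
  have e1 := h.condExp_mul hm₁ hm₂ hm hf hC hg hgm
  calc ∫ ω, f ω * g ω ∂μ = ∫ ω, (μ[f * g | m]) ω ∂μ := (integral_condExp hm).symm
    _ = ∫ ω, (μ[f | m]) ω * (μ[g | m]) ω ∂μ := integral_congr_ae e1

/-- The product formula for indicators, tested on pi-systems generating `m₁` and `m₂`, gives
conditional independence. -/
theorem CI.of_piSystem (hm₁ : m₁ ≤ mΩ) (hm₂ : m₂ ≤ mΩ) (hm : m ≤ mΩ) {S₁ S₂ : Set (Set Ω)}
    (h₁ : m₁ = generateFrom S₁) (h₂ : m₂ = generateFrom S₂) (hpi₁ : IsPiSystem S₁)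
    (hpi₂ : IsPiSystem S₂)
    (h : ∀ s ∈ S₁, ∀ t ∈ S₂, μ[ind s * ind t | m] =ᵐ[μ] μ[ind s | m] * μ[ind t | m]) :
    CI μ m₁ m₂ m := by
  have hs₁ : ∀ s ∈ S₁, MeasurableSet[m₁] s := fun s hs => h₁ ▸ measurableSet_generateFrom hs
  -- first extend in `t`
  have A : ∀ s ∈ S₁, μ[ind s | m ⊔ m₂] =ᵐ[μ] μ[ind s | m] := fun s hs =>
    condExp_sup_eq_of_piSystem hm hm₂ h₂ hpi₂ (integrable_ind (hm₁ s (hs₁ s hs)))
      fun t ht => h s hs t ht
  have hsup : m ⊔ m₂ ≤ mΩ := sup_le hm hm₂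
  -- product formula for `s ∈ S₁` and all `t`
  have B : ∀ s ∈ S₁, ∀ t, MeasurableSet[m₂] t →
      μ[ind s * ind t | m] =ᵐ[μ] μ[ind s | m] * μ[ind t | m] := by
    intro s hs t ht
    have hsm := hm₁ s (hs₁ s hs)
    have htm := hm₂ t ht
    have e1 : μ[ind s * ind t | m ⊔ m₂] =ᵐ[μ] μ[ind s | m ⊔ m₂] * ind t :=
      condExp_mul_right_of_bdd hsup
        (stronglyMeasurable_ind (le_sup_right (a := m) t ht)).aestronglyMeasurable
        (Eventually.of_forall (norm_ind_le t)) (integrable_ind hsm)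
    have e2 : μ[ind s | m ⊔ m₂] * ind t =ᵐ[μ] μ[ind s | m] * ind t := by
      filter_upwards [A s hs] with ω hω
      rw [Pi.mul_apply, Pi.mul_apply, hω]
    have e3 : μ[μ[ind s | m] * ind t | m] =ᵐ[μ] μ[ind s | m] * μ[ind t | m] :=
      condExp_mul_left_of_bdd hm stronglyMeasurable_condExp.aestronglyMeasurable
        (ae_bdd_norm_condExp_of_ae_bdd_norm (Eventually.of_forall (norm_ind_le s)))
        (integrable_ind htm)
    exact (condExp_condExp_of_le le_sup_left hsup).symm.trans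
      ((condExp_congr_ae (e1.trans e2)).trans e3)
  -- extend in `s`
  have D : ∀ t, MeasurableSet[m₂] t → μ[ind t | m ⊔ m₁] =ᵐ[μ] μ[ind t | m] := by
    intro t ht
    refine condExp_sup_eq_of_piSystem hm hm₁ h₁ hpi₁ (integrable_ind (hm₂ t ht)) ?_
    intro s hs
    rw [mul_comm (ind t), mul_comm (μ[ind t | m])]
    exact B s hs t ht
  have hsup₁ : m ⊔ m₁ ≤ mΩ := sup_le hm hm₁
  have B' : ∀ s, MeasurableSet[m₁] s → ∀ t, MeasurableSet[m₂] t →
      μ[ind s * ind t | m] =ᵐ[μ] μ[ind s | m] * μ[ind t | m] := by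
    intro s hs t ht
    have hsm := hm₁ s hs
    have htm := hm₂ t ht
    have e1 : μ[ind s * ind t | m ⊔ m₁] =ᵐ[μ] ind s * μ[ind t | m ⊔ m₁] :=
      condExp_mul_left_of_bdd hsup₁
        (stronglyMeasurable_ind (le_sup_right (a := m) s hs)).aestronglyMeasurable
        (Eventually.of_forall (norm_ind_le s)) (integrable_ind htm)
    have e2 : ind s * μ[ind t | m ⊔ m₁] =ᵐ[μ] ind s * μ[ind t | m] := by
      filter_upwards [D t ht] with ω hω
      rw [Pi.mul_apply, Pi.mul_apply, hω]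
    have e3 : μ[ind s * μ[ind t | m] | m] =ᵐ[μ] μ[ind s | m] * μ[ind t | m] :=
      condExp_mul_right_of_bdd hm stronglyMeasurable_condExp.aestronglyMeasurable
        (ae_bdd_norm_condExp_of_ae_bdd_norm (Eventually.of_forall (norm_ind_le t)))
        (integrable_ind hsm)
    exact (condExp_condExp_of_le le_sup_left hsup₁).symm.trans
      ((condExp_congr_ae (e1.trans e2)).trans e3)
  intro s hs
  exact condExp_sup_eq_of_piSystem hm hm₂ (eq_generateFrom_self m₂)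
    (isPiSystem_self m₂) (integrable_ind (hm₁ s hs)) fun t ht => B' s hs t ht

/-- Conditional independence is equivalent to the product formula for indicators. -/
theorem ci_iff_ind_mul (hm₁ : m₁ ≤ mΩ) (hm₂ : m₂ ≤ mΩ) (hm : m ≤ mΩ) :
    CI μ m₁ m₂ m ↔ ∀ s, MeasurableSet[m₁] s → ∀ t, MeasurableSet[m₂] t →
      μ[ind s * ind t | m] =ᵐ[μ] μ[ind s | m] * μ[ind t | m] := by
  constructor
  · intro h s hs t ht
    exact h.condExp_mul hm₁ hm₂ hm (stronglyMeasurable_ind hs).aestronglyMeasurable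
      (Eventually.of_forall (norm_ind_le s)) (integrable_ind (hm₂ t ht))
      (stronglyMeasurable_ind (le_sup_right (a := m) t ht)).aestronglyMeasurable
  · intro h
    exact CI.of_piSystem hm₁ hm₂ hm (eq_generateFrom_self m₁) (eq_generateFrom_self m₂)
      (isPiSystem_self m₁) (isPiSystem_self m₂) fun s hs t ht => h s hs t ht

theorem ci_iff_inter (hm₁ : m₁ ≤ mΩ) (hm₂ : m₂ ≤ mΩ) (hm : m ≤ mΩ) :
    CI μ m₁ m₂ m ↔ ∀ s, MeasurableSet[m₁] s → ∀ t, MeasurableSet[m₂] t →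
      μ[ind (s ∩ t) | m] =ᵐ[μ] μ[ind s | m] * μ[ind t | m] := by
  simp_rw [ind_inter]
  exact ci_iff_ind_mul hm₁ hm₂ hm

/-- Symmetry. -/
theorem CI.symm (h : CI μ m₁ m₂ m) (hm₁ : m₁ ≤ mΩ) (hm₂ : m₂ ≤ mΩ) (hm : m ≤ mΩ) :
    CI μ m₂ m₁ m := by
  rw [ci_iff_ind_mul hm₂ hm₁ hm]
  rw [ci_iff_ind_mul hm₁ hm₂ hm] at h
  intro s hs t ht
  rw [mul_comm (ind s), mul_comm (μ[ind s | m])]
  exact h t ht s hs

theorem ci_comm (hm₁ : m₁ ≤ mΩ) (hm₂ : m₂ ≤ mΩ) (hm : m ≤ mΩ) :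
    CI μ m₁ m₂ m ↔ CI μ m₂ m₁ m :=
  ⟨fun h => h.symm hm₁ hm₂ hm, fun h => h.symm hm₂ hm₁ hm⟩

end CI

end Vale.Agent.P102.RM
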