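import Vale.Agent.P102.RM.CondInd

/-!
# P102, Rokhlin: conditional independence, part 2

Semigraphoid calculus (decomposition, weak union, contraction), inclusion of sigma-algebras
modulo null sets, relation with independence.
-/

open MeasureTheory ProbabilityTheory Set Filter MeasurableSpace
open scoped ENNReal

namespace Vale.Agent.P102.RM

variable {Ω : Type*} {m₁ m₂ m₃ m₄ m m' a b c d : MeasurableSpace Ω} {mΩ : MeasurableSpace Ω}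
  {μ : Measure Ω}
variable {E : Type*} [NormedAddCommGroup E] [NormedSpace ℝ E] [CompleteSpace E]

section Semigraphoid

variable [IsFiniteMeasure μ]

/-- If `m ≤ a ≤ b` and `E[f | b] = E[f | m]` then `E[f | a] = E[f | m]`. -/
theorem condExp_eq_of_le_of_le (hma : m ≤ a) (hab : a ≤ b) (hb : b ≤ mΩ) {f : Ω → E}
    (h : μ[f | b] =ᵐ[μ] μ[f | m]) : μ[f | a] =ᵐ[μ] μ[f | m] := by
  have ha : a ≤ mΩ := hab.trans hb
  have h1 : μ[μ[f | m] | a] = μ[f | m] :=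
    condExp_of_stronglyMeasurable ha (stronglyMeasurable_condExp.mono hma) integrable_condExp
  calc μ[f | a] =ᵐ[μ] μ[μ[f | b] | a] := (condExp_condExp_of_le hab hb).symm
    _ =ᵐ[μ] μ[μ[f | m] | a] := condExp_congr_ae h
    _ = μ[f | m] := h1

omit [IsFiniteMeasure μ] in
/-- Decomposition on the left. -/
theorem CI.mono_left (h : CI μ m₁ m₂ m) (h' : m₃ ≤ m₁) : CI μ m₃ m₂ m :=
  fun s hs => h s (h' s hs)

/-- General change of base and decomposition on the right: `m ≤ a`, `a ⊔ b ≤ m ⊔ m₂`. -/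
theorem CI.change (h : CI μ m₁ m₂ m) (hm₂ : m₂ ≤ mΩ) (hm : m ≤ mΩ) (hma : m ≤ a)
    (hab : a ⊔ b ≤ m ⊔ m₂) : CI μ m₁ b a := by
  intro s hs
  have hsup : m ⊔ m₂ ≤ mΩ := sup_le hm hm₂
  have e1 : μ[ind s | a ⊔ b] =ᵐ[μ] μ[ind s | m] :=
    condExp_eq_of_le_of_le (hma.trans le_sup_left) hab hsup (h s hs)
  have e2 : μ[ind s | a] =ᵐ[μ] μ[ind s | m] :=
    condExp_eq_of_le_of_le hma (le_sup_left.trans hab) hsup (h s hs)
  exact e1.trans e2.symm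

/-- Decomposition. -/
theorem CI.mono_right (h : CI μ m₁ m₂ m) (h' : m₃ ≤ m₂) (hm₂ : m₂ ≤ mΩ) (hm : m ≤ mΩ) :
    CI μ m₁ m₃ m :=
  h.change hm₂ hm le_rfl (sup_le_sup_left h' m)

theorem CI.mono (h : CI μ m₁ m₂ m) (h₁ : m₃ ≤ m₁) (h₂ : m₄ ≤ m₂) (hm₂ : m₂ ≤ mΩ)
    (hm : m ≤ mΩ) : CI μ m₃ m₄ m :=
  (h.mono_left h₁).mono_right h₂ hm₂ hm

/-- Weak union. -/
theorem CI.weak_union (h : CI μ m₁ (m₂ ⊔ m₃) m) (hm₂ : m₂ ≤ mΩ) (hm₃ : m₃ ≤ mΩ) (hm : m ≤ mΩ) :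
    CI μ m₁ m₂ (m ⊔ m₃) :=
  h.change (sup_le hm₂ hm₃) hm le_sup_left
    (sup_le (sup_le_sup_left le_sup_right m) (le_sup_left.trans le_sup_right))

/-- Weak union, base enlarged inside `m ⊔ m₂`. -/
theorem CI.of_le (h : CI μ m₁ m₂ m) (hm₂ : m₂ ≤ mΩ) (hm : m ≤ mΩ) (hma : m ≤ a)
    (ha : a ≤ m ⊔ m₂) : CI μ m₁ m₂ a :=
  h.change hm₂ hm hma (sup_le ha le_sup_right)

omit [IsFiniteMeasure μ] in
/-- Contraction. -/
theorem CI.contraction (h : CI μ m₁ m₂ m) (h' : CI μ m₁ m₃ (m ⊔ m₂)) :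
    CI μ m₁ (m₂ ⊔ m₃) m := by
  intro s hs
  rw [← sup_assoc]
  exact (h' s hs).trans (h s hs)

/-- Chain rule. -/
theorem ci_sup_right_iff (hm₂ : m₂ ≤ mΩ) (hm₃ : m₃ ≤ mΩ) (hm : m ≤ mΩ) :
    CI μ m₁ (m₂ ⊔ m₃) m ↔ CI μ m₁ m₂ m ∧ CI μ m₁ m₃ (m ⊔ m₂) := by
  constructor
  · intro h
    refine ⟨h.mono_right le_sup_left (sup_le hm₂ hm₃) hm, ?_⟩
    rw [sup_comm m₂ m₃] at h
    exact h.weak_union hm₃ hm₂ hm
  · rintro ⟨h, h'⟩
    exact h.contraction h'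

/-- Chain rule on the left. -/
theorem ci_sup_left_iff (hm₁ : m₁ ≤ mΩ) (hm₂ : m₂ ≤ mΩ) (hm₃ : m₃ ≤ mΩ) (hm : m ≤ mΩ) :
    CI μ (m₁ ⊔ m₂) m₃ m ↔ CI μ m₁ m₃ m ∧ CI μ m₂ m₃ (m ⊔ m₁) := by
  rw [ci_comm (sup_le hm₁ hm₂) hm₃ hm, ci_sup_right_iff hm₁ hm₂ hm, ci_comm hm₁ hm₃ hm,
    ci_comm hm₂ hm₃ (sup_le hm hm₁)]

/-- Contraction on the left. -/
theorem CI.contraction_left (hm₁ : m₁ ≤ mΩ) (hm₂ : m₂ ≤ mΩ) (hm₃ : m₃ ≤ mΩ) (hm : m ≤ mΩ)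
    (h : CI μ m₁ m₃ m) (h' : CI μ m₂ m₃ (m ⊔ m₁)) : CI μ (m₁ ⊔ m₂) m₃ m :=
  (ci_sup_left_iff hm₁ hm₂ hm₃ hm).2 ⟨h, h'⟩

omit [IsFiniteMeasure μ] in
/-- Anything is conditionally independent of the base. -/
theorem CI.base_right (h : m₂ ≤ m) : CI μ m₁ m₂ m := by
  intro s _
  rw [sup_eq_left.2 h]

theorem CI.base_left (hm₂ : m₂ ≤ mΩ) (hm : m ≤ mΩ) (h : m₁ ≤ m) : CI μ m₁ m₂ m :=
  (CI.base_right (m₁ := m₂) h).symm hm₂ (h.trans hm) hm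

omit [IsFiniteMeasure μ] in
/-- The base can be added on the right. -/
theorem ci_sup_base_right : CI μ m₁ (m ⊔ m₂) m ↔ CI μ m₁ m₂ m := by
  unfold CI
  rw [← sup_assoc, sup_idem]

omit [IsFiniteMeasure μ] in
theorem ci_sup_base_right' : CI μ m₁ (m₂ ⊔ m) m ↔ CI μ m₁ m₂ m := by
  rw [sup_comm m₂ m, ci_sup_base_right]

/-- The base can be added on the left. -/
theorem ci_sup_base_left (hm₁ : m₁ ≤ mΩ) (hm₂ : m₂ ≤ mΩ) (hm : m ≤ mΩ) :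
    CI μ (m ⊔ m₁) m₂ m ↔ CI μ m₁ m₂ m := by
  rw [ci_comm (sup_le hm hm₁) hm₂ hm, ci_sup_base_right, ci_comm hm₂ hm₁ hm]

theorem ci_sup_base_left' (hm₁ : m₁ ≤ mΩ) (hm₂ : m₂ ≤ mΩ) (hm : m ≤ mΩ) :
    CI μ (m₁ ⊔ m) m₂ m ↔ CI μ m₁ m₂ m := by
  rw [sup_comm m₁ m, ci_sup_base_left hm₁ hm₂ hm]

theorem CI.sup_base (h : CI μ m₁ m₂ m) (hm₁ : m₁ ≤ mΩ) (hm₂ : m₂ ≤ mΩ) (hm : m ≤ mΩ) :
    CI μ (m ⊔ m₁) (m ⊔ m₂) m := by
  rw [ci_sup_base_right, ci_sup_base_left hm₁ hm₂ hm]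
  exact h

/-- Both sides may be enlarged by the base, then shrunk. -/
theorem CI.mono_base (h : CI μ m₁ m₂ m) (hm₁ : m₁ ≤ mΩ) (hm₂ : m₂ ≤ mΩ) (hm : m ≤ mΩ)
    (h₁ : m₃ ≤ m ⊔ m₁) (h₂ : m₄ ≤ m ⊔ m₂) : CI μ m₃ m₄ m :=
  (h.sup_base hm₁ hm₂ hm).mono h₁ h₂ (sup_le hm hm₂) hm

/-- If `m₁ ⫫ m₂ | m`, part `a` of side 1 and part `b` of side 2 may be moved to the base. -/
theorem CI.move (h : CI μ m₁ m₂ m) (hm₁ : m₁ ≤ mΩ) (hm₂ : m₂ ≤ mΩ) (hm : m ≤ mΩ)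
    (ha : a ≤ m ⊔ m₁) (hb : b ≤ m ⊔ m₂) : CI μ m₁ m₂ (m ⊔ a ⊔ b) := by
  have ha' : a ≤ mΩ := ha.trans (sup_le hm hm₁)
  have hb' : b ≤ mΩ := hb.trans (sup_le hm hm₂)
  -- first move `b`
  have h1 : CI μ m₁ m₂ (m ⊔ b) := h.of_le hm₂ hm le_sup_left (sup_le le_sup_left hb)
  -- then move `a`, by symmetry
  have h2 : CI μ m₂ m₁ (m ⊔ b) := h1.symm hm₁ hm₂ (sup_le hm hb')
  have h3 : CI μ m₂ m₁ (m ⊔ b ⊔ a) := h2.of_le hm₁ (sup_le hm hb') le_sup_left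
    (sup_le le_sup_left (ha.trans (sup_le_sup_right le_sup_left m₁)))
  have h4 := h3.symm hm₂ hm₁ (sup_le (sup_le hm hb') ha')
  rwa [sup_assoc, sup_comm b a, ← sup_assoc] at h4

end Semigraphoid

section AELe

/-- Inclusion of sigma-algebras modulo null sets. -/
def AELe (μ : Measure Ω) (a b : MeasurableSpace Ω) : Prop :=
  ∀ s, MeasurableSet[a] s → ∃ t, MeasurableSet[b] t ∧ s =ᵐ[μ] t

theorem AELe.refl (a : MeasurableSpace Ω) : AELe μ a a := fun s hs => ⟨s, hs, .rfl⟩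

theorem AELe.of_le (h : a ≤ b) : AELe μ a b := fun s hs => ⟨s, h s hs, .rfl⟩

theorem AELe.trans (h : AELe μ a b) (h' : AELe μ b c) : AELe μ a c := by
  intro s hs
  obtain ⟨t, ht, hst⟩ := h s hs
  obtain ⟨u, hu, htu⟩ := h' t ht
  exact ⟨u, hu, hst.trans htu⟩

theorem AELe.mono (h : AELe μ b c) (h₁ : a ≤ b) (h₂ : c ≤ d) : AELe μ a d :=
  ((AELe.of_le h₁).trans h).trans (AELe.of_le h₂)

/-- The sigma-algebra of the sets which are a.e. equal to a `b`-measurable set. -/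
@[reducible] def aeClosure (μ : Measure Ω) (b : MeasurableSpace Ω) : MeasurableSpace Ω where
  MeasurableSet' s := ∃ t, MeasurableSet[b] t ∧ s =ᵐ[μ] t
  measurableSet_empty := ⟨∅, @MeasurableSet.empty Ω b, .rfl⟩
  measurableSet_compl := by
    rintro s ⟨t, ht, hst⟩
    exact ⟨tᶜ, @MeasurableSet.compl Ω t b ht, hst.compl⟩
  measurableSet_iUnion := by
    intro f hf
    choose t ht hft using hf
    exact ⟨⋃ i, t i, @MeasurableSet.iUnion Ω ℕ b _ t ht, Filter.EventuallyEq.countable_iUnion hft⟩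

theorem aeLe_iff_le_aeClosure : AELe μ a b ↔ a ≤ aeClosure μ b := Iff.rfl

theorem AELe.sup (h : AELe μ a c) (h' : AELe μ b c) : AELe μ (a ⊔ b) c := by
  rw [aeLe_iff_le_aeClosure] at *
  exact sup_le h h'

theorem AELe.iSup {ι : Sort*} {f : ι → MeasurableSpace Ω} (h : ∀ i, AELe μ (f i) c) :
    AELe μ (⨆ i, f i) c := by
  simp_rw [aeLe_iff_le_aeClosure] at *
  exact iSup_le h

theorem AELe.sup_sup (h : AELe μ a c) (h' : AELe μ b d) : AELe μ (a ⊔ b) (c ⊔ d) :=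
  (h.trans (AELe.of_le le_sup_left)).sup (h'.trans (AELe.of_le le_sup_right))

theorem AELe.generateFrom {S : Set (Set Ω)} (h : ∀ s ∈ S, ∃ t, MeasurableSet[b] t ∧ s =ᵐ[μ] t) :
    AELe μ (MeasurableSpace.generateFrom S) b := by
  rw [aeLe_iff_le_aeClosure]
  exact generateFrom_le h

theorem ind_ae_congr {s t : Set Ω} (h : s =ᵐ[μ] t) : ind s =ᵐ[μ] ind t :=
  indicator_ae_eq_of_ae_eq_set h

variable [IsFiniteMeasure μ]

theorem condExp_ind_of_measurableSet (hb : b ≤ mΩ) {s : Set Ω} (hs : MeasurableSet[b] s) :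
    μ[ind s | b] = ind s :=
  condExp_of_stronglyMeasurable hb (stronglyMeasurable_ind hs) (integrable_ind (hb s hs))

theorem AELe.condExp_ind (h : AELe μ a b) (hb : b ≤ mΩ) {s : Set Ω} (hs : MeasurableSet[a] s) :
    μ[ind s | b] =ᵐ[μ] ind s := by
  obtain ⟨t, ht, hst⟩ := h s hs
  calc μ[ind s | b] =ᵐ[μ] μ[ind t | b] := condExp_congr_ae (ind_ae_congr hst)
    _ = ind t := condExp_ind_of_measurableSet hb ht
    _ =ᵐ[μ] ind s := (ind_ae_congr hst).symm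

omit [IsFiniteMeasure μ] in
theorem exists_measurableSet_of_condExp_ind {s : Set Ω} (h : μ[ind s | b] =ᵐ[μ] ind s) :
    ∃ t, MeasurableSet[b] t ∧ s =ᵐ[μ] t := by
  refine ⟨{ω | (μ[ind s | b]) ω = 1}, ?_, ?_⟩
  · exact (stronglyMeasurable_condExp.measurable :
      Measurable[b] (μ[ind s | b])) (measurableSet_singleton (1 : ℝ))
  · filter_upwards [h] with ω hω
    apply propext
    show ω ∈ s ↔ (μ[ind s | b]) ω = 1
    rw [hω]
    by_cases hs : ω ∈ s <;> simp [hs]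

theorem aeLe_iff_condExp_ind (hb : b ≤ mΩ) :
    AELe μ a b ↔ ∀ s, MeasurableSet[a] s → μ[ind s | b] =ᵐ[μ] ind s :=
  ⟨fun h _ hs => h.condExp_ind hb hs,
    fun h s hs => exists_measurableSet_of_condExp_ind (h s hs)⟩

/-- An `a`-measurable integrable function equals its conditional expectation given `b`. -/
theorem AELe.condExp_eq_self (h : AELe μ a b) (ha : a ≤ mΩ) (hb : b ≤ mΩ) {f : Ω → E}
    (hf : AEStronglyMeasurable[a] f μ) (hfi : Integrable f μ) : μ[f | b] =ᵐ[μ] f := by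
  have h1 : μ[f | b] =ᵐ[μ] μ[f | mΩ] := by
    refine condExp_congr_of_ind ha hb le_rfl (fun s hs => ?_) hf
    rw [condExp_ind_of_measurableSet le_rfl (ha s hs)]
    exact h.condExp_ind hb hs
  exact h1.trans (condExp_of_aestronglyMeasurable' le_rfl (hf.mono ha) hfi)

theorem AELe.aestronglyMeasurable (h : AELe μ a b) (ha : a ≤ mΩ) (hb : b ≤ mΩ) {f : Ω → E}
    (hf : AEStronglyMeasurable[a] f μ) (hfi : Integrable f μ) : AEStronglyMeasurable[b] f μ :=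
  ⟨μ[f | b], stronglyMeasurable_condExp, (h.condExp_eq_self ha hb hf hfi).symm⟩

/-- Tower property modulo null sets. -/
theorem condExp_condExp_of_aeLe (h : AELe μ a b) (ha : a ≤ mΩ) (hb : b ≤ mΩ) (f : Ω → E) :
    μ[μ[f | b] | a] =ᵐ[μ] μ[f | a] := by
  by_cases hf : Integrable f μ
  swap
  · rw [condExp_of_not_integrable hf, condExp_of_not_integrable hf, condExp_zero]
  symm
  refine ae_eq_condExp_of_forall_setIntegral_eq ha integrable_condExp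
    (fun _ _ _ => integrable_condExp.integrableOn) (fun s hs _ => ?_)
    stronglyMeasurable_condExp.aestronglyMeasurable
  obtain ⟨t, ht, hst⟩ := h s hs
  rw [setIntegral_condExp ha hf hs, setIntegral_congr_set hst, setIntegral_congr_set hst,
    setIntegral_condExp hb hf ht]

/-- Sigma-algebras which agree modulo null sets have the same conditional expectations. -/
theorem condExp_congr_aeLe (h : AELe μ a b) (h' : AELe μ b a) (ha : a ≤ mΩ) (hb : b ≤ mΩ)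
    (f : Ω → E) : μ[f | a] =ᵐ[μ] μ[f | b] :=
  (condExp_condExp_of_aeLe h ha hb f).symm.trans
    (h'.condExp_eq_self hb ha stronglyMeasurable_condExp.aestronglyMeasurable integrable_condExp)

/-- Sandwich lemma modulo null sets. -/
theorem condExp_eq_of_aeLe_of_aeLe (hma : AELe μ m a) (hab : AELe μ a b) (hm : m ≤ mΩ)
    (ha : a ≤ mΩ) (hb : b ≤ mΩ) {f : Ω → E}
    (h : μ[f | b] =ᵐ[μ] μ[f | m]) : μ[f | a] =ᵐ[μ] μ[f | m] :=
  calc μ[f | a] =ᵐ[μ] μ[μ[f | b] | a] := (condExp_condExp_of_aeLe hab ha hb f).symm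
    _ =ᵐ[μ] μ[μ[f | m] | a] := condExp_congr_ae h
    _ =ᵐ[μ] μ[f | m] := hma.condExp_eq_self hm ha
        stronglyMeasurable_condExp.aestronglyMeasurable integrable_condExp

/-- Change of base and of the right side, modulo null sets. -/
theorem CI.change_ae (h : CI μ m₁ m₂ m) (hm₂ : m₂ ≤ mΩ) (hm : m ≤ mΩ) (ha : a ≤ mΩ)
    (hb : b ≤ mΩ) (hma : AELe μ m a) (haa : AELe μ a (m ⊔ m₂)) (hbb : AELe μ b (m ⊔ m₂)) :
    CI μ m₁ b a := by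
  intro s hs
  have hsup : m ⊔ m₂ ≤ mΩ := sup_le hm hm₂
  have e1 : μ[ind s | a ⊔ b] =ᵐ[μ] μ[ind s | m] :=
    condExp_eq_of_aeLe_of_aeLe (hma.trans (AELe.of_le le_sup_left)) (haa.sup hbb) hm
      (sup_le ha hb) hsup (h s hs)
  have e2 : μ[ind s | a] =ᵐ[μ] μ[ind s | m] :=
    condExp_eq_of_aeLe_of_aeLe hma haa hm ha hsup (h s hs)
  exact e1.trans e2.symm

omit [IsFiniteMeasure μ] in
theorem CI.mono_left_ae (h : CI μ m₁ m₂ m) (h' : AELe μ m₃ m₁) : CI μ m₃ m₂ m := by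
  intro s hs
  obtain ⟨t, ht, hst⟩ := h' s hs
  exact (condExp_congr_ae (ind_ae_congr hst)).trans
    ((h t ht).trans (condExp_congr_ae (ind_ae_congr hst).symm))

/-- General monotonicity modulo null sets: both sides inside the side joined with the base. -/
theorem CI.mono_ae (h : CI μ m₁ m₂ m) (hm₁ : m₁ ≤ mΩ) (hm₂ : m₂ ≤ mΩ) (hm : m ≤ mΩ)
    (hb : b ≤ mΩ) (h₁ : AELe μ a (m ⊔ m₁)) (h₂ : AELe μ b (m ⊔ m₂)) : CI μ a b m :=
  (((ci_sup_base_left hm₁ hm₂ hm).2 h).mono_left_ae h₁).change_ae hm₂ hm hm hb (AELe.refl m)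
    (AELe.of_le le_sup_left) h₂

/-- The base may be replaced by a base which agrees with it modulo null sets. -/
theorem CI.congr_base (h : CI μ m₁ m₂ m) (hm₂ : m₂ ≤ mΩ) (hm : m ≤ mΩ) (ha : a ≤ mΩ)
    (hma : AELe μ m a) (ham : AELe μ a m) : CI μ m₁ m₂ a :=
  h.change_ae hm₂ hm ha hm₂ hma (ham.trans (AELe.of_le le_sup_left)) (AELe.of_le le_sup_right)

/-- If `m₁ ⫫ m₂ | m` and `m₁ ⊆ m ⊔ m₂` modulo null sets then `m₁ ⊆ m` modulo null sets. -/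
theorem CI.aeLe_of_aeLe (h : CI μ m₁ m₂ m) (hm₂ : m₂ ≤ mΩ) (hm : m ≤ mΩ)
    (h' : AELe μ m₁ (m ⊔ m₂)) : AELe μ m₁ m := by
  rw [aeLe_iff_condExp_ind hm]
  intro s hs
  exact (h s hs).symm.trans (h'.condExp_ind (sup_le hm hm₂) hs)

theorem ci_self_iff (hm₁ : m₁ ≤ mΩ) (hm : m ≤ mΩ) : CI μ m₁ m₁ m ↔ AELe μ m₁ m := by
  constructor
  · intro h
    exact h.aeLe_of_aeLe hm₁ hm (AELe.of_le le_sup_right)
  · intro h s hs
    exact ((AELe.of_le (μ := μ) (le_sup_right : m₁ ≤ m ⊔ m₁)).condExp_ind (sup_le hm hm₁) hs).trans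
      (h.condExp_ind hm hs).symm

/-- Everything is conditionally independent of what is (a.e.) in the base. -/
theorem CI.of_aeLe_right (hm₂ : m₂ ≤ mΩ) (hm : m ≤ mΩ) (h : AELe μ m₂ m) :
    CI μ m₁ m₂ m := by
  intro s _
  exact condExp_congr_aeLe ((AELe.refl m).sup h) (AELe.of_le le_sup_left) (sup_le hm hm₂) hm _

/-- Intersection lemma: a sigma-algebra inside both `m ⊔ m₁` and `m ⊔ m₂` modulo null sets, with
`m₁ ⫫ m₂ | m`, is inside `m` modulo null sets. -/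
theorem CI.aeLe_of_both (h : CI μ m₁ m₂ m) (hm₁ : m₁ ≤ mΩ) (hm₂ : m₂ ≤ mΩ) (hm : m ≤ mΩ)
    (h₁ : AELe μ a (m ⊔ m₁)) (h₂ : AELe μ a (m ⊔ m₂)) : AELe μ a m :=
  (((ci_sup_base_left hm₁ hm₂ hm).2 h).mono_left_ae h₁).aeLe_of_aeLe hm₂ hm h₂

/-- Intersection lemma for one integrable function. -/
theorem CI.condExp_eq_self_of_both (h : CI μ m₁ m₂ m) (hm₁ : m₁ ≤ mΩ) (hm₂ : m₂ ≤ mΩ)
    (hm : m ≤ mΩ) {f : Ω → E} (hfi : Integrable f μ) (h₁ : AEStronglyMeasurable[m ⊔ m₁] f μ)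
    (h₂ : AEStronglyMeasurable[m ⊔ m₂] f μ) : μ[f | m] =ᵐ[μ] f := by
  have e1 := ((ci_sup_base_left hm₁ hm₂ hm).2 h).condExp_eq (sup_le hm hm₁) hm₂ hm h₁
  have e2 := condExp_of_aestronglyMeasurable' (sup_le hm hm₂) h₂ hfi
  exact e1.symm.trans e2

theorem CI.aestronglyMeasurable_of_both (h : CI μ m₁ m₂ m) (hm₁ : m₁ ≤ mΩ) (hm₂ : m₂ ≤ mΩ)
    (hm : m ≤ mΩ) {f : Ω → E} (hfi : Integrable f μ) (h₁ : AEStronglyMeasurable[m ⊔ m₁] f μ)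
    (h₂ : AEStronglyMeasurable[m ⊔ m₂] f μ) : AEStronglyMeasurable[m] f μ :=
  ⟨μ[f | m], stronglyMeasurable_condExp,
    (h.condExp_eq_self_of_both hm₁ hm₂ hm hfi h₁ h₂).symm⟩

end AELe

section Independence

variable [IsProbabilityMeasure μ]

theorem condExp_ind_bot (s : Set Ω) (hs : MeasurableSet s) :
    μ[ind s | ⊥] = fun _ => μ.real s := by
  rw [condExp_bot]
  ext ω
  rw [integral_indicator hs, setIntegral_const, smul_eq_mul, mul_one]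

/-- Conditional independence given the trivial sigma-algebra is independence. -/
theorem ci_bot_iff (hm₁ : m₁ ≤ mΩ) (hm₂ : m₂ ≤ mΩ) : CI μ m₁ m₂ ⊥ ↔ Indep m₁ m₂ μ := by
  rw [ci_iff_inter hm₁ hm₂ bot_le, Indep_iff]
  refine forall_congr' fun s => ?_
  constructor
  · intro h t hs ht
    have h1 := h hs t ht
    rw [condExp_ind_bot _ ((hm₁ s hs).inter (hm₂ t ht)), condExp_ind_bot _ (hm₁ s hs),
      condExp_ind_bot _ (hm₂ t ht)] at h1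
    have h2 : μ.real (s ∩ t) = μ.real s * μ.real t := by
      have : NeZero μ := inferInstance
      obtain ⟨ω, hω⟩ := h1.exists
      exact hω
    rw [measureReal_def, measureReal_def, measureReal_def, ← ENNReal.toReal_mul] at h2
    exact (ENNReal.toReal_eq_toReal_iff' (measure_ne_top _ _)
      (ENNReal.mul_ne_top (measure_ne_top _ _) (measure_ne_top _ _))).1 h2
  · intro h hs t ht
    rw [condExp_ind_bot _ ((hm₁ s hs).inter (hm₂ t ht)), condExp_ind_bot _ (hm₁ s hs),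
      condExp_ind_bot _ (hm₂ t ht)]
    refine Eventually.of_forall fun ω => ?_
    show μ.real (s ∩ t) = μ.real s * μ.real t
    rw [measureReal_def, measureReal_def, measureReal_def, ← ENNReal.toReal_mul, h t hs ht]

/-- `m₁` independent of `m ⊔ m₂` gives `m₁ ⫫ m₂ | m`. -/
theorem CI.of_indep (hm₁ : m₁ ≤ mΩ) (hm₂ : m₂ ≤ mΩ) (hm : m ≤ mΩ)
    (h : Indep m₁ (m ⊔ m₂) μ) : CI μ m₁ m₂ m := by
  have h1 : CI μ m₁ (m ⊔ m₂) ⊥ := (ci_bot_iff hm₁ (sup_le hm hm₂)).2 h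
  exact h1.change (sup_le hm hm₂) bot_le bot_le (le_sup_right)

/-- `m ⊔ m₁` independent of `m₂` gives `m₁ ⫫ m₂ | m`. -/
theorem CI.of_indep' (hm₁ : m₁ ≤ mΩ) (hm₂ : m₂ ≤ mΩ) (hm : m ≤ mΩ)
    (h : Indep (m ⊔ m₁) m₂ μ) : CI μ m₁ m₂ m :=
  (CI.of_indep hm₂ hm₁ hm h.symm).symm hm₂ hm₁ hm

/-- `m₁ ⫫ m₂ | m` and `m₁ ⫫ m` give `m₁ ⫫ m ⊔ m₂`. -/
theorem CI.indep (h : CI μ m₁ m₂ m) (hm₁ : m₁ ≤ mΩ) (hm₂ : m₂ ≤ mΩ) (hm : m ≤ mΩ)
    (h' : Indep m₁ m μ) : Indep m₁ (m ⊔ m₂) μ := by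
  rw [← ci_bot_iff hm₁ (sup_le hm hm₂)]
  refine CI.contraction ((ci_bot_iff hm₁ hm).2 h') ?_
  rwa [bot_sup_eq]

theorem indep_sup_iff (hm₁ : m₁ ≤ mΩ) (hm₂ : m₂ ≤ mΩ) (hm : m ≤ mΩ) :
    Indep m₁ (m ⊔ m₂) μ ↔ Indep m₁ m μ ∧ CI μ m₁ m₂ m :=
  ⟨fun h => ⟨indep_of_indep_of_le_right h le_sup_left, CI.of_indep hm₁ hm₂ hm h⟩,
    fun h => h.2.indep hm₁ hm₂ hm h.1⟩

end Independence

end Vale.Agent.P102.RM
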