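import Vale.Agent.P102.RM.CondInd2

/-!
# P102, Rokhlin: conditional independence, part 3: families

`ICI μ f m`: the sigma-algebras `f i` are mutually conditionally independent given `m`.
-/

open MeasureTheory ProbabilityTheory Set Filter MeasurableSpace
open scoped ENNReal

namespace Vale.Agent.P102.RM

variable {Ω : Type*} {m₁ m₂ m₃ m₄ m m' a b c d : MeasurableSpace Ω} {mΩ : MeasurableSpace Ω}
  {μ : Measure Ω}
variable {ι κ : Type*} {f : ι → MeasurableSpace Ω}

/-- Mutual conditional independence of the family `f` given `m`: product formula for indicators. -/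
def ICI (μ : Measure Ω) (f : ι → MeasurableSpace Ω) (m : MeasurableSpace Ω) : Prop :=
  ∀ (S : Finset ι) (s : ι → Set Ω), (∀ i ∈ S, MeasurableSet[f i] (s i)) →
    μ[∏ i ∈ S, ind (s i) | m] =ᵐ[μ] ∏ i ∈ S, μ[ind (s i) | m]

theorem ind_biInter (S : Finset ι) (s : ι → Set Ω) :
    ind (⋂ i ∈ S, s i) = ∏ i ∈ S, ind (s i) := by
  classical
  induction S using Finset.induction_on with
  | empty => ext ω; simp
  | insert j S hj ih => rw [Finset.prod_insert hj, Finset.set_biInter_insert, ind_inter, ih]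

section RCLike

variable {𝕜 : Type*} [RCLike 𝕜]

theorem norm_prod_le_prod (S : Finset ι) (F : ι → Ω → 𝕜) (C : ι → ℝ)
    (hC : ∀ i ∈ S, ∀ᵐ ω ∂μ, ‖F i ω‖ ≤ C i) : ∀ᵐ ω ∂μ, ‖(∏ i ∈ S, F i) ω‖ ≤ ∏ i ∈ S, C i := by
  have h : ∀ᵐ ω ∂μ, ∀ i ∈ S, ‖F i ω‖ ≤ C i := (eventually_all_finset S).2 hC
  filter_upwards [h] with ω hω
  rw [Finset.prod_apply, norm_prod]
  exact Finset.prod_le_prod (fun i _ => norm_nonneg _) hω

theorem aestronglyMeasurable_prod_iSup (S : Finset ι) (F : ι → Ω → 𝕜)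
    (hF : ∀ i ∈ S, AEStronglyMeasurable[f i] (F i) μ) :
    AEStronglyMeasurable[⨆ i ∈ S, f i] (∏ i ∈ S, F i) μ := by
  classical
  have key : ∀ T ⊆ S, AEStronglyMeasurable[⨆ i ∈ S, f i] (∏ i ∈ T, F i) μ := by
    intro T
    induction T using Finset.induction_on with
    | empty =>
      intro _
      rw [Finset.prod_empty]
      exact stronglyMeasurable_one.aestronglyMeasurable
    | insert j T hj ih =>
      intro hT
      rw [Finset.prod_insert hj]
      have hjS : j ∈ S := hT (Finset.mem_insert_self j T)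
      exact ((hF j hjS).mono (le_iSup₂ (f := fun i (_ : i ∈ S) => f i) j hjS)).mul
        (ih fun i hi => hT (Finset.mem_insert_of_mem hi))
  exact key S (Finset.Subset.refl S)

end RCLike

theorem stronglyMeasurable_prod_ind (S : Finset ι) {s : ι → Set Ω}
    (hs : ∀ i ∈ S, MeasurableSet[f i] (s i)) :
    StronglyMeasurable[⨆ i ∈ S, f i] (∏ i ∈ S, ind (s i)) := by
  rw [← ind_biInter]
  refine stronglyMeasurable_ind ?_
  exact Finset.measurableSet_biInter S fun i hi =>
    (le_iSup₂ (f := fun i (_ : i ∈ S) => f i) i hi) (s i) (hs i hi)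

theorem biSup_le_of (hf : ∀ i, f i ≤ mΩ) (S : Set ι) : ⨆ i ∈ S, f i ≤ mΩ :=
  iSup₂_le fun i _ => hf i

theorem biSup_finset_le_of (hf : ∀ i, f i ≤ mΩ) (S : Finset ι) : ⨆ i ∈ S, f i ≤ mΩ :=
  iSup₂_le fun i _ => hf i

theorem biSup_insert_finset [DecidableEq ι] (S : Finset ι) (j : ι) :
    ⨆ i ∈ insert j S, f i = f j ⊔ ⨆ i ∈ S, f i := Finset.iSup_insert j S f

section Family

variable [IsFiniteMeasure μ]

omit [IsFiniteMeasure μ] in
theorem ICI.mono (h : ICI μ f m) {g : ι → MeasurableSpace Ω} (hg : ∀ i, g i ≤ f i) :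
    ICI μ g m := fun S s hs => h S s fun i hi => hg i _ (hs i hi)

omit [IsFiniteMeasure μ] in
/-- Reindexing along an injective map. -/
theorem ICI.comp_injective (h : ICI μ f m) {φ : κ → ι} (hφ : Function.Injective φ) :
    ICI μ (fun k => f (φ k)) m := by
  classical
  intro S s hs
  rcases isEmpty_or_nonempty κ with hκ | hκ
  · have : S = ∅ := Finset.eq_empty_of_isEmpty S
    subst this
    simpa using h ∅ (fun _ => ∅) (by simp)
  · have h1 := h (S.image φ) (fun i => s (Function.invFun φ i)) (by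
      intro i hi
      obtain ⟨k, hk, rfl⟩ := Finset.mem_image.1 hi
      rw [Function.leftInverse_invFun hφ k]
      exact hs k hk)
    rw [Finset.prod_image (fun x _ y _ h => hφ h), Finset.prod_image (fun x _ y _ h => hφ h)] at h1
    simpa only [Function.leftInverse_invFun hφ _] using h1

/-- Mutual conditional independence from successive conditional independence. -/
theorem ICI.of_ci_finset (hf : ∀ i, f i ≤ mΩ) (hm : m ≤ mΩ)
    (h : ∀ (S : Finset ι) (j : ι), j ∉ S → CI μ (⨆ i ∈ S, f i) (f j) m) : ICI μ f m := by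
  classical
  intro S s
  induction S using Finset.induction_on with
  | empty =>
    intro _
    simp only [Finset.prod_empty]
    exact (condExp_const hm (1 : ℝ) (μ := μ)).eventuallyEq
  | insert j S hj ih =>
    intro hs
    have hsS : ∀ i ∈ S, MeasurableSet[f i] (s i) := fun i hi => hs i (Finset.mem_insert_of_mem hi)
    have hsj : MeasurableSet[f j] (s j) := hs j (Finset.mem_insert_self j S)
    have h1 := (h S j hj).condExp_mul (biSup_finset_le_of hf S) (hf j) hm
      (stronglyMeasurable_prod_ind S hsS).aestronglyMeasurable (C := 1)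
      (Eventually.of_forall fun ω => by
        rw [← ind_biInter]; exact norm_ind_le _ ω)
      (integrable_ind (μ := μ) (hf j _ hsj))
      (stronglyMeasurable_ind (le_sup_right (a := m) _ hsj)).aestronglyMeasurable
    rw [Finset.prod_insert hj, Finset.prod_insert hj, mul_comm, mul_comm (μ[ind (s j) | m])]
    refine h1.trans ?_
    filter_upwards [ih hsS] with ω hω
    rw [Pi.mul_apply, Pi.mul_apply, hω]

/-- Version with a linear order: each `f j` is conditionally independent of the previous ones. -/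
theorem ICI.of_ci_lt [LinearOrder ι] (hf : ∀ i, f i ≤ mΩ) (hm : m ≤ mΩ)
    (h : ∀ j, CI μ (⨆ i ∈ Iio j, f i) (f j) m) : ICI μ f m := by
  classical
  intro S s
  induction S using Finset.induction_on_max with
  | empty =>
    intro _
    simp only [Finset.prod_empty]
    exact (condExp_const hm (1 : ℝ) (μ := μ)).eventuallyEq
  | insert j S hlt ih =>
    intro hs
    have hj : j ∉ S := fun hj => lt_irrefl _ (hlt j hj)
    have hsS : ∀ i ∈ S, MeasurableSet[f i] (s i) := fun i hi => hs i (Finset.mem_insert_of_mem hi)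
    have hsj : MeasurableSet[f j] (s j) := hs j (Finset.mem_insert_self j S)
    have hle : ⨆ i ∈ S, f i ≤ ⨆ i ∈ Iio j, f i :=
      iSup₂_le fun i hi => le_iSup₂ (f := fun i (_ : i ∈ Iio j) => f i) i (hlt i hi)
    have h1 := ((h j).mono_left hle).condExp_mul (biSup_finset_le_of hf S) (hf j) hm
      (stronglyMeasurable_prod_ind S hsS).aestronglyMeasurable (C := 1)
      (Eventually.of_forall fun ω => by
        rw [← ind_biInter]; exact norm_ind_le _ ω)
      (integrable_ind (μ := μ) (hf j _ hsj))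
      (stronglyMeasurable_ind (le_sup_right (a := m) _ hsj)).aestronglyMeasurable
    rw [Finset.prod_insert hj, Finset.prod_insert hj, mul_comm, mul_comm (μ[ind (s j) | m])]
    refine h1.trans ?_
    filter_upwards [ih hsS] with ω hω
    rw [Pi.mul_apply, Pi.mul_apply, hω]

/-- Disjoint groups are conditionally independent. -/
theorem ICI.ci (h : ICI μ f m) (hf : ∀ i, f i ≤ mΩ) (hm : m ≤ mΩ) {S T : Set ι}
    (hST : Disjoint S T) : CI μ (⨆ i ∈ S, f i) (⨆ i ∈ T, f i) m := by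
  classical
  refine CI.of_piSystem (biSup_le_of hf S) (biSup_le_of hf T) hm
    (generateFrom_piiUnionInter_measurableSet f S).symm
    (generateFrom_piiUnionInter_measurableSet f T).symm
    (isPiSystem_piiUnionInter _ (fun i => isPiSystem_self (f i)) S)
    (isPiSystem_piiUnionInter _ (fun i => isPiSystem_self (f i)) T) ?_
  rintro _ ⟨p, hp, A, hA, rfl⟩ _ ⟨q, hq, B, hB, rfl⟩
  have hpq : Disjoint p q := by
    rw [Finset.disjoint_left]
    intro i hi hi'
    exact Set.disjoint_left.1 hST (hp hi) (hq hi')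
  let D : ι → Set Ω := fun i => if i ∈ p then A i else B i
  have hDp : ∀ i ∈ p, D i = A i := fun i hi => if_pos hi
  have hDq : ∀ i ∈ q, D i = B i := fun i hi => if_neg fun hi' =>
    Finset.disjoint_left.1 hpq hi' hi
  have hD : ∀ i ∈ p ∪ q, MeasurableSet[f i] (D i) := by
    intro i hi
    rcases Finset.mem_union.1 hi with hi | hi
    · rw [hDp i hi]; exact hA i hi
    · rw [hDq i hi]; exact hB i hi
  have e1 := h (p ∪ q) D hD
  have e2 := h p A hA
  have e3 := h q B hB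
  rw [Finset.prod_union hpq, Finset.prod_union hpq,
    Finset.prod_congr rfl (fun i hi => by rw [hDp i hi] : ∀ i ∈ p, ind (D i) = ind (A i)),
    Finset.prod_congr rfl (fun i hi => by rw [hDq i hi] : ∀ i ∈ q, ind (D i) = ind (B i)),
    Finset.prod_congr rfl (fun i hi => by rw [hDp i hi] :
      ∀ i ∈ p, μ[ind (D i) | m] = μ[ind (A i) | m]),
    Finset.prod_congr rfl (fun i hi => by rw [hDq i hi] :
      ∀ i ∈ q, μ[ind (D i) | m] = μ[ind (B i) | m])] at e1
  rw [ind_biInter, ind_biInter]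
  exact e1.trans (e2.symm.mul e3.symm)

theorem ICI.ci_finset (h : ICI μ f m) (hf : ∀ i, f i ≤ mΩ) (hm : m ≤ mΩ) {S T : Finset ι}
    (hST : Disjoint S T) : CI μ (⨆ i ∈ S, f i) (⨆ i ∈ T, f i) m :=
  h.ci hf hm (S := (S : Set ι)) (T := (T : Set ι)) (Finset.disjoint_coe.2 hST)

theorem ICI.ci_one (h : ICI μ f m) (hf : ∀ i, f i ≤ mΩ) (hm : m ≤ mΩ) {S : Set ι} {j : ι}
    (hj : j ∉ S) : CI μ (⨆ i ∈ S, f i) (f j) m := by
  have := h.ci hf hm (S := S) (T := {j}) (Set.disjoint_singleton_right.2 hj)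
  simpa using this

theorem ICI.ci_ne (h : ICI μ f m) (hf : ∀ i, f i ≤ mΩ) (hm : m ≤ mΩ) (j : ι) :
    CI μ (⨆ i ∈ {i | i ≠ j}, f i) (f j) m := h.ci_one hf hm (by simp)

theorem ici_iff_ci_finset (hf : ∀ i, f i ≤ mΩ) (hm : m ≤ mΩ) :
    ICI μ f m ↔ ∀ (S : Finset ι) (j : ι), j ∉ S → CI μ (⨆ i ∈ S, f i) (f j) m :=
  ⟨fun h _ _ hj => h.ci_one hf hm (S := _) (by simpa using hj), ICI.of_ci_finset hf hm⟩

/-- Product formula for bounded functions with values in `ℝ` or `ℂ`. -/
theorem ICI.condExp_prod {𝕜 : Type*} [RCLike 𝕜] (h : ICI μ f m) (hf : ∀ i, f i ≤ mΩ)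
    (hm : m ≤ mΩ) (S : Finset ι) {F : ι → Ω → 𝕜}
    (hF : ∀ i ∈ S, AEStronglyMeasurable[f i] (F i) μ) {C : ι → ℝ}
    (hC : ∀ i ∈ S, ∀ᵐ ω ∂μ, ‖F i ω‖ ≤ C i) :
    μ[∏ i ∈ S, F i | m] =ᵐ[μ] ∏ i ∈ S, μ[F i | m] := by
  classical
  induction S using Finset.induction_on with
  | empty =>
    simp only [Finset.prod_empty]
    exact (condExp_const hm (1 : 𝕜) (μ := μ)).eventuallyEq
  | insert j S hj ih =>
    have hFS := fun i hi => hF i (Finset.mem_insert_of_mem hi)
    have hCS := fun i hi => hC i (Finset.mem_insert_of_mem hi)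
    have hFj := hF j (Finset.mem_insert_self j S)
    have hCj := hC j (Finset.mem_insert_self j S)
    have h1 := (h.ci_one hf hm (S := (S : Set ι)) (j := j) (by simpa using hj)).condExp_bilin
      (biSup_le_of hf S) (hf j) hm (ContinuousLinearMap.mul ℝ 𝕜)
      (aestronglyMeasurable_prod_iSup S F hFS) (norm_prod_le_prod S F C hCS)
      (Integrable.of_bound (hFj.mono (hf j)) (C j) hCj)
      (hFj.mono le_sup_right)
    rw [Finset.prod_insert hj, Finset.prod_insert hj, mul_comm, mul_comm (μ[F j | m])]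
    refine h1.trans ?_
    filter_upwards [ih hFS hCS] with ω hω
    simp only [ContinuousLinearMap.mul_apply', Pi.mul_apply, hω]

/-- Disjoint blocks: sigma-algebras `g k` inside `m ⊔ ⨆ i ∈ B k, f i` (modulo null sets), with
pairwise disjoint `B k`, are mutually conditionally independent. -/
theorem ICI.blocks {g : κ → MeasurableSpace Ω} (h : ICI μ f m) (hf : ∀ i, f i ≤ mΩ)
    (hg : ∀ k, g k ≤ mΩ) (hm : m ≤ mΩ) (B : κ → Set ι)
    (hB : ∀ k l, k ≠ l → Disjoint (B k) (B l))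
    (hgB : ∀ k, AELe μ (g k) (m ⊔ ⨆ i ∈ B k, f i)) : ICI μ g m := by
  refine ICI.of_ci_finset hg hm fun S j hj => ?_
  have hd : Disjoint (⋃ k ∈ S, B k) (B j) := by
    rw [Set.disjoint_iUnion₂_left]
    intro k hk
    exact hB k j fun hkj => hj (hkj ▸ hk)
  have h1 := h.ci hf hm hd
  refine h1.mono_ae (biSup_le_of hf _) (biSup_le_of hf _) hm (hg j) ?_ (hgB j)
  refine AELe.iSup fun k => AELe.iSup fun hk => (hgB k).trans (AELe.of_le ?_)
  refine sup_le_sup_left (iSup₂_le fun i hi => ?_) m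
  exact le_iSup₂ (f := fun i (_ : i ∈ ⋃ k ∈ S, B k) => f i) i
    (Set.mem_biUnion (show k ∈ (S : Set κ) from hk) hi)

/-- Members of the family may be enlarged by the base and shrunk modulo null sets. -/
theorem ICI.mono_ae {g : ι → MeasurableSpace Ω} (h : ICI μ f m) (hf : ∀ i, f i ≤ mΩ)
    (hg : ∀ i, g i ≤ mΩ) (hm : m ≤ mΩ) (hgf : ∀ i, AELe μ (g i) (m ⊔ f i)) : ICI μ g m :=
  h.blocks hf hg hm (fun i => {i}) (fun i j hij => by simpa using hij)
    fun i => by simpa using hgf i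

/-- The base may be enlarged by pieces `g i ≤ m ⊔ f i` of the members. -/
theorem ICI.base_pieces {g : ι → MeasurableSpace Ω} (h : ICI μ f m) (hf : ∀ i, f i ≤ mΩ)
    (hm : m ≤ mΩ) (hg : ∀ i, g i ≤ m ⊔ f i) : ICI μ f (m ⊔ ⨆ i, g i) := by
  have hg' : ∀ i, g i ≤ mΩ := fun i => (hg i).trans (sup_le hm (hf i))
  refine ICI.of_ci_finset hf (sup_le hm (iSup_le hg')) fun S j hj => ?_
  have h1 := h.ci_ne hf hm j
  have h2 := h1.move (a := ⨆ i ∈ {i | i ≠ j}, g i) (b := g j) (biSup_le_of hf _) (hf j) hm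
    (by
      refine iSup₂_le fun i hi => (hg i).trans ?_
      exact sup_le_sup_left (le_iSup₂ (f := fun i (_ : i ∈ {i | i ≠ j}) => f i) i hi) m)
    (hg j)
  have e : m ⊔ (⨆ i ∈ {i | i ≠ j}, g i) ⊔ g j = m ⊔ ⨆ i, g i := by
    rw [sup_assoc]
    refine congrArg (m ⊔ ·) (le_antisymm ?_ ?_)
    · exact sup_le (iSup₂_le fun i _ => le_iSup g i) (le_iSup g j)
    · refine iSup_le fun i => ?_
      by_cases hij : i = j
      · rw [hij]; exact le_sup_right
      · exact (le_iSup₂ (f := fun i (_ : i ∈ {i | i ≠ j}) => g i) i hij).trans le_sup_left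
  rw [e] at h2
  refine h2.mono_left (iSup₂_le fun i hi => ?_)
  exact le_iSup₂ (f := fun i (_ : i ∈ {i | i ≠ j}) => f i) i (fun hij => hj (hij ▸ hi))

/-- The base may be enlarged by information which is conditionally independent of the family. -/
theorem ICI.base_sup (h : ICI μ f a) (hf : ∀ i, f i ≤ mΩ) (ha : a ≤ mΩ) (hb : b ≤ mΩ)
    (h' : CI μ (⨆ i, f i) b a) : ICI μ f (a ⊔ b) := by
  refine ICI.of_ci_finset hf (sup_le ha hb) fun S j hj => ?_
  have hS : ⨆ i ∈ S, f i ≤ mΩ := biSup_finset_le_of hf S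
  have h1 : CI μ (⨆ i ∈ S, f i) (f j) a :=
    h.ci_one hf ha (S := (S : Set ι)) (j := j) (by simpa using hj)
  have h2 : CI μ ((⨆ i ∈ S, f i) ⊔ f j) b a := h'.mono_left
    (sup_le (iSup₂_le fun i _ => le_iSup f i) (le_iSup f j))
  rw [sup_comm, ci_sup_left_iff (hf j) hS hb ha] at h2
  have h3 : CI μ (⨆ i ∈ S, f i) (f j ⊔ b) a := h1.contraction h2.2
  exact h3.weak_union (hf j) hb ha

/-- Mutual conditional independence given a larger base, where each member only depends on the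
smaller base. -/
theorem ICI.of_base_sup (h : ICI μ f (a ⊔ b)) (ha : a ≤ mΩ) (hb : b ≤ mΩ)
    (h' : ∀ i, CI μ (f i) b a) : ICI μ f a := by
  intro S s hs
  have hab : a ⊔ b ≤ mΩ := sup_le ha hb
  have e1 := h S s hs
  have e2 : ∏ i ∈ S, μ[ind (s i) | a ⊔ b] =ᵐ[μ] ∏ i ∈ S, μ[ind (s i) | a] := by
    have : ∀ᵐ ω ∂μ, ∀ i ∈ S, (μ[ind (s i) | a ⊔ b]) ω = (μ[ind (s i) | a]) ω :=
      (eventually_all_finset S).2 fun i hi => h' i _ (hs i hi)
    filter_upwards [this] with ω hω
    rw [Finset.prod_apply, Finset.prod_apply]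
    exact Finset.prod_congr rfl hω
  have e3 : StronglyMeasurable[a] (∏ i ∈ S, μ[ind (s i) | a]) :=
    Finset.stronglyMeasurable_prod (m := a) S fun i _ => stronglyMeasurable_condExp
  have e4 : Integrable (∏ i ∈ S, μ[ind (s i) | a]) μ := by
    refine (integrable_condExp (μ := μ) (m := a ⊔ b) (f := ∏ i ∈ S, ind (s i))).congr
      (e1.trans e2)
  calc μ[∏ i ∈ S, ind (s i) | a] =ᵐ[μ] μ[μ[∏ i ∈ S, ind (s i) | a ⊔ b] | a] :=
        (condExp_condExp_of_le le_sup_left hab).symm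
    _ =ᵐ[μ] μ[∏ i ∈ S, μ[ind (s i) | a] | a] := condExp_congr_ae (e1.trans e2)
    _ = ∏ i ∈ S, μ[ind (s i) | a] := condExp_of_stronglyMeasurable ha e3 e4

/-- The base may be replaced modulo null sets. -/
theorem ICI.congr_base (h : ICI μ f m) (hm : m ≤ mΩ) (ha : a ≤ mΩ)
    (hma : AELe μ m a) (ham : AELe μ a m) : ICI μ f a := by
  intro S s hs
  have e1 := h S s hs
  have e2 : ∏ i ∈ S, μ[ind (s i) | m] =ᵐ[μ] ∏ i ∈ S, μ[ind (s i) | a] := by
    have : ∀ᵐ ω ∂μ, ∀ i ∈ S, (μ[ind (s i) | m]) ω = (μ[ind (s i) | a]) ω :=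
      (eventually_all_finset S).2 fun i _ => condExp_congr_aeLe hma ham hm ha _
    filter_upwards [this] with ω hω
    rw [Finset.prod_apply, Finset.prod_apply]
    exact Finset.prod_congr rfl hω
  exact (condExp_congr_aeLe ham hma ha hm _).trans (e1.trans e2)

/-- Integral formula: if the `f i` (`i ∈ S`) are mutually conditionally independent given `m` and
`f i` depends on `m` only through `g i ≤ m`, then
`∫ H ∏ F i = ∫ H ∏ E[F i | g i]` for bounded `m`-measurable `H`. -/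
theorem ICI.integral_prod {𝕜 : Type*} [RCLike 𝕜] (h : ICI μ f m) (hf : ∀ i, f i ≤ mΩ)
    (hm : m ≤ mΩ) {g : ι → MeasurableSpace Ω} (hg : ∀ i, g i ≤ m)
    (hfg : ∀ i, CI μ (f i) m (g i)) (S : Finset ι) {F : ι → Ω → 𝕜}
    (hF : ∀ i ∈ S, AEStronglyMeasurable[f i] (F i) μ) {C : ι → ℝ}
    (hC : ∀ i ∈ S, ∀ᵐ ω ∂μ, ‖F i ω‖ ≤ C i) {H : Ω → 𝕜} (hH : AEStronglyMeasurable[m] H μ)
    {D : ℝ} (hD : ∀ᵐ ω ∂μ, ‖H ω‖ ≤ D) :
    ∫ ω, H ω * ∏ i ∈ S, F i ω ∂μ = ∫ ω, H ω * ∏ i ∈ S, (μ[F i | g i]) ω ∂μ := by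
  have e1 := h.condExp_prod hf hm S hF hC
  have e2 : ∏ i ∈ S, μ[F i | m] =ᵐ[μ] ∏ i ∈ S, μ[F i | g i] := by
    have : ∀ᵐ ω ∂μ, ∀ i ∈ S, (μ[F i | m]) ω = (μ[F i | g i]) ω := by
      refine (eventually_all_finset S).2 fun i hi => ?_
      have := (hfg i).condExp_eq (hf i) hm ((hg i).trans hm) (hF i hi)
      rwa [sup_eq_right.2 (hg i)] at this
    filter_upwards [this] with ω hω
    rw [Finset.prod_apply, Finset.prod_apply]
    exact Finset.prod_congr rfl hω
  have hprodm : AEStronglyMeasurable[mΩ] (∏ i ∈ S, F i) μ :=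
    (aestronglyMeasurable_prod_iSup S F hF).mono (biSup_finset_le_of hf S)
  have hb := norm_prod_le_prod S F C hC
  have hint : Integrable (∏ i ∈ S, F i) μ := Integrable.of_bound hprodm _ hb
  have hHm : AEStronglyMeasurable[mΩ] H μ := hH.mono hm
  have hint2 : Integrable (fun ω => H ω * (∏ i ∈ S, F i) ω) μ := by
    refine Integrable.of_bound (C := D * ∏ i ∈ S, C i) (hHm.mul hprodm) ?_
    filter_upwards [hb, hD] with ω h1 h2
    rw [norm_mul]
    exact mul_le_mul h2 h1 (norm_nonneg _) ((norm_nonneg _).trans h2)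
  have e3 : μ[fun ω => H ω * (∏ i ∈ S, F i) ω | m] =ᵐ[μ]
      fun ω => H ω * (μ[∏ i ∈ S, F i | m]) ω :=
    condExp_bilin_of_aestronglyMeasurable_left (ContinuousLinearMap.mul ℝ 𝕜) hH hint2 hint
  calc ∫ ω, H ω * ∏ i ∈ S, F i ω ∂μ = ∫ ω, H ω * (∏ i ∈ S, F i) ω ∂μ := by
        simp only [Finset.prod_apply]
    _ = ∫ ω, (μ[fun ω => H ω * (∏ i ∈ S, F i) ω | m]) ω ∂μ := (integral_condExp hm).symm
    _ = ∫ ω, H ω * ∏ i ∈ S, (μ[F i | g i]) ω ∂μ := by
        refine integral_congr_ae ?_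
        filter_upwards [e3, e1, e2] with ω h3 h1 h2
        rw [h3, h1, h2, Finset.prod_apply]

end Family

end Vale.Agent.P102.RM
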