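import Vale.Agent.P102.RM.AeMap

/-! Choice of two good base lines (P102, block CONST, helper41). -/

namespace Vale.Agent.P102.RM

open MeasureTheory ProbabilityTheory Filter

/-- if the law of `(p b₀, p' b₀)` is the product measure `l.prod l` and `Q b₀` holds for a.e.
`b₀`, `Good b` holds for a.e. `b` and `S` preserves `l`, then there are `b`, `c` with `b`, `c`,
`S b` good and such that both `(b, c)` and `(S b, c)` are realised by `b₀`s with `Q b₀`. -/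
theorem const_choice {B B₀ : Type*} [MeasurableSpace B] [StandardBorelSpace B]
    [MeasurableSpace B₀] [StandardBorelSpace B₀]
    {l : Measure B} [IsProbabilityMeasure l] {l₀ : Measure B₀} [IsProbabilityMeasure l₀]
    {S : B → B} (hS : MeasurePreserving S l l) {p p' : B₀ → B} (hp : Measurable p)
    (hp' : Measurable p') (hpp : l₀.map (fun b => (p b, p' b)) = l.prod l)
    {Good : B → Prop} (hG : ∀ᵐ b ∂l, Good b) {Q : B₀ → Prop} (hQ : ∀ᵐ b ∂l₀, Q b) :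
    ∃ b c, Good b ∧ Good c ∧ Good (S b) ∧ (∃ b₀, Q b₀ ∧ p b₀ = b ∧ p' b₀ = c) ∧
      (∃ b₀, Q b₀ ∧ p b₀ = S b ∧ p' b₀ = c) := by
  have h1 : ∀ᵐ z ∂(l₀.map (fun b => (p b, p' b))), ∃ b₀, Q b₀ ∧ p b₀ = z.1 ∧ p' b₀ = z.2 := by
    apply ae_map_of_ae (P := fun z : B × B => ∃ b₀, Q b₀ ∧ p b₀ = z.1 ∧ p' b₀ = z.2)
      (hp.prodMk hp')
    filter_upwards [hQ] with b hb
    exact ⟨b, hb, rfl, rfl⟩
  rw [hpp] at h1
  have h2 : ∀ᵐ z ∂(l.prod l), ∃ b₀, Q b₀ ∧ p b₀ = z.2 ∧ p' b₀ = z.1 := by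
    have hsw : MeasurePreserving (Prod.swap : B × B → B × B) (l.prod l) (l.prod l) :=
      Measure.measurePreserving_swap
    have := hsw.quasiMeasurePreserving.ae h1
    filter_upwards [this] with z hz
    exact hz
  have h3 := Measure.ae_ae_of_ae_prod h2
  obtain ⟨c, hc, hcG⟩ := (h3.and hG).exists
  have h4 : ∀ᵐ b ∂l, Good (S b) := hS.quasiMeasurePreserving.ae hG
  have h5 : ∀ᵐ b ∂l, ∃ b₀, Q b₀ ∧ p b₀ = S b ∧ p' b₀ = c :=
    hS.quasiMeasurePreserving.ae hc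
  obtain ⟨b, ⟨⟨hb1, hb2⟩, hb3⟩, hb4⟩ := (((hc.and hG).and h4).and h5).exists
  exact ⟨b, c, hb2, hcG, hb3, hb1, hb4⟩

end Vale.Agent.P102.RM
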