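import Vale.Agent.P102.RM.Skeleton
import Vale.Agent.P102.RM.Functor
import Vale.Agent.P102.RM.Fibre

/-! P102, block CONST, dynamic wrapper (helper41): the static transfer statement gives
`B_CONST`. -/

namespace Vale.Agent.P102.RM

open MeasureTheory ProbabilityTheory Filter

/-- Static transfer: a line law `K0` with `KI`, two factors with total characters and a common
map to `X'`. -/
def StaticPIso : Prop := ∀ (ι : Type) [Fintype ι] [DecidableEq ι], 3 ≤ Fintype.card ι →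
  ∀ (p q : ι), p ≠ q → ∀ (V0 V X' : Type) [MeasurableSpace V0] [StandardBorelSpace V0]
  [MeasurableSpace V] [StandardBorelSpace V] [MeasurableSpace X'] [StandardBorelSpace X']
  (K0 : Measure (ι → V0)) [IsProbabilityMeasure K0] (f1 f2 : V0 → V) (_ : Measurable f1)
  (_ : Measurable f2) (ξ : V → X') (_ : Measurable ξ), KI K0 →
  Total (K0.map (fun z i => f1 (z i))) p q → Total (K0.map (fun z i => f2 (z i))) p q →
  (∀ᵐ z ∂(K0.map (fun z => z q)), ξ (f1 z) = ξ (f2 z)) →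
  PIso (K0.map (fun z i => f1 (z i))) (K0.map (fun z i => f2 (z i))) p q ξ

theorem b_const_of (h : StaticPIso) : B_CONST := by
  intro X P ι _ _ r hc p q hpq F hT d
  have hT1 : ∀ᵐ η ∂(D r d.Y0).μ, Total (F.E.y.lineK r (fun i => d.v1.f (η i))) p q :=
    (d.v1.D r).mp.quasiMeasurePreserving.ae hT
  have hT2 : ∀ᵐ η ∂(D r d.Y0).μ, Total (F.E.y.lineK r (fun i => d.v2.f (η i))) p q :=
    (d.v2.D r).mp.quasiMeasurePreserving.ae hT
  have hx1 : ∀ᵐ z ∂(D r d.Z).μ, F.xi.f (d.f1.f (z q)) = F.xi.f (d.f2.f (z q)) :=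
    (evF r d.Z q).mp.quasiMeasurePreserving.ae d.hx
  have hmy : Measurable (fun (z : (D r d.Z).C) (i : ι) => d.y0.f (z i)) :=
    (d.y0.D r).mp.measurable
  have hx2 : ∀ᵐ η ∂((D r d.Z).μ.map (fun (z : (D r d.Z).C) (i : ι) => d.y0.f (z i))),
      ∀ᵐ z ∂(d.y0.lineK r η), F.xi.f (d.f1.f (z q)) = F.xi.f (d.f2.f (z q)) := by
    unfold Fac.lineK
    exact ae_condDistrib_of_ae (D r d.Z).μ hmy measurable_id
      (P := fun _ z => F.xi.f (d.f1.f (z q)) = F.xi.f (d.f2.f (z q))) hx1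
  rw [show (D r d.Z).μ.map (fun (z : (D r d.Z).C) (i : ι) => d.y0.f (z i)) = (D r d.Y0).μ from
    (d.y0.D r).mp.map_eq] at hx2
  filter_upwards [hT1, hT2, hx2, d.ki, d.m1, d.m2] with η h1 h2 h3 h4 h5 h6
  rw [← h5, ← h6]
  rw [← h5] at h1
  rw [← h6] at h2
  have hK0 : IsProbabilityMeasure (d.y0.lineK r η) := by
    unfold Fac.lineK; infer_instance
  refine h ι hc p q hpq d.Z.C F.E.V.C F.Xe.C (d.y0.lineK r η) d.f1.f d.f2.f d.f1.meas d.f2.meas
    F.xi.f F.xi.meas h4 h1 h2 ?_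
  have hs : MeasurableSet {z | F.xi.f (d.f1.f z) = F.xi.f (d.f2.f z)} :=
    measurableSet_eq_fun (F.xi.meas.comp d.f1.meas) (F.xi.meas.comp d.f2.meas)
  have hmq : Measurable (fun z : ι → d.Z.C => z q) := measurable_pi_apply q
  exact (ae_map_iff hmq.aemeasurable hs).2 h3

end Vale.Agent.P102.RM
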