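import Mathlib.Algebra.Polynomial.Laurent
import Mathlib.LinearAlgebra.Matrix.Determinant.Basic
import Mathlib.LinearAlgebra.Matrix.Adjugate
import Mathlib.NumberTheory.NumberField.InfinitePlace.Embeddings
import Mathlib.RingTheory.Ideal.AssociatedPrime.Basic
import Mathlib.RingTheory.Localization.Submodule
import Mathlib.GroupTheory.QuotientGroup.Basic
import Mathlib.GroupTheory.FiniteAbelian.Basic
import Mathlib.Data.Fin.Tuple.Sort
import Mathlib.Tactic

/-!
Elimination over the ring of Laurent polynomials: if fixed elements `g j` of an abelian group with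
an automorphism `τ` satisfy `∑ j, τ ^ (t j) (g j) = 0` for time vectors `t` with all pairwise
distances tending to infinity, then every `g j` is killed by some `(τ ^ N - 1) ^ M`.
-/

set_option linter.all false

namespace Vale.Agent.P102.RM.Elim

open Filter Topology LaurentPolynomial

/-- All gaps of the sequence of time vectors tend to infinity. -/
def Gaps {k : ℕ} (t : ℕ → Fin k → ℤ) : Prop :=
  ∀ i j : Fin k, i < j → Tendsto (fun n => t n j - t n i) atTop atTop

/-- Times with one dominating permutation. -/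
theorem exists_dominating {k : ℕ} (t : ℕ → Fin k → ℤ) (ht : Gaps t) (N : ℕ) (G : ℤ) :
    ∃ n : Fin k → ℕ, (∀ c, N ≤ n c) ∧ ∀ σ : Equiv.Perm (Fin k), σ ≠ 1 →
      (∑ c, t (n c) (σ c)) + G ≤ ∑ c, t (n c) c := by
  classical
  set D : ℕ → ℤ := fun x => ∑ i : Fin k, ∑ j : Fin k, |t x i - t x j| with hD
  have hD0 : ∀ x, 0 ≤ D x := fun x => Finset.sum_nonneg fun i _ => Finset.sum_nonneg fun j _ => abs_nonneg _
  have hDle : ∀ x (i j : Fin k), |t x i - t x j| ≤ D x := by
    intro x i j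
    calc |t x i - t x j| ≤ ∑ j : Fin k, |t x i - t x j| :=
          Finset.single_le_sum (f := fun j => |t x i - t x j|) (fun j _ => abs_nonneg _) (Finset.mem_univ j)
      _ ≤ D x := Finset.single_le_sum (f := fun i => ∑ j : Fin k, |t x i - t x j|)
          (fun i _ => Finset.sum_nonneg fun j _ => abs_nonneg _) (Finset.mem_univ i)
  obtain ⟨a, ha1, ha2⟩ := exists_seq_of_forall_finset_exists (fun y : ℕ => N ≤ y)
    (fun x y => ∀ i j : Fin k, i < j → (k : ℤ) * (|G| + D x) ≤ t y j - t y i) (by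
      intro s _
      have h1 : ∀ᶠ y in atTop, ∀ x ∈ s, ∀ i j : Fin k, i < j →
          (k : ℤ) * (|G| + D x) ≤ t y j - t y i := by
        rw [eventually_all_finset]
        intro x _
        rw [eventually_all]; intro i
        rw [eventually_all]; intro j
        by_cases hij : i < j
        · filter_upwards [(ht i j hij).eventually_ge_atTop ((k : ℤ) * (|G| + D x))] with n hn _ using hn
        · exact Eventually.of_forall fun n h => absurd h hij
      obtain ⟨y, hy1, hy2⟩ := (h1.and (eventually_ge_atTop N)).exists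
      exact ⟨y, hy2, hy1⟩)
  refine ⟨fun c => a c, fun c => ha1 c, fun σ hσ => ?_⟩
  have hne : (Finset.univ.filter fun c : Fin k => σ c ≠ c).Nonempty := by
    by_contra h
    apply hσ
    ext c
    by_contra hc
    exact h ⟨c, by simp only [Finset.mem_filter, Finset.mem_univ, true_and]; intro h2; exact hc (by rw [h2]; rfl)⟩
  set j := (Finset.univ.filter fun c : Fin k => σ c ≠ c).max' hne with hj
  have hj1 : σ j ≠ j := by
    have := Finset.max'_mem _ hne
    rw [← hj] at this
    simpa only [ne_eq, Finset.mem_filter, Finset.mem_univ, true_and] using this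
  have hj2 : ∀ c, j < c → σ c = c := by
    intro c hc
    by_contra h
    have h3 : c ∈ (Finset.univ.filter fun c : Fin k => σ c ≠ c) := by simp only [ne_eq, Finset.mem_filter, Finset.mem_univ, h, not_false_eq_true, and_self]
    have := Finset.le_max' _ c h3
    exact absurd hc (not_lt.2 this)
  have hj3 : σ j < j := by
    rcases lt_trichotomy (σ j) j with h | h | h
    · exact h
    · exact absurd h hj1
    · exact absurd (σ.injective (hj2 _ h)) hj1
  have hk : (0 : ℤ) < k := by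
    have : 0 < k := Nat.pos_of_ne_zero (by rintro rfl; exact Fin.elim0 j)
    exact_mod_cast this
  have hgap : (|G| + ∑ c ∈ Finset.univ.filter (fun c => c < j), D (a c)) ≤ t (a j) j - t (a j) (σ j) := by
    set g := t (a j) j - t (a j) (σ j) with hg
    have h1 : ∀ c : Fin k, c < j → (k : ℤ) * (|G| + D (a c)) ≤ g := by
      intro c hc
      exact ha2 c j (by exact_mod_cast hc) (σ j) j hj3
    have hmem : (Finset.univ.filter (fun c : Fin k => c < j)).Nonempty := ⟨σ j, by simp only [Finset.mem_filter, Finset.mem_univ, hj3, and_self]⟩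
    have h2 : ∑ c ∈ Finset.univ.filter (fun c : Fin k => c < j), (k : ℤ) * (|G| + D (a c)) ≤
        (Finset.univ.filter (fun c : Fin k => c < j)).card • g :=
      Finset.sum_le_card_nsmul _ _ _ fun c hc => h1 c (by simpa using hc)
    have hg0 : 0 ≤ g := by
      have := h1 _ hj3
      have h0 : 0 ≤ (k : ℤ) * (|G| + D (a (σ j))) := by
        have := hD0 (a (σ j)); (clear * - hk; positivity)
      linarith only [this, h0]
    have hcard : ((Finset.univ.filter (fun c : Fin k => c < j)).card : ℤ) ≤ k := by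
      have := Finset.card_le_univ (Finset.univ.filter (fun c : Fin k => c < j))
      rw [Fintype.card_fin] at this
      exact_mod_cast this
    have h3 : (k : ℤ) * ∑ c ∈ Finset.univ.filter (fun c : Fin k => c < j), (|G| + D (a c)) ≤ k * g := by
      rw [Finset.mul_sum]
      refine h2.trans ?_
      rw [nsmul_eq_mul]
      exact mul_le_mul_of_nonneg_right hcard hg0
    have h4 : ∑ c ∈ Finset.univ.filter (fun c : Fin k => c < j), (|G| + D (a c)) ≤ g :=
      le_of_mul_le_mul_left h3 hk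
    refine le_trans ?_ h4
    rw [Finset.sum_add_distrib]
    gcongr
    rw [Finset.sum_const, nsmul_eq_mul]
    have : (1 : ℤ) ≤ ((Finset.univ.filter (fun c : Fin k => c < j)).card : ℤ) := by
      exact_mod_cast hmem.card_pos
    nlinarith only [this, abs_nonneg G]
  have hsum : ∑ c : Fin k, (t (a c) c - t (a c) (σ c)) ≥
      (t (a j) j - t (a j) (σ j)) - ∑ c ∈ Finset.univ.filter (fun c => c < j), D (a c) := by
    rw [← Finset.add_sum_erase Finset.univ _ (Finset.mem_univ j), sub_eq_add_neg]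
    refine add_le_add le_rfl ?_
    rw [← Finset.sum_neg_distrib]
    have hsub : Finset.univ.filter (fun c : Fin k => c < j) ⊆ Finset.univ.erase j := by
      intro c hc
      simp only [Finset.mem_filter, Finset.mem_univ, true_and] at hc
      simp only [Finset.mem_erase, ne_eq, hc.ne, not_false_eq_true, Finset.mem_univ, and_self]
    rw [← Finset.sum_sdiff hsub]
    have h0 : ∑ x ∈ Finset.univ.erase j \ Finset.univ.filter (fun c : Fin k => c < j),
        (t (a x) x - t (a x) (σ x)) = 0 := by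
      refine Finset.sum_eq_zero fun c hc => ?_
      simp only [Finset.mem_sdiff, Finset.mem_erase, Finset.mem_univ, and_true, Finset.mem_filter,
        true_and, not_lt] at hc
      rw [hj2 c (lt_of_le_of_ne hc.2 (Ne.symm hc.1)), sub_self]
    rw [h0, zero_add]
    refine Finset.sum_le_sum fun c _ => ?_
    have := neg_abs_le (t (a c) c - t (a c) (σ c))
    have h2 := hDle (a c) c (σ c)
    linarith only [this, h2]
  rw [Finset.sum_sub_distrib] at hsum
  have := le_abs_self G
  simp only at hsum ⊢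
  linarith only [hgap, hsum, this]

/-- the matrix of powers of a unit -/
def powMat {k : ℕ} {R : Type*} [DivInvMonoid R] (z : R) (t : ℕ → Fin k → ℤ) (n : Fin k → ℕ) :
    Matrix (Fin k) (Fin k) R := Matrix.of fun r c => z ^ (t (n c) r)

theorem det_powMat {k : ℕ} {F : Type*} [Field F] (z : F) (hz : z ≠ 0) (t : ℕ → Fin k → ℤ)
    (n : Fin k → ℕ) :
    (powMat z t n).det = ∑ σ : Equiv.Perm (Fin k), ((Equiv.Perm.sign σ : ℤ) : F) *
      z ^ (∑ c, t (n c) (σ c)) := by
  rw [Matrix.det_apply']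
  refine Finset.sum_congr rfl fun σ _ => ?_
  congr 1
  simp only [powMat, Matrix.of_apply]
  have : ∀ s : Finset (Fin k), ∏ c ∈ s, z ^ (t (n c) (σ c)) = z ^ (∑ c ∈ s, t (n c) (σ c)) := by
    intro s
    classical
    induction s using Finset.induction_on with
    | empty => simp
    | insert a s ha ih => rw [Finset.prod_insert ha, Finset.sum_insert ha, zpow_add₀ hz, ih]
  exact this _

theorem norm_le_one_of_det {k : ℕ} (t : ℕ → Fin k → ℤ) (ht : Gaps t) (N : ℕ) (z : ℂ)
    (hz : z ≠ 0) (h : ∀ n : Fin k → ℕ, (∀ c, N ≤ n c) → (powMat z t n).det = 0) : ‖z‖ ≤ 1 := by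
  classical
  by_contra hlt
  push Not at hlt
  set K : ℝ := (Fintype.card (Equiv.Perm (Fin k)) : ℝ) with hK
  obtain ⟨G, hG⟩ := pow_unbounded_of_one_lt K hlt
  obtain ⟨n, hn, hdom⟩ := exists_dominating t ht N G
  have h0 := h n hn
  rw [det_powMat z hz, ← Finset.add_sum_erase Finset.univ _ (Finset.mem_univ (1 : Equiv.Perm (Fin k)))] at h0
  simp only [Equiv.Perm.sign_one, Units.val_one, Int.cast_one, Equiv.Perm.coe_one, id_eq, one_mul] at h0
  have h1 : ‖z ^ (∑ c, t (n c) c)‖ = ‖∑ σ ∈ Finset.univ.erase (1 : Equiv.Perm (Fin k)),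
      ((Equiv.Perm.sign σ : ℤ) : ℂ) * z ^ (∑ c, t (n c) (σ c))‖ := by
    rw [eq_neg_of_add_eq_zero_left h0, norm_neg]
  have hzpos : 0 < ‖z‖ := by linarith only [hlt]
  have h2 : ‖∑ σ ∈ Finset.univ.erase (1 : Equiv.Perm (Fin k)),
      ((Equiv.Perm.sign σ : ℤ) : ℂ) * z ^ (∑ c, t (n c) (σ c))‖ ≤
      K * ‖z‖ ^ ((∑ c, t (n c) c) - G) := by
    refine (norm_sum_le _ _).trans ?_
    have h3 : ∀ σ ∈ Finset.univ.erase (1 : Equiv.Perm (Fin k)),
        ‖((Equiv.Perm.sign σ : ℤ) : ℂ) * z ^ (∑ c, t (n c) (σ c))‖ ≤ ‖z‖ ^ ((∑ c, t (n c) c) - (G : ℤ)) := by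
      intro σ hσ
      have hσ1 : σ ≠ 1 := Finset.ne_of_mem_erase hσ
      rw [norm_mul, norm_zpow]
      have hs : ‖((Equiv.Perm.sign σ : ℤ) : ℂ)‖ = 1 := by
        rcases Int.units_eq_one_or (Equiv.Perm.sign σ) with h | h <;> simp only [h, Units.val_neg, Units.val_one, Int.reduceNeg, Int.cast_neg, Int.cast_one, norm_neg, norm_one]
      rw [hs, one_mul]
      have := hdom σ hσ1
      exact zpow_le_zpow_right₀ hlt.le (by linarith only [this])
    refine (Finset.sum_le_card_nsmul _ _ _ h3).trans ?_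
    rw [nsmul_eq_mul]
    have hcard : (((Finset.univ.erase (1 : Equiv.Perm (Fin k))).card : ℕ) : ℝ) ≤ K := by
      rw [hK]
      exact_mod_cast Finset.card_le_univ _
    have : 0 ≤ ‖z‖ ^ ((∑ c, t (n c) c) - (G : ℤ)) := by positivity
    exact mul_le_mul_of_nonneg_right hcard this
  rw [← h1, norm_zpow, zpow_sub₀ hzpos.ne', zpow_natCast] at h2
  have h4 : 0 < ‖z‖ ^ (∑ c, t (n c) c) := by positivity
  have h5 : K * (‖z‖ ^ (∑ c, t (n c) c) / ‖z‖ ^ G) < ‖z‖ ^ (∑ c, t (n c) c) := by
    rw [← mul_div_assoc, div_lt_iff₀ (by positivity), mul_comm]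
    exact mul_lt_mul_of_pos_left hG h4
  linarith only [h2, h5]

theorem norm_eq_one_of_det {k : ℕ} (t : ℕ → Fin k → ℤ) (ht : Gaps t) (N : ℕ) (z : ℂ)
    (hz : z ≠ 0) (h : ∀ n : Fin k → ℕ, (∀ c, N ≤ n c) → (powMat z t n).det = 0) : ‖z‖ = 1 := by
  refine le_antisymm (norm_le_one_of_det t ht N z hz h) ?_
  have ht' : Gaps (fun n i => - t n (Fin.rev i)) := by
    intro i j hij
    have := ht (Fin.rev j) (Fin.rev i) (Fin.rev_lt_rev.2 hij)
    refine this.congr fun n => ?_
    ring
  have h2 := norm_le_one_of_det (fun n i => - t n (Fin.rev i)) ht' N z⁻¹ (inv_ne_zero hz) ?_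
  · rw [norm_inv] at h2
    exact (inv_le_one₀ (norm_pos_iff.2 hz)).1 h2
  · intro n hn
    have e : powMat z⁻¹ (fun n i => - t n (Fin.rev i)) n =
        (powMat z t n).submatrix (Fin.revPerm : Equiv.Perm (Fin k)) id := by
      ext r c
      simp [powMat]
    rw [e, Matrix.det_permute, h n hn, mul_zero]

theorem isIntegral_of_det {k : ℕ} (t : ℕ → Fin k → ℤ) (ht : Gaps t) (N : ℕ) {F : Type*} [Field F]
    (z : F) (hz : z ≠ 0) (h : ∀ n : Fin k → ℕ, (∀ c, N ≤ n c) → (powMat z t n).det = 0) :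
    IsIntegral ℤ z := by
  classical
  obtain ⟨n, hn, hdom⟩ := exists_dominating t ht N 1
  have h0 := h n hn
  rw [det_powMat z hz, ← Finset.add_sum_erase Finset.univ _ (Finset.mem_univ (1 : Equiv.Perm (Fin k)))] at h0
  simp only [Equiv.Perm.sign_one, Units.val_one, Int.cast_one, Equiv.Perm.coe_one, id_eq, one_mul] at h0
  set E : ℤ := ∑ c, t (n c) c with hE
  set e : Equiv.Perm (Fin k) → ℤ := fun σ => ∑ c, t (n c) (σ c) with he
  set L : ℕ := ∑ σ : Equiv.Perm (Fin k), (E - e σ).toNat with hL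
  have hLe : ∀ σ, σ ≠ 1 → E - e σ ≤ L := by
    intro σ _
    have h1 : (E - e σ).toNat ≤ L :=
      Finset.single_le_sum (f := fun σ => (E - e σ).toNat) (fun _ _ => Nat.zero_le _) (Finset.mem_univ σ)
    have h2 := Int.self_le_toNat (E - e σ)
    have h3 : (((E - e σ).toNat : ℕ) : ℤ) ≤ (L : ℤ) := by exact_mod_cast h1
    linarith only [h1, h2]
  set q : Polynomial ℤ := ∑ σ ∈ Finset.univ.erase (1 : Equiv.Perm (Fin k)),
    Polynomial.C (Equiv.Perm.sign σ : ℤ) * Polynomial.X ^ ((L : ℤ) - (E - e σ)).toNat with hq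
  have hqdeg : q.degree < L := by
    rw [← Polynomial.mem_degreeLT]
    refine Submodule.sum_mem _ fun σ hσ => ?_
    have hσ1 : σ ≠ 1 := Finset.ne_of_mem_erase hσ
    rw [Polynomial.mem_degreeLT]
    refine lt_of_le_of_lt (Polynomial.degree_C_mul_X_pow_le _ _) ?_
    have h1 := hdom σ hσ1
    have h2 := hLe σ hσ1
    have h3 : ((L : ℤ) - (E - e σ)).toNat < L := by
      have : ((L : ℤ) - (E - e σ)) < L := by
        simp only [he, hE] at h1 ⊢
        linarith only [h1]
      omega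
    exact_mod_cast h3
  refine ⟨Polynomial.X ^ L + q, Polynomial.monic_X_pow_add hqdeg, ?_⟩
  rw [Polynomial.eval₂_add, Polynomial.eval₂_pow, Polynomial.eval₂_X, hq, Polynomial.eval₂_finsetSum]
  have h6 : z ^ L = z ^ ((L : ℤ) - E) * z ^ E := by
    rw [← zpow_add₀ hz, sub_add_cancel, zpow_natCast]
  have h7 : ∑ σ ∈ Finset.univ.erase (1 : Equiv.Perm (Fin k)),
      Polynomial.eval₂ (algebraMap ℤ F) z (Polynomial.C (Equiv.Perm.sign σ : ℤ) *
        Polynomial.X ^ ((L : ℤ) - (E - e σ)).toNat) =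
      z ^ ((L : ℤ) - E) * ∑ σ ∈ Finset.univ.erase (1 : Equiv.Perm (Fin k)),
        ((Equiv.Perm.sign σ : ℤ) : F) * z ^ (e σ) := by
    rw [Finset.mul_sum]
    refine Finset.sum_congr rfl fun σ hσ => ?_
    have hσ1 : σ ≠ 1 := Finset.ne_of_mem_erase hσ
    have h2 := hLe σ hσ1
    rw [Polynomial.eval₂_mul, Polynomial.eval₂_C, Polynomial.eval₂_pow, Polynomial.eval₂_X]
    have h8 : z ^ ((L : ℤ) - (E - e σ)).toNat = z ^ ((L : ℤ) - E) * z ^ (e σ) := by
      rw [← zpow_add₀ hz, ← zpow_natCast, Int.toNat_of_nonneg (by linarith only [h2])]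
      congr 1; ring
    rw [h8]
    simp only [algebraMap_int_eq, eq_intCast]
    ring
  rw [h7, h6, ← mul_add, h0, mul_zero]

theorem map_powMat {k : ℕ} {F K : Type*} [Field F] [Field K] (φ : F →+* K) (z : F)
    (t : ℕ → Fin k → ℤ) (n : Fin k → ℕ) :
    (powMat (φ z) t n).det = φ (powMat z t n).det := by
  rw [RingHom.map_det]
  congr 1
  ext r c
  simp [powMat]

theorem exists_pow_eq_one_of_det {k : ℕ} (t : ℕ → Fin k → ℤ) (ht : Gaps t) (N : ℕ) {F : Type*}
    [Field F] (z : F) (hz : z ≠ 0)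
    (h : ∀ n : Fin k → ℕ, (∀ c, N ≤ n c) → (powMat z t n).det = 0) :
    ∃ m : ℕ, 0 < m ∧ z ^ m = 1 := by
  have hint : IsIntegral ℤ z := isIntegral_of_det t ht N z hz h
  obtain ⟨p, hp⟩ := CharP.exists F
  rcases Nat.eq_zero_or_pos p with rfl | hp0
  · have : CharZero F := CharP.charP_to_charZero F
    let _ : Algebra ℚ F := DivisionRing.toRatAlgebra
    have hintQ : IsIntegral ℚ z := hint.tower_top
    have : FiniteDimensional ℚ (IntermediateField.adjoin ℚ {z}) :=
      IntermediateField.adjoin.finiteDimensional hintQ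
    have : NumberField (IntermediateField.adjoin ℚ {z}) := ⟨⟩
    set w : IntermediateField.adjoin ℚ {z} := IntermediateField.AdjoinSimple.gen ℚ z with hw
    have hwz : algebraMap (IntermediateField.adjoin ℚ {z}) F w = z :=
      IntermediateField.AdjoinSimple.algebraMap_gen ℚ z
    have hw0 : w ≠ 0 := by
      intro h0; apply hz; rw [← hwz, h0, map_zero]
    have hdet : ∀ n : Fin k → ℕ, (∀ c, N ≤ n c) → (powMat w t n).det = 0 := by
      intro n hn
      have h1 := map_powMat (algebraMap (IntermediateField.adjoin ℚ {z}) F) w t n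
      rw [hwz, h n hn] at h1
      exact (map_eq_zero _).1 h1.symm
    have hwint : IsIntegral ℤ w := isIntegral_of_det t ht N w hw0 hdet
    obtain ⟨m, hm0, hm⟩ := NumberField.Embeddings.pow_eq_one_of_norm_eq_one
      (IntermediateField.adjoin ℚ {z}) ℂ hwint (fun φ => by
        refine norm_eq_one_of_det t ht N (φ w) ((map_ne_zero φ).2 hw0) fun n hn => ?_
        rw [map_powMat, hdet n hn, map_zero])
    refine ⟨m, hm0, ?_⟩
    rw [← hwz, ← map_pow, hm, map_one]
  · have : Module.Finite ℤ (Algebra.adjoin ℤ {z}) :=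
      Module.Finite.iff_fg.2 hint.fg_adjoin_singleton
    have htors : Module.IsTorsion ℤ (Algebra.adjoin ℤ {z}) := by
      intro x
      refine ⟨⟨(p : ℤ), mem_nonZeroDivisors_of_ne_zero (by exact_mod_cast hp0.ne')⟩, ?_⟩
      apply Subtype.ext
      simp [Submonoid.smul_def]
    have : Finite (Algebra.adjoin ℤ {z}) := Module.finite_of_fg_torsion _ htors
    set w : Algebra.adjoin ℤ {z} := ⟨z, Algebra.self_mem_adjoin_singleton ℤ z⟩ with hw
    obtain ⟨a, b, hab, habe⟩ := Finite.exists_ne_map_eq_of_infinite (fun n : ℕ => w ^ n)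
    have key : ∀ a b : ℕ, a < b → w ^ a = w ^ b → ∃ m : ℕ, 0 < m ∧ z ^ m = 1 := by
      intro a b hlt he
      refine ⟨b - a, Nat.sub_pos_of_lt hlt, ?_⟩
      have h1 : z ^ a = z ^ b := by
        have := congrArg (fun x : Algebra.adjoin ℤ {z} => (x : F)) he
        simpa only [hw, SubmonoidClass.mk_pow] using this
      have h2 : z ^ b = z ^ (b - a) * z ^ a := by
        rw [← pow_add, Nat.sub_add_cancel hlt.le]
      rw [h2] at h1
      have h3 : z ^ a ≠ 0 := pow_ne_zero _ hz
      exact (mul_right_cancel₀ h3 (by rw [one_mul]; exact h1)).symm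
    rcases lt_or_gt_of_ne hab with h1 | h1
    · exact key a b h1 habe
    · exact key b a h1 habe.symm

/-- The matrix of monomials. -/
noncomputable def monMat {k : ℕ} (t : ℕ → Fin k → ℤ) (n : Fin k → ℕ) :
    Matrix (Fin k) (Fin k) (LaurentPolynomial ℤ) := Matrix.of fun r c => LaurentPolynomial.T (t (n c) r)

theorem noeth : IsNoetherianRing (LaurentPolynomial ℤ) :=
  IsLocalization.isNoetherianRing (Submonoid.powers (Polynomial.X : Polynomial ℤ)) _ inferInstance

theorem algebra_main {k : ℕ} (t : ℕ → Fin k → ℤ) (ht : Gaps t)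
    (I : Ideal (LaurentPolynomial ℤ)) (N : ℕ)
    (hN : ∀ n : Fin k → ℕ, (∀ c, N ≤ n c) → (monMat t n).det ∈ I)
    (hsat : ∀ m : ℕ, 0 < m → ∀ p : LaurentPolynomial ℤ,
      (LaurentPolynomial.T (m : ℤ) - 1) * p ∈ I → p ∈ I) :
    (1 : LaurentPolynomial ℤ) ∈ I := by
  by_contra h1
  have := noeth
  have hne : (Ideal.Quotient.mk I 1) ≠ 0 := by
    rw [Ne, Ideal.Quotient.eq_zero_iff_mem]; exact h1
  obtain ⟨P, hP, hle⟩ := exists_le_isAssociatedPrime_of_isNoetherianRing (LaurentPolynomial ℤ)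
    (M := LaurentPolynomial ℤ ⧸ I) (Ideal.Quotient.mk I 1) hne
  rw [isAssociatedPrime_iff] at hP
  obtain ⟨hPprime, y, hy⟩ := hP
  obtain ⟨p, rfl⟩ := Ideal.Quotient.mk_surjective y
  have hmem : ∀ q : LaurentPolynomial ℤ, q ∈ P ↔ q * p ∈ I := by
    intro q
    rw [hy, Submodule.mem_colon_singleton]
    rw [← Ideal.Quotient.mk_eq_mk, ← Submodule.Quotient.mk_smul, Submodule.mem_bot, Submodule.Quotient.mk_eq_zero]
    rfl
  have hp : p ∉ I := by
    intro hpI
    apply hPprime.ne_top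
    rw [Ideal.eq_top_iff_one, hmem, one_mul]
    exact hpI
  have hIP : ∀ q ∈ I, q ∈ P := fun q hq => (hmem q).2 (I.mul_mem_right p hq)
  -- the field of fractions
  have := hPprime
  let D := LaurentPolynomial ℤ ⧸ P
  let F := FractionRing D
  let φ : LaurentPolynomial ℤ →+* F := (algebraMap D F).comp (Ideal.Quotient.mk P)
  have hφ : ∀ q, φ q = 0 ↔ q ∈ P := by
    intro q
    simp only [φ, RingHom.comp_apply]
    rw [FaithfulSMul.algebraMap_eq_zero_iff D F, Ideal.Quotient.eq_zero_iff_mem]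
  set z : F := φ (LaurentPolynomial.T 1) with hzdef
  have hTunit : ∀ a : ℤ, φ (LaurentPolynomial.T a) * φ (LaurentPolynomial.T (-a)) = 1 := by
    intro a
    rw [← map_mul, ← LaurentPolynomial.T_add, add_neg_cancel, LaurentPolynomial.T_zero, map_one]
  have hz0 : z ≠ 0 := left_ne_zero_of_mul_eq_one (hTunit 1)
  have hpow : ∀ a : ℤ, φ (LaurentPolynomial.T a) = z ^ a := by
    have hnat : ∀ n : ℕ, φ (LaurentPolynomial.T (n : ℤ)) = z ^ (n : ℤ) := by
      intro n
      rw [hzdef, zpow_natCast, ← map_pow, LaurentPolynomial.T_pow, mul_one]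
    intro a
    rcases a with n | n
    · exact hnat n
    · have h2 := hTunit ((n + 1 : ℕ) : ℤ)
      have h4 : Int.negSucc n = -((n + 1 : ℕ) : ℤ) := rfl
      rw [hnat] at h2
      rw [h4, zpow_neg]
      exact eq_inv_of_mul_eq_one_right h2
  have hdet : ∀ n : Fin k → ℕ, (∀ c, N ≤ n c) → (powMat z t n).det = 0 := by
    intro n hn
    have h2 := (hφ _).2 (hIP _ (hN n hn))
    rw [RingHom.map_det] at h2
    convert h2 using 2
    ext r c
    simp only [powMat, monMat, Matrix.of_apply, RingHom.mapMatrix_apply, Matrix.map_apply]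
    rw [hpow]
  obtain ⟨m, hm0, hm⟩ := exists_pow_eq_one_of_det t ht N z hz0 hdet
  have h3 : LaurentPolynomial.T (m : ℤ) - 1 ∈ P := by
    rw [← hφ, map_sub, map_one, hpow, zpow_natCast, hm, sub_self]
  exact hp (hsat m hm0 p ((hmem _).1 h3))

/-! ### The module structure given by an automorphism -/

variable {Γ : Type*} [AddCommGroup Γ]

/-- The powers of an automorphism as endomorphisms. -/
def powEnd (τ : AddAut Γ) : Multiplicative ℤ →* Module.End ℤ Γ where
  toFun m := ((Multiplicative.toAdd m • τ : AddAut Γ) : Γ →+ Γ).toIntLinearMap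
  map_one' := by
    ext x
    show ((Multiplicative.toAdd (1 : Multiplicative ℤ)) • τ) x = x
    rw [toAdd_one, zero_zsmul]
    rfl
  map_mul' a b := by
    ext x
    show ((Multiplicative.toAdd (a * b)) • τ) x =
      (Multiplicative.toAdd a • τ) ((Multiplicative.toAdd b • τ) x)
    rw [toAdd_mul, add_zsmul]
    rfl

/-- The action of Laurent polynomials. -/
noncomputable def rho (τ : AddAut Γ) : LaurentPolynomial ℤ →ₐ[ℤ] Module.End ℤ Γ :=
  AddMonoidAlgebra.lift _ _ _ (powEnd τ)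

theorem rho_T (τ : AddAut Γ) (m : ℤ) (x : Γ) : rho τ (LaurentPolynomial.T m) x = (m • τ) x := by
  unfold rho LaurentPolynomial.T
  rw [AddMonoidAlgebra.lift_single, one_smul]
  rfl

theorem rho_mul (τ : AddAut Γ) (p q : LaurentPolynomial ℤ) (x : Γ) :
    rho τ (p * q) x = rho τ p (rho τ q x) := by
  rw [map_mul, Module.End.mul_apply]

theorem rho_comm (τ : AddAut Γ) (p q : LaurentPolynomial ℤ) (x : Γ) :
    rho τ p (rho τ q x) = rho τ q (rho τ p x) := by
  rw [← rho_mul, mul_comm, rho_mul]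

/-- The endomorphism `τ ^ N - 1`. -/
def dEnd (τ : AddAut Γ) (N : ℕ) : Γ → Γ := fun x => (N • τ) x - x

theorem dEnd_eq (τ : AddAut Γ) (N : ℕ) (x : Γ) :
    dEnd τ N x = rho τ (LaurentPolynomial.T (N : ℤ) - 1) x := by
  rw [map_sub, map_one, LinearMap.sub_apply, rho_T, Module.End.one_apply, natCast_zsmul]
  rfl

theorem dEnd_iterate (τ : AddAut Γ) (N M : ℕ) (x : Γ) :
    (dEnd τ N)^[M] x = rho τ ((LaurentPolynomial.T (N : ℤ) - 1) ^ M) x := by
  induction M generalizing x with
  | zero => simp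
  | succ M ih =>
    rw [Function.iterate_succ_apply, ih, dEnd_eq, ← rho_mul, pow_succ]

theorem T_sub_one_dvd (N K : ℕ) :
    (LaurentPolynomial.T (N : ℤ) - 1 : LaurentPolynomial ℤ) ∣
      LaurentPolynomial.T ((N * K : ℕ) : ℤ) - 1 := by
  have h : (LaurentPolynomial.T ((N * K : ℕ) : ℤ) : LaurentPolynomial ℤ) =
      (LaurentPolynomial.T (N : ℤ)) ^ K := by
    rw [LaurentPolynomial.T_pow]
    congr 1
    push_cast
    ring
  rw [h]
  simpa using sub_dvd_pow_sub_pow (LaurentPolynomial.T (N : ℤ) : LaurentPolynomial ℤ) 1 K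

/-- The ideal of the Laurent polynomials `p` such that `p • x` is killed by some
`(τ ^ N - 1) ^ M`, `N ≥ 1`. -/
noncomputable def killIdeal (τ : AddAut Γ) (x : Γ) : Ideal (LaurentPolynomial ℤ) where
  carrier := {p | ∃ N : ℕ, 0 < N ∧ ∃ M : ℕ,
    rho τ ((LaurentPolynomial.T (N : ℤ) - 1) ^ M * p) x = 0}
  zero_mem' := ⟨1, one_pos, 0, by rw [mul_zero, map_zero, LinearMap.zero_apply]⟩
  add_mem' := by
    rintro p q ⟨N, hN, M, hp⟩ ⟨N', hN', M', hq⟩
    refine ⟨N * N', Nat.mul_pos hN hN', M + M', ?_⟩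
    obtain ⟨a, ha⟩ := T_sub_one_dvd N N'
    obtain ⟨b, hb⟩ := T_sub_one_dvd N' N
    rw [mul_comm N' N] at hb
    generalize (LaurentPolynomial.T ((N * N' : ℕ) : ℤ) - 1 : LaurentPolynomial ℤ) = A at ha hb ⊢
    have h1 : rho τ (A ^ (M + M') * p) x = 0 := by
      have e : A ^ (M + M') * p =
          (A ^ M' * a ^ M) * ((LaurentPolynomial.T (N : ℤ) - 1) ^ M * p) := by
        have e1 : A ^ M = (LaurentPolynomial.T (N : ℤ) - 1) ^ M * a ^ M := by
          rw [ha, mul_pow]
        rw [pow_add, e1]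
        ring
      rw [e, rho_mul, hp, map_zero]
    have h2 : rho τ (A ^ (M + M') * q) x = 0 := by
      have e : A ^ (M + M') * q =
          (A ^ M * b ^ M') * ((LaurentPolynomial.T (N' : ℤ) - 1) ^ M' * q) := by
        have e1 : A ^ M' = (LaurentPolynomial.T (N' : ℤ) - 1) ^ M' * b ^ M' := by
          rw [hb, mul_pow]
        rw [pow_add, e1]
        ring
      rw [e, rho_mul, hq, map_zero]
    rw [mul_add, map_add, LinearMap.add_apply, h1, h2, add_zero]
  smul_mem' := by
    rintro c p ⟨N, hN, M, hp⟩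
    refine ⟨N, hN, M, ?_⟩
    rw [smul_eq_mul, mul_left_comm, rho_mul, hp, map_zero]

theorem killIdeal_sat (τ : AddAut Γ) (x : Γ) (m : ℕ) (hm : 0 < m) (p : LaurentPolynomial ℤ)
    (h : (LaurentPolynomial.T (m : ℤ) - 1) * p ∈ killIdeal τ x) : p ∈ killIdeal τ x := by
  obtain ⟨N, hN, M, hp⟩ := h
  refine ⟨N * m, Nat.mul_pos hN hm, M + 1, ?_⟩
  obtain ⟨a, ha⟩ := T_sub_one_dvd N m
  obtain ⟨b, hb⟩ := T_sub_one_dvd m N
  rw [mul_comm m N] at hb
  generalize (LaurentPolynomial.T ((N * m : ℕ) : ℤ) - 1 : LaurentPolynomial ℤ) = A at ha hb ⊢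
  have e : A ^ (M + 1) * p = (a ^ M * b) * ((LaurentPolynomial.T (N : ℤ) - 1) ^ M *
        ((LaurentPolynomial.T (m : ℤ) - 1) * p)) := by
    have e1 : A ^ M = (LaurentPolynomial.T (N : ℤ) - 1) ^ M * a ^ M := by
      rw [ha, mul_pow]
    have e2 : A ^ (M + 1) = A ^ M * ((LaurentPolynomial.T (m : ℤ) - 1) * b) := by
      rw [pow_succ, ← hb]
    rw [e2, e1]
    ring
  rw [e, rho_mul, hp, map_zero]

/-- Cramer's rule: the determinants kill every `g j`. -/
theorem det_kill {k : ℕ} (τ : AddAut Γ) (g : Fin k → Γ) (t : ℕ → Fin k → ℤ) (n : Fin k → ℕ)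
    (h : ∀ c, ∑ j, (t (n c) j • τ) (g j) = 0) (j : Fin k) :
    rho τ (monMat t n).det (g j) = 0 := by
  classical
  -- `A r c = T (t (n c) r)`; the relations say `∑ r, A r c • g r = 0`
  have hrel : ∀ c, ∑ r, rho τ (monMat t n r c) (g r) = 0 := by
    intro c
    rw [← h c]
    refine Finset.sum_congr rfl fun r _ => ?_
    rw [monMat, Matrix.of_apply, rho_T]
  have hadj : ∀ r, ∑ c, (monMat t n) r c * (monMat t n).adjugate c j =
      if r = j then (monMat t n).det else 0 := by
    intro r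
    have := congrFun (congrFun (Matrix.mul_adjugate (monMat t n)) r) j
    rw [Matrix.mul_apply, Matrix.smul_apply, Matrix.one_apply, smul_eq_mul] at this
    rw [this]
    split_ifs <;> simp
  have h2 : ∑ r, rho τ (∑ c, (monMat t n) r c * (monMat t n).adjugate c j) (g r) = 0 := by
    have h3 : ∀ r, rho τ (∑ c, (monMat t n) r c * (monMat t n).adjugate c j) (g r) =
        ∑ c, rho τ ((monMat t n).adjugate c j) (rho τ (monMat t n r c) (g r)) := by
      intro r
      rw [map_sum, LinearMap.sum_apply]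
      refine Finset.sum_congr rfl fun c _ => ?_
      rw [mul_comm, rho_mul]
    rw [Finset.sum_congr rfl fun r _ => h3 r, Finset.sum_comm]
    refine Finset.sum_eq_zero fun c _ => ?_
    rw [← map_sum, hrel c, map_zero]
  simp_rw [hadj] at h2
  rw [Finset.sum_eq_single j] at h2
  · simpa using h2
  · intro b _ hb
    rw [if_neg hb, map_zero, LinearMap.zero_apply]
  · intro hj
    exact absurd (Finset.mem_univ j) hj

/-- Elimination for ordered time vectors. -/
theorem elim_gaps {k : ℕ} (τ : AddAut Γ) (g : Fin k → Γ) (t : ℕ → Fin k → ℤ) (ht : Gaps t)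
    (h : ∀ n, ∑ j, (t n j • τ) (g j) = 0) (j : Fin k) :
    ∃ N : ℕ, 0 < N ∧ ∃ M : ℕ, (dEnd τ N)^[M] (g j) = 0 := by
  have h1 := algebra_main t ht (killIdeal τ (g j)) 0
    (fun n _ => ⟨1, one_pos, 0, by
      rw [pow_zero, one_mul]
      exact det_kill τ g t n (fun c => h (n c)) j⟩)
    (fun m hm p hp => killIdeal_sat τ (g j) m hm p hp)
  obtain ⟨N, hN, M, hM⟩ := h1
  refine ⟨N, hN, M, ?_⟩
  rw [dEnd_iterate]
  rwa [mul_one] at hM

/-- **Elimination.** -/
theorem elim {α : Type*} (F : Filter α) {k : ℕ} (τ : AddAut Γ) (g : Fin k → Γ)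
    (t : α → Fin k → ℤ) (ht : ∀ i j, i ≠ j → Tendsto (fun a => |t a i - t a j|) F atTop)
    (h : ∃ᶠ a in F, ∑ j, (t a j • τ) (g j) = 0) (j : Fin k) :
    ∃ N : ℕ, 0 < N ∧ ∃ M : ℕ, (dEnd τ N)^[M] (g j) = 0 := by
  classical
  -- for every `n` a time vector with gaps at least `n` and the relation
  have h1 : ∀ n : ℕ, ∃ a, (∀ i j, i ≠ j → (n : ℤ) ≤ |t a i - t a j|) ∧
      ∑ j, (t a j • τ) (g j) = 0 := by
    intro n
    have h2 : ∀ᶠ a in F, ∀ i j, i ≠ j → (n : ℤ) ≤ |t a i - t a j| := by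
      rw [eventually_all]; intro i
      rw [eventually_all]; intro j
      by_cases hij : i = j
      · exact Eventually.of_forall fun a h => absurd hij h
      · filter_upwards [(ht i j hij).eventually_ge_atTop (n : ℤ)] with a ha _ using ha
    exact ((h2.and_frequently h)).exists
  choose a ha1 ha2 using h1
  -- the sorting permutations
  have h3 : ∀ n : ℕ, ∃ σ : Equiv.Perm (Fin k), Monotone (fun i => t (a n) (σ i)) :=
    fun n => ⟨Tuple.sort (t (a n)), Tuple.monotone_sort (t (a n))⟩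
  choose σ hσ using h3
  obtain ⟨σ0, hσ0⟩ : ∃ σ0 : Equiv.Perm (Fin k), (σ ⁻¹' {σ0}).Infinite := by
    obtain ⟨σ0, h4⟩ := Finite.exists_infinite_fiber σ
    exact ⟨σ0, Set.infinite_coe_iff.1 h4⟩
  -- a subsequence with the constant permutation `σ0`
  have h5 : ∀ n : ℕ, ∃ m, n ≤ m ∧ σ m = σ0 := by
    intro n
    obtain ⟨m, hm1, hm2⟩ := hσ0.exists_gt n
    exact ⟨m, hm2.le, hm1⟩
  choose m hm1 hm2 using h5
  have hgaps : Gaps (fun n i => t (a (m n)) (σ0 i)) := by
    intro i j hij
    refine tendsto_atTop_mono (f := fun n : ℕ => (n : ℤ)) ?_ tendsto_natCast_atTop_atTop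
    intro n
    have hmono := hσ (m n)
    rw [hm2 n] at hmono
    have h6 : t (a (m n)) (σ0 i) ≤ t (a (m n)) (σ0 j) := hmono hij.le
    have h7 := ha1 (m n) (σ0 j) (σ0 i) (fun he => hij.ne (σ0.injective he).symm)
    rw [abs_of_nonneg (by linarith)] at h7
    have h8 : (n : ℤ) ≤ (m n : ℤ) := by exact_mod_cast hm1 n
    show (n : ℤ) ≤ t (a (m n)) (σ0 j) - t (a (m n)) (σ0 i)
    linarith
  have h9 := elim_gaps τ (fun i => g (σ0 i)) (fun n i => t (a (m n)) (σ0 i)) hgaps
    (fun n => by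
      rw [← ha2 (m n)]
      exact Equiv.sum_comp σ0 (fun j => (t (a (m n)) j • τ) (g j))) (σ0.symm j)
  simpa using h9

/-! ### Multiplicative form -/

/-- `w ↦ τ^N w / w`. -/
def mulD {U : Type*} [CommGroup U] (τ : MulAut U) (N : ℕ) : U → U := fun w => (τ ^ N) w * w⁻¹

/-- **Elimination**, multiplicative form modulo a subgroup. -/
theorem elim_mul {α : Type*} (F : Filter α) {U : Type*} [CommGroup U] (τ : MulAut U)
    (C : Subgroup U) (hC : ∀ u, τ u ∈ C ↔ u ∈ C) {k : ℕ} (g : Fin k → U)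
    (t : α → Fin k → ℤ) (ht : ∀ i j, i ≠ j → Tendsto (fun a => |t a i - t a j|) F atTop)
    (h : ∃ᶠ a in F, ∏ j, (τ ^ t a j) (g j) ∈ C) (j : Fin k) :
    ∃ N : ℕ, 0 < N ∧ ∃ M : ℕ, (mulD τ N)^[M] (g j) ∈ C := by
  classical
  have hmap : C.map (τ : U →* U) = C := by
    ext u
    rw [Subgroup.mem_map]
    constructor
    · rintro ⟨v, hv, rfl⟩
      exact (hC v).2 hv
    · intro hu
      refine ⟨τ.symm u, ?_, by simp⟩
      rw [← hC]; simpa using hu
  let τq : (U ⧸ C) ≃* (U ⧸ C) := QuotientGroup.congr C C τ hmap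
  let τa : AddAut (Additive (U ⧸ C)) := MulEquiv.toAdditive τq
  let π : U → Additive (U ⧸ C) := fun u => Additive.ofMul (QuotientGroup.mk u)
  have hπ1 : ∀ u, τa (π u) = π (τ u) := fun u => rfl
  have hπn : ∀ (n : ℕ) u, (n • τa) (π u) = π ((τ ^ n) u) := by
    intro n
    induction n with
    | zero => intro u; rw [zero_nsmul, pow_zero]; rfl
    | succ n ih =>
      intro u
      rw [succ_nsmul, pow_succ]
      show (n • τa) (τa (π u)) = π ((τ ^ n) (τ u))
      rw [hπ1, ih]
  have hπz : ∀ (n : ℤ) u, (n • τa) (π u) = π ((τ ^ n) u) := by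
    intro n u
    rcases n with n | n
    · have := hπn n u
      rw [Int.ofNat_eq_natCast, natCast_zsmul, zpow_natCast]
      exact this
    · rw [zpow_negSucc, negSucc_zsmul]
      apply ((n + 1) • τa).injective
      have e1 : ((n + 1) • τa) ((-((n + 1) • τa)) (π u)) = π u :=
        AddAut.apply_neg_self _ ((n + 1) • τa) (π u)
      have e2 : (τ ^ (n + 1)) ((τ ^ (n + 1))⁻¹ u) = u := MulAut.apply_inv_self _ _ _
      rw [e1, hπn, e2]
  have hπ0 : ∀ u, π u = 0 ↔ u ∈ C := by
    intro u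
    show Additive.ofMul (QuotientGroup.mk u : U ⧸ C) = 0 ↔ _
    rw [← ofMul_one, Additive.ofMul.apply_eq_iff_eq, QuotientGroup.eq_one_iff]
  have hπprod : ∀ (f : Fin k → U), ∑ j, π (f j) = π (∏ j, f j) := by
    intro f
    have : ∀ s : Finset (Fin k), ∑ j ∈ s, π (f j) = π (∏ j ∈ s, f j) := by
      intro s
      induction s using Finset.induction_on with
      | empty => rfl
      | insert a s ha ih =>
        rw [Finset.sum_insert ha, Finset.prod_insert ha, ih]
        rfl
    exact this _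
  have hrel : ∃ᶠ a in F, ∑ j, (t a j • τa) (π (g j)) = 0 := by
    refine h.mono fun a ha => ?_
    rw [Finset.sum_congr rfl fun j _ => hπz (t a j) (g j), hπprod, hπ0]
    exact ha
  obtain ⟨N, hN, M, hM⟩ := elim F τa (fun j => π (g j)) t ht hrel j
  refine ⟨N, hN, M, ?_⟩
  rw [← hπ0]
  have hD : ∀ u, dEnd τa N (π u) = π (mulD τ N u) := by
    intro u
    show (N • τa) (π u) - π u = _
    rw [hπn, sub_eq_add_neg]
    rfl
  have hDM : ∀ (M : ℕ) u, (dEnd τa N)^[M] (π u) = π ((mulD τ N)^[M] u) := by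
    intro M
    induction M with
    | zero => intro u; rfl
    | succ M ih =>
      intro u
      rw [Function.iterate_succ_apply, Function.iterate_succ_apply, hD, ih]
  rw [← hDM]
  exact hM

end Vale.Agent.P102.RM.Elim
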