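import Mathlib.MeasureTheory.Function.ConditionalExpectation.Real
import Mathlib.MeasureTheory.Function.ConditionalExpectation.PullOut
import Mathlib.Probability.Independence.Basic

/-!
P102, block EXF: abstract form of the self-contained exactness of the exact factor.
-/

namespace Vale.Agent.P102.RM.ExF

open MeasureTheory Filter Set
open scoped ENNReal

variable {Ω : Type*} {m0 : MeasurableSpace Ω}

section PiLambda

variable {P : Measure Ω}

/-- Integrals over all sets of a finite supremum of σ-algebras are determined by the integrals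
over the intersections `⋂ i, A i`. -/
theorem setIntegral_eq_of_iSup {ι : Type*} [Finite ι] (m : ι → MeasurableSpace Ω)
    (hm : ∀ i, m i ≤ m0) {F G : Ω → ℝ} (hF : Integrable F P) (hG : Integrable G P)
    (h : ∀ A : ι → Set Ω, (∀ i, MeasurableSet[m i] (A i)) →
      ∫ x in ⋂ i, A i, F x ∂P = ∫ x in ⋂ i, A i, G x ∂P) :
    ∀ V, MeasurableSet[⨆ i, m i] V → ∫ x in V, F x ∂P = ∫ x in V, G x ∂P := by
  cases nonempty_fintype ι
  have hsup : (⨆ i, m i) ≤ m0 := iSup_le hm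
  let C : Set (Set Ω) := {B | ∃ A : ι → Set Ω, (∀ i, MeasurableSet[m i] (A i)) ∧ B = ⋂ i, A i}
  have hCpi : IsPiSystem C := by
    rintro _ ⟨A, hA, rfl⟩ _ ⟨B, hB, rfl⟩ _
    refine ⟨fun i => A i ∩ B i, fun i => (hA i).inter (hB i), ?_⟩
    rw [iInter_inter_distrib]
  have hgen : (⨆ i, m i) = MeasurableSpace.generateFrom C := by
    apply le_antisymm
    · refine iSup_le fun i => ?_
      intro A hA
      apply MeasurableSpace.measurableSet_generateFrom
      classical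
      refine ⟨fun j => if j = i then A else univ, fun j => ?_, ?_⟩
      · by_cases hj : j = i
        · subst hj; simpa using hA
        · simp [hj]
      · ext x
        simp only [mem_iInter]
        constructor
        · intro hx j
          by_cases hj : j = i <;> simp [hj, hx]
        · intro hx
          simpa using hx i
    · refine MeasurableSpace.generateFrom_le ?_
      rintro _ ⟨A, hA, rfl⟩
      exact MeasurableSet.iInter fun i => (le_iSup m i) _ (hA i)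
  intro V hV
  induction V, hV using MeasurableSpace.induction_on_inter hgen hCpi with
  | empty => simp
  | basic t ht =>
    obtain ⟨A, hA, rfl⟩ := ht
    exact h A hA
  | compl t ht ih =>
    have huniv : ∫ x, F x ∂P = ∫ x, G x ∂P := by
      have := h (fun _ => univ) (fun _ => MeasurableSet.univ)
      simpa using this
    have h1 := integral_add_compl (hsup _ ht) hF
    have h2 := integral_add_compl (hsup _ ht) hG
    linarith
  | iUnion f hd hf ih =>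
    rw [integral_iUnion (fun i => hsup _ (hf i)) hd hF.integrableOn,
      integral_iUnion (fun i => hsup _ (hf i)) hd hG.integrableOn]
    exact tsum_congr ih

/-- Two σ-algebras version. -/
theorem setIntegral_eq_of_sup (m₁ m₂ : MeasurableSpace Ω)
    (hm₁ : m₁ ≤ m0) (hm₂ : m₂ ≤ m0) {F G : Ω → ℝ} (hF : Integrable F P) (hG : Integrable G P)
    (h : ∀ A B : Set Ω, MeasurableSet[m₁] A → MeasurableSet[m₂] B →
      ∫ x in A ∩ B, F x ∂P = ∫ x in A ∩ B, G x ∂P) :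
    ∀ V, MeasurableSet[m₁ ⊔ m₂] V → ∫ x in V, F x ∂P = ∫ x in V, G x ∂P := by
  have h1 := setIntegral_eq_of_iSup (P := P) (ι := Bool) (fun b => cond b m₁ m₂)
    (by rintro (_ | _) <;> assumption) hF hG (by
      intro A hA
      have : (⋂ i, A i) = A true ∩ A false := by
        ext x; simp [Bool.forall_bool, and_comm]
      rw [this]
      exact h _ _ (hA true) (hA false))
  rwa [iSup_bool_eq] at h1

end PiLambda

section LeAE

/-- `m ≤ n` modulo `P`-null sets. -/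
def LeAE (P : Measure Ω) (m n : MeasurableSpace Ω) : Prop :=
  ∀ A, MeasurableSet[m] A → ∃ B, MeasurableSet[n] B ∧ A =ᵐ[P] B

variable {P : Measure Ω}

theorem LeAE.of_le {m n : MeasurableSpace Ω} (h : m ≤ n) : LeAE P m n :=
  fun A hA => ⟨A, h _ hA, ae_eq_rfl⟩

theorem LeAE.trans_le {m n k : MeasurableSpace Ω} (h : LeAE P m n) (h' : n ≤ k) :
    LeAE P m k := fun A hA => by
  obtain ⟨B, hB, hAB⟩ := h A hA
  exact ⟨B, h' _ hB, hAB⟩

theorem LeAE.le_trans {m n k : MeasurableSpace Ω} (h : m ≤ n) (h' : LeAE P n k) :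
    LeAE P m k := fun A hA => h' A (h _ hA)

theorem LeAE.trans {m n k : MeasurableSpace Ω} (h : LeAE P m n) (h' : LeAE P n k) :
    LeAE P m k := fun A hA => by
  obtain ⟨B, hB, hAB⟩ := h A hA
  obtain ⟨C, hC, hBC⟩ := h' B hB
  exact ⟨C, hC, hAB.trans hBC⟩

/-- The σ-algebra of all measurable sets that are a.e. equal to an `n`-measurable set. -/
@[reducible] def aeClosure (P : Measure Ω) (n m0 : MeasurableSpace Ω) : MeasurableSpace Ω where
  MeasurableSet' A := MeasurableSet[m0] A ∧ ∃ B, MeasurableSet[n] B ∧ A =ᵐ[P] B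
  measurableSet_empty := ⟨@MeasurableSet.empty Ω m0, ∅, @MeasurableSet.empty Ω n, ae_eq_rfl⟩
  measurableSet_compl := by
    rintro A ⟨hA, B, hB, hAB⟩
    exact ⟨hA.compl, Bᶜ, hB.compl, hAB.compl⟩
  measurableSet_iUnion := by
    intro f hf
    refine ⟨MeasurableSet.iUnion fun i => (hf i).1, ?_⟩
    choose B hB hAB using fun i => (hf i).2
    exact ⟨⋃ i, B i, MeasurableSet.iUnion hB, Filter.EventuallyEq.countable_iUnion hAB⟩

theorem measurableSet_aeClosure {n : MeasurableSpace Ω} {A : Set Ω} :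
    MeasurableSet[aeClosure P n m0] A ↔
      MeasurableSet[m0] A ∧ ∃ B, MeasurableSet[n] B ∧ A =ᵐ[P] B := Iff.rfl

theorem aeClosure_le {n : MeasurableSpace Ω} : aeClosure P n m0 ≤ m0 := fun _ h => h.1

theorem le_aeClosure {n : MeasurableSpace Ω} (h : n ≤ m0) : n ≤ aeClosure P n m0 :=
  fun A hA => ⟨h _ hA, A, hA, ae_eq_rfl⟩

theorem leAE_iff {m n : MeasurableSpace Ω} (hm : m ≤ m0) :
    LeAE P m n ↔ m ≤ aeClosure P n m0 :=
  ⟨fun h A hA => ⟨hm _ hA, h A hA⟩, fun h A hA => (h A hA).2⟩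

theorem LeAE.sup {m₁ m₂ n : MeasurableSpace Ω} (hm₁ : m₁ ≤ m0) (hm₂ : m₂ ≤ m0)
    (h₁ : LeAE P m₁ n) (h₂ : LeAE P m₂ n) : LeAE P (m₁ ⊔ m₂) n := by
  rw [leAE_iff (sup_le hm₁ hm₂)]
  exact sup_le ((leAE_iff hm₁).1 h₁) ((leAE_iff hm₂).1 h₂)

theorem LeAE.iSup {ι : Sort*} {m : ι → MeasurableSpace Ω} {n : MeasurableSpace Ω}
    (hm : ∀ i, m i ≤ m0) (h : ∀ i, LeAE P (m i) n) : LeAE P (⨆ i, m i) n := by
  rw [leAE_iff (iSup_le hm)]
  exact iSup_le fun i => (leAE_iff (hm i)).1 (h i)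

/-- If `m ≤ n` mod `P` then bounded/integrable `m`-measurable functions are a.e. fixed by
`P[· | n]`. -/
theorem LeAE.condExp_eq [IsProbabilityMeasure P] {m n : MeasurableSpace Ω} (hm : m ≤ m0)
    (hn : n ≤ m0) (h : LeAE P m n) {f : Ω → ℝ} (hf : StronglyMeasurable[m] f)
    (hint : Integrable f P) : P[f | n] =ᵐ[P] f := by
  -- `f` is `aeClosure`-measurable; test against `aeClosure`-sets
  have hcl : m ≤ aeClosure P n m0 := (leAE_iff hm).1 h
  have h1 : P[f | n] =ᵐ[P] P[f | aeClosure P n m0] := by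
    refine ae_eq_condExp_of_forall_setIntegral_eq (aeClosure_le) hint
      (fun s _ _ => integrable_condExp.integrableOn) ?_ ?_
    · rintro A ⟨hA, B, hB, hAB⟩ _
      rw [setIntegral_congr_set hAB, setIntegral_congr_set hAB, setIntegral_condExp hn hint hB]
    · exact (stronglyMeasurable_condExp.mono (le_aeClosure hn)).aestronglyMeasurable
  have h2 : P[f | aeClosure P n m0] = f :=
    condExp_of_stronglyMeasurable aeClosure_le (hf.mono hcl) hint
  rw [h2] at h1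
  exact h1

/-- If `P[1_A | n] = 1_A` a.e. for all `m`-measurable sets then `m ≤ n` mod `P`. -/
theorem LeAE.of_condExp [IsProbabilityMeasure P] {m n : MeasurableSpace Ω}
    (h : ∀ A, MeasurableSet[m] A →
      P[A.indicator (fun _ => (1 : ℝ)) | n] =ᵐ[P] A.indicator (fun _ => (1 : ℝ))) :
    LeAE P m n := by
  intro A hA
  refine ⟨{x | (1/2 : ℝ) < (P[A.indicator (fun _ => (1 : ℝ)) | n]) x}, ?_, ?_⟩
  · exact measurableSet_lt measurable_const stronglyMeasurable_condExp.measurable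
  · filter_upwards [h A hA] with x hx
    apply propext
    change x ∈ A ↔ (1/2 : ℝ) < (P[A.indicator (fun _ => (1 : ℝ)) | n]) x
    rw [hx]
    by_cases hxA : x ∈ A
    · simp [hxA]; norm_num
    · simp [hxA]

end LeAE

section CI

variable {P : Measure Ω} [IsProbabilityMeasure P]

/-- Conditional independence of `𝒱` and `𝒜 ⊇ ℰ` over `ℰ`: projecting `𝒱`-sets to `𝒜` gives
the same as projecting them to `ℰ`. -/
def CIo (P : Measure Ω) (𝒱 𝒜 ℰ : MeasurableSpace Ω) : Prop :=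
  ∀ V, MeasurableSet[𝒱] V →
    P[V.indicator (fun _ => (1 : ℝ)) | 𝒜] =ᵐ[P] P[V.indicator (fun _ => (1 : ℝ)) | ℰ]

/-- `∫_A P(V | ℰ) = ∫_V P(A | ℰ)`. -/
theorem swap_condExp {ℰ : MeasurableSpace Ω} (hℰ0 : ℰ ≤ m0) {A V : Set Ω}
    (hA0 : MeasurableSet[m0] A) (hV0 : MeasurableSet[m0] V) :
    ∫ x in A, (P[V.indicator (fun _ => (1 : ℝ)) | ℰ]) x ∂P =
      ∫ x in V, (P[A.indicator (fun _ => (1 : ℝ)) | ℰ]) x ∂P := by
  have hVi : Integrable (V.indicator (fun _ => (1 : ℝ))) P :=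
    (integrable_const _).indicator hV0
  have hAi : Integrable (A.indicator (fun _ => (1 : ℝ))) P :=
    (integrable_const _).indicator hA0
  have hint1 : Integrable (A.indicator (fun _ => (1 : ℝ)) *
      P[V.indicator (fun _ => (1 : ℝ)) | ℰ]) P := by
    have : (A.indicator (fun _ => (1 : ℝ)) * P[V.indicator (fun _ => (1 : ℝ)) | ℰ]) =
        A.indicator (P[V.indicator (fun _ => (1 : ℝ)) | ℰ]) := by
      ext x
      by_cases hx : x ∈ A <;> simp [hx]
    rw [this]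
    exact integrable_condExp.indicator hA0
  have hint2 : Integrable (P[A.indicator (fun _ => (1 : ℝ)) | ℰ] *
      V.indicator (fun _ => (1 : ℝ))) P := by
    have : (P[A.indicator (fun _ => (1 : ℝ)) | ℰ] * V.indicator (fun _ => (1 : ℝ))) =
        V.indicator (P[A.indicator (fun _ => (1 : ℝ)) | ℰ]) := by
      ext x
      by_cases hx : x ∈ V <;> simp [hx]
    rw [this]
    exact integrable_condExp.indicator hV0
  have e2 : ∫ x in A, (P[V.indicator (fun _ => (1 : ℝ)) | ℰ]) x ∂P =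
      ∫ x, (A.indicator (fun _ => (1 : ℝ)) * P[V.indicator (fun _ => (1 : ℝ)) | ℰ]) x ∂P := by
    rw [← integral_indicator hA0]
    congr 1
    ext x
    by_cases hx : x ∈ A <;> simp [hx]
  have e3 : ∫ x in V, (P[A.indicator (fun _ => (1 : ℝ)) | ℰ]) x ∂P =
      ∫ x, (P[A.indicator (fun _ => (1 : ℝ)) | ℰ] * V.indicator (fun _ => (1 : ℝ))) x ∂P := by
    rw [← integral_indicator hV0]
    congr 1
    ext x
    by_cases hx : x ∈ V <;> simp [hx]
  rw [e2, e3, ← integral_condExp hℰ0, ← integral_condExp (f := _ * _) hℰ0]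
  have p1 := condExp_mul_of_stronglyMeasurable_right (m := ℰ) (μ := P)
    (f := A.indicator (fun _ => (1 : ℝ))) (g := P[V.indicator (fun _ => (1 : ℝ)) | ℰ])
    stronglyMeasurable_condExp hint1 hAi
  have p2 := condExp_mul_of_stronglyMeasurable_left (m := ℰ) (μ := P)
    (f := P[A.indicator (fun _ => (1 : ℝ)) | ℰ]) (g := V.indicator (fun _ => (1 : ℝ)))
    stronglyMeasurable_condExp hint2 hVi
  exact integral_congr_ae (p1.trans p2.symm)

omit [IsProbabilityMeasure P] in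
theorem setIntegral_indicator_comm {A V : Set Ω}
    (hA0 : MeasurableSet[m0] A) (hV0 : MeasurableSet[m0] V) :
    ∫ x in V, A.indicator (fun _ => (1 : ℝ)) x ∂P =
      ∫ x in A, V.indicator (fun _ => (1 : ℝ)) x ∂P := by
  rw [integral_indicator hA0, integral_indicator hV0,
    Measure.restrict_restrict hA0, Measure.restrict_restrict hV0, inter_comm]

/-- For one set `V`: projecting `1_V` to `𝒜 ≥ ℰ` or to `ℰ` gives the same iff
`P(A ∩ V) = ∫_V P(A | ℰ)` for all `A ∈ 𝒜`. -/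
theorem condExp_eq_iff_setIntegral {𝒜 ℰ : MeasurableSpace Ω} (h𝒜 : 𝒜 ≤ m0) (hℰ : ℰ ≤ 𝒜)
    {V : Set Ω} (hV0 : MeasurableSet[m0] V) :
    (P[V.indicator (fun _ => (1 : ℝ)) | 𝒜] =ᵐ[P] P[V.indicator (fun _ => (1 : ℝ)) | ℰ]) ↔
    ∀ A, MeasurableSet[𝒜] A → ∫ x in V, A.indicator (fun _ => (1 : ℝ)) x ∂P =
      ∫ x in V, (P[A.indicator (fun _ => (1 : ℝ)) | ℰ]) x ∂P := by
  have hℰ0 : ℰ ≤ m0 := hℰ.trans h𝒜
  have hVi : Integrable (V.indicator (fun _ => (1 : ℝ))) P :=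
    (integrable_const _).indicator hV0
  constructor
  · intro h A hA
    rw [setIntegral_indicator_comm (h𝒜 _ hA) hV0, ← setIntegral_condExp h𝒜 hVi hA,
      setIntegral_congr_ae (h𝒜 _ hA) (h.mono fun x hx _ => hx)]
    exact swap_condExp hℰ0 (h𝒜 _ hA) hV0
  · intro h
    symm
    refine ae_eq_condExp_of_forall_setIntegral_eq h𝒜 hVi
      (fun s _ _ => integrable_condExp.integrableOn) ?_ ?_
    · intro A hA _
      rw [swap_condExp hℰ0 (h𝒜 _ hA) hV0, ← h A hA,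
        setIntegral_indicator_comm (h𝒜 _ hA) hV0]
    · exact ⟨_, stronglyMeasurable_condExp.mono hℰ, ae_eq_rfl⟩

/-- integral form: `P(A ∩ V) = ∫_V P(A | ℰ)`. -/
theorem CIo.setIntegral {𝒱 𝒜 ℰ : MeasurableSpace Ω} (h : CIo P 𝒱 𝒜 ℰ) (h𝒱 : 𝒱 ≤ m0)
    (h𝒜 : 𝒜 ≤ m0) (hℰ : ℰ ≤ 𝒜) {A V : Set Ω} (hA : MeasurableSet[𝒜] A)
    (hV : MeasurableSet[𝒱] V) :
    ∫ x in V, A.indicator (fun _ => (1 : ℝ)) x ∂P =
      ∫ x in V, (P[A.indicator (fun _ => (1 : ℝ)) | ℰ]) x ∂P :=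
  (condExp_eq_iff_setIntegral h𝒜 hℰ (h𝒱 _ hV)).1 (h V hV) A hA

/-- It suffices to check conditional independence on finite intersections. -/
theorem CIo.of_iSup {ι : Type*} [Finite ι] {m : ι → MeasurableSpace Ω} (hm : ∀ i, m i ≤ m0)
    {𝒜 ℰ : MeasurableSpace Ω} (h𝒜 : 𝒜 ≤ m0) (hℰ : ℰ ≤ 𝒜)
    (h : ∀ A : ι → Set Ω, (∀ i, MeasurableSet[m i] (A i)) →
      P[(⋂ i, A i).indicator (fun _ => (1 : ℝ)) | 𝒜] =ᵐ[P]
        P[(⋂ i, A i).indicator (fun _ => (1 : ℝ)) | ℰ]) :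
    CIo P (⨆ i, m i) 𝒜 ℰ := by
  intro V hV
  have hV0 : MeasurableSet[m0] V := (iSup_le hm) _ hV
  rw [condExp_eq_iff_setIntegral h𝒜 hℰ hV0]
  intro A hA
  refine setIntegral_eq_of_iSup m hm ((integrable_const _).indicator (h𝒜 _ hA))
    integrable_condExp ?_ V hV
  intro B hB
  exact (condExp_eq_iff_setIntegral h𝒜 hℰ
    (MeasurableSet.iInter fun i => hm i _ (hB i))).1 (h B hB) A hA

/-- If `E[1_V | 𝒜]` is a.e. `ℰ`-measurable then it equals `E[1_V | ℰ]`. -/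
theorem condExp_eq_of_aestronglyMeasurable {𝒜 ℰ : MeasurableSpace Ω} (h𝒜 : 𝒜 ≤ m0)
    (hℰ : ℰ ≤ 𝒜) {f : Ω → ℝ} (hf : AEStronglyMeasurable[ℰ] (P[f | 𝒜]) P) :
    P[f | 𝒜] =ᵐ[P] P[f | ℰ] := by
  have h1 : P[P[f | 𝒜] | ℰ] =ᵐ[P] P[f | ℰ] := condExp_condExp_of_le hℰ h𝒜
  have h2 : P[P[f | 𝒜] | ℰ] =ᵐ[P] P[f | 𝒜] :=
    condExp_of_aestronglyMeasurable' (hℰ.trans h𝒜) hf integrable_condExp
  exact h2.symm.trans h1

/-- The integral form on `𝒱 ⊔ ℰ`. -/
theorem CIo.setIntegral_sup {𝒱 𝒜 ℰ : MeasurableSpace Ω} (h : CIo P 𝒱 𝒜 ℰ) (h𝒱 : 𝒱 ≤ m0)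
    (h𝒜 : 𝒜 ≤ m0) (hℰ : ℰ ≤ 𝒜) {A : Set Ω} (hA : MeasurableSet[𝒜] A) :
    ∀ V, MeasurableSet[𝒱 ⊔ ℰ] V → ∫ x in V, A.indicator (fun _ => (1 : ℝ)) x ∂P =
      ∫ x in V, (P[A.indicator (fun _ => (1 : ℝ)) | ℰ]) x ∂P := by
  have hℰ0 : ℰ ≤ m0 := hℰ.trans h𝒜
  have hAi : Integrable (A.indicator (fun _ => (1 : ℝ))) P :=
    (integrable_const _).indicator (h𝒜 _ hA)
  refine setIntegral_eq_of_sup 𝒱 ℰ h𝒱 hℰ0 hAi integrable_condExp ?_
  intro V E hV hE
  have hAE : MeasurableSet[𝒜] (A ∩ E) := hA.inter (hℰ _ hE)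
  have h1 := h.setIntegral h𝒱 h𝒜 hℰ hAE hV
  have h2 : P[(A ∩ E).indicator (fun _ => (1 : ℝ)) | ℰ] =ᵐ[P]
      E.indicator (P[A.indicator (fun _ => (1 : ℝ)) | ℰ]) := by
    have h3 := condExp_indicator (m := ℰ) hAi hE
    have h4 : E.indicator (A.indicator (fun _ => (1 : ℝ))) =
        (A ∩ E).indicator (fun _ => (1 : ℝ)) := by
      rw [indicator_indicator, inter_comm]
    rwa [h4] at h3
  rw [setIntegral_congr_ae (h𝒱 _ hV) (h2.mono fun x hx _ => hx)] at h1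
  rw [← setIntegral_indicator (hℰ0 _ hE)] 
  rw [← setIntegral_indicator (hℰ0 _ hE), indicator_indicator, inter_comm E A]
  exact h1

/-- One replacement step: if `𝒱 ⊥ 𝒜 | ℰ` with `ℰ ≤ 𝒜`, `𝒟, 𝒦 ≤ 𝒱` and `𝒦 ⊂ 𝒜 ⊔ 𝒟` mod `P`, then
`𝒦 ⊂ ℰ ⊔ 𝒟` mod `P`. -/
theorem CIo.step {𝒱 𝒜 ℰ 𝒟 𝒦 : MeasurableSpace Ω} (h : CIo P 𝒱 𝒜 ℰ) (h𝒱 : 𝒱 ≤ m0)
    (h𝒜 : 𝒜 ≤ m0) (hℰ : ℰ ≤ 𝒜) (h𝒟 : 𝒟 ≤ 𝒱) (h𝒦 : 𝒦 ≤ 𝒱)
    (hLe : LeAE P 𝒦 (𝒜 ⊔ 𝒟)) : LeAE P 𝒦 (ℰ ⊔ 𝒟) := by
  have hℰ0 : ℰ ≤ m0 := hℰ.trans h𝒜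
  have h𝒟0 : 𝒟 ≤ m0 := h𝒟.trans h𝒱
  have hED : ℰ ⊔ 𝒟 ≤ m0 := sup_le hℰ0 h𝒟0
  have hAD : 𝒜 ⊔ 𝒟 ≤ m0 := sup_le h𝒜 h𝒟0
  refine LeAE.of_condExp fun K hK => ?_
  have hK0 : MeasurableSet[m0] K := h𝒱 _ (h𝒦 _ hK)
  have hKi : Integrable (K.indicator (fun _ => (1 : ℝ))) P :=
    (integrable_const _).indicator hK0
  have hKsm : StronglyMeasurable[𝒦] (K.indicator (fun _ => (1 : ℝ))) :=
    (@stronglyMeasurable_const _ _ 𝒦 _ (1 : ℝ)).indicator hK
  have e1 : P[K.indicator (fun _ => (1 : ℝ)) | 𝒜 ⊔ 𝒟] =ᵐ[P] K.indicator (fun _ => (1 : ℝ)) :=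
    hLe.condExp_eq (h𝒦.trans h𝒱) hAD hKsm hKi
  -- the two conditional expectations agree
  have e2 : P[K.indicator (fun _ => (1 : ℝ)) | ℰ ⊔ 𝒟] =ᵐ[P]
      P[K.indicator (fun _ => (1 : ℝ)) | 𝒜 ⊔ 𝒟] := by
    refine ae_eq_condExp_of_forall_setIntegral_eq hAD hKi
      (fun s _ _ => integrable_condExp.integrableOn) ?_ ?_
    · intro s hs _
      refine setIntegral_eq_of_sup 𝒜 𝒟 h𝒜 h𝒟0 integrable_condExp hKi ?_ s hs
      intro A D hA hD
      set c := P[K.indicator (fun _ => (1 : ℝ)) | ℰ ⊔ 𝒟] with hc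
      have hAi : Integrable (A.indicator (fun _ => (1 : ℝ))) P :=
        (integrable_const _).indicator (h𝒜 _ hA)
      have hA0 := h𝒜 _ hA
      have hD0 := h𝒟0 _ hD
      set q := P[A.indicator (fun _ => (1 : ℝ)) | ℰ] with hq
      have hqb : ∀ᵐ x ∂P, |q x| ≤ 1 :=
        ae_bdd_abs_condExp_of_ae_bdd_abs (R := 1) (Eventually.of_forall fun x => by
          by_cases hx : x ∈ A <;> simp [hx])
      -- E[1_A | 𝒱 ⊔ ℰ] = q
      have hVE : 𝒱 ⊔ ℰ ≤ m0 := sup_le h𝒱 hℰ0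
      have hqV : q =ᵐ[P] P[A.indicator (fun _ => (1 : ℝ)) | 𝒱 ⊔ ℰ] := by
        refine ae_eq_condExp_of_forall_setIntegral_eq hVE hAi
          (fun s _ _ => integrable_condExp.integrableOn) ?_ ?_
        · intro s hs _
          exact (h.setIntegral_sup h𝒱 h𝒜 hℰ hA s hs).symm
        · have hqm : StronglyMeasurable[ℰ] q := stronglyMeasurable_condExp
          have hqm2 : StronglyMeasurable[𝒱 ⊔ ℰ] q := hqm.mono le_sup_right
          exact ⟨q, hqm2, ae_eq_rfl⟩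
      -- general pairing: for `g` bounded, `𝒱 ⊔ ℰ`-measurable, `∫ 1_A g = ∫ q g`
      have pair : ∀ g : Ω → ℝ, StronglyMeasurable[𝒱 ⊔ ℰ] g → Integrable g P →
          ∫ x in A, g x ∂P = ∫ x, q x * g x ∂P := by
        intro g hg hgi
        have i1 : Integrable (A.indicator (fun _ => (1 : ℝ)) * g) P := by
          have : (A.indicator (fun _ => (1 : ℝ)) * g) = A.indicator g := by
            ext x; by_cases hx : x ∈ A <;> simp [hx]
          rw [this]; exact hgi.indicator hA0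
        have p1 := condExp_mul_of_stronglyMeasurable_right (m := 𝒱 ⊔ ℰ) (μ := P)
          (f := A.indicator (fun _ => (1 : ℝ))) (g := g) hg i1 hAi
        have p2 : ∫ x, (A.indicator (fun _ => (1 : ℝ)) * g) x ∂P =
            ∫ x, (P[A.indicator (fun _ => (1 : ℝ)) | 𝒱 ⊔ ℰ] * g) x ∂P := by
          rw [← integral_condExp hVE]
          exact integral_congr_ae p1
        rw [← integral_indicator hA0]
        have p3 : ∫ x, A.indicator g x ∂P = ∫ x, (A.indicator (fun _ => (1 : ℝ)) * g) x ∂P := by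
          congr 1
          ext x; by_cases hx : x ∈ A <;> simp [hx]
        rw [p3, p2]
        refine integral_congr_ae ?_
        filter_upwards [hqV] with x hx
        simp [hx]
      -- apply with `g = 1_D c` and `g = 1_D 1_K`
      have hcV : StronglyMeasurable[𝒱 ⊔ ℰ] c :=
        StronglyMeasurable.mono (stronglyMeasurable_condExp (m := ℰ ⊔ 𝒟))
          (sup_le le_sup_right (h𝒟.trans le_sup_left))
      have g1 := pair (D.indicator c)
        (hcV.indicator (le_sup_left (a := 𝒱) (b := ℰ) _ (h𝒟 _ hD)))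
        (integrable_condExp.indicator hD0)
      have hKV : StronglyMeasurable[𝒱 ⊔ ℰ] (K.indicator (fun _ => (1 : ℝ))) :=
        hKsm.mono (h𝒦.trans le_sup_left)
      have g2 := pair (D.indicator (K.indicator (fun _ => (1 : ℝ))))
        (hKV.indicator (le_sup_left (a := 𝒱) (b := ℰ) _ (h𝒟 _ hD)))
        (hKi.indicator hD0)
      rw [setIntegral_indicator hD0] at g1 g2
      rw [g1, g2]
      -- `∫ q 1_D c = ∫ q 1_D 1_K`, as `q 1_D` is `ℰ ⊔ 𝒟`-measurable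
      have hqD : StronglyMeasurable[ℰ ⊔ 𝒟] (D.indicator q) :=
        (stronglyMeasurable_condExp.mono le_sup_left).indicator
          (le_sup_right (a := ℰ) (b := 𝒟) _ hD)
      have hi : Integrable (D.indicator q * K.indicator (fun _ => (1 : ℝ))) P := by
        have : (D.indicator q * K.indicator (fun _ => (1 : ℝ))) =
            K.indicator (D.indicator q) := by
          ext x; by_cases hx : x ∈ K <;> simp [hx]
        rw [this]
        exact (integrable_condExp.indicator hD0).indicator hK0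
      have p4 := condExp_mul_of_stronglyMeasurable_left (m := ℰ ⊔ 𝒟) (μ := P)
        (f := D.indicator q) (g := K.indicator (fun _ => (1 : ℝ))) hqD hi hKi
      have p5 : ∫ x, (D.indicator q * K.indicator (fun _ => (1 : ℝ))) x ∂P =
          ∫ x, (D.indicator q * c) x ∂P := by
        rw [← integral_condExp hED]
        exact integral_congr_ae p4
      have p6 : (fun x => q x * D.indicator c x) = (D.indicator q * c) := by
        ext x; by_cases hx : x ∈ D <;> simp [hx]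
      have p7 : (fun x => q x * D.indicator (K.indicator (fun _ => (1 : ℝ))) x) =
          (D.indicator q * K.indicator (fun _ => (1 : ℝ))) := by
        ext x; by_cases hx : x ∈ D <;> simp [hx]
      rw [p6, p7]
      exact p5.symm
    · exact (stronglyMeasurable_condExp.mono
        (sup_le (hℰ.trans le_sup_left) le_sup_right)).aestronglyMeasurable
  exact e2.trans e1

end CI

section Iter

variable {P : Measure Ω} [IsProbabilityMeasure P]

/-- Self-contained exactness, abstract form. Slots `j : ι`, fixed slot `s`, σ-algebras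
`ℰ j ≤ 𝒲 j`, `𝒴 ≤ ℰ s`. If for every `j ≠ s` the σ-algebra `⨆_{a ≠ j, s} 𝒲 a ⊔ ℰ s` is
conditionally independent of `𝒲 j` over `ℰ j` (closure) and `ℰ s` is contained (mod `P`) in
`⨆_{j ≠ s} 𝒲 j ⊔ 𝒴` (exactness), then `ℰ s` is contained (mod `P`) in `⨆_{j ≠ s} ℰ j ⊔ 𝒴`. -/
theorem self_contained {ι : Type*} [Fintype ι] [DecidableEq ι] (s : ι)
    (𝒲 ℰ : ι → MeasurableSpace Ω) (𝒴 : MeasurableSpace Ω)
    (h𝒲 : ∀ j, 𝒲 j ≤ m0) (hℰ : ∀ j, ℰ j ≤ 𝒲 j) (h𝒴 : 𝒴 ≤ ℰ s)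
    (hcl : ∀ j, j ≠ s → CIo P ((⨆ a, ⨆ (_ : a ≠ j ∧ a ≠ s), 𝒲 a) ⊔ ℰ s) (𝒲 j) (ℰ j))
    (hex : LeAE P (ℰ s) ((⨆ j, ⨆ (_ : j ≠ s), 𝒲 j) ⊔ 𝒴)) :
    LeAE P (ℰ s) ((⨆ j, ⨆ (_ : j ≠ s), ℰ j) ⊔ 𝒴) := by
  classical
  have key : ∀ J : Finset ι, s ∉ J →
      LeAE P (ℰ s) ((⨆ j, ⨆ (_ : j ≠ s), if j ∈ J then ℰ j else 𝒲 j) ⊔ 𝒴) := by
    intro J
    induction J using Finset.induction_on with
    | empty => intro _; simpa using hex
    | insert j J hj ih =>
      intro hs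
      have hjs : j ≠ s := fun h => hs (h ▸ Finset.mem_insert_self _ _)
      have hsJ : s ∉ J := fun h => hs (Finset.mem_insert_of_mem h)
      have ih' := ih hsJ
      set 𝒟 : MeasurableSpace Ω :=
        (⨆ a, ⨆ (_ : a ≠ j ∧ a ≠ s), if a ∈ J then ℰ a else 𝒲 a) ⊔ 𝒴 with h𝒟
      have hle1 : 𝒟 ≤ (⨆ a, ⨆ (_ : a ≠ j ∧ a ≠ s), 𝒲 a) ⊔ ℰ s := by
        refine sup_le (le_sup_of_le_left ?_) (le_sup_of_le_right h𝒴)
        refine iSup_mono fun a => iSup_mono fun ha => ?_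
        split_ifs
        · exact hℰ a
        · exact le_rfl
      have hV0 : (⨆ a, ⨆ (_ : a ≠ j ∧ a ≠ s), 𝒲 a) ⊔ ℰ s ≤ m0 :=
        sup_le (iSup_le fun a => iSup_le fun _ => h𝒲 a) ((hℰ s).trans (h𝒲 s))
      have hLe : LeAE P (ℰ s) (𝒲 j ⊔ 𝒟) := by
        refine ih'.trans_le (sup_le ?_ (le_sup_of_le_right le_sup_right))
        refine iSup_le fun a => iSup_le fun ha => ?_
        by_cases haj : a = j
        · subst haj
          simp only [hj, if_false]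
          exact le_sup_left
        · refine le_sup_of_le_right (le_sup_of_le_left ?_)
          exact le_iSup_of_le a (le_iSup_of_le ⟨haj, ha⟩ le_rfl)
      have h1 := (hcl j hjs).step hV0 (h𝒲 j) (hℰ j) hle1 le_sup_right hLe
      refine h1.trans_le (sup_le (le_sup_of_le_left ?_) (sup_le (le_sup_of_le_left ?_)
        le_sup_right))
      · refine le_iSup_of_le j (le_iSup_of_le hjs ?_)
        simp
      · refine iSup_le fun a => iSup_le fun ha => le_iSup_of_le a (le_iSup_of_le ha.2 ?_)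
        by_cases haJ : a ∈ J
        · simp [haJ]
        · simp [haJ, ha.1]
  have h2 := key (Finset.univ.erase s) (by simp)
  refine h2.trans_le (sup_le_sup_right (iSup_mono fun j => iSup_mono fun hj => ?_) _)
  simp [hj]

end Iter

end Vale.Agent.P102.RM.ExF
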