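import Vale.Agent.P102.RM.ExF
import Mathlib.MeasureTheory.Function.FactorsThrough

/-!
P102, block EXF: the exact factor of a joining `D` on `ι → W` and its self-contained exactness.
-/

namespace Vale.Agent.P102.RM.ExF

open MeasureTheory Filter Set

/-- the σ-algebra on `ι → W` generated by the `j`-th coordinate and the σ-algebra `m` on `W`. -/
@[reducible] def slot {ι W : Type*} (j : ι) (m : MeasurableSpace W) : MeasurableSpace (ι → W) :=
  m.comap (fun w => w j)

theorem slot_mono {ι W : Type*} {j : ι} {m n : MeasurableSpace W} (h : m ≤ n) :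
    slot j m ≤ slot j n :=
  MeasurableSpace.comap_mono h

theorem slot_le {ι W : Type*} (j : ι) {m : MeasurableSpace W} {mW : MeasurableSpace W}
    (h : m ≤ mW) : slot j m ≤ (@MeasurableSpace.pi ι (fun _ => W) fun _ => mW) :=
  (slot_mono h).trans (measurable_pi_apply j).comap_le

variable {ι W : Type*} {mY : MeasurableSpace W} [mW : MeasurableSpace W]

/-- `σ(w_j (j ≠ s), y_s)`. -/
@[reducible] def sigG {ι W : Type*} (mY : MeasurableSpace W) [mW : MeasurableSpace W] (s : ι) :
    MeasurableSpace (ι → W) :=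
  (⨆ j, ⨆ (_ : j ≠ s), slot j mW) ⊔ slot s mY

theorem sigG_le (hY : mY ≤ mW) (s : ι) :
    sigG (ι := ι) mY s ≤ MeasurableSpace.pi :=
  sup_le (iSup_le fun j => iSup_le fun _ => slot_le j le_rfl) (slot_le s hY)

/-- The σ-algebra of all `A` with `{w s ∈ A} ∈ σ(w_j (j ≠ s), y_s)` mod `D`. -/
@[reducible] def mE {ι W : Type*} (mY : MeasurableSpace W) [mW : MeasurableSpace W]
    (D : Measure (ι → W)) (s : ι) : MeasurableSpace W where
  MeasurableSet' A := MeasurableSet[mW] A ∧
    MeasurableSet[aeClosure D (sigG mY s) MeasurableSpace.pi] ((fun w : ι → W => w s) ⁻¹' A)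
  measurableSet_empty := by
    refine ⟨@MeasurableSet.empty W mW, ?_⟩
    rw [preimage_empty]
    exact @MeasurableSet.empty _ (aeClosure D (sigG mY s) MeasurableSpace.pi)
  measurableSet_compl := by
    rintro A ⟨hA, h⟩
    exact ⟨hA.compl, MeasurableSet.compl h⟩
  measurableSet_iUnion := by
    intro f hf
    refine ⟨MeasurableSet.iUnion fun i => (hf i).1, ?_⟩
    rw [preimage_iUnion]
    exact MeasurableSet.iUnion fun i => (hf i).2

/-- The exact factor for the set `I` of slots. -/
@[reducible] def mEx {ι W : Type*} (mY : MeasurableSpace W) [mW : MeasurableSpace W]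
    (D : Measure (ι → W)) (I : Set ι) : MeasurableSpace W :=
  ⨅ s ∈ I, mE mY D s

variable {D : Measure (ι → W)}

theorem mE_le (s : ι) : mE mY D s ≤ mW := fun _ h => h.1

theorem le_mE (hY : mY ≤ mW) (s : ι) : mY ≤ mE mY D s := fun A hA =>
  ⟨hY _ hA, (slot_le s hY) _ ⟨A, hA, rfl⟩, _, le_sup_right (a := ⨆ j, ⨆ (_ : j ≠ s), slot j mW)
    (b := slot s mY) _ ⟨A, hA, rfl⟩, ae_eq_rfl⟩

theorem mEx_le_mE {I : Set ι} {s : ι} (hs : s ∈ I) : mEx mY D I ≤ mE mY D s :=
  iInf₂_le s hs

theorem mEx_le {I : Set ι} (hI : I.Nonempty) : mEx mY D I ≤ mW :=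
  (mEx_le_mE hI.some_mem).trans (mE_le _)

theorem le_mEx (hY : mY ≤ mW) (I : Set ι) : mY ≤ mEx mY D I :=
  le_iInf₂ fun s _ => le_mE hY s

/-- exactness over the full σ-algebras. -/
theorem leAE_slot_mE (s : ι) : LeAE D (slot s (mE mY D s)) (sigG mY s) := by
  rintro _ ⟨A, hA, rfl⟩
  exact hA.2.2

/-- `mE` is complete: it contains every measurable set that is a.e. equal to one of its sets. -/
theorem mE_of_ae_eq {ρ : Measure W} (hD : ∀ j, D.map (fun w => w j) = ρ) {s : ι} {A B : Set W}
    (hA : MeasurableSet[mW] A) (hB : MeasurableSet[mE mY D s] B) (hAB : A =ᵐ[ρ] B) :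
    MeasurableSet[mE mY D s] A := by
  refine ⟨hA, (measurable_pi_apply s) hA, ?_⟩
  obtain ⟨-, -, C, hC, hBC⟩ := hB
  refine ⟨C, hC, ?_⟩
  have h1 : (fun w : ι → W => w s) ⁻¹' A =ᵐ[D] (fun w : ι → W => w s) ⁻¹' B := by
    rw [← hD s] at hAB
    have h2 := ae_of_ae_map (measurable_pi_apply s).aemeasurable hAB
    exact h2
  exact h1.trans hBC

/-- A measurable function whose composition with one coordinate is a.e. `mE`-measurable is
`mE`-measurable. -/
theorem measurable_mE_of_ae {ρ : Measure W} (hD : ∀ j, D.map (fun w => w j) = ρ) {s t : ι}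
    {g : W → ℝ} (hg : Measurable g)
    (h : AEStronglyMeasurable[slot t (mE mY D s)] (fun w : ι → W => g (w t)) D) :
    Measurable[mE mY D s] g := by
  obtain ⟨G, hG, hgG⟩ := h
  obtain ⟨g', hg', rfl⟩ := (Measurable.exists_eq_measurable_comp (mY := mE mY D s)
    (f := fun w : ι → W => w t) hG.measurable)
  have hae : g =ᵐ[ρ] g' := by
    rw [← hD t]
    have hm : MeasurableSet {x | g x = g' x} :=
      measurableSet_eq_fun hg (hg'.mono (mE_le s) le_rfl)
    exact (ae_map_iff (measurable_pi_apply t).aemeasurable hm).2 hgG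
  intro U hU
  refine mE_of_ae_eq hD (hg hU) (hg' hU) ?_
  filter_upwards [hae] with x hx
  apply propext
  change g x ∈ U ↔ g' x ∈ U
  rw [hx]

/-- preimages of `σ(w_j (j ≠ s), y_s)`-sets under a diagonal map. -/
theorem comap_sigG_le {S : W → W} (hS : Measurable S) (hSY : mY.comap S ≤ mY) (s : ι) :
    (sigG mY s).comap (fun (w : ι → W) j => S (w j)) ≤ sigG mY s := by
  rw [MeasurableSpace.comap_le_iff_le_map]
  refine sup_le (iSup_le fun j => iSup_le fun hj => ?_) ?_
  · rw [← MeasurableSpace.comap_le_iff_le_map, MeasurableSpace.comap_comp]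
    refine le_sup_of_le_left (le_iSup_of_le j (le_iSup_of_le hj ?_))
    rintro _ ⟨A, hA, rfl⟩
    exact ⟨S ⁻¹' A, hS hA, rfl⟩
  · rw [← MeasurableSpace.comap_le_iff_le_map, MeasurableSpace.comap_comp]
    refine le_sup_of_le_right ?_
    rintro _ ⟨A, hA, rfl⟩
    exact ⟨S ⁻¹' A, hSY _ ⟨A, hA, rfl⟩, rfl⟩

/-- `mE` is invariant under a factor-preserving diagonal symmetry of `D`. -/
theorem comap_mE_le {S : W → W} (hS : Measurable S) (hSY : mY.comap S ≤ mY)
    (hDS : MeasurePreserving (fun (w : ι → W) j => S (w j)) D D) (s : ι) :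
    (mE mY D s).comap S ≤ mE mY D s := by
  rintro _ ⟨A, ⟨hA, hA2, B, hB, hAB⟩, rfl⟩
  refine ⟨hS hA, (measurable_pi_apply s) (hS hA),
    (fun (w : ι → W) j => S (w j)) ⁻¹' B, comap_sigG_le hS hSY s _ ⟨B, hB, rfl⟩, ?_⟩
  exact hDS.quasiMeasurePreserving.preimage_ae_eq hAB

theorem comap_mEx_le {S : W → W} (hS : Measurable S) (hSY : mY.comap S ≤ mY)
    (hDS : MeasurePreserving (fun (w : ι → W) j => S (w j)) D D) (I : Set ι) :
    (mEx mY D I).comap S ≤ mEx mY D I :=
  le_iInf₂ fun s hs =>
    (MeasurableSpace.comap_mono (mEx_le_mE hs)).trans (comap_mE_le hS hSY hDS s)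

theorem mEx_of_ae_eq {ρ : Measure W} (hD : ∀ j, D.map (fun w => w j) = ρ) {I : Set ι}
    {A B : Set W} (hA : MeasurableSet[mW] A) (hB : MeasurableSet[mEx mY D I] B)
    (hAB : A =ᵐ[ρ] B) : MeasurableSet[mEx mY D I] A := by
  rw [MeasurableSpace.measurableSet_iInf]
  intro s
  rw [MeasurableSpace.measurableSet_iInf]
  intro hs
  exact mE_of_ae_eq hD hA (mEx_le_mE hs _ hB) hAB

variable [Fintype ι] [DecidableEq ι] [IsProbabilityMeasure D]

/-- Closure hypothesis in product form (output of Theorem E) for the slots `s ∈ I`. -/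
def ClosureHyp {ι W : Type*} [Fintype ι] [DecidableEq ι] (mY : MeasurableSpace W)
    [mW : MeasurableSpace W] (D : Measure (ι → W)) (I : Set ι) : Prop :=
  ∀ s ∈ I, ∀ (t b : ι), b ≠ t → ∀ (A : ι → Set W), (∀ a, MeasurableSet (A a)) →
    ∀ K : Set W, MeasurableSet[mE mY D s] K →
    AEStronglyMeasurable[slot t (mE mY D s)]
      (D[((⋂ a ∈ (Finset.univ.erase t).erase b, (fun w : ι → W => w a) ⁻¹' A a) ∩
        (fun w : ι → W => w b) ⁻¹' K).indicator (fun _ => (1 : ℝ)) | slot t mW]) D

/-- closure ⇒ conditional independence over the exact factor. -/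
theorem CIo_of_closure {ρ : Measure W} (hD : ∀ j, D.map (fun w => w j) = ρ)
    {I : Set ι} (hI : I.Nonempty) (hcl : ClosureHyp mY D I) {s j : ι} (hjs : j ≠ s) :
    CIo D ((⨆ a, ⨆ (_ : a ≠ j ∧ a ≠ s), slot a mW) ⊔ slot s (mEx mY D I)) (slot j mW)
      (slot j (mEx mY D I)) := by
  classical
  have hmEx : mEx mY D I ≤ mW := mEx_le hI
  let m : ι → MeasurableSpace (ι → W) := fun a =>
    if a = s then slot s (mEx mY D I) else if a = j then ⊥ else slot a mW
  have hm0 : ∀ a, m a ≤ MeasurableSpace.pi := by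
    intro a
    simp only [m]
    split_ifs
    · exact slot_le s hmEx
    · exact bot_le
    · exact slot_le a le_rfl
  have hsup : (⨆ a, ⨆ (_ : a ≠ j ∧ a ≠ s), slot a mW) ⊔ slot s (mEx mY D I) = ⨆ a, m a := by
    apply le_antisymm
    · refine sup_le (iSup_le fun a => iSup_le fun ha => ?_) ?_
      · refine le_iSup_of_le a ?_
        simp [m, ha.1, ha.2]
      · refine le_iSup_of_le s ?_
        simp [m]
    · refine iSup_le fun a => ?_
      simp only [m]
      split_ifs with h1 h2
      · exact le_sup_right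
      · exact bot_le
      · exact le_sup_of_le_left (le_iSup_of_le a (le_iSup_of_le ⟨h2, h1⟩ le_rfl))
  rw [hsup]
  have hle : slot j (mEx mY D I) ≤ slot (ι := ι) j mW := slot_mono hmEx
  refine CIo.of_iSup hm0 (slot_le j le_rfl) hle ?_
  intro A hA
  apply condExp_eq_of_aestronglyMeasurable (slot_le j le_rfl) hle
  -- unpack the sets
  have hms : m s = slot s (mEx mY D I) := if_pos rfl
  have hmj : m j = ⊥ := by simp only [m, hjs, if_false, if_true]
  have hma : ∀ a, a ≠ s → a ≠ j → m a = slot a mW := by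
    intro a h1 h2
    simp only [m, h1, h2, if_false]
  have hs : MeasurableSet[slot s (mEx mY D I)] (A s) := hms ▸ hA s
  obtain ⟨K, hK, hKs⟩ := hs
  have hj : A j = ∅ ∨ A j = univ := by
    have := hA j
    rw [hmj] at this
    rwa [MeasurableSpace.measurableSet_bot_iff] at this
  have hex : ∀ a, ∃ B : Set W, MeasurableSet B ∧
      (a ≠ s → a ≠ j → (fun w : ι → W => w a) ⁻¹' B = A a) := by
    intro a
    by_cases h1 : a = s
    · exact ⟨univ, MeasurableSet.univ, fun h => absurd h1 h⟩
    · by_cases h2 : a = j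
      · exact ⟨univ, MeasurableSet.univ, fun _ h => absurd h2 h⟩
      · have := hA a
        rw [hma a h1 h2] at this
        obtain ⟨B, hB, hBA⟩ := this
        exact ⟨B, hB, fun _ _ => hBA⟩
  choose B hB hBA using hex
  rcases hj with hj | hj
  · have : (⋂ i, A i) = ∅ := by
      apply eq_empty_of_subset_empty
      intro x hx
      rw [← hj]
      exact mem_iInter.1 hx j
    rw [this]
    have h0 : D[(∅ : Set (ι → W)).indicator (fun _ => (1 : ℝ)) | slot j mW] = 0 := by
      rw [indicator_empty]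
      exact condExp_zero
    rw [h0]
    exact (@stronglyMeasurable_zero _ _ (slot j (mEx mY D I)) _ _).aestronglyMeasurable
  · have hset : (⋂ i, A i) = (⋂ a ∈ (Finset.univ.erase j).erase s,
        (fun w : ι → W => w a) ⁻¹' B a) ∩ (fun w : ι → W => w s) ⁻¹' K := by
      ext x
      simp only [mem_iInter, mem_inter_iff, Finset.mem_erase, Finset.mem_univ, and_true]
      constructor
      · intro h
        refine ⟨fun a ha => ?_, ?_⟩
        · rw [hBA a ha.1 ha.2]; exact h a
        · rw [hKs]; exact h s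
      · rintro ⟨h1, h2⟩ a
        by_cases has : a = s
        · subst has; rw [← hKs]; exact h2
        · by_cases haj : a = j
          · subst haj; rw [hj]; exact mem_univ _
          · rw [← hBA a has haj]; exact h1 a ⟨has, haj⟩
    rw [hset]
    set F : (ι → W) → ℝ := ((⋂ a ∈ (Finset.univ.erase j).erase s,
        (fun w : ι → W => w a) ⁻¹' B a) ∩ (fun w : ι → W => w s) ⁻¹' K).indicator
        (fun _ => (1 : ℝ)) with hF
    -- a version of the conditional expectation as a function of the coordinate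
    have hsm : StronglyMeasurable[slot j mW] (D[F | slot j mW]) := stronglyMeasurable_condExp
    obtain ⟨g, hg, hgF⟩ := (Measurable.exists_eq_measurable_comp
      (f := fun w : ι → W => w j) hsm.measurable)
    have hg' : Measurable g := hg
    have hmeas : Measurable[mEx mY D I] g := by
      intro U hU
      rw [MeasurableSpace.measurableSet_iInf]
      intro s'
      rw [MeasurableSpace.measurableSet_iInf]
      intro hs'
      refine measurable_mE_of_ae hD hg' (t := j) ?_ hU
      have h1 := hcl s' hs' j s (Ne.symm hjs) B hB K (mEx_le_mE hs' _ hK)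
      rw [← hF, hgF] at h1
      exact h1
    rw [hgF]
    refine ⟨_, ?_, ae_eq_rfl⟩
    have : Measurable[slot j (mEx mY D I)] (g ∘ fun w : ι → W => w j) :=
      hmeas.comp (comap_measurable _)
    exact this.stronglyMeasurable

/-- **Self-contained exactness of the exact factor**: mod `D`, the `s`-th copy of `mEx` is
contained in the σ-algebra generated by the other copies of `mEx` and by `y_s`. -/
theorem exact_self_contained {ρ : Measure W} (hY : mY ≤ mW)
    (hD : ∀ j, D.map (fun w => w j) = ρ) {I : Set ι} (hcl : ClosureHyp mY D I) {s : ι}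
    (hs : s ∈ I) :
    LeAE D (slot s (mEx mY D I)) ((⨆ j, ⨆ (_ : j ≠ s), slot j (mEx mY D I)) ⊔ slot s mY) := by
  have hI : I.Nonempty := ⟨s, hs⟩
  refine self_contained (P := D) s (fun j => slot j mW) (fun j => slot j (mEx mY D I))
    (slot s mY) (fun j => slot_le j le_rfl) (fun j => slot_mono (mEx_le hI))
    (slot_mono (le_mEx hY I)) ?_ ?_
  · intro j hj
    exact CIo_of_closure hD hI hcl hj
  · exact LeAE.le_trans (slot_mono (mEx_le_mE hs)) (leAE_slot_mE s)

end Vale.Agent.P102.RM.ExF
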