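import Vale.Agent.P102.RM.Functor
import Vale.Agent.P102.RM.Skeleton
import Vale.Agent.P102.RM.ExFJoin

/-!
P102, block EXF: the exact σ-algebra of an admissible pair, and its self-contained exactness,
from the ideal property.
-/

namespace Vale.Agent.P102.RM

open MeasureTheory Filter ProbabilityTheory ExF

/-- the σ-algebra of `Y` on `W` -/
@[reducible] def Fac.sa {A B : Sys} (y : Fac A B) : MeasurableSpace A.C :=
  MeasurableSpace.comap y.f inferInstance

theorem Fac.sa_le {A B : Sys} (y : Fac A B) : y.sa ≤ A.mC := y.meas.comap_le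

section
variable {ι : Type} [Fintype ι] [DecidableEq ι]

omit [Fintype ι] [DecidableEq ι] in
theorem comap_side {V Y : Sys} (y : Fac V Y) (s : ι) :
    MeasurableSpace.comap (y.side s) inferInstance = sigG (ι := ι) y.sa s := by
  have h1 : MeasurableSpace.comap (y.side s) inferInstance =
      MeasurableSpace.comap (fun d : ι → V.C => fun j : {j : ι // j ≠ s} => d j)
        MeasurableSpace.pi ⊔ MeasurableSpace.comap (fun d : ι → V.C => y.f (d s)) Y.mC := by
    exact MeasurableSpace.comap_prodMk _ _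
  rw [h1]
  congr 1
  · rw [MeasurableSpace.comap_process_pi]
    rw [iSup_subtype]
  · rw [slot, Fac.sa, MeasurableSpace.comap_comp]
    rfl

omit [Fintype ι] [DecidableEq ι] in
theorem Fac.side_meas {V Y : Sys} (y : Fac V Y) (s : ι) : Measurable (y.side s) :=
  (measurable_pi_lambda _ fun _ => measurable_pi_apply _).prodMk
    (y.meas.comp (measurable_pi_apply s))

variable {X : Sys} {P : Adm X} {r : Ultrafilter (ι → ℤ)}

omit [DecidableEq ι] in
/-- the functions in `Exa` are measurable for the exact σ-algebra of slot `s` -/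
theorem exa_measurable {s : ι} {Φ : P.W.C → ℂ} (h : Φ ∈ Exa P r s) :
    Measurable[mE P.y.sa (D r P.W).μ s] Φ := by
  obtain ⟨⟨hm, -⟩, g, hg, hae⟩ := h
  intro U hU
  refine ⟨hm hU, (measurable_pi_apply s) (hm hU), P.y.side s ⁻¹' (g ⁻¹' U), ?_, ?_⟩
  · rw [← comap_side]
    exact ⟨g ⁻¹' U, hg hU, rfl⟩
  · filter_upwards [hae] with d hd
    apply propext
    change Φ (d s) ∈ U ↔ g (P.y.side s d) ∈ U
    rw [hd]

omit [DecidableEq ι] in
/-- indicators of exact sets are in `Exa` -/
theorem exa_indicator {s : ι} {K : Set P.W.C}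
    (hK : MeasurableSet[mE P.y.sa (D r P.W).μ s] K) :
    K.indicator (fun _ => (1 : ℂ)) ∈ Exa P r s := by
  obtain ⟨hK0, -, B, hB, hae⟩ := hK
  rw [← comap_side] at hB
  obtain ⟨B', hB', rfl⟩ := hB
  refine ⟨Bdd.indicator hK0, B'.indicator (fun _ => (1 : ℂ)), measurable_const.indicator hB', ?_⟩
  filter_upwards [hae] with d hd
  have h1 : (d s ∈ K) = (P.y.side s d ∈ B') := hd
  by_cases h2 : d s ∈ K
  · have h3 : P.y.side s d ∈ B' := h1 ▸ h2
    rw [Set.indicator_of_mem h2, Set.indicator_of_mem h3]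
  · have h3 : P.y.side s d ∉ B' := fun h => h2 (h1 ▸ h)
    rw [Set.indicator_of_notMem h2, Set.indicator_of_notMem h3]

omit [DecidableEq ι] in
/-- conditional expectation of a real function given slot `t`, through `cl` -/
theorem condExp_ae_eq_cl (r : Ultrafilter (ι → ℤ)) (A : Sys) (t : ι) {F : (ι → A.C) → ℝ}
    (hF : Measurable F) {C : ℝ} (hC : ∀ d, |F d| ≤ C) :
    (D r A).μ[F | slot t A.mC] =ᵐ[(D r A).μ]
      fun d => (cl r A t (fun d => (F d : ℂ)) (d t)).re := by
  have hi : Integrable F (D r A).μ :=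
    Integrable.of_bound hF.aestronglyMeasurable C (Eventually.of_forall hC)
  have hev : @Measurable (D r A).C A.C (D r A).mC A.mC (fun d : (D r A).C => d t) :=
    measurable_pi_apply (X := fun _ : ι => A.C) t
  have h1 := condExp_ae_eq_integral_condDistrib_id (μ := (D r A).μ)
    (X := fun d : (D r A).C => d t) hev hi
  refine h1.trans (Eventually.of_forall fun d => ?_)
  have h2 : cl r A t (fun d => (F d : ℂ)) (d t) =
      ((∫ y, F y ∂condDistrib id (fun d : (D r A).C => d t) (D r A).μ (d t) : ℝ) : ℂ) := by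
    unfold cl cE
    exact integral_ofReal
  simp only [h2, Complex.ofReal_re]

/-- the ideal property gives the closure hypothesis -/
theorem closureHyp_of_ideal {I : Set ι}
    (h : ∀ s ∈ I, ∀ (t b : ι), t ≠ b → ∀ (f : ι → P.W.C → ℂ), (∀ i, Bdd (f i)) →
      ∀ Φ ∈ Exa P r s, cl r P.W t (fun d => (∏ a ∈ (Finset.univ.erase t).erase b, f a (d a)) *
        Φ (d b)) ∈ Exa P r s) :
    ClosureHyp P.y.sa (D r P.W).μ I := by
  intro s hs t b hbt A hA K hK
  have hK0 : MeasurableSet K := mE_le s _ hK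
  set S : Set (ι → P.W.C) := (⋂ a ∈ (Finset.univ.erase t).erase b,
    (fun w : ι → P.W.C => w a) ⁻¹' A a) ∩ (fun w : ι → P.W.C => w b) ⁻¹' K with hS
  have hSm : MeasurableSet S :=
    (Finset.measurableSet_biInter _ fun a _ => measurable_pi_apply a (hA a)).inter
      (measurable_pi_apply b hK0)
  have h1 := h s hs t b (Ne.symm hbt) (fun a => (A a).indicator (fun _ => (1 : ℂ)))
    (fun a => Bdd.indicator (hA a)) _ (exa_indicator hK)
  have h2 : (fun d : ι → P.W.C => (∏ a ∈ (Finset.univ.erase t).erase b,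
      (A a).indicator (fun _ => (1 : ℂ)) (d a)) * K.indicator (fun _ => (1 : ℂ)) (d b)) =
      fun d => ((S.indicator (fun _ => (1 : ℝ)) d : ℝ) : ℂ) := by
    funext d
    by_cases hd : d ∈ S
    · rw [Set.indicator_of_mem hd]
      obtain ⟨h3, h4⟩ := hd
      have h4' : d b ∈ K := h4
      rw [Set.indicator_of_mem h4']
      rw [Finset.prod_eq_one]
      · simp
      · intro a ha
        have : d a ∈ A a := by
          have := Set.mem_iInter₂.1 h3 a ha
          exact this
        rw [Set.indicator_of_mem this]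
    · rw [Set.indicator_of_notMem hd]
      by_cases h4 : d b ∈ K
      · have h3 : ∃ a ∈ (Finset.univ.erase t).erase b, d a ∉ A a := by
          by_contra hcon
          push Not at hcon
          exact hd ⟨Set.mem_iInter₂.2 hcon, h4⟩
        obtain ⟨a, ha, had⟩ := h3
        rw [Finset.prod_eq_zero ha (Set.indicator_of_notMem had _)]
        simp
      · rw [Set.indicator_of_notMem h4]
        simp
  rw [h2] at h1
  have h3 := condExp_ae_eq_cl r P.W t (F := S.indicator (fun _ => (1 : ℝ)))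
    (measurable_const.indicator hSm) (C := 1) (fun d => by
      by_cases hd : d ∈ S <;> simp [hd])
  have hg := exa_measurable h1
  have hg2 : Measurable[slot t (mE P.y.sa (D r P.W).μ s)] (fun d : ι → P.W.C =>
      (cl r P.W t (fun d => ((S.indicator (fun _ => (1 : ℝ)) d : ℝ) : ℂ)) (d t)).re) := by
    have h4 : Measurable[mE P.y.sa (D r P.W).μ s] (fun w : P.W.C =>
      (cl r P.W t (fun d => ((S.indicator (fun _ => (1 : ℝ)) d : ℝ) : ℂ)) w).re) :=
      Complex.measurable_re.comp hg
    exact h4.comp (comap_measurable _)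
  exact ⟨_, hg2.stronglyMeasurable, h3⟩

/-- The exact σ-algebra (slots in `I`) of the pair. -/
@[reducible] noncomputable def Adm.mX (P : Adm X) (r : Ultrafilter (ι → ℤ)) (I : Set ι) :
    MeasurableSpace P.W.C :=
  mEx P.y.sa (D r P.W).μ I

omit [DecidableEq ι] in
theorem Adm.sa_le_mX (P : Adm X) (r : Ultrafilter (ι → ℤ)) (I : Set ι) :
    P.y.sa ≤ P.mX r I := le_mEx P.y.sa_le I

omit [DecidableEq ι] in
theorem Adm.mX_le (P : Adm X) (r : Ultrafilter (ι → ℤ)) {I : Set ι} (hI : I.Nonempty) :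
    P.mX r I ≤ P.W.mC := mEx_le hI

omit [DecidableEq ι] in
theorem Adm.measurable_S_mX (P : Adm X) (r : Ultrafilter (ι → ℤ)) (I : Set ι) :
    @Measurable _ _ (P.mX r I) (P.mX r I) P.W.S := by
  rw [measurable_iff_comap_le]
  refine comap_mEx_le P.W.S.measurable ?_ (D r P.W).mp I
  rintro _ ⟨_, ⟨B, hB, rfl⟩, rfl⟩
  refine ⟨P.Y.S ⁻¹' B, P.Y.S.measurable hB, ?_⟩
  ext a
  simp only [Set.mem_preimage, P.y.eqv]

omit [DecidableEq ι] in
theorem Adm.measurable_S_symm_mX (P : Adm X) (r : Ultrafilter (ι → ℤ)) (I : Set ι) :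
    @Measurable _ _ (P.mX r I) (P.mX r I) P.W.S.symm := by
  rw [measurable_iff_comap_le]
  refine comap_mEx_le P.W.S.symm.measurable ?_ ((D r P.W).mp.symm _) I
  rintro _ ⟨_, ⟨B, hB, rfl⟩, rfl⟩
  refine ⟨P.Y.S.symm ⁻¹' B, P.Y.S.symm.measurable hB, ?_⟩
  ext a
  have h1 : P.y.f (P.W.S.symm a) = P.Y.S.symm (P.y.f a) := by
    rw [MeasurableEquiv.eq_symm_apply, ← P.y.eqv, MeasurableEquiv.apply_symm_apply]
  simp only [Set.mem_preimage, h1]

omit [DecidableEq ι] in
/-- functions exact in all slots of `I` are `mX`-measurable -/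
theorem exa_measurable_mX {I : Set ι} {Φ : P.W.C → ℂ} (h : ∀ s ∈ I, Φ ∈ Exa P r s) :
    Measurable[P.mX r I] Φ := by
  intro U hU
  rw [MeasurableSpace.measurableSet_iInf]
  intro s
  rw [MeasurableSpace.measurableSet_iInf]
  intro hs
  exact exa_measurable (h s hs) hU

/-- **Self-contained exactness** for an admissible pair with the ideal property. -/
theorem Adm.exact_mX {I : Set ι}
    (h : ∀ s ∈ I, ∀ (t b : ι), t ≠ b → ∀ (f : ι → P.W.C → ℂ), (∀ i, Bdd (f i)) →
      ∀ Φ ∈ Exa P r s, cl r P.W t (fun d => (∏ a ∈ (Finset.univ.erase t).erase b, f a (d a)) *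
        Φ (d b)) ∈ Exa P r s) {s : ι} (hs : s ∈ I) :
    LeAE (D r P.W).μ (slot s (P.mX r I))
      ((⨆ j, ⨆ (_ : j ≠ s), slot j (P.mX r I)) ⊔ slot s P.y.sa) :=
  exact_self_contained P.y.sa_le (fun j => limM_map_eval r P.W j) (closureHyp_of_ideal h) hs

end

end Vale.Agent.P102.RM
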