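import Vale.Agent.P102.RM.ExFClos
import Mathlib.MeasureTheory.Constructions.Polish.EmbeddingReal
import Mathlib.Analysis.SpecialFunctions.Trigonometric.Arctan

/-!
P102, block EXF, R4: from exactness of σ-algebras mod null sets to the exactness functions of `EP`.
-/

namespace Vale.Agent.P102.RM

open MeasureTheory Filter ProbabilityTheory ExF

/-- Doob–Dynkin mod null sets. -/
theorem exists_factor_of_leAE {Ω G H : Type*} [MeasurableSpace Ω] {P : Measure Ω}
    [IsProbabilityMeasure P] [mG : MeasurableSpace G] [mH : MeasurableSpace H]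
    [StandardBorelSpace H] [Nonempty H] {g : Ω → G} (hg : Measurable g) {h : Ω → H}
    (hh : Measurable h) (hLe : LeAE P (mH.comap h) (mG.comap g)) :
    ∃ R : G → H, Measurable R ∧ ∀ᵐ a ∂P, h a = R (g a) := by
  let em : H → ℝ := embeddingReal H
  have hem : MeasurableEmbedding em := measurableEmbedding_embeddingReal H
  let f : Ω → ℝ := fun a => Real.arctan (em (h a))
  have hf0 : Measurable (fun b : H => Real.arctan (em b)) :=
    Real.continuous_arctan.measurable.comp hem.measurable
  have hfm : Measurable[mH.comap h] f := hf0.comp (comap_measurable h)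
  have hfb : ∀ a, ‖f a‖ ≤ Real.pi := fun a => by
    rw [Real.norm_eq_abs, abs_le]
    constructor
    · have := Real.neg_pi_div_two_lt_arctan (em (h a))
      have := Real.pi_pos
      simp only [f]
      linarith
    · have := Real.arctan_lt_pi_div_two (em (h a))
      have := Real.pi_pos
      simp only [f]
      linarith
  have hint : Integrable f P :=
    Integrable.of_bound ((hf0.comp hh).aestronglyMeasurable) Real.pi (Eventually.of_forall hfb)
  have h1 := hLe.condExp_eq hh.comap_le hg.comap_le hfm.stronglyMeasurable hint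
  have hsm : StronglyMeasurable[mG.comap g] (P[f | mG.comap g]) := stronglyMeasurable_condExp
  obtain ⟨F, hF, hFg⟩ := (Measurable.exists_eq_measurable_comp (f := g) hsm.measurable)
  have hF' : Measurable F := hF
  rw [hFg] at h1
  -- a measurable left inverse of the embedding
  obtain ⟨b0⟩ := (inferInstance : Nonempty H)
  obtain ⟨inv, hinv, hinv2⟩ : ∃ inv : ℝ → H, Measurable inv ∧ ∀ b, inv (em b) = b := by
    refine ⟨hem.invFun, hem.measurable_invFun, fun b => hem.leftInverse_invFun b⟩
  have htan : Measurable Real.tan := by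
    have h3 : Real.tan = fun x => Real.sin x / Real.cos x := by
      funext x
      exact Real.tan_eq_sin_div_cos x
    rw [h3]
    exact Real.measurable_sin.div Real.measurable_cos
  refine ⟨fun x => inv (Real.tan (F x)), hinv.comp (htan.comp hF'), ?_⟩
  filter_upwards [h1] with a ha
  have h2 : F (g a) = Real.arctan (em (h a)) := ha
  simp only [h2, Real.tan_arctan, hinv2]

section
variable {ι : Type} [Fintype ι] [DecidableEq ι] {r : Ultrafilter (ι → ℤ)}

omit [DecidableEq ι] in
/-- slots of σ-algebras contained mod null sets. -/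
theorem leAE_slot {A : Sys} (m n : Unit → MeasurableSpace A.C) (h : LeAE A.μ (m ()) (n ()))
    (s : ι) : LeAE (D r A).μ (slot s (m ())) (slot s (n ())) := by
  rintro _ ⟨B, hB, rfl⟩
  obtain ⟨C, hC, hBC⟩ := h B hB
  exact ⟨_, ⟨C, hC, rfl⟩, (evF r A s).mp.quasiMeasurePreserving.preimage_ae_eq hBC⟩

omit [DecidableEq ι] in
/-- R4: the exactness function of a factor `V` of `A` that represents the σ-algebra `m ()`. -/
theorem exists_exact_fun {A V Y : Sys} (e : Fac A V) (y : Fac A Y) (z : Fac V Y)
    (h : ∀ a, z.f (e.f a) = y.f a) (m : Unit → MeasurableSpace A.C) (hm : m () ≤ A.mC)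
    (he : MeasurableSpace.comap e.f V.mC ≤ m ())
    (hgen : LeAE A.μ (m ()) (MeasurableSpace.comap e.f V.mC))
    (s : ι) (hex : LeAE (D r A).μ (slot s (m ()))
      ((⨆ j, ⨆ (_ : j ≠ s), slot j (m ())) ⊔ slot s y.sa)) :
    ∃ R : ({j : ι // j ≠ s} → V.C) × Y.C → V.C, Measurable R ∧
      ∀ᵐ d ∂(D r V).μ, d s = R (z.side s d) := by
  have hmV : ∀ j : ι, slot j (m ()) ≤ (D r A).mC := fun j => slot_le j hm
  have hYle : slot s y.sa ≤ (D r A).mC := slot_le s y.sa_le
  -- σ(e (d s)) ⊂ σ(z.side s (e ∘ d)) mod null
  have h1 : LeAE (D r A).μ (slot s (MeasurableSpace.comap e.f V.mC))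
      ((⨆ j, ⨆ (_ : j ≠ s), slot j (MeasurableSpace.comap e.f V.mC)) ⊔ slot s y.sa) := by
    refine (LeAE.le_trans (slot_mono he) hex).trans ?_
    refine LeAE.sup (iSup_le fun j => iSup_le fun _ => hmV j) hYle ?_
      (LeAE.of_le le_sup_right)
    refine LeAE.iSup (fun j => iSup_le fun _ => hmV j) fun j => ?_
    refine LeAE.iSup (fun _ => hmV j) fun hj => ?_
    exact (leAE_slot m (fun _ => MeasurableSpace.comap e.f V.mC) hgen j).trans_le
      (le_sup_of_le_left (le_iSup_of_le j (le_iSup_of_le hj le_rfl)))
  have hside : MeasurableSpace.comap (fun d : (D r A).C => z.side s (fun j => e.f (d j)))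
      inferInstance =
      (⨆ j, ⨆ (_ : j ≠ s), slot j (MeasurableSpace.comap e.f V.mC)) ⊔ slot s y.sa := by
    have h2 : (fun d : ι → A.C => z.side s (fun j => e.f (d j))) =
        z.side s ∘ (fun (d : ι → A.C) j => e.f (d j)) := rfl
    rw [h2, ← MeasurableSpace.comap_comp, comap_side, sigG]
    rw [MeasurableSpace.comap_sup, MeasurableSpace.comap_iSup]
    congr 1
    · congr 1
      funext j
      rw [MeasurableSpace.comap_iSup]
      congr 1
      funext _
      rw [slot, slot, MeasurableSpace.comap_comp, MeasurableSpace.comap_comp]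
      rfl
    · rw [slot, slot, MeasurableSpace.comap_comp, Fac.sa, Fac.sa, MeasurableSpace.comap_comp,
        MeasurableSpace.comap_comp]
      congr 1
      funext d
      exact h (d s)
  have hg : Measurable (fun d : (D r A).C => z.side s (fun j => e.f (d j))) :=
    (z.side_meas s).comp (e.D r).meas
  have hh : Measurable (fun d : (D r A).C => e.f (d s)) :=
    e.meas.comp (measurable_pi_apply (X := fun _ : ι => A.C) s)
  have hLe : LeAE (D r A).μ (V.mC.comap (fun d : (D r A).C => e.f (d s)))
      (MeasurableSpace.comap (fun d : (D r A).C => z.side s (fun j => e.f (d j)))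
        inferInstance) := by
    rw [hside]
    have h3 : V.mC.comap (fun d : (D r A).C => e.f (d s)) =
        slot s (MeasurableSpace.comap e.f V.mC) := by
      rw [slot, MeasurableSpace.comap_comp]
      rfl
    rw [h3]
    exact h1
  obtain ⟨R, hR, hae⟩ := exists_factor_of_leAE (P := (D r A).μ) hg hh hLe
  refine ⟨R, hR, ?_⟩
  rw [← (e.D r).mp.map_eq]
  have hms : MeasurableSet {d : (D r V).C | d s = R (z.side s d)} :=
    measurableSet_eq_fun (measurable_pi_apply (X := fun _ : ι => V.C) s)
      (hR.comp (z.side_meas s))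
  exact (ae_map_iff (e.D r).meas.aemeasurable hms).2 hae

end

end Vale.Agent.P102.RM
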