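import Vale.Agent.P102.RM.Sat231b
import Vale.Agent.P102.RM.CondExpB

/-! # Satedness as equality of conditional expectations -/

namespace Vale.Agent.P102.RM

open MeasureTheory Filter Topology ProbabilityTheory

variable {X : Sys}

theorem Sat.Obs.condExp_eq_of_le (O : Sat.Obs X) {R L : Adm X} (g : Ext R L) {k : L.W.C → ℂ}
    (hk : Bdd k)
    (h : ∫ ω, ‖((O.μ R)[fun ω => k (g.w.f (O.ev R ω)) | O.𝓖 R]) ω‖ ^ 2 ∂(O.μ R)
      ≤ ∫ ω, ‖((O.μ L)[fun ω => k (O.ev L ω) | O.𝓖 L]) ω‖ ^ 2 ∂(O.μ L)) :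
    (O.μ R)[fun ω => k (g.w.f (O.ev R ω)) | O.𝓖 R]
      =ᵐ[O.μ R] fun ω => ((O.μ L)[fun ω => k (O.ev L ω) | O.𝓖 L]) (O.π g ω) := by
  have hb : Bdd (fun ω => k (O.ev L ω)) := hk.comp (O.mev L)
  have hi : Integrable (fun ω => k (O.ev L ω)) (O.μ L) := hb.integrable _
  have e1 : (fun ω => k (O.ev L (O.π g ω))) = fun ω => k (g.w.f (O.ev R ω)) := by
    funext ω
    rw [O.hev]
  have h1 : (O.μ R)[fun ω => k (g.w.f (O.ev R ω)) | (O.𝓖 L).comap (O.π g)]
      =ᵐ[O.μ R] fun ω => ((O.μ L)[fun ω => k (O.ev L ω) | O.𝓖 L]) (O.π g ω) := by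
    have h0 := condExp_comp_comap (O.hG L) (O.hπ g) hi
    have e2 : (fun ω => k (O.ev L ω)) ∘ O.π g = fun ω => k (g.w.f (O.ev R ω)) := e1
    rw [e2] at h0
    exact h0
  refine EventuallyEq.trans ?_ h1
  have hF : Bdd (fun ω => k (g.w.f (O.ev R ω))) := hk.comp (g.w.meas.comp (O.mev R))
  obtain ⟨C, hC⟩ := hF.2
  have hF2 : MemLp (fun ω => k (g.w.f (O.ev R ω))) 2 (O.μ R) :=
    MemLp.of_bound hF.1.aestronglyMeasurable C (ae_of_all _ hC)
  refine condExp_ae_eq_of_norm_le (O.hle g) (O.hG R) hF2 (h.trans (le_of_eq ?_))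
  have h3 := integral_normSq_condExp_comap (O.hG L) (O.hπ g) hi
  have e2 : (fun ω => k (O.ev L ω)) ∘ O.π g = fun ω => k (g.w.f (O.ev R ω)) := e1
  rw [e2] at h3
  exact h3.symm

/-- `M`-satedness: in every extension `R` of `L`, `E[k(w) | y_R] = E[k | y_L](w)`. -/
theorem SatM.condExp_eq {L : Adm X} (h : SatM L) {R : Adm X} (g : Ext R L) {k : L.W.C → ℂ}
    (hk : Bdd k) :
    R.W.μ[fun a => k (g.w.f a) | MeasurableSpace.comap R.y.f inferInstance]
      =ᵐ[R.W.μ] fun a => (L.W.μ[k | MeasurableSpace.comap L.y.f inferInstance]) (g.w.f a) :=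
  (Sat.obsM X).condExp_eq_of_le g hk (h R g k hk)

section slots
variable {ι : Type} [Fintype ι] [DecidableEq ι]

/-- `N^s`-satedness: in every extension `R` of `L`,
`E[k(w_s) | (R-points off s), y_R at s] = E[k(w_s) | (L-points off s), y_L at s]`. -/
theorem SatN.condExp_eq {L : Adm X} {r : Ultrafilter (ι → ℤ)} {s : ι} (h : SatN L r s)
    {R : Adm X} (g : Ext R L) {k : L.W.C → ℂ} (hk : Bdd k) :
    (D r R.W).μ[fun d : ι → R.W.C => k (g.w.f (d s)) |
        MeasurableSpace.comap (R.y.side s) inferInstance]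
      =ᵐ[(D r R.W).μ] fun d : ι → R.W.C =>
        ((D r L.W).μ[fun d : ι → L.W.C => k (d s) |
          MeasurableSpace.comap (L.y.side s) inferInstance]) (fun i => g.w.f (d i)) :=
  (Sat.obsN X r s).condExp_eq_of_le g hk (h R g k hk)

/-- the same, with the smaller σ-algebra pulled back to `D r R.W` -/
theorem SatN.condExp_eq' {L : Adm X} {r : Ultrafilter (ι → ℤ)} {s : ι} (h : SatN L r s)
    {R : Adm X} (g : Ext R L) {k : L.W.C → ℂ} (hk : Bdd k) :
    (D r R.W).μ[fun d : ι → R.W.C => k (g.w.f (d s)) |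
        MeasurableSpace.comap (R.y.side s) inferInstance]
      =ᵐ[(D r R.W).μ] (D r R.W).μ[fun d : ι → R.W.C => k (g.w.f (d s)) |
        MeasurableSpace.comap (fun d : ι → R.W.C => L.y.side s (fun i => g.w.f (d i)))
          inferInstance] := by
  refine (h.condExp_eq g hk).trans ?_
  have hi : Integrable (fun d : ι → L.W.C => k (d s)) (D r L.W).μ :=
    (hk.comp (measurable_pi_apply s)).integrable _
  have h0 := condExp_comp_comap (Sat.measurable_side L.y s).comap_le (g.w.D r).mp hi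
  rw [MeasurableSpace.comap_comp] at h0
  exact h0.symm

/-- test form: for every bounded `H` measurable with respect to the side data of `R`,
`∫ k(w_s) H = ∫ E[k(w_s) | side L] H`. -/
theorem SatN.integral_eq {L : Adm X} {r : Ultrafilter (ι → ℤ)} {s : ι} (h : SatN L r s)
    {R : Adm X} (g : Ext R L) {k : L.W.C → ℂ} (hk : Bdd k)
    {H : ({j : ι // j ≠ s} → R.W.C) × R.Y.C → ℂ} (hH : Bdd H) :
    ∫ d : ι → R.W.C, k (g.w.f (d s)) * H (R.y.side s d) ∂(D r R.W).μ
      = ∫ d : ι → R.W.C, ((D r L.W).μ[fun d : ι → L.W.C => k (d s) |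
          MeasurableSpace.comap (L.y.side s) inferInstance]) (fun i => g.w.f (d i))
            * H (R.y.side s d) ∂(D r R.W).μ := by
  have hm : MeasurableSpace.comap (R.y.side s) inferInstance
      ≤ (inferInstance : MeasurableSpace (ι → R.W.C)) := (Sat.measurable_side R.y s).comap_le
  have hF : Bdd (fun d : ι → R.W.C => k (g.w.f (d s))) :=
    hk.comp (g.w.meas.comp (measurable_pi_apply s))
  have hHm : StronglyMeasurable[MeasurableSpace.comap (R.y.side s) inferInstance]
      (fun d : ι → R.W.C => H (R.y.side s d)) :=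
    (hH.1.comp (comap_measurable (R.y.side s))).stronglyMeasurable
  have hHb : Bdd (fun d : ι → R.W.C => H (R.y.side s d)) := hH.comp (Sat.measurable_side R.y s)
  rw [← integral_condExp (m := MeasurableSpace.comap (R.y.side s) inferInstance) hm]
  refine integral_congr_ae ?_
  have h1 := condExp_mul_right (μ := (D r R.W).μ) (f := fun d : ι → R.W.C => k (g.w.f (d s)))
    (g := fun d : ι → R.W.C => H (R.y.side s d)) (m := MeasurableSpace.comap (R.y.side s) inferInstance)
    hHm.aestronglyMeasurable ((hF.mul hHb).integrable _) (hF.integrable _)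
  refine h1.trans ?_
  filter_upwards [h.condExp_eq g hk] with d hd
  rw [hd]

end slots

end Vale.Agent.P102.RM
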