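import Vale.Agent.P102.RM.WLdyn2
import Vale.Agent.P102.RM.Sat231c

/-!
P102, Theorem E and ideal property (second copy), part 1: the admissible extension
`W' = D r W` (via slot `t`), `Y' = ((w_a)_{a ≠ t, b}, (y_i)_i)`.
-/

namespace Vale.Agent.P102.RM.T408

open MeasureTheory Filter Topology ProbabilityTheory

/-- extension of a vanishing statement from product test functions to all bounded ones -/
theorem integral_zero_of_prod {Ω : Type*} [MeasurableSpace Ω] [StandardBorelSpace Ω] [Nonempty Ω]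
    {μ : Measure Ω} [IsFiniteMeasure μ] {κ : Type*} [Fintype κ] {V : κ → Type*}
    [∀ i, MeasurableSpace (V i)] {H : Type*} [MeasurableSpace H] {g1 : Ω → ∀ i, V i}
    {g2 : Ω → H} (h1 : Measurable g1) (h2 : Measurable g2) {F : Ω → ℂ} (hF : Bdd F)
    (h : ∀ (f : ∀ i, V i → ℂ) (k : H → ℂ), (∀ i, Bdd (f i)) → Bdd k →
      ∫ a, (∏ i, f i (g1 a i)) * k (g2 a) * F a ∂μ = 0)
    (u : (∀ i, V i) × H → ℂ) (hu : Bdd u) : ∫ a, u (g1 a, g2 a) * F a ∂μ = 0 := by
  have s1 : ∀ (f : (∀ i, V i) → ℂ) (k : H → ℂ), Bdd f → Bdd k →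
      ∫ a, f (g1 a) * k (g2 a) * F a ∂μ = 0 := by
    intro f k hf hk
    have hb : Bdd (fun a => k (g2 a) * F a) := (hk.comp h2).mul hF
    have e1 : cE μ g1 (fun a => k (g2 a) * F a) =ᵐ[μ.map g1] fun _ => 0 := by
      refine cE_ae_eq_of_prod h1 hb (Bdd.const 0) fun f' hf' => ?_
      simp only [mul_zero, integral_zero]
      rw [← h f' k hf' hk]
      simp only [mul_assoc]
    have e2 := integral_comp_mul_cE_map (μ := μ) h1 hb hf
    calc ∫ a, f (g1 a) * k (g2 a) * F a ∂μ = ∫ a, f (g1 a) * (k (g2 a) * F a) ∂μ := by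
          simp only [mul_assoc]
      _ = ∫ y, f y * cE μ g1 (fun a => k (g2 a) * F a) y ∂(μ.map g1) := e2
      _ = ∫ y, (0 : ℂ) ∂(μ.map g1) := integral_congr_ae (by
          filter_upwards [e1] with y hy
          rw [hy, mul_zero])
      _ = 0 := integral_zero _ _
  have hg : Measurable (fun a => (g1 a, g2 a)) := h1.prodMk h2
  have e1 : cE μ (fun a => (g1 a, g2 a)) F =ᵐ[μ.map fun a => (g1 a, g2 a)] fun _ => 0 := by
    refine ae_eq_of_forall_prod2 (hF.cE.integrable _) (integrable_const _) fun f k hf hk => ?_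
    have hfk : Bdd (fun v : (∀ i, V i) × H => f v.1 * k v.2) :=
      (hf.comp measurable_fst).mul (hk.comp measurable_snd)
    have e2 := integral_comp_mul_cE_map (μ := μ) hg hF hfk
    rw [← e2]
    simp only [mul_zero, integral_zero]
    exact s1 f k hf hk
  rw [integral_comp_mul_cE_map (μ := μ) hg hF hu]
  rw [integral_congr_ae (g := fun _ => (0 : ℂ)) (by
    filter_upwards [e1] with y hy
    rw [hy, mul_zero])]
  exact integral_zero _ _

/-- independence from the product formula for bounded functions -/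
theorem indepFun_of_integral {Ω G H : Type*} [MeasurableSpace Ω] [MeasurableSpace G]
    [MeasurableSpace H] {μ : Measure Ω} [IsProbabilityMeasure μ] {a : Ω → G} {b : Ω → H}
    (ha : Measurable a) (hb : Measurable b)
    (h : ∀ (f : G → ℂ) (g : H → ℂ), Bdd f → Bdd g →
      ∫ ω, f (a ω) * g (b ω) ∂μ = (∫ ω, f (a ω) ∂μ) * ∫ ω, g (b ω) ∂μ) : IndepFun a b μ := by
  rw [indepFun_iff_measure_inter_preimage_eq_mul]
  intro s t hs ht
  have h1 := h (s.indicator 1) (t.indicator 1) (Bdd.indicator hs) (Bdd.indicator ht)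
  have e : ∀ {u : Set Ω}, MeasurableSet u → ∫ ω, u.indicator (1 : Ω → ℂ) ω ∂μ
      = ((μ.real u : ℝ) : ℂ) := by
    intro u hu
    have : u.indicator (1 : Ω → ℂ) = u.indicator (fun _ => (1 : ℂ)) := rfl
    rw [this, integral_indicator_const _ hu]
    simp
  have e1 : ∀ ω, s.indicator (1 : G → ℂ) (a ω) = (a ⁻¹' s).indicator (1 : Ω → ℂ) ω := fun _ => rfl
  have e2 : ∀ ω, t.indicator (1 : H → ℂ) (b ω) = (b ⁻¹' t).indicator (1 : Ω → ℂ) ω := fun _ => rfl
  have e3 : ∀ ω, (a ⁻¹' s).indicator (1 : Ω → ℂ) ω * (b ⁻¹' t).indicator (1 : Ω → ℂ) ω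
      = (a ⁻¹' s ∩ b ⁻¹' t).indicator (1 : Ω → ℂ) ω := by
    intro ω
    by_cases h1 : ω ∈ a ⁻¹' s <;> by_cases h2 : ω ∈ b ⁻¹' t <;>
      simp [Set.indicator, h1, h2]
  simp only [e1, e2, e3] at h1
  rw [e ((ha hs).inter (hb ht)), e (ha hs), e (hb ht)] at h1
  have h2 : μ.real (a ⁻¹' s ∩ b ⁻¹' t) = μ.real (a ⁻¹' s) * μ.real (b ⁻¹' t) := by
    exact_mod_cast h1
  rw [Measure.real, Measure.real, Measure.real, ← ENNReal.toReal_mul,
    ENNReal.toReal_eq_toReal_iff' (measure_ne_top _ _)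
      (ENNReal.mul_ne_top (measure_ne_top _ _) (measure_ne_top _ _))] at h2
  exact h2

variable {X : Sys}

/-- a function of `x` has constant conditional expectation given `y` -/
theorem ce_x_sub_const (P : Adm X) {φ : X.C → ℂ} (hφ : Bdd φ) :
    P.y.ce (fun w => φ (P.x.f w) - ∫ x, φ x ∂X.μ) =ᵐ[P.Y.μ] fun _ => 0 := by
  have hb : Bdd (fun w : P.W.C => φ (P.x.f w) - ∫ x, φ x ∂X.μ) :=
    (hφ.comp P.x.meas).sub (Bdd.const _)
  refine P.y.ce_ae_eq_of_test hb (Bdd.const 0) fun u hu => ?_
  simp only [mul_zero, integral_zero, mul_sub]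
  have h1 := integral_mul_of_indep P.x.meas P.y.meas P.ind hφ hu
  have i1 : Integrable (fun a => u (P.y.f a) * φ (P.x.f a)) P.W.μ :=
    ((hu.comp P.y.meas).mul (hφ.comp P.x.meas)).integrable _
  have i2 : Integrable (fun a => u (P.y.f a) * ∫ x, φ x ∂X.μ) P.W.μ :=
    ((hu.comp P.y.meas).mul (Bdd.const _)).integrable _
  rw [integral_sub i1 i2, integral_mul_const]
  have h2 : ∫ a, u (P.y.f a) * φ (P.x.f a) ∂P.W.μ
      = (∫ x, φ x ∂X.μ) * ∫ a, u (P.y.f a) ∂P.W.μ := by
    rw [← P.x.integral_comp hφ, ← h1]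
    simp only [mul_comm]
  rw [h2]
  ring

section slots

variable {ι : Type} [Fintype ι] [DecidableEq ι]

/-- the slots different from `t` and `b` -/
abbrev J (t b : ι) : Type := {a : ι // a ≠ t ∧ a ≠ b}

/-- the data `((w_a)_{a ≠ t, b}, (y_i)_i)` of a line -/
def bet (P : Adm X) (t b : ι) (d : ι → P.W.C) : (J t b → P.W.C) × (ι → P.Y.C) :=
  (fun a => d a, fun i => P.y.f (d i))

omit [Fintype ι] [DecidableEq ι] in
theorem measurable_bet (P : Adm X) (t b : ι) : Measurable (bet P t b) :=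
  (measurable_pi_lambda _ fun _ => measurable_pi_apply _).prodMk
    (measurable_pi_lambda _ fun i => P.y.meas.comp (measurable_pi_apply i))

/-- the automorphism -/
def betR (P : Adm X) (t b : ι) :
    ((J t b → P.W.C) × (ι → P.Y.C)) ≃ᵐ ((J t b → P.W.C) × (ι → P.Y.C)) :=
  MeasurableEquiv.prodCongr (diag (J t b) P.W) (diag ι P.Y)

omit [Fintype ι] [DecidableEq ι] in
theorem bet_eqv (P : Adm X) (t b : ι) (d : ι → P.W.C) :
    bet P t b (diag ι P.W d) = betR P t b (bet P t b d) := by
  refine Prod.ext rfl ?_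
  funext i
  exact P.y.eqv (d i)

/-- the second component of the extension -/
@[reducible] noncomputable def Y1 (P : Adm X) (r : Ultrafilter (ι → ℤ)) (t b : ι) : Sys :=
  (D r P.W).image ((J t b → P.W.C) × (ι → P.Y.C)) (bet P t b) (measurable_bet P t b)
    (betR P t b) (bet_eqv P t b)

theorem prod_J {M : Type*} [CommMonoid M] (t b : ι) (f : ι → M) :
    ∏ a : J t b, f a = ∏ a ∈ (Finset.univ.erase t).erase b, f a := by
  symm
  refine Finset.prod_subtype _ (fun a => ?_) f
  simp only [Finset.mem_erase, Finset.mem_univ, and_true]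
  tauto

theorem indep_t (P : Adm X) (r : Ultrafilter (ι → ℤ)) {t b : ι} (htb : t ≠ b)
    (hL : LineInd r P.y b) :
    IndepFun (fun d : (D r P.W).C => P.x.f (d t)) (bet P t b) (D r P.W).μ := by
  refine indepFun_of_integral (P.x.meas.comp (measurable_pi_apply t)) (measurable_bet P t b) ?_
  intro φ u hφ hu
  set m : ℂ := ∫ x, φ x ∂X.μ with hm
  have hF : Bdd (fun d : (D r P.W).C => φ (P.x.f (d t)) - m) :=
    (hφ.comp (P.x.meas.comp (measurable_pi_apply t))).sub (Bdd.const _)
  have key : ∫ d : (D r P.W).C, u (bet P t b d) * (φ (P.x.f (d t)) - m) ∂(D r P.W).μ = 0 := by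
    refine integral_zero_of_prod (Ω := (D r P.W).C) (μ := (D r P.W).μ)
      (g1 := fun (d : ι → P.W.C) (a : J t b) => d a) (g2 := fun (d : ι → P.W.C) i => P.y.f (d i))
      (measurable_pi_lambda _ fun _ => measurable_pi_apply _)
      (measurable_pi_lambda _ fun i => P.y.meas.comp (measurable_pi_apply i)) hF ?_ u hu
    intro f k hf hk
    let f' : ι → P.W.C → ℂ := fun i =>
      if i = t then fun w => φ (P.x.f w) - m else
        if h : i ≠ t ∧ i ≠ b then f ⟨i, h⟩ else fun _ => 1
    have hf' : ∀ i, Bdd (f' i) := by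
      intro i
      by_cases h : i = t
      · simp only [f', h, if_true]
        exact (hφ.comp P.x.meas).sub (Bdd.const _)
      · by_cases h2 : i ≠ t ∧ i ≠ b
        · simp only [f', h, if_false, dif_pos h2]; exact hf _
        · simp only [f', h, if_false, dif_neg h2]; exact Bdd.const 1
    have h1 := hL f' k hf' hk
    have ht : t ∈ Finset.univ.erase b := by simp [htb]
    have hft : f' t = fun w => φ (P.x.f w) - m := by simp only [f', if_true]
    have h2 : ∀ d : ι → P.W.C, ∏ j ∈ Finset.univ.erase b, f' j (d j)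
        = (φ (P.x.f (d t)) - m) * ∏ a : J t b, f a (d a) := by
      intro d
      rw [← Finset.mul_prod_erase _ _ ht, hft]
      congr 1
      have e1 : ∏ a : J t b, f a (d a) = ∏ a : J t b, f' a (d a) := by
        refine Finset.prod_congr rfl fun a _ => ?_
        have ha := a.2
        simp only [f', if_neg ha.1, dif_pos ha]
      rw [e1, prod_J t b (fun j => f' j (d j)), Finset.erase_right_comm]
    have h3 : ∀ᵐ d ∂(D r P.W).μ, P.y.ce (f' t) (P.y.f (d t)) = 0 := by
      rw [hft]
      have h4 := ce_x_sub_const P hφ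
      exact ((P.y.comp (evF r P.W t)).mp.quasiMeasurePreserving.ae h4)
    calc ∫ d : ι → P.W.C, (∏ i, f i (d i)) * k (fun i => P.y.f (d i)) *
            (φ (P.x.f (d t)) - m) ∂(D r P.W).μ
        = ∫ d : ι → P.W.C, k (fun i => P.y.f (d i)) *
            ∏ j ∈ Finset.univ.erase b, f' j (d j) ∂(D r P.W).μ := by
          refine integral_congr_ae (Eventually.of_forall fun d => ?_)
          simp only [h2]
          ring
      _ = ∫ d : ι → P.W.C, k (fun i => P.y.f (d i)) *
            ∏ j ∈ Finset.univ.erase b, P.y.ce (f' j) (P.y.f (d j)) ∂(D r P.W).μ := h1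
      _ = ∫ d : ι → P.W.C, (0 : ℂ) ∂(D r P.W).μ := by
          refine integral_congr_ae ?_
          filter_upwards [h3] with d hd
          rw [← Finset.mul_prod_erase _ _ ht, hd]
          ring
      _ = 0 := integral_zero _ _
  have hub : Bdd (fun d : (D r P.W).C => u (bet P t b d)) := hu.comp (measurable_bet P t b)
  have hφb : Bdd (fun d : (D r P.W).C => φ (P.x.f (d t))) :=
    hφ.comp (P.x.meas.comp (measurable_pi_apply t))
  simp only [mul_sub] at key
  rw [integral_sub ((hub.mul hφb).integrable _) ((hub.mul (Bdd.const m)).integrable _),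
    integral_mul_const, sub_eq_zero] at key
  have h5 : ∫ d : (D r P.W).C, φ (P.x.f (d t)) ∂(D r P.W).μ = m :=
    (P.x.comp (evF r P.W t)).integral_comp hφ
  rw [h5, mul_comm m, ← key]
  simp only [mul_comm]

/-- the admissible pair `(Y1, D r W)` over `X` via slot `t` -/
@[reducible] noncomputable def P1 (P : Adm X) (r : Ultrafilter (ι → ℤ)) {t b : ι} (htb : t ≠ b)
    (hL : LineInd r P.y b) : Adm X where
  W := D r P.W
  Y := Y1 P r t b
  x := P.x.comp (evF r P.W t)
  y := (D r P.W).imageFac ((J t b → P.W.C) × (ι → P.Y.C)) (bet P t b) (measurable_bet P t b)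
    (betR P t b) (bet_eqv P t b)
  ind := indep_t P r htb hL

/-- the extension -/
noncomputable def E1 (P : Adm X) (r : Ultrafilter (ι → ℤ)) {t b : ι} (htb : t ≠ b)
    (hL : LineInd r P.y b) : Ext (P1 P r htb hL) P where
  w := evF r P.W t
  v := ⟨fun c => c.2 t, by
    have hm : Measurable (fun c : (J t b → P.W.C) × (ι → P.Y.C) => c.2 t) :=
      (measurable_pi_apply t).comp measurable_snd
    refine ⟨hm, ?_⟩
    show ((D r P.W).μ.map (bet P t b)).map (fun c => c.2 t) = P.Y.μ
    rw [Measure.map_map hm (measurable_bet P t b)]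
    exact (P.y.comp (evF r P.W t)).mp.map_eq, fun _ => rfl⟩
  hx := ae_of_all _ fun _ => rfl
  hy := fun _ => rfl

end slots

end Vale.Agent.P102.RM.T408
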