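import Vale.Agent.P102.RM.Skeleton
import Vale.Agent.P102.RM.Functor
import Vale.Agent.P102.RM.AeMap

/-!
P102, Rokhlin: block FUB (Fubini for two independent base lines, arbitrary predicates).
-/

namespace Vale.Agent.P102.RM

open MeasureTheory Filter Topology ProbabilityTheory

theorem b_fub : B_FUB := by
  intro Y0 Y v1 v2 hind ι _ _ r R h
  have h1 := indep_D r v1 v2 hind
  rw [indepFun_iff_map_prod_eq_prod_map_map (v1.D r).meas.aemeasurable
    (v2.D r).meas.aemeasurable, (v1.D r).mp.map_eq, (v2.D r).mp.map_eq] at h1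
  exact ae_ae_of_ae_pair (v1.D r).meas (v2.D r).meas h1 (P := fun a b => R a b) h

end Vale.Agent.P102.RM
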