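import Vale.Agent.P102.RM.Functor

/-!
P102, block GRID, part 2: the `x`-line outside one slot and the `x`-grid outside one row and one
column are i.i.d. and independent of the `y`-line, `y`-grid.
-/

namespace Vale.Agent.P102.RM

open MeasureTheory Filter Topology ProbabilityTheory

/-! ### General lemmas -/

/-- product of integrals for all bounded functions implies that the joint law is the product -/
theorem map_eq_pi_of_integral {Ω C : Type*} [MeasurableSpace Ω] [Fintype C] {X : C → Type*}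
    [∀ c, MeasurableSpace (X c)] (P : Measure Ω) [IsProbabilityMeasure P]
    (μ : ∀ c, Measure (X c)) [∀ c, IsProbabilityMeasure (μ c)] (a : ∀ c, Ω → X c)
    (ha : ∀ c, Measurable (a c))
    (h : ∀ φ : ∀ c, X c → ℂ, (∀ c, Bdd (φ c)) →
      ∫ ω, ∏ c, φ c (a c ω) ∂P = ∏ c, ∫ x, φ c x ∂(μ c)) :
    P.map (fun ω c => a c ω) = Measure.pi μ := by
  have hm : Measurable (fun ω c => a c ω) := measurable_pi_lambda _ ha
  refine (Measure.pi_eq fun s hs => ?_).symm
  rw [Measure.map_apply hm (MeasurableSet.univ_pi hs)]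
  have h1 := h (fun c => (s c).indicator 1) (fun c => Bdd.indicator (hs c))
  have h2 : ∫ ω, ∏ c, (s c).indicator (1 : X c → ℂ) (a c ω) ∂P
      = ((P.real (⋂ c, a c ⁻¹' s c) : ℝ) : ℂ) :=
    integral_prod_indicator P (fun c => a c ⁻¹' s c) (fun c => ha c (hs c))
  have h3 : ∀ c, ∫ x, (s c).indicator (1 : X c → ℂ) x ∂(μ c) = (((μ c).real (s c) : ℝ) : ℂ) := by
    intro c
    calc ∫ x, (s c).indicator (1 : X c → ℂ) x ∂(μ c)
        = ∫ x, (s c).indicator (fun _ => (1 : ℂ)) x ∂(μ c) := rfl
      _ = _ := by rw [integral_indicator_const _ (hs c)]; simp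
  rw [h2, Finset.prod_congr rfl fun c _ => h3 c] at h1
  have h4 : P.real (⋂ c, a c ⁻¹' s c) = ∏ c, (μ c).real (s c) := by exact_mod_cast h1
  have h5 : (fun ω c => a c ω) ⁻¹' Set.univ.pi s = ⋂ c, a c ⁻¹' s c := by
    ext ω; simp [Set.mem_pi]
  rw [h5, ← ENNReal.ofReal_toReal (measure_ne_top P (⋂ c, a c ⁻¹' s c))]
  have h6 : (P (⋂ c, a c ⁻¹' s c)).toReal = ∏ c, (μ c).real (s c) := h4
  rw [h6, ENNReal.ofReal_prod_of_nonneg (fun c _ => measureReal_nonneg)]
  refine Finset.prod_congr rfl fun c _ => ?_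
  exact ENNReal.ofReal_toReal (measure_ne_top _ _)

/-- an i.i.d. family which is independent of `b`, in `iIndep` form over `Option C` -/
theorem iIndep_option {Ω C B : Type*} {m0 : MeasurableSpace Ω} [Fintype C] {X : C → Type*}
    [mX : ∀ c, MeasurableSpace (X c)] [mB : MeasurableSpace B] {P : Measure Ω}
    [IsProbabilityMeasure P] {a : ∀ c, Ω → X c} {b : Ω → B}
    (hi : iIndepFun a P) (hab : IndepFun (fun ω c => a c ω) b P) :
    iIndep (fun o : Option C => o.elim (mB.comap b) (fun c => (mX c).comap (a c))) P := by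
  classical
  rw [iIndep_iff]
  intro s f hf
  have hA : ∀ c : C, ∃ A : Set (X c), MeasurableSet A ∧
      a c ⁻¹' A = if some c ∈ s then f (some c) else Set.univ := by
    intro c
    by_cases hc : some c ∈ s
    · obtain ⟨A, hA, hA'⟩ := hf (some c) hc
      exact ⟨A, hA, by rw [if_pos hc]; exact hA'⟩
    · exact ⟨Set.univ, MeasurableSet.univ, by rw [if_neg hc]; rfl⟩
  choose A hA1 hA2 using hA
  obtain ⟨B', hB1, hB2⟩ : ∃ B' : Set B, MeasurableSet B' ∧
      b ⁻¹' B' = if none ∈ s then f none else Set.univ := by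
    by_cases hc : none ∈ s
    · obtain ⟨A, hA, hA'⟩ := hf none hc
      exact ⟨A, hA, by rw [if_pos hc]; exact hA'⟩
    · exact ⟨Set.univ, MeasurableSet.univ, by rw [if_neg hc]; rfl⟩
  have h1 : (⋂ i ∈ s, f i) = (fun ω c => a c ω) ⁻¹' (Set.univ.pi A) ∩ b ⁻¹' B' := by
    ext ω
    simp only [Set.mem_iInter, Set.mem_inter_iff, Set.mem_preimage, Set.mem_pi, Set.mem_univ,
      true_implies]
    constructor
    · intro h
      refine ⟨fun c => ?_, ?_⟩
      · show ω ∈ a c ⁻¹' A c
        rw [hA2]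
        split_ifs with hc
        · exact h _ hc
        · trivial
      · show ω ∈ b ⁻¹' B'
        rw [hB2]
        split_ifs with hc
        · exact h _ hc
        · trivial
    · rintro ⟨h, h'⟩ o ho
      cases o with
      | none =>
        have h2 : ω ∈ b ⁻¹' B' := h'
        rwa [hB2, if_pos ho] at h2
      | some c =>
        have h2 : ω ∈ a c ⁻¹' A c := h c
        rwa [hA2, if_pos ho] at h2
  have h2 := hab.measure_inter_preimage_eq_mul _ _ (MeasurableSet.univ_pi hA1) hB1
  have h3 : P ((fun ω c => a c ω) ⁻¹' (Set.univ.pi A)) = ∏ c, P (a c ⁻¹' A c) := by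
    have h4 : (fun ω c => a c ω) ⁻¹' (Set.univ.pi A) = ⋂ c ∈ (Finset.univ : Finset C), a c ⁻¹' A c := by
      ext ω; simp [Set.mem_pi]
    rw [h4]
    exact hi.measure_inter_preimage_eq_mul Finset.univ (fun c _ => hA1 c)
  rw [h1, h2, h3, hB2]
  have h5 : ∏ i ∈ s, P (f i) = ∏ o : Option C, P (if o ∈ s then f o else Set.univ) := by
    rw [← Finset.prod_subset (Finset.subset_univ s)]
    · exact Finset.prod_congr rfl fun i hi => by rw [if_pos hi]
    · intro i _ hi
      rw [if_neg hi, measure_univ]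
  rw [h5, Fintype.prod_option, mul_comm]
  congr 1
  exact Finset.prod_congr rfl fun c _ => by rw [hA2]

section lim
variable {ι : Type} [Fintype ι] [DecidableEq ι]

/-! ### The `x`-line -/

/-- the law of the `x`-line outside slot `s` is the product -/
theorem KInd.map_eq {r : Ultrafilter (ι → ℤ)} {X : Sys} (hk : KInd r X) (s : ι) :
    (D r X).μ.map (fun (d : ι → X.C) (j : {j : ι // j ≠ s}) => d j)
      = Measure.pi fun _ => X.μ := by
  refine map_eq_pi_of_integral (D r X).μ (fun _ : {j : ι // j ≠ s} => X.μ)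
    (fun j (d : ι → X.C) => d j) (fun j => measurable_pi_apply _) fun φ hφ => ?_
  have h1 := hk s (fun i => if h : i ≠ s then φ ⟨i, h⟩ else fun _ => 1) (by
    intro i
    by_cases h : i ≠ s
    · rw [dif_pos h]; exact hφ _
    · rw [dif_neg h]; exact Bdd.const 1)
  have h2 : ∀ g : ι → ℂ, ∏ i ∈ Finset.univ.erase s, g i = ∏ j : {j : ι // j ≠ s}, g j := by
    intro g
    rw [← Finset.prod_subtype (Finset.univ.erase s) (p := fun j => j ≠ s) (by simp)]
  rw [h2] at h1
  simp only [h2] at h1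
  have h3 : ∀ j : {j : ι // j ≠ s}, (if h : (j : ι) ≠ s then φ ⟨j, h⟩ else fun _ => 1) = φ j := by
    intro j
    rw [dif_pos j.2]
  simp only [h3] at h1
  exact h1

theorem KInd.iIndepFun {r : Ultrafilter (ι → ℤ)} {X : Sys} (hk : KInd r X) (s : ι) :
    ProbabilityTheory.iIndepFun (fun (j : {j : ι // j ≠ s}) (d : ι → X.C) => d j) (D r X).μ := by
  rw [iIndepFun_iff_map_fun_eq_pi_map (fun j => (measurable_pi_apply _).aemeasurable)]
  rw [hk.map_eq s]
  congr 1
  funext j
  exact (limM_map_eval r X j).symm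

/-! ### The `x`-grid -/

/-- the points of the `x`-grid outside row `s` and column `s'` : integral form -/
theorem KInd.grid_integral {r : Ultrafilter (ι → ℤ)} {X : Sys} (hk : KInd r X) (s s' : ι)
    (φ : ι → ι → X.C → ℂ) (hφ : ∀ i j, Bdd (φ i j)) :
    ∫ d, ∏ i ∈ Finset.univ.erase s, ∏ j ∈ Finset.univ.erase s', φ i j (d i j) ∂(D r (D r X)).μ
      = ∏ i ∈ Finset.univ.erase s, ∏ j ∈ Finset.univ.erase s', ∫ x, φ i j x ∂X.μ := by
  have h1 := tendsto_limM_finset r (D r X) (Finset.univ.erase s)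
    (fun i (e : ι → X.C) => ∏ j ∈ Finset.univ.erase s', φ i j (e j))
    (fun i _ => Bdd.prod _ fun j _ => (hφ i j).comp (measurable_pi_apply j))
  have h2 : ∀ t : ι → ℤ, ∫ e : ι → X.C, ∏ i ∈ Finset.univ.erase s,
      ∏ j ∈ Finset.univ.erase s', φ i j (iter (D r X).S (t i) e j) ∂(D r X).μ
      = ∏ j ∈ Finset.univ.erase s', ∫ x, ∏ i ∈ Finset.univ.erase s, φ i j (iter X.S (t i) x) ∂X.μ := by
    intro t
    have h3 : ∀ e : ι → X.C, ∏ i ∈ Finset.univ.erase s,
        ∏ j ∈ Finset.univ.erase s', φ i j (iter (D r X).S (t i) e j)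
        = ∏ j ∈ Finset.univ.erase s', (fun x => ∏ i ∈ Finset.univ.erase s, φ i j (iter X.S (t i) x)) (e j) := by
      intro e
      rw [Finset.prod_comm]
      refine Finset.prod_congr rfl fun j _ => Finset.prod_congr rfl fun i _ => ?_
      congr 1
      exact (evF r X j).iter (t i) e
    simp only [h3]
    exact hk s' (fun j x => ∏ i ∈ Finset.univ.erase s, φ i j (iter X.S (t i) x))
      (fun j => Bdd.prod _ fun i _ => (hφ i j).comp (measurable_iter X.S (t i)))
  simp only [h2] at h1
  have h4 : ∀ j, Tendsto (fun t : ι → ℤ =>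
      ∫ x, ∏ i ∈ Finset.univ.erase s, φ i j (iter X.S (t i) x) ∂X.μ) r
      (𝓝 (∏ i ∈ Finset.univ.erase s, ∫ x, φ i j x ∂X.μ)) := by
    intro j
    have h5 := tendsto_limM_finset r X (Finset.univ.erase s) (fun i => φ i j) (fun i _ => hφ i j)
    rwa [hk s (fun i => φ i j) (fun i => hφ i j)] at h5
  have h6 := tendsto_finsetProd (Finset.univ.erase s') fun j (_ : j ∈ Finset.univ.erase s') => h4 j
  rw [Finset.prod_comm (s := Finset.univ.erase s)]
  exact tendsto_nhds_unique h1 h6

/-- index set of the grid outside row `s` and column `s'` -/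
abbrev GIx (s s' : ι) : Type := {c : ι × ι // c.1 ≠ s ∧ c.2 ≠ s'}

omit [Fintype ι] in
theorem prod_GIx [Fintype ι] {M : Type*} [CommMonoid M] (s s' : ι) (g : ι → ι → M) :
    ∏ i ∈ Finset.univ.erase s, ∏ j ∈ Finset.univ.erase s', g i j
      = ∏ c : GIx s s', g c.1.1 c.1.2 := by
  rw [← Finset.prod_product' (Finset.univ.erase s) (Finset.univ.erase s') g]
  rw [← Finset.prod_subtype (Finset.univ.erase s ×ˢ Finset.univ.erase s')
    (p := fun c : ι × ι => c.1 ≠ s ∧ c.2 ≠ s') (f := fun c : ι × ι => g c.1 c.2)]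
  intro c
  simp [Finset.mem_product]

/-- the law of the `x`-grid outside row `s` and column `s'` is the product -/
theorem KInd.grid_map_eq {r : Ultrafilter (ι → ℤ)} {X : Sys} (hk : KInd r X) (s s' : ι) :
    (D r (D r X)).μ.map (fun (d : ι → ι → X.C) (c : GIx s s') => d c.1.1 c.1.2)
      = Measure.pi fun _ => X.μ := by
  refine map_eq_pi_of_integral (D r (D r X)).μ (fun _ : GIx s s' => X.μ)
    (fun c (d : ι → ι → X.C) => d c.1.1 c.1.2)
    (fun c => (measurable_pi_apply _).comp (measurable_pi_apply _)) fun φ hφ => ?_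
  have h1 := hk.grid_integral s s' (fun i j => if h : i ≠ s ∧ j ≠ s' then φ ⟨(i, j), h⟩ else fun _ => 1)
    (by
      intro i j
      by_cases h : i ≠ s ∧ j ≠ s'
      · rw [dif_pos h]; exact hφ _
      · rw [dif_neg h]; exact Bdd.const 1)
  rw [prod_GIx] at h1
  simp only [prod_GIx s s'] at h1
  have h3 : ∀ c : GIx s s', (if h : c.1.1 ≠ s ∧ c.1.2 ≠ s' then φ ⟨(c.1.1, c.1.2), h⟩ else fun _ => 1)
      = φ c := by
    intro c
    rw [dif_pos c.2]
  simp only [h3] at h1
  exact h1

theorem KInd.grid_iIndepFun {r : Ultrafilter (ι → ℤ)} {X : Sys} (hk : KInd r X) (s s' : ι) :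
    ProbabilityTheory.iIndepFun (fun (c : GIx s s') (d : ι → ι → X.C) => d c.1.1 c.1.2)
      (D r (D r X)).μ := by
  have hmc : ∀ c : GIx s s', Measurable (fun d : ι → ι → X.C => d c.1.1 c.1.2) := fun c =>
    (measurable_pi_apply _).comp (measurable_pi_apply _)
  rw [iIndepFun_iff_map_fun_eq_pi_map (fun c => (hmc c).aemeasurable)]
  rw [hk.grid_map_eq s s']
  congr 1
  funext c
  have h1 := ((evF r X c.1.2).comp (rowF r X c.1.1)).mp.map_eq
  exact h1.symm

/-! ### Together with the base points -/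

variable {r : Ultrafilter (ι → ℤ)} {X Z Y : Sys}

/-- law of the `x`-line outside slot `s` -/
theorem xline_map_eq (hk : KInd r X) (x : Fac Z X) (s : ι) :
    (D r Z).μ.map (fun (d : ι → Z.C) (j : {j : ι // j ≠ s}) => x.f (d j))
      = Measure.pi fun _ => X.μ := by
  have hm1 : Measurable (fun (d : ι → X.C) (j : {j : ι // j ≠ s}) => d j) :=
    measurable_pi_lambda _ fun j => measurable_pi_apply _
  rw [← hk.map_eq s, ← (x.D r).mp.map_eq, Measure.map_map hm1 (x.D r).mp.measurable]
  rfl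

/-- `x`-line outside slot `s` is i.i.d. -/
theorem xline_iIndepFun (hk : KInd r X) (x : Fac Z X) (s : ι) :
    ProbabilityTheory.iIndepFun (fun (j : {j : ι // j ≠ s}) (d : ι → Z.C) => x.f (d j)) (D r Z).μ := by
  have hmj : ∀ j : {j : ι // j ≠ s}, Measurable (fun d : ι → Z.C => x.f (d j)) := fun j =>
    x.meas.comp (measurable_pi_apply _)
  rw [iIndepFun_iff_map_fun_eq_pi_map (fun j => (hmj j).aemeasurable)]
  rw [xline_map_eq hk x s]
  congr 1
  funext j
  exact (x.comp (evF r Z j)).mp.map_eq.symm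

omit [DecidableEq ι] in
theorem xline_indepFun (x : Fac Z X) (y : Fac Z Y) (h : IndepFun x.f y.f Z.μ) (s : ι) :
    IndepFun (fun (d : ι → Z.C) (j : {j : ι // j ≠ s}) => x.f (d j))
      (fun (d : ι → Z.C) i => y.f (d i)) (D r Z).μ := by
  have h1 := indep_D r x y h
  have hm1 : Measurable (fun (d : ι → X.C) (j : {j : ι // j ≠ s}) => d j) :=
    measurable_pi_lambda _ fun j => measurable_pi_apply _
  exact h1.comp hm1 measurable_id

/-- **x-line outside `s` together with the y-line**: the hypothesis of the upgrade lemma -/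
theorem xline_iIndep (hk : KInd r X) (x : Fac Z X) (y : Fac Z Y) (h : IndepFun x.f y.f Z.μ)
    (s : ι) : iIndep (fun o : Option {j : ι // j ≠ s} => o.elim
      (MeasurableSpace.comap (fun (d : ι → Z.C) i => y.f (d i)) inferInstance)
      (fun j => MeasurableSpace.comap (fun d : ι → Z.C => x.f (d j)) inferInstance)) (D r Z).μ :=
  iIndep_option (xline_iIndepFun hk x s) (xline_indepFun x y h s)

/-- law of the `x`-grid outside row `s` and column `s'` -/
theorem xgrid_map_eq (hk : KInd r X) (x : Fac Z X) (s s' : ι) :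
    (D r (D r Z)).μ.map (fun (d : ι → ι → Z.C) (c : GIx s s') => x.f (d c.1.1 c.1.2))
      = Measure.pi fun _ => X.μ := by
  have hm1 : Measurable (fun (d : ι → ι → X.C) (c : GIx s s') => d c.1.1 c.1.2) :=
    measurable_pi_lambda _ fun c => (measurable_pi_apply _).comp (measurable_pi_apply _)
  rw [← hk.grid_map_eq s s', ← ((x.D r).D r).mp.map_eq,
    Measure.map_map hm1 ((x.D r).D r).mp.measurable]
  rfl

/-- `x`-grid outside row `s` and column `s'` is i.i.d. -/
theorem xgrid_iIndepFun (hk : KInd r X) (x : Fac Z X) (s s' : ι) :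
    ProbabilityTheory.iIndepFun (fun (c : GIx s s') (d : ι → ι → Z.C) => x.f (d c.1.1 c.1.2))
      (D r (D r Z)).μ := by
  have hmc' : ∀ c : GIx s s', Measurable (fun d : ι → ι → Z.C => x.f (d c.1.1 c.1.2)) := fun c =>
    x.meas.comp ((measurable_pi_apply _).comp (measurable_pi_apply _))
  rw [iIndepFun_iff_map_fun_eq_pi_map (fun c => (hmc' c).aemeasurable)]
  rw [xgrid_map_eq hk x s s']
  congr 1
  funext c
  exact ((x.comp (evF r Z c.1.2)).comp (rowF r Z c.1.1)).mp.map_eq.symm

omit [DecidableEq ι] in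
theorem xgrid_indepFun (x : Fac Z X) (y : Fac Z Y) (h : IndepFun x.f y.f Z.μ) (s s' : ι) :
    IndepFun (fun (d : ι → ι → Z.C) (c : GIx s s') => x.f (d c.1.1 c.1.2))
      (fun (d : ι → ι → Z.C) i j => y.f (d i j)) (D r (D r Z)).μ := by
  have h1 := indep_DD r x y h
  have hm1 : Measurable (fun (d : ι → ι → X.C) (c : GIx s s') => d c.1.1 c.1.2) :=
    measurable_pi_lambda _ fun c => (measurable_pi_apply _).comp (measurable_pi_apply _)
  exact h1.comp hm1 measurable_id

/-- **x-grid outside row `s` and column `s'` together with the y-grid**: the hypothesis of the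
upgrade lemma -/
theorem xgrid_iIndep (hk : KInd r X) (x : Fac Z X) (y : Fac Z Y) (h : IndepFun x.f y.f Z.μ)
    (s s' : ι) : iIndep (fun o : Option (GIx s s') => o.elim
      (MeasurableSpace.comap (fun (d : ι → ι → Z.C) i j => y.f (d i j)) inferInstance)
      (fun c => MeasurableSpace.comap (fun d : ι → ι → Z.C => x.f (d c.1.1 c.1.2)) inferInstance))
      (D r (D r Z)).μ :=
  iIndep_option (xgrid_iIndepFun hk x s s') (xgrid_indepFun x y h s s')

end lim

end Vale.Agent.P102.RM
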