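import Vale.Agent.P102.RM.Defs

/-!
P102, Rokhlin: block TOT. The static hypotheses on one fibre of the grid.
-/

namespace Vale.Agent.P102.RM

open MeasureTheory Filter Topology ProbabilityTheory

/-- the fibre of a grid over an (almost every) base grid: blocks avoiding one row `s` and one
column `s'` are independent with laws `ν i j`; in every row and every column
the entries in the slots `p` and `q` are functions of the other entries. -/
structure GridHyp {ι V : Type} [Fintype ι] [DecidableEq ι] [MeasurableSpace V] (p q : ι)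
    (ν : ι → ι → Measure V) (G : Measure (ι → ι → V)) : Prop where
  pG : IsProbabilityMeasure G
  pν : ∀ i j, IsProbabilityMeasure (ν i j)
  ind : ∀ s s' : ι,
    G.map (fun (w : ι → ι → V) (x : {i : ι // i ≠ s} × {j : ι // j ≠ s'}) => w x.1 x.2)
      = Measure.pi fun x : {i : ι // i ≠ s} × {j : ι // j ≠ s'} => ν x.1 x.2
  row : ∀ i s, (s = p ∨ s = q) → ∃ R : ({j : ι // j ≠ s} → V) → V, Measurable R ∧
    ∀ᵐ w ∂G, w i s = R (fun j => w i j)
  col : ∀ j s, (s = p ∨ s = q) → ∃ R : ({i : ι // i ≠ s} → V) → V, Measurable R ∧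
    ∀ᵐ w ∂G, w s j = R (fun i => w i j)

end Vale.Agent.P102.RM
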