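import Mathlib.MeasureTheory.Function.ConditionalExpectation.PullOut
import Mathlib.MeasureTheory.Function.ConditionalExpectation.Real
import Mathlib.MeasureTheory.Function.L2Space
import Mathlib.Probability.Notation

/-!
# Theorem E, static part

`mW` = the sigma-algebra of the point `w_{s,t}`, `mQ` = the sigma-algebra of the rest of its
column together with `y_{s,t}`, `mG ≥ mQ` the big side information, `mS` = the row of index `s`.
If adding the side information `mG` does not improve the prediction of functions of `w_{s,t}` over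
`mQ` (satedness), then the conditional expectation onto `mW` of suitable `mG`-measurable functions
`H` is `mQ`-measurable.
-/

open MeasureTheory Filter
open scoped ENNReal

namespace Vale.Agent.P102.RM

variable {Ω : Type*} {m0 : MeasurableSpace Ω} {P : Measure Ω} [IsProbabilityMeasure P]

/-- A function which is a.e. bounded. -/
def AEBdd (P : Measure Ω) (f : Ω → ℝ) : Prop := ∃ C : ℝ, ∀ᵐ ω ∂P, |f ω| ≤ C

omit [IsProbabilityMeasure P] in
theorem AEBdd.condExp {f : Ω → ℝ} (hf : AEBdd P f) (m : MeasurableSpace Ω) :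
    AEBdd P (P[f|m]) := by
  obtain ⟨C, hC⟩ := hf
  exact ⟨C, ae_bdd_abs_condExp_of_ae_bdd_abs hC⟩

omit [IsProbabilityMeasure P] in
theorem AEBdd.mul {f g : Ω → ℝ} (hf : AEBdd P f) (hg : AEBdd P g) : AEBdd P (f * g) := by
  obtain ⟨C, hC⟩ := hf
  obtain ⟨D, hD⟩ := hg
  refine ⟨C * D, ?_⟩
  filter_upwards [hC, hD] with ω h1 h2
  rw [Pi.mul_apply, abs_mul]
  exact mul_le_mul h1 h2 (abs_nonneg _) ((abs_nonneg _).trans h1)

omit [IsProbabilityMeasure P] in
theorem AEBdd.sub {f g : Ω → ℝ} (hf : AEBdd P f) (hg : AEBdd P g) : AEBdd P (f - g) := by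
  obtain ⟨C, hC⟩ := hf
  obtain ⟨D, hD⟩ := hg
  refine ⟨C + D, ?_⟩
  filter_upwards [hC, hD] with ω h1 h2
  rw [Pi.sub_apply]
  exact (abs_sub _ _).trans (add_le_add h1 h2)

omit [IsProbabilityMeasure P] in
theorem AEBdd.congr {f g : Ω → ℝ} (hf : AEBdd P f) (h : f =ᵐ[P] g) : AEBdd P g := by
  obtain ⟨C, hC⟩ := hf
  refine ⟨C, ?_⟩
  filter_upwards [hC, h] with ω h1 h2
  rwa [← h2]

theorem AEBdd.integrable {f : Ω → ℝ} (hf : AEBdd P f) (hm : AEStronglyMeasurable[m0] f P) :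
    Integrable f P := by
  obtain ⟨C, hC⟩ := hf
  exact Integrable.of_bound hm C hC

/-- `∫ A * F = ∫ A * E[F|m]` for bounded `m`-measurable `A`. -/
theorem integral_mul_condExp_right {m : MeasurableSpace Ω} (hm : m ≤ m0) {A F : Ω → ℝ}
    (hA : AEStronglyMeasurable[m] A P) (hAb : AEBdd P A) (hF : AEStronglyMeasurable[m0] F P)
    (hFb : AEBdd P F) : ∫ ω, A ω * F ω ∂P = ∫ ω, A ω * (P[F|m]) ω ∂P := by
  have hAi : AEStronglyMeasurable[m0] A P := hA.mono hm
  have hint : Integrable (A * F) P := (hAb.mul hFb).integrable (hAi.mul hF)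
  have h1 : P[A * F|m] =ᵐ[P] A * P[F|m] :=
    condExp_mul_of_aestronglyMeasurable_left hA hint (hFb.integrable hF)
  have h2 : ∫ ω, (P[A * F|m]) ω ∂P = ∫ ω, (A * F) ω ∂P := integral_condExp hm
  calc ∫ ω, A ω * F ω ∂P = ∫ ω, (P[A * F|m]) ω ∂P := by rw [h2]; rfl
    _ = ∫ ω, A ω * (P[F|m]) ω ∂P := integral_congr_ae (by
        filter_upwards [h1] with ω hω
        rw [hω]; rfl)

/-- If `∫ Φ * Φ = ∫ E[Φ|m] * E[Φ|m]` then `Φ = E[Φ|m]` a.e. -/
theorem condExp_ae_eq_self_of_integral_sq {m : MeasurableSpace Ω} (hm : m ≤ m0) {F : Ω → ℝ}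
    (hF : AEStronglyMeasurable[m0] F P) (hFb : AEBdd P F)
    (h : ∫ ω, F ω * F ω ∂P = ∫ ω, (P[F|m]) ω * (P[F|m]) ω ∂P) :
    P[F|m] =ᵐ[P] F := by
  have hE : AEStronglyMeasurable[m] (P[F|m]) P :=
    stronglyMeasurable_condExp.aestronglyMeasurable
  have hE0 : AEStronglyMeasurable[m0] (P[F|m]) P := hE.mono hm
  have hEb : AEBdd P (P[F|m]) := hFb.condExp m
  have h1 : ∫ ω, (P[F|m]) ω * F ω ∂P = ∫ ω, (P[F|m]) ω * (P[F|m]) ω ∂P :=
    integral_mul_condExp_right hm hE hEb hF hFb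
  have i1 : Integrable (fun ω => F ω * F ω) P := (hFb.mul hFb).integrable (hF.mul hF)
  have i2 : Integrable (fun ω => (P[F|m]) ω * F ω) P := (hEb.mul hFb).integrable (hE0.mul hF)
  have i3 : Integrable (fun ω => (P[F|m]) ω * (P[F|m]) ω) P :=
    (hEb.mul hEb).integrable (hE0.mul hE0)
  have h0 : ∫ ω, ((P[F|m]) ω - F ω) ^ 2 ∂P = 0 := by
    have : ∀ ω, ((P[F|m]) ω - F ω) ^ 2
        = (P[F|m]) ω * (P[F|m]) ω - 2 * ((P[F|m]) ω * F ω) + F ω * F ω := fun ω => by ring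
    simp_rw [this]
    have e1 : ∫ ω, ((P[F|m]) ω * (P[F|m]) ω - 2 * ((P[F|m]) ω * F ω) + F ω * F ω) ∂P
        = ∫ ω, ((P[F|m]) ω * (P[F|m]) ω - 2 * ((P[F|m]) ω * F ω)) ∂P + ∫ ω, F ω * F ω ∂P :=
      integral_add (i3.sub (i2.const_mul 2)) i1
    have e2 : ∫ ω, ((P[F|m]) ω * (P[F|m]) ω - 2 * ((P[F|m]) ω * F ω)) ∂P
        = ∫ ω, (P[F|m]) ω * (P[F|m]) ω ∂P - ∫ ω, 2 * ((P[F|m]) ω * F ω) ∂P :=
      integral_sub i3 (i2.const_mul 2)
    rw [e1, e2, integral_const_mul, h1, h]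
    ring
  have h2 : (fun ω => ((P[F|m]) ω - F ω) ^ 2) =ᵐ[P] 0 := by
    refine (integral_eq_zero_iff_of_nonneg (fun ω => sq_nonneg _) ?_).1 h0
    have hd : AEBdd P ((P[F|m] - F) * (P[F|m] - F)) := (hEb.sub hFb).mul (hEb.sub hFb)
    have := hd.integrable ((hE0.sub hF).mul (hE0.sub hF))
    refine this.congr (Eventually.of_forall fun ω => ?_)
    simp only [Pi.mul_apply, Pi.sub_apply]
    ring
  filter_upwards [h2] with ω hω
  have : ((P[F|m]) ω - F ω) ^ 2 = 0 := hω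
  have := pow_eq_zero_iff (two_ne_zero) |>.1 this
  linarith

/-- **Theorem E, static core.** `H` bounded and `mG`-measurable; `Φ = E[H|mW]`.
(H1) satedness for `Φ`: `E[Φ|mG] = E[Φ|mQ]`.
(H2) `∫ A * H = ∫ A * E[H|mW]` for the `mQ`-measurable function `A = E[Φ|mQ]`.
Then `Φ` is `mQ`-measurable: `E[Φ|mQ] = Φ` a.e. -/
theorem thmE_core {mW mQ mG : MeasurableSpace Ω} (hW : mW ≤ m0) (hQ0 : mQ ≤ m0)
    (hG : mG ≤ m0) {H : Ω → ℝ} (hH : AEStronglyMeasurable[mG] H P) (hHb : AEBdd P H)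
    (hsat : P[P[H|mW]|mG] =ᵐ[P] P[P[H|mW]|mQ])
    (hlim : ∫ ω, (P[P[H|mW]|mQ]) ω * H ω ∂P
      = ∫ ω, (P[P[H|mW]|mQ]) ω * (P[H|mW]) ω ∂P) :
    P[P[H|mW]|mQ] =ᵐ[P] P[H|mW] := by
  have hH0 : AEStronglyMeasurable[m0] H P := hH.mono hG
  have hFW : AEStronglyMeasurable[mW] (P[H|mW]) P :=
    stronglyMeasurable_condExp.aestronglyMeasurable
  have hF0 : AEStronglyMeasurable[m0] (P[H|mW]) P := hFW.mono hW
  have hFb : AEBdd P (P[H|mW]) := hHb.condExp mW
  refine condExp_ae_eq_self_of_integral_sq hQ0 hF0 hFb ?_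
  have hAQ : AEStronglyMeasurable[mQ] (P[P[H|mW]|mQ]) P :=
    stronglyMeasurable_condExp.aestronglyMeasurable
  have hAb : AEBdd P (P[P[H|mW]|mQ]) := hFb.condExp mQ
  calc ∫ ω, (P[H|mW]) ω * (P[H|mW]) ω ∂P
      = ∫ ω, (P[H|mW]) ω * H ω ∂P :=
        (integral_mul_condExp_right hW hFW hFb hH0 hHb).symm
    _ = ∫ ω, H ω * (P[H|mW]) ω ∂P := integral_congr_ae (Eventually.of_forall fun ω => by
        simp only; ring)
    _ = ∫ ω, H ω * (P[P[H|mW]|mG]) ω ∂P := integral_mul_condExp_right hG hH hHb hF0 hFb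
    _ = ∫ ω, (P[P[H|mW]|mQ]) ω * H ω ∂P := integral_congr_ae (by
        filter_upwards [hsat] with ω hω
        rw [hω]; ring)
    _ = ∫ ω, (P[P[H|mW]|mQ]) ω * (P[H|mW]) ω ∂P := hlim
    _ = ∫ ω, (P[P[H|mW]|mQ]) ω * (P[P[H|mW]|mQ]) ω ∂P :=
        integral_mul_condExp_right hQ0 hAQ hAb hF0 hFb

/-- (H2) in the closure case: `H` is measurable with respect to the row `mS` and the row and the
column are conditionally independent given the corner: `E[A|mS] = E[A|mW]`. -/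
theorem hlim_closure {mW mS : MeasurableSpace Ω} (hWS : mW ≤ mS) (hS : mS ≤ m0)
    {H A : Ω → ℝ} (hH : AEStronglyMeasurable[mS] H P) (hHb : AEBdd P H)
    (hA : AEStronglyMeasurable[m0] A P) (hAb : AEBdd P A)
    (hrow : P[A|mS] =ᵐ[P] P[A|mW]) :
    ∫ ω, A ω * H ω ∂P = ∫ ω, A ω * (P[H|mW]) ω ∂P := by
  have hW : mW ≤ m0 := hWS.trans hS
  have hH0 : AEStronglyMeasurable[m0] H P := hH.mono hS
  have hFW : AEStronglyMeasurable[mW] (P[H|mW]) P :=
    stronglyMeasurable_condExp.aestronglyMeasurable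
  have hF0 : AEStronglyMeasurable[m0] (P[H|mW]) P := hFW.mono hW
  have hFb : AEBdd P (P[H|mW]) := hHb.condExp mW
  have hAW : AEStronglyMeasurable[mW] (P[A|mW]) P :=
    stronglyMeasurable_condExp.aestronglyMeasurable
  calc ∫ ω, A ω * H ω ∂P = ∫ ω, H ω * A ω ∂P := integral_congr_ae (Eventually.of_forall
        fun ω => by simp only; ring)
    _ = ∫ ω, H ω * (P[A|mS]) ω ∂P := integral_mul_condExp_right hS hH hHb hA hAb
    _ = ∫ ω, (P[A|mW]) ω * H ω ∂P := integral_congr_ae (by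
        filter_upwards [hrow] with ω hω
        rw [hω]; ring)
    _ = ∫ ω, (P[A|mW]) ω * (P[H|mW]) ω ∂P :=
        integral_mul_condExp_right hW hAW (hAb.condExp mW) hH0 hHb
    _ = ∫ ω, (P[H|mW]) ω * (P[A|mW]) ω ∂P := integral_congr_ae (Eventually.of_forall
        fun ω => by simp only; ring)
    _ = ∫ ω, (P[H|mW]) ω * A ω ∂P := (integral_mul_condExp_right hW hFW hFb hA hAb).symm
    _ = ∫ ω, A ω * (P[H|mW]) ω ∂P := integral_congr_ae (Eventually.of_forall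
        fun ω => by simp only; ring)

/-- (H2) in the base case: `H = C * B`, `C` measurable with respect to the row `mS`,
`E[B|mS] = ψ` and `E[A * B|mS] = E[A|mW] * ψ`. -/
theorem hlim_base {mW mS : MeasurableSpace Ω} (hWS : mW ≤ mS) (hS : mS ≤ m0)
    {A B C ψ : Ω → ℝ} (hC : AEStronglyMeasurable[mS] C P) (hCb : AEBdd P C)
    (hB : AEStronglyMeasurable[m0] B P) (hBb : AEBdd P B)
    (hA : AEStronglyMeasurable[m0] A P) (hAb : AEBdd P A)
    (hψ : P[B|mS] =ᵐ[P] ψ) (hrow : P[A * B|mS] =ᵐ[P] P[A|mW] * ψ) :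
    ∫ ω, A ω * (C * B) ω ∂P = ∫ ω, A ω * (P[C * B|mW]) ω ∂P := by
  have hW : mW ≤ m0 := hWS.trans hS
  have hC0 : AEStronglyMeasurable[m0] C P := hC.mono hS
  have hCBb : AEBdd P (C * B) := hCb.mul hBb
  have hCBm : AEStronglyMeasurable[m0] (C * B) P := hC0.mul hB
  have hAW : AEStronglyMeasurable[mW] (P[A|mW]) P :=
    stronglyMeasurable_condExp.aestronglyMeasurable
  have hAW0 : AEStronglyMeasurable[m0] (P[A|mW]) P := hAW.mono hW
  have hAWb : AEBdd P (P[A|mW]) := hAb.condExp mW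
  have hAWS : AEStronglyMeasurable[mS] (P[A|mW]) P := hAW.mono hWS
  have hFW : AEStronglyMeasurable[mW] (P[C * B|mW]) P :=
    stronglyMeasurable_condExp.aestronglyMeasurable
  have hFb : AEBdd P (P[C * B|mW]) := hCBb.condExp mW
  calc ∫ ω, A ω * (C * B) ω ∂P = ∫ ω, C ω * (A * B) ω ∂P :=
        integral_congr_ae (Eventually.of_forall fun ω => by simp only [Pi.mul_apply]; ring)
    _ = ∫ ω, C ω * (P[A * B|mS]) ω ∂P :=
        integral_mul_condExp_right hS hC hCb (hA.mul hB) (hAb.mul hBb)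
    _ = ∫ ω, (C * P[A|mW]) ω * (P[B|mS]) ω ∂P := integral_congr_ae (by
        filter_upwards [hrow, hψ] with ω h1 h2
        rw [h1, h2]
        simp only [Pi.mul_apply]; ring)
    _ = ∫ ω, (C * P[A|mW]) ω * B ω ∂P :=
        (integral_mul_condExp_right hS (hC.mul hAWS) (hCb.mul hAWb) hB hBb).symm
    _ = ∫ ω, (P[A|mW]) ω * (C * B) ω ∂P :=
        integral_congr_ae (Eventually.of_forall fun ω => by simp only [Pi.mul_apply]; ring)
    _ = ∫ ω, (P[A|mW]) ω * (P[C * B|mW]) ω ∂P :=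
        integral_mul_condExp_right hW hAW hAWb hCBm hCBb
    _ = ∫ ω, (P[C * B|mW]) ω * (P[A|mW]) ω ∂P :=
        integral_congr_ae (Eventually.of_forall fun ω => by simp only; ring)
    _ = ∫ ω, (P[C * B|mW]) ω * A ω ∂P :=
        (integral_mul_condExp_right hW hFW hFb hA hAb).symm
    _ = ∫ ω, A ω * (P[C * B|mW]) ω ∂P :=
        integral_congr_ae (Eventually.of_forall fun ω => by simp only; ring)

/-- **Closure step.** If `H` is bounded and measurable with respect to the row `mS` and to the side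
information `mG`, satedness holds for the functions of the corner `mW`, and row and column are
conditionally independent given the corner, then `E[H|mW]` is `mQ`-measurable. -/
theorem thmE_closure {mW mQ mG mS : MeasurableSpace Ω} (hWS : mW ≤ mS) (hS : mS ≤ m0)
    (hQ0 : mQ ≤ m0) (hG : mG ≤ m0) {H : Ω → ℝ}
    (hHG : AEStronglyMeasurable[mG] H P) (hHS : AEStronglyMeasurable[mS] H P) (hHb : AEBdd P H)
    (hsat : P[P[H|mW]|mG] =ᵐ[P] P[P[H|mW]|mQ])
    (hrow : ∀ A : Ω → ℝ, StronglyMeasurable[mQ] A → AEBdd P A → P[A|mS] =ᵐ[P] P[A|mW]) :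
    P[P[H|mW]|mQ] =ᵐ[P] P[H|mW] := by
  refine thmE_core (hWS.trans hS) hQ0 hG hHG hHb hsat ?_
  exact hlim_closure hWS hS hHS hHb (stronglyMeasurable_condExp.mono hQ0).aestronglyMeasurable
    ((hHb.condExp mW).condExp mQ)
    (hrow _ stronglyMeasurable_condExp ((hHb.condExp mW).condExp mQ))

/-- **Base step.** -/
theorem thmE_base {mW mQ mG mS : MeasurableSpace Ω} (hWS : mW ≤ mS) (hS : mS ≤ m0)
    (hQ0 : mQ ≤ m0) (hG : mG ≤ m0) {B C ψ : Ω → ℝ}
    (hHG : AEStronglyMeasurable[mG] (C * B) P) (hCS : AEStronglyMeasurable[mS] C P)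
    (hCb : AEBdd P C) (hB : AEStronglyMeasurable[m0] B P) (hBb : AEBdd P B)
    (hsat : P[P[C * B|mW]|mG] =ᵐ[P] P[P[C * B|mW]|mQ])
    (hψ : P[B|mS] =ᵐ[P] ψ)
    (hrow : ∀ A : Ω → ℝ, StronglyMeasurable[mQ] A → AEBdd P A →
      P[A * B|mS] =ᵐ[P] P[A|mW] * ψ) :
    P[P[C * B|mW]|mQ] =ᵐ[P] P[C * B|mW] := by
  refine thmE_core (hWS.trans hS) hQ0 hG hHG (hCb.mul hBb) hsat ?_
  exact hlim_base hWS hS hCS hCb hB hBb
    (stronglyMeasurable_condExp.mono hQ0).aestronglyMeasurable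
    (((hCb.mul hBb).condExp mW).condExp mQ) hψ
    (hrow _ stronglyMeasurable_condExp (((hCb.mul hBb).condExp mW).condExp mQ))

end Vale.Agent.P102.RM
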