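import Vale.Agent.P102.RM.Ext408

/-!
P102, Theorem E and ideal property (second copy), part 2: the ideal property.
-/

namespace Vale.Agent.P102.RM.T408

open MeasureTheory Filter Topology ProbabilityTheory

variable {X : Sys} {ι : Type} [Fintype ι] [DecidableEq ι]

/-- `E[k(w_s) | (w_j)_{j ≠ s}, y_s]` as a function of the conditioning data -/
noncomputable def Q (P : Adm X) (r : Ultrafilter (ι → ℤ)) (s : ι) (k : P.W.C → ℂ) :
    ({j : ι // j ≠ s} → P.W.C) × P.Y.C → ℂ :=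
  cE (Ω := (D r P.W).C) (D r P.W).μ (P.y.side s) (fun d : ι → P.W.C => k (d s))

omit [DecidableEq ι] in
theorem Q_bdd (P : Adm X) (r : Ultrafilter (ι → ℤ)) (s : ι) {k : P.W.C → ℂ} (hk : Bdd k) :
    Bdd (Q P r s k) :=
  Bdd.cE (F := fun d : (D r P.W).C => k (d s)) (hk.comp (measurable_pi_apply s))

omit [Fintype ι] [DecidableEq ι] in
theorem measurable_side' {V Y : Sys} (y : Fac V Y) (s : ι) : Measurable (y.side s) :=
  Sat.measurable_side y s

/-- the equation `(*)`: satedness in test form -/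
theorem star (P : Adm X) (r : Ultrafilter (ι → ℤ)) (s : ι) (hN : SatN P r s) {R : Adm X}
    (g : Ext R P) {k : P.W.C → ℂ} (hk : Bdd k)
    {H : ({j : ι // j ≠ s} → R.W.C) × R.Y.C → ℂ} (hH : Bdd H) :
    ∫ d : ι → R.W.C, k (g.w.f (d s)) * H (R.y.side s d) ∂(D r R.W).μ
      = ∫ d : ι → R.W.C, Q P r s k (P.y.side s (fun i => g.w.f (d i))) * H (R.y.side s d)
          ∂(D r R.W).μ := by
  rw [hN.integral_eq g hk hH]
  have h1 : (fun d : (D r P.W).C => Q P r s k (P.y.side s d)) =ᵐ[(D r P.W).μ]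
      (D r P.W).μ[fun d : ι → P.W.C => k (d s)|
        MeasurableSpace.comap (P.y.side s) inferInstance] :=
    cE_comp_ae_eq (Ω := (D r P.W).C) (measurable_side' P.y s)
      (Bdd.integrable (hk.comp (measurable_pi_apply s)) _)
  have h2 := (g.w.D r).mp.quasiMeasurePreserving.ae h1
  refine integral_congr_ae ?_
  filter_upwards [h2] with d hd
  have hd' : Q P r s k (P.y.side s (fun i => g.w.f (d i)))
      = ((D r P.W).μ[fun d : ι → P.W.C => k (d s)|
        MeasurableSpace.comap (P.y.side s) inferInstance]) (fun i => g.w.f (d i)) := hd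
  rw [hd']

omit [Fintype ι] [DecidableEq ι] in
theorem ae_eq_of_four {Ω : Type*} [MeasurableSpace Ω] {μ : Measure Ω} [IsProbabilityMeasure μ]
    {A B : Ω → ℂ} (hA : Bdd A) (hB : Bdd B)
    (a1 : ∫ a, (starRingEnd ℂ) (A a) * A a ∂μ = ∫ a, A a * (starRingEnd ℂ) (B a) ∂μ)
    (a3 : ∫ a, B a * (starRingEnd ℂ) (A a) ∂μ = ∫ a, B a * (starRingEnd ℂ) (B a) ∂μ) :
    A =ᵐ[μ] B := by
  have hzero : ∫ a, (A a - B a) * (starRingEnd ℂ) (A a - B a) ∂μ = 0 := by
    have e : ∀ a, (A a - B a) * (starRingEnd ℂ) (A a - B a)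
        = ((starRingEnd ℂ) (A a) * A a - A a * (starRingEnd ℂ) (B a))
          - (B a * (starRingEnd ℂ) (A a) - B a * (starRingEnd ℂ) (B a)) := by
      intro a
      rw [map_sub]
      ring
    simp only [e]
    have i1 : Integrable (fun a => (starRingEnd ℂ) (A a) * A a) μ := (hA.star.mul hA).integrable μ
    have i2 : Integrable (fun a => A a * (starRingEnd ℂ) (B a)) μ := (hA.mul hB.star).integrable μ
    have i3 : Integrable (fun a => B a * (starRingEnd ℂ) (A a)) μ := (hB.mul hA.star).integrable μ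
    have i4 : Integrable (fun a => B a * (starRingEnd ℂ) (B a)) μ := (hB.mul hB.star).integrable μ
    have j1 : ∫ a, ((starRingEnd ℂ) (A a) * A a - A a * (starRingEnd ℂ) (B a)) ∂μ = 0 := by
      rw [integral_sub i1 i2, a1, sub_self]
    have j2 : ∫ a, (B a * (starRingEnd ℂ) (A a) - B a * (starRingEnd ℂ) (B a)) ∂μ = 0 := by
      rw [integral_sub i3 i4, a3, sub_self]
    have j3 := integral_sub (i1.sub i2) (i3.sub i4)
    simp only [Pi.sub_apply] at j3
    rw [j3, j1, j2, sub_self]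
  have e : ∀ a, (A a - B a) * (starRingEnd ℂ) (A a - B a) = ((‖A a - B a‖ ^ 2 : ℝ) : ℂ) := by
    intro a
    rw [Complex.mul_conj, Complex.normSq_eq_norm_sq]
  simp only [e] at hzero
  rw [integral_complex_ofReal] at hzero
  have hz : ∫ a, ‖A a - B a‖ ^ 2 ∂μ = 0 := by exact_mod_cast hzero
  have hb := hA.sub hB
  have hi : Integrable (fun a => ‖A a - B a‖ ^ 2) μ := by
    obtain ⟨C, hC⟩ := hb.2
    refine Integrable.of_bound (C := C ^ 2) ((hb.1.norm.pow_const 2).aestronglyMeasurable)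
      (Eventually.of_forall fun d => ?_)
    rw [Real.norm_of_nonneg (by positivity)]
    exact pow_le_pow_left₀ (norm_nonneg _) (hC d) 2
  have := (integral_eq_zero_iff_of_nonneg (fun d => by positivity) hi).1 hz
  filter_upwards [this] with d hd
  have hd' : ‖A d - B d‖ ^ 2 = 0 := hd
  have h3 := pow_eq_zero_iff (two_ne_zero) |>.1 hd'
  exact sub_eq_zero.1 (norm_eq_zero.1 h3)

omit [DecidableEq ι] in
/-- the end of the proof of Theorem E: `∫ k(w_s) Ψ(w_s) = ∫ Ψ(w_s) Qk` for all `k` -/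
theorem exa_of_core (P : Adm X) (r : Ultrafilter (ι → ℤ)) (s : ι) {Ψ : P.W.C → ℂ} (hΨ : Bdd Ψ)
    (h : ∀ k : P.W.C → ℂ, Bdd k → ∫ d : ι → P.W.C, k (d s) * Ψ (d s) ∂(D r P.W).μ
      = ∫ d : ι → P.W.C, Ψ (d s) * Q P r s k (P.y.side s d) ∂(D r P.W).μ) :
    Ψ ∈ Exa P r s := by
  have hms : Measurable (P.y.side s : (ι → P.W.C) → _) := measurable_side' P.y s
  have hΨs : Bdd (fun d : (D r P.W).C => Ψ (d s)) := hΨ.comp (measurable_pi_apply s)
  have hcs : Bdd (fun d : (D r P.W).C => (starRingEnd ℂ) (Ψ (d s))) := hΨs.star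
  set q := Q P r s Ψ with hq
  have hqb : Bdd q := Q_bdd P r s hΨ
  have hqs : Bdd (fun d : (D r P.W).C => q (P.y.side s d)) := hqb.comp hms
  -- conjugates
  have hconj : (fun d : (D r P.W).C => Q P r s (fun w => (starRingEnd ℂ) (Ψ w)) (P.y.side s d))
      =ᵐ[(D r P.W).μ] fun d => (starRingEnd ℂ) (q (P.y.side s d)) := by
    have e1 := cE_comp_ae_eq (Ω := (D r P.W).C) (μ := (D r P.W).μ) hms
      (Bdd.integrable hcs _)
    have e2 := cE_comp_ae_eq (Ω := (D r P.W).C) (μ := (D r P.W).μ) hms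
      (Bdd.integrable hΨs _)
    have e3 := condExp_conj (μ := (D r P.W).μ)
      (m := MeasurableSpace.comap (P.y.side s) inferInstance) (fun d : (D r P.W).C => Ψ (d s))
    filter_upwards [e1, e2, e3] with d h1 h2 h3
    have h1' : Q P r s (fun w => (starRingEnd ℂ) (Ψ w)) (P.y.side s d) = _ := h1
    have h2' : q (P.y.side s d) = _ := h2
    rw [h1', h3, h2']
  have hk := h (fun w => (starRingEnd ℂ) (Ψ w)) hΨ.star
  -- `∫ |Ψ|² = ∫ Ψ conj q = ∫ q conj q`
  have a1 : ∫ d : (D r P.W).C, (starRingEnd ℂ) (Ψ (d s)) * Ψ (d s) ∂(D r P.W).μ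
      = ∫ d : (D r P.W).C, Ψ (d s) * (starRingEnd ℂ) (q (P.y.side s d)) ∂(D r P.W).μ := by
    refine hk.trans (integral_congr_ae ?_)
    filter_upwards [hconj] with d hd
    rw [hd]
  have a3 : ∫ d : (D r P.W).C, q (P.y.side s d) * (starRingEnd ℂ) (Ψ (d s)) ∂(D r P.W).μ
      = ∫ d : (D r P.W).C, q (P.y.side s d) * (starRingEnd ℂ) (q (P.y.side s d))
        ∂(D r P.W).μ := by
    have := integral_comp_mul_cE (Ω := (D r P.W).C) (μ := (D r P.W).μ) hms hcs hqb
    refine this.trans (integral_congr_ae ?_)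
    filter_upwards [hconj] with d hd
    have hd' : cE (D r P.W).μ (P.y.side s) (fun d : (D r P.W).C => (starRingEnd ℂ) (Ψ (d s)))
        (P.y.side s d) = (starRingEnd ℂ) (q (P.y.side s d)) := hd
    rw [hd']
  have hae : ∀ᵐ d : (D r P.W).C ∂(D r P.W).μ, Ψ (d s) = q (P.y.side s d) :=
    ae_eq_of_four hΨs hqs a1 a3
  exact ⟨hΨ, q, hqb.1, hae⟩

omit [DecidableEq ι] in
/-- a bounded version of the witness of exactness -/
theorem Exa.exists_bdd {P : Adm X} {r : Ultrafilter (ι → ℤ)} {s : ι} {Φ : P.W.C → ℂ}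
    (h : Φ ∈ Exa P r s) : ∃ g : ({j : ι // j ≠ s} → P.W.C) × P.Y.C → ℂ, Bdd g ∧
      ∀ᵐ d ∂(D r P.W).μ, Φ (d s) = g (P.y.side s d) := by
  obtain ⟨⟨_, C, hC⟩, g, hg, hae⟩ := h
  classical
  refine ⟨fun y => if ‖g y‖ ≤ C then g y else 0, ⟨?_, |C|, fun y => ?_⟩, ?_⟩
  · exact Measurable.ite (measurableSet_le hg.norm measurable_const) hg measurable_const
  · by_cases h : ‖g y‖ ≤ C
    · simp only [h, if_true]; exact h.trans (le_abs_self _)
    · simp only [h, if_false, norm_zero]; exact abs_nonneg _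
  · filter_upwards [hae] with d hd
    have h1 : ‖g (P.y.side s d)‖ ≤ C := by rw [← hd]; exact hC _
    rw [if_pos h1]
    exact hd

/-- `∫ k(w_t) F(w) = ∫ k Ψ` and the row/column identity: the common part of both proofs. -/
theorem core_of_row (P : Adm X) (r : Ultrafilter (ι → ℤ)) (s : ι) {t b : ι} (htb : t ≠ b)
    (hL : LineInd r P.y b) (hN : SatN P r s) {F : (ι → P.W.C) → ℂ} (hF : Bdd F)
    {H : ({j : ι // j ≠ s} → (D r P.W).C) × (Y1 P r t b).C → ℂ} (hH : Bdd H)
    (hrow : ∀ᵐ d : (D r (D r P.W)).C ∂(D r (D r P.W)).μ,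
      H ((P1 P r htb hL).y.side s d) = F (d s)) :
    cl r P.W t F ∈ Exa P r s := by
  have hΨ : Bdd (cl r P.W t F) := hF.cl r P.W t
  refine exa_of_core P r s hΨ fun k hk => ?_
  -- left side
  have hkF : Bdd (fun d : (D r P.W).C => k (d t) * F d) := (hk.comp (measurable_pi_apply t)).mul hF
  have hkΨ : Bdd (fun w : P.W.C => k w * cl r P.W t F w) := hk.mul hΨ
  have l1 : ∫ d : ι → P.W.C, k (d s) * cl r P.W t F (d s) ∂(D r P.W).μ
      = ∫ w, k w * cl r P.W t F w ∂P.W.μ := (evF r P.W s).integral_comp hkΨ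
  have l2 : ∫ w, k w * cl r P.W t F w ∂P.W.μ = ∫ d : (D r P.W).C, k (d t) * F d ∂(D r P.W).μ :=
    (integral_mul_cl r P.W t hF hk).symm
  have l3 : ∫ d : (D r P.W).C, k (d t) * F d ∂(D r P.W).μ
      = ∫ d : (D r (D r P.W)).C, k (d s t) * F (d s) ∂(D r (D r P.W)).μ :=
    ((evF r (D r P.W) s).integral_comp hkF).symm
  have l4 : ∫ d : (D r (D r P.W)).C, k (d s t) * F (d s) ∂(D r (D r P.W)).μ
      = ∫ d : (D r (D r P.W)).C, k (d s t) * H ((P1 P r htb hL).y.side s d)
        ∂(D r (D r P.W)).μ := integral_congr_ae (by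
        filter_upwards [hrow] with d hd
        rw [hd])
  have l5 := star P r s hN (E1 P r htb hL) hk hH
  -- right side
  set G : (ι → P.W.C) → ℂ := fun a => Q P r s k (P.y.side s a) with hG
  have hGb : Bdd G := (Q_bdd P r s hk).comp (measurable_side' P.y s)
  have r1 := integral_row_col r (evF r P.W t) s F hF G hGb
  have r2 : ∫ z : (D r P.W).C, F z * cl r P.W s G (z t) ∂(D r P.W).μ
      = ∫ w, cl r P.W s G w * cl r P.W t F w ∂P.W.μ := by
    rw [← integral_mul_cl r P.W t hF (hGb.cl r P.W s)]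
    simp only [mul_comm]
  have r3 : ∫ w, cl r P.W s G w * cl r P.W t F w ∂P.W.μ
      = ∫ d : ι → P.W.C, cl r P.W t F (d s) * G d ∂(D r P.W).μ := by
    rw [integral_mul_cl r P.W s hGb hΨ]
    simp only [mul_comm]
  rw [l1, l2, l3, l4]
  refine Eq.trans l5 ?_
  rw [← r3, ← r2]
  refine Eq.trans ?_ r1
  refine integral_congr_ae ?_
  filter_upwards [hrow] with d hd
  rw [hd, mul_comm]
  rfl

/-- the ideal property -/
theorem ideal (P : Adm X) (r : Ultrafilter (ι → ℤ)) (s : ι) {t b : ι} (htb : t ≠ b)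
    (hL : LineInd r P.y b) (hN : SatN P r s) (f : ι → P.W.C → ℂ) (hf : ∀ i, Bdd (f i))
    {Φ : P.W.C → ℂ} (hΦ : Φ ∈ Exa P r s) :
    cl r P.W t (fun d => (∏ a ∈ (Finset.univ.erase t).erase b, f a (d a)) * Φ (d b))
      ∈ Exa P r s := by
  obtain ⟨g, hg, hae⟩ := Exa.exists_bdd hΦ
  have hF : Bdd (fun d : ι → P.W.C =>
      (∏ a ∈ (Finset.univ.erase t).erase b, f a (d a)) * Φ (d b)) :=
    (Bdd.prod _ fun i _ => (hf i).comp (measurable_pi_apply i)).mul
      (hΦ.1.comp (measurable_pi_apply b))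
  let H : ({j : ι // j ≠ s} → (D r P.W).C) × (Y1 P r t b).C → ℂ := fun c =>
    (∏ a : J t b, f a (c.2.1 a)) * g (fun j => c.1 j b, c.2.2 b)
  have hH : Bdd H := by
    refine Bdd.mul ?_ ?_
    · refine Bdd.prod _ fun a _ => (hf a).comp ?_
      exact (measurable_pi_apply a).comp (measurable_fst.comp measurable_snd)
    · refine hg.comp ?_
      refine Measurable.prodMk ?_ ?_
      · refine measurable_pi_lambda _ fun j => ?_
        exact (measurable_pi_apply b).comp ((measurable_pi_apply j).comp measurable_fst)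
      · exact (measurable_pi_apply b).comp (measurable_snd.comp measurable_snd)
  refine core_of_row P r s htb hL hN hF hH ?_
  have h1 := (colF r P.W b).mp.quasiMeasurePreserving.ae hae
  filter_upwards [h1] with d hd
  have hd' : Φ (d s b) = g (P.y.side s (fun o => d o b)) := hd
  rw [hd']
  show (∏ a : J t b, f a (d s a)) * g (P.y.side s (fun o => d o b)) = _
  rw [prod_J t b (fun a => f a (d s a))]

theorem b_ideal_408 (hLINE : B_LINE) : B_IDEAL := by
  intro X P ι _ _ r _ hK hM hN s t b htb f hf Φ hΦ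
  exact ideal P r s htb (hLINE X P ι r hM hK b) (hN s) f hf hΦ

end Vale.Agent.P102.RM.T408
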