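import Mathlib.Analysis.InnerProductSpace.Spectrum
import Mathlib.Analysis.InnerProductSpace.l2Space
import Mathlib.Analysis.InnerProductSpace.Adjoint
import Mathlib.LinearAlgebra.Eigenspace.Triangularizable
import Mathlib.Analysis.Complex.Polynomial.Basic

/-!
Functional analysis for the static mediality theorem (P102):
* `isCompactOperator_of_hs`: a bounded operator with bounded Hilbert–Schmidt sums is compact;
* `exists_joint_eigenvector`: commuting endomorphisms of a nonzero finite dimensional complex
  space have a joint eigenvector;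
* `joint_eig_total`: for a commuting family of compact operators, closed under adjoints, with
  trivial joint kernel, the joint eigenvectors of nonzero weight span a dense subspace.
-/

namespace Vale.Agent.P102.RM

open Module Module.End ContinuousLinearMap
open scoped InnerProductSpace

section HS

variable {H H' : Type*} [NormedAddCommGroup H] [InnerProductSpace ℂ H]
  [NormedAddCommGroup H'] [InnerProductSpace ℂ H'] [CompleteSpace H']

/-- A bounded operator `T` with `∑ ‖T e_i‖² ≤ C` for all finite subfamilies of a Hilbert basis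
is compact. -/
theorem isCompactOperator_of_hs_basis {ι : Type*} (b : HilbertBasis ι ℂ H) (T : H →L[ℂ] H')
    (C : ℝ) (hC : ∀ S : Finset ι, ∑ i ∈ S, ‖T (b i)‖ ^ 2 ≤ C) : IsCompactOperator T := by
  classical
  have hsum : Summable (fun i => ‖T (b i)‖ ^ 2) :=
    summable_of_sum_le (fun i => by positivity) hC
  -- the finite rank truncations
  let F : Finset ι → H →L[ℂ] H' := fun S =>
    ∑ i ∈ S, (innerSL ℂ (b i)).smulRight (T (b i))
  have hF : ∀ S, IsCompactOperator (F S) := by
    intro S
    have h0 : ∀ i, IsCompactOperator ((innerSL ℂ (b i)).smulRight (T (b i)) : H →L[ℂ] H') := by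
      intro i
      have h1 : IsCompactOperator (innerSL ℂ (b i) : H →L[ℂ] ℂ) :=
        isCompactOperator_of_locallyCompactSpace_dom _
      have h2 := h1.clm_comp (ContinuousLinearMap.toSpanSingleton ℂ (T (b i)))
      exact h2
    induction S using Finset.induction_on with
    | empty => simpa [F] using isCompactOperator_zero
    | insert a s ha ih =>
      have : F (insert a s) = (innerSL ℂ (b a)).smulRight (T (b a)) + F s := by
        simp [F, Finset.sum_insert ha]
      rw [this]
      exact (h0 a).add ih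
  refine isCompactOperator_of_tendsto (l := Filter.atTop) (F := F) ?_
    (Filter.Eventually.of_forall hF)
  rw [Metric.tendsto_atTop]
  intro ε hε
  have hε2 : (0 : ℝ) < (ε / 2) ^ 2 := by positivity
  obtain ⟨S₀, hS₀⟩ := (summable_iff_vanishing_norm.1 hsum) ((ε / 2) ^ 2) hε2
  refine ⟨S₀, fun S hS => ?_⟩
  rw [dist_eq_norm]
  have hle : ‖F S - T‖ ≤ ε / 2 := by
    refine ContinuousLinearMap.opNorm_le_bound _ (by positivity) (fun x => ?_)
    -- partial sums
    have hpart : ∀ S' : Finset ι, S ⊆ S' → ‖F S x - F S' x‖ ≤ ε / 2 * ‖x‖ := by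
      intro S' hSS'
      have h1 : F S' x - F S x = ∑ i ∈ S' \ S, (⟪b i, x⟫_ℂ) • T (b i) := by
        simp only [F, _root_.sum_apply, ContinuousLinearMap.smulRight_apply,
          innerSL_apply_apply]
        rw [← Finset.sum_sdiff hSS']
        abel
      rw [← norm_neg, neg_sub, h1]
      calc ‖∑ i ∈ S' \ S, (⟪b i, x⟫_ℂ) • T (b i)‖
          ≤ ∑ i ∈ S' \ S, ‖(⟪b i, x⟫_ℂ) • T (b i)‖ := norm_sum_le _ _
        _ = ∑ i ∈ S' \ S, ‖⟪b i, x⟫_ℂ‖ * ‖T (b i)‖ := by simp [norm_smul]
        _ ≤ Real.sqrt (∑ i ∈ S' \ S, ‖⟪b i, x⟫_ℂ‖ ^ 2) *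
              Real.sqrt (∑ i ∈ S' \ S, ‖T (b i)‖ ^ 2) := Real.sum_mul_le_sqrt_mul_sqrt _ _ _
        _ ≤ ‖x‖ * (ε / 2) := by
            refine mul_le_mul ?_ ?_ (Real.sqrt_nonneg _) (norm_nonneg _)
            · rw [Real.sqrt_le_left (norm_nonneg _)]
              exact b.orthonormal.sum_inner_products_le x
            · rw [Real.sqrt_le_left (by positivity)]
              have := hS₀ (S' \ S) (Finset.disjoint_of_subset_right hS
                Finset.sdiff_disjoint)
              rw [Real.norm_of_nonneg (Finset.sum_nonneg fun i _ => by positivity)] at this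
              exact this.le
        _ = ε / 2 * ‖x‖ := by ring
    have hlim : Filter.Tendsto (fun S' : Finset ι => F S' x) Filter.atTop (nhds (T x)) := by
      have h1 := b.hasSum_repr x
      have h2 : HasSum (fun i => T (b.repr x i • b i)) (T x) := T.hasSum h1
      have h3 : (fun S' : Finset ι => F S' x) =
          fun S' : Finset ι => ∑ i ∈ S', T (b.repr x i • b i) := by
        funext S'
        simp [F, b.repr_apply_apply]
      rw [h3]
      exact h2
    have hlim2 : Filter.Tendsto (fun S' : Finset ι => ‖F S x - F S' x‖) Filter.atTop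
        (nhds ‖F S x - T x‖) := (tendsto_const_nhds.sub hlim).norm
    have h4 := le_of_tendsto hlim2 (Filter.eventually_atTop.2 ⟨S, fun S' hS' => hpart S' hS'⟩)
    simpa using h4
  linarith

/-- A bounded operator whose Hilbert–Schmidt sums over finite orthonormal families are bounded by
`C` is compact. -/
theorem isCompactOperator_of_hs [CompleteSpace H] (T : H →L[ℂ] H') (C : ℝ)
    (hC : ∀ (n : ℕ) (e : Fin n → H), Orthonormal ℂ e → ∑ i, ‖T (e i)‖ ^ 2 ≤ C) :
    IsCompactOperator T := by
  classical
  obtain ⟨w, b, hb⟩ := exists_hilbertBasis ℂ H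
  refine isCompactOperator_of_hs_basis b T C (fun S => ?_)
  have h1 := hC S.card (fun j => b (S.equivFin.symm j)) ?_
  · rw [← Finset.sum_coe_sort S]
    rw [← Equiv.sum_comp S.equivFin.symm (fun i : S => ‖T (b i)‖ ^ 2)]
    exact h1
  · exact b.orthonormal.comp _ (Subtype.val_injective.comp S.equivFin.symm.injective)

end HS

section Joint

/-- Commuting endomorphisms of a nonzero finite dimensional complex space have a joint
eigenvector. -/
theorem exists_joint_eigenvector {ι : Type*} (n : ℕ) :
    ∀ (E : Type*) [AddCommGroup E] [Module ℂ E] [FiniteDimensional ℂ E] [Nontrivial E]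
      (T : ι → Module.End ℂ E), (∀ i j, Commute (T i) (T j)) → finrank ℂ E ≤ n →
      ∃ F : E, F ≠ 0 ∧ ∃ lam : ι → ℂ, ∀ i, T i F = lam i • F := by
  induction n with
  | zero =>
    intro E _ _ _ _ T _ hn
    exact absurd (finrank_pos (R := ℂ) (M := E)) (by omega)
  | succ n ih =>
    intro E _ _ _ _ T hT hn
    by_cases hsc : ∀ i, ∃ μ : ℂ, ∀ x, T i x = μ • x
    · choose lam hlam using hsc
      obtain ⟨F, hF⟩ := exists_ne (0 : E)
      exact ⟨F, hF, lam, fun i => hlam i F⟩
    · push Not at hsc
      obtain ⟨i, hi⟩ := hsc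
      obtain ⟨μ, hμ⟩ := Module.End.exists_eigenvalue (T i)
      have hinv : ∀ j, ∀ x ∈ (T i).eigenspace μ, T j x ∈ (T i).eigenspace μ := by
        intro j x hx
        rw [mem_eigenspace_iff] at hx ⊢
        have := congrArg (fun f : Module.End ℂ E => f x) (hT i j)
        simp only [Module.End.mul_apply] at this
        rw [this, hx, map_smul]
      have hne : (T i).eigenspace μ ≠ ⊥ := hμ
      have : Nontrivial ((T i).eigenspace μ) := Submodule.nontrivial_iff_ne_bot.2 hne
      have hlt : (T i).eigenspace μ < ⊤ := by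
        rw [lt_top_iff_ne_top]
        intro htop
        obtain ⟨x, hx⟩ := hi μ
        exact hx (mem_eigenspace_iff.1 (htop ▸ Submodule.mem_top))
      have hfr : finrank ℂ ((T i).eigenspace μ) ≤ n := by
        have := Submodule.finrank_lt (s := (T i).eigenspace μ) hlt.ne
        omega
      obtain ⟨F, hF, lam, hlam⟩ := ih ((T i).eigenspace μ)
        (fun j => (T j).restrict (hinv j)) (by
          intro j k
          ext x
          simp only [Module.End.mul_apply, LinearMap.coe_restrict_apply]
          exact congrArg (fun f : Module.End ℂ E => f x) (hT j k)) hfr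
      refine ⟨F, ?_, lam, fun j => ?_⟩
      · simpa using hF
      · have := congrArg Subtype.val (hlam j)
        simpa using this

variable {H : Type*} [NormedAddCommGroup H] [InnerProductSpace ℂ H] [CompleteSpace H]

/-- `F` is a joint eigenvector of the family `T`, of nonzero weight. -/
def JointEig {ι : Type*} (T : ι → H →L[ℂ] H) (F : H) : Prop :=
  F ≠ 0 ∧ ∃ lam : ι → ℂ, (∀ i, T i F = lam i • F) ∧ ∃ i, lam i ≠ 0

/-- For a commuting family of compact operators which is closed under adjoints and has trivial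
joint kernel, the joint eigenvectors (of nonzero weight) span a dense subspace. -/
theorem joint_eig_total {ι : Type*} (T : ι → H →L[ℂ] H)
    (hcomp : ∀ i, IsCompactOperator (T i))
    (hcomm : ∀ i j, Commute (T i) (T j))
    (hadj : ∀ i, ∃ j, adjoint (T i) = T j)
    (hker : ∀ x, (∀ i, T i x = 0) → x = 0) :
    (Submodule.span ℂ {F | JointEig T F}).topologicalClosure = ⊤ := by
  classical
  rw [Submodule.topologicalClosure_eq_top_iff]
  set K : Submodule ℂ H := (Submodule.span ℂ {F | JointEig T F})ᗮ with hK
  by_contra hne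
  have hKclosed : IsClosed (K : Set H) := Submodule.isClosed_orthogonal _
  have : CompleteSpace K := hKclosed.completeSpace_coe
  -- `K` is invariant
  have hinv : ∀ i, ∀ x ∈ K, T i x ∈ K := by
    intro i x hx
    rw [hK, Submodule.mem_orthogonal] at hx ⊢
    intro u hu
    obtain ⟨j, hj⟩ := hadj i
    have h1 : ∀ u ∈ Submodule.span ℂ {F | JointEig T F}, ⟪u, T i x⟫_ℂ = 0 := by
      intro u hu
      induction hu using Submodule.span_induction with
      | mem F hF =>
        obtain ⟨hF0, lam, hlam, hi0⟩ := hF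
        rw [← adjoint_inner_left, hj, hlam j, inner_smul_left,
          hx F (Submodule.subset_span ⟨hF0, lam, hlam, hi0⟩), mul_zero]
      | zero => simp
      | add a b _ _ ha hb => rw [inner_add_left, ha, hb, add_zero]
      | smul c a _ ha => rw [inner_smul_left, ha, mul_zero]
    exact h1 u hu
  obtain ⟨x, hxK, hx0⟩ := Submodule.exists_mem_ne_zero_of_ne_bot hne
  obtain ⟨i, hi⟩ : ∃ i, T i x ≠ 0 := by
    by_contra h
    push Not at h
    exact hx0 (hker x h)
  obtain ⟨j, hj⟩ := hadj i
  -- restrictions to `K`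
  let R : ι → K →L[ℂ] K := fun k => (T k).restrict (hinv k)
  have hRcoe : ∀ k (y : K), ((R k y : K) : H) = T k y := fun k y => rfl
  let A : K →L[ℂ] K := (R j).comp (R i)
  have hAcomp : IsCompactOperator A := by
    have h1 : IsCompactOperator (R i) := (hcomp i).restrict' (hinv i)
    exact h1.clm_comp (R j)
  have hAcoe : ∀ y : K, ((A y : K) : H) = T j (T i y) := fun y => rfl
  have hAsymm : A.IsSymmetric := by
    intro y z
    change ⟪((A y : K) : H), (z : H)⟫_ℂ = ⟪(y : H), ((A z : K) : H)⟫_ℂ
    rw [hAcoe, hAcoe, ← hj, adjoint_inner_left, adjoint_inner_right]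
  have hA0 : A ≠ 0 := by
    intro h
    have h1 : ((A ⟨x, hxK⟩ : K) : H) = 0 := by rw [h]; rfl
    rw [hAcoe, ← hj] at h1
    have h2 : ⟪adjoint (T i) (T i x), x⟫_ℂ = 0 := by
      rw [show adjoint (T i) (T i x) = 0 from h1, inner_zero_left]
    rw [adjoint_inner_left, inner_self_eq_zero] at h2
    exact hi h2
  have hev : ∃ μ : ℂ, HasEigenvalue (A : End ℂ K) μ ∧ μ ≠ 0 := by
    by_contra h
    push Not at h
    exact hA0 ((eq_zero_of_forall_hasEigenvalue_eq_zero hAcomp hAsymm).1 h)
  obtain ⟨μ, hμ, hμ0⟩ := hev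
  have hfd : FiniteDimensional ℂ (eigenspace (A : End ℂ K) μ) :=
    finite_dimensional_eigenspace hAcomp μ hμ0
  have : Nontrivial (eigenspace (A : End ℂ K) μ) :=
    Submodule.nontrivial_iff_ne_bot.2 hμ
  have hRcomm : ∀ k l (y : K), R k (R l y) = R l (R k y) := by
    intro k l y
    apply Subtype.ext
    change T k (T l y) = T l (T k y)
    exact congrArg (fun f : H →L[ℂ] H => f y) (hcomm k l)
  have hEinv : ∀ k, ∀ y ∈ eigenspace (A : End ℂ K) μ, (R k : End ℂ K) y ∈
      eigenspace (A : End ℂ K) μ := by
    intro k y hy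
    rw [mem_eigenspace_iff] at hy ⊢
    have h1 : A (R k y) = R k (A y) := by
      change R j (R i (R k y)) = R k (R j (R i y))
      rw [hRcomm i k, hRcomm j k]
    have h2 : A y = μ • y := hy
    change A (R k y) = μ • R k y
    rw [h1, h2, map_smul]
  obtain ⟨F, hF0, lam, hlam⟩ := exists_joint_eigenvector
    (finrank ℂ (eigenspace (A : End ℂ K) μ)) (eigenspace (A : End ℂ K) μ)
    (fun k => ((R k : End ℂ K)).restrict (hEinv k)) (by
      intro k l
      ext y
      simp only [Module.End.mul_apply, LinearMap.coe_restrict_apply]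
      exact congrArg Subtype.val (hRcomm k l y)) le_rfl
  have hTF : ∀ k, T k ((F : K) : H) = lam k • ((F : K) : H) := by
    intro k
    have h1 := congrArg (fun z : eigenspace (A : End ℂ K) μ => ((z : K) : H)) (hlam k)
    exact h1
  have hFne : ((F : K) : H) ≠ 0 := by
    intro h
    apply hF0
    apply Subtype.ext
    apply Subtype.ext
    simpa using h
  have hAF : ((A (F : K) : K) : H) = μ • ((F : K) : H) := by
    have h1 : A (F : K) = μ • (F : K) := mem_eigenspace_iff.1 F.2
    rw [h1]; rfl
  have hlam0 : lam i ≠ 0 := by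
    intro h
    rw [hAcoe, hTF i, h, zero_smul, map_zero] at hAF
    exact (smul_ne_zero hμ0 hFne) hAF.symm
  have hJE : JointEig T ((F : K) : H) := ⟨hFne, lam, hTF, i, hlam0⟩
  have hmem : ((F : K) : H) ∈ (Submodule.span ℂ {F | JointEig T F})ᗮ := (F : K).2
  rw [Submodule.mem_orthogonal] at hmem
  have h0 := hmem _ (Submodule.subset_span hJE)
  rw [inner_self_eq_zero] at h0
  exact hFne h0

/-- Joint eigenvectors of an adjoint-closed family with different weights are
orthogonal. -/
theorem jointEig_orthogonal {ι : Type*} (T : ι → H →L[ℂ] H)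
    (hadj : ∀ i, ∃ j, adjoint (T i) = T j)
    {F G : H} {lam kap : ι → ℂ} (hF : ∀ i, T i F = lam i • F) (hG : ∀ i, T i G = kap i • G)
    (hne : lam ≠ kap) : ⟪F, G⟫_ℂ = 0 := by
  by_contra h0
  apply hne
  funext i
  -- the weight of the adjoint is the conjugate
  obtain ⟨j, hj⟩ := hadj i
  have hF0 : F ≠ 0 := by rintro rfl; simp at h0
  have h1 : kap i * ⟪F, G⟫_ℂ = (starRingEnd ℂ) (lam j) * ⟪F, G⟫_ℂ := by
    rw [← inner_smul_right, ← hG i, ← adjoint_inner_left, hj, hF j, inner_smul_left]
  have h2 : lam i * ⟪F, F⟫_ℂ = (starRingEnd ℂ) (lam j) * ⟪F, F⟫_ℂ := by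
    rw [← inner_smul_right, ← hF i, ← adjoint_inner_left, hj, hF j, inner_smul_left]
  have h3 : kap i = (starRingEnd ℂ) (lam j) := mul_right_cancel₀ h0 h1
  have h4 : lam i = (starRingEnd ℂ) (lam j) :=
    mul_right_cancel₀ (by simpa [inner_self_eq_zero] using hF0) h2
  rw [h3, h4]

end Joint

end Vale.Agent.P102.RM
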