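import Mathlib.MeasureTheory.Function.Holder
import Mathlib.MeasureTheory.Function.L2Space
import Mathlib.MeasureTheory.Function.AEEqOfIntegral
import Mathlib.MeasureTheory.Integral.Prod
import Vale.Agent.P102.RM.Spec522

/-!
Static mediality theorem, functional-analytic part (block MED, lemma A).
-/

namespace Vale.Agent.P102.RM

open MeasureTheory ENNReal Filter
open scoped InnerProductSpace ComplexConjugate

section Rect

variable {V Z : Type*} [MeasurableSpace V] [MeasurableSpace Z]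

/-- An integrable function on a product whose integrals over all rectangles vanish is zero. -/
theorem ae_zero_of_rect {ρ : Measure (V × Z)} [IsFiniteMeasure ρ] {Φ : V × Z → ℂ}
    (hΦ : Integrable Φ ρ)
    (h : ∀ A B, MeasurableSet A → MeasurableSet B → ∫ x in A ×ˢ B, Φ x ∂ρ = 0) :
    Φ =ᵐ[ρ] 0 := by
  refine hΦ.ae_eq_zero_of_forall_setIntegral_eq_zero (fun s hs _ => ?_)
  induction s, hs using MeasurableSpace.induction_on_inter generateFrom_prod.symm
    isPiSystem_prod with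
  | empty => simp
  | basic t ht =>
    obtain ⟨A, hA, B, hB, rfl⟩ := ht
    exact h A B hA hB
  | compl t ht ih =>
    have h1 := integral_add_compl ht hΦ
    have h2 := h Set.univ Set.univ MeasurableSet.univ MeasurableSet.univ
    rw [Set.univ_prod_univ, Measure.restrict_univ] at h2
    rw [ih (measure_lt_top _ _), zero_add, h2] at h1
    exact h1
  | iUnion f hd hm ih =>
    rw [integral_iUnion hm hd hΦ.integrableOn]
    simp [ih, measure_lt_top]

end Rect

section Op

variable {V Z : Type*} [MeasurableSpace V] [MeasurableSpace Z] {ν : Measure V}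
  [IsProbabilityMeasure ν] {ζ : Measure Z} [IsProbabilityMeasure ζ]

/-- bounded measurable functions -/
abbrev BMf (Z : Type*) [MeasurableSpace Z] : Type _ :=
  {g : Z → ℂ // Measurable g ∧ ∃ C : ℝ, ∀ z, ‖g z‖ ≤ C}

omit [IsProbabilityMeasure ν] [IsProbabilityMeasure ζ] in
theorem BMf.memLp_snd (g : BMf Z) : MemLp (fun x : V × Z => g.1 x.2) ∞ (ν.prod ζ) := by
  obtain ⟨C, hC⟩ := g.2.2
  exact memLp_top_of_bound (g.2.1.comp measurable_snd).aestronglyMeasurable C
    (Eventually.of_forall fun x => hC _)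

/-- The averaging operator `F ↦ ∫ g(z) F(S(·, z)) dζ(z)` on `L²(ν)`. -/
noncomputable def Op (S : V × Z → V) (hS : MeasurePreserving S (ν.prod ζ) ν) (g : BMf Z) :
    Lp ℂ 2 ν →L[ℂ] Lp ℂ 2 ν :=
  (ContinuousLinearMap.adjoint
    (Lp.compMeasurePreservingₗᵢ ℂ (Prod.fst : V × Z → V)
      (measurePreserving_fst (μ := ν) (ν := ζ))).toContinuousLinearMap) ∘L
  ((ContinuousLinearMap.mul ℂ ℂ).holderL (ν.prod ζ) ∞ 2 2
    ((BMf.memLp_snd (ν := ν) (ζ := ζ) g).toLp _)) ∘L
  (Lp.compMeasurePreservingₗᵢ ℂ S hS).toContinuousLinearMap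

omit [IsProbabilityMeasure ν] in
theorem inner_Op (S : V × Z → V) (hS : MeasurePreserving S (ν.prod ζ) ν) (g : BMf Z)
    (F G : Lp ℂ 2 ν) :
    ⟪G, Op S hS g F⟫_ℂ = ∫ x, conj (G x.1) * (g.1 x.2 * F (S x)) ∂(ν.prod ζ) := by
  rw [Op, ContinuousLinearMap.comp_apply, ContinuousLinearMap.adjoint_inner_right,
    ContinuousLinearMap.comp_apply]
  rw [L2.inner_def]
  refine integral_congr_ae ?_
  have h1 := Lp.coeFn_compMeasurePreserving G (measurePreserving_fst (μ := ν) (ν := ζ))
  have h2 := Lp.coeFn_compMeasurePreserving F hS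
  have h3 := (BMf.memLp_snd (ν := ν) (ζ := ζ) g).coeFn_toLp
  have h4 := ContinuousLinearMap.coeFn_holder (r := 2) (ContinuousLinearMap.mul ℂ ℂ)
    ((BMf.memLp_snd (ν := ν) (ζ := ζ) g).toLp _)
    ((Lp.compMeasurePreservingₗᵢ ℂ S hS).toContinuousLinearMap F)
  filter_upwards [h1, h2, h3, h4] with x h1 h2 h3 h4
  rw [RCLike.inner_apply']
  rw [show (((ContinuousLinearMap.mul ℂ ℂ).holderL (ν.prod ζ) ∞ 2 2
    ((BMf.memLp_snd (ν := ν) (ζ := ζ) g).toLp _))
    ((Lp.compMeasurePreservingₗᵢ ℂ S hS).toContinuousLinearMap F) : V × Z → ℂ) x = _ from h4]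
  rw [h3]
  change conj ((Lp.compMeasurePreserving Prod.fst _ G : V × Z → ℂ) x) *
    (g.1 x.2 * (Lp.compMeasurePreserving S hS F : V × Z → ℂ) x) = _
  rw [h1, h2]
  rfl

theorem BMf.integrable_mul {α : Type*} [MeasurableSpace α] {μ : Measure α} (g : BMf Z)
    {p : α → Z} (hp : Measurable p) {f : α → ℂ} (hf : Integrable f μ) :
    Integrable (fun x => g.1 (p x) * f x) μ := by
  obtain ⟨C, hC⟩ := g.2.2
  exact hf.bdd_mul (g.2.1.comp hp).aestronglyMeasurable (Eventually.of_forall fun x => hC _)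

omit [IsProbabilityMeasure ν] in
theorem integrable_comp {α : Type*} [MeasurableSpace α] {μ : Measure α} [IsFiniteMeasure μ]
    (F : Lp ℂ 2 ν) {f : α → V} (hf : MeasurePreserving f μ ν) :
    Integrable (fun x => F (f x)) μ :=
  ((Lp.memLp F).comp_measurePreserving hf).integrable one_le_two

theorem inner_indicator_Op (S : V × Z → V) (hS : MeasurePreserving S (ν.prod ζ) ν) (g : BMf Z)
    (F : Lp ℂ 2 ν) {A : Set V} (hA : MeasurableSet A) :
    ⟪indicatorConstLp 2 hA (measure_ne_top ν A) (1 : ℂ), Op S hS g F⟫_ℂ =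
      ∫ x in A ×ˢ Set.univ, g.1 x.2 * F (S x) ∂(ν.prod ζ) := by
  rw [inner_Op, ← integral_indicator (hA.prod MeasurableSet.univ)]
  refine integral_congr_ae ?_
  have h3 := (measurePreserving_fst (μ := ν) (ν := ζ)).quasiMeasurePreserving.ae
    (indicatorConstLp_coeFn (p := 2) (hs := hA) (hμs := measure_ne_top ν A) (c := (1 : ℂ)))
  filter_upwards [h3] with x hx
  rw [hx]
  by_cases h : x.1 ∈ A
  · rw [Set.indicator_of_mem h, Set.indicator_of_mem (by simpa using h)]
    simp
  · rw [Set.indicator_of_notMem h, Set.indicator_of_notMem (by simpa using h)]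
    simp

theorem coe_Op (S : V × Z → V) (hS : MeasurePreserving S (ν.prod ζ) ν) (g : BMf Z)
    (F : Lp ℂ 2 ν) :
    Op S hS g F =ᵐ[ν] fun v => ∫ z, g.1 z * F (S (v, z)) ∂ζ := by
  have hint : Integrable (fun x : V × Z => g.1 x.2 * F (S x)) (ν.prod ζ) :=
    g.integrable_mul measurable_snd (integrable_comp F hS)
  refine Integrable.ae_eq_of_forall_setIntegral_eq _ _
    ((Lp.memLp (Op S hS g F)).integrable one_le_two) hint.integral_prod_left (fun A hA _ => ?_)
  rw [← L2.inner_indicatorConstLp_one (𝕜 := ℂ) hA (measure_ne_top ν A) (Op S hS g F),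
    inner_indicator_Op, setIntegral_prod _ hint.integrableOn]
  simp

variable {Z' : Type*} [MeasurableSpace Z'] {ζ' : Measure Z'} [IsProbabilityMeasure ζ']

theorem mp_two {S : V × Z → V} (hS : MeasurePreserving S (ν.prod ζ) ν)
    {S' : V × Z' → V} (hS' : MeasurePreserving S' (ν.prod ζ') ν) :
    MeasurePreserving (fun x : V × (Z × Z') => S' (S (x.1, x.2.1), x.2.2))
      (ν.prod (ζ.prod ζ')) ν := by
  have h1 : MeasurePreserving (MeasurableEquiv.prodAssoc (α := V) (β := Z) (γ := Z')).symm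
      (ν.prod (ζ.prod ζ')) ((ν.prod ζ).prod ζ') :=
    (measurePreserving_prodAssoc ν ζ ζ').symm _
  have h2 : MeasurePreserving (Prod.map S id) ((ν.prod ζ).prod ζ') (ν.prod ζ') :=
    hS.prod (MeasurePreserving.id ζ')
  exact (hS'.comp h2).comp h1

theorem coe_Op_two {S : V × Z → V} (hS : MeasurePreserving S (ν.prod ζ) ν)
    {S' : V × Z' → V} (hS' : MeasurePreserving S' (ν.prod ζ') ν) (g : BMf Z) (g' : BMf Z')
    (F : Lp ℂ 2 ν) :
    Op S hS g (Op S' hS' g' F) =ᵐ[ν]
      fun v => ∫ w, g.1 w.1 * (g'.1 w.2 * F (S' (S (v, w.1), w.2))) ∂(ζ.prod ζ') := by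
  have h1 := coe_Op S hS g (Op S' hS' g' F)
  have h2 : ∀ᵐ v ∂ν, ∀ᵐ z ∂ζ, (Op S' hS' g' F) (S (v, z)) =
      ∫ z', g'.1 z' * F (S' (S (v, z), z')) ∂ζ' :=
    Measure.ae_ae_of_ae_prod (hS.quasiMeasurePreserving.ae (coe_Op S' hS' g' F))
  have h3 : Integrable (fun x : V × (Z × Z') =>
      g.1 x.2.1 * (g'.1 x.2.2 * F (S' (S (x.1, x.2.1), x.2.2)))) (ν.prod (ζ.prod ζ')) :=
    g.integrable_mul (p := fun x : V × (Z × Z') => x.2.1) (measurable_fst.comp measurable_snd)
      (g'.integrable_mul (p := fun x : V × (Z × Z') => x.2.2)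
        (measurable_snd.comp measurable_snd) (integrable_comp F (mp_two hS hS')))
  filter_upwards [h1, h2, h3.prod_right_ae] with v h1 h2 h3
  rw [h1, integral_prod _ h3]
  refine integral_congr_ae ?_
  filter_upwards [h2] with z hz
  rw [hz, integral_const_mul]

theorem Op_comm {S : V × Z → V} (hS : MeasurePreserving S (ν.prod ζ) ν)
    {S' : V × Z' → V} (hS' : MeasurePreserving S' (ν.prod ζ') ν) (g : BMf Z) (g' : BMf Z')
    (hc : ∀ᵐ x ∂(ν.prod (ζ.prod ζ')), S' (S (x.1, x.2.1), x.2.2) = S (S' (x.1, x.2.2), x.2.1)) :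
    Commute (Op S hS g) (Op S' hS' g') := by
  refine ContinuousLinearMap.ext fun F => Lp.ext ?_
  change (Op S hS g (Op S' hS' g' F) : Lp ℂ 2 ν) =ᵐ[ν] (Op S' hS' g' (Op S hS g F) : Lp ℂ 2 ν)
  filter_upwards [coe_Op_two hS hS' g g' F, coe_Op_two hS' hS g' g F,
    Measure.ae_ae_of_ae_prod hc] with v h1 h2 h3
  rw [h1, h2, ← integral_prod_swap (μ := ζ') (ν := ζ)]
  refine integral_congr_ae ?_
  filter_upwards [h3] with w hw
  simp only [Prod.fst_swap, Prod.snd_swap] at hw ⊢
  rw [hw]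
  ring

/-- indicator as bounded function -/
noncomputable def indB {B : Set Z} (hB : MeasurableSet B) : BMf Z :=
  ⟨B.indicator 1, measurable_one.indicator hB, 1, fun z => by
    by_cases h : z ∈ B <;> simp [h]⟩

theorem inner_indicator_Op_ind (S : V × Z → V) (hS : MeasurePreserving S (ν.prod ζ) ν)
    (F : Lp ℂ 2 ν) {A : Set V} (hA : MeasurableSet A) {B : Set Z} (hB : MeasurableSet B) :
    ⟪indicatorConstLp 2 hA (measure_ne_top ν A) (1 : ℂ), Op S hS (indB hB) F⟫_ℂ =
      ∫ x in A ×ˢ B, F (S x) ∂(ν.prod ζ) := by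
  rw [inner_indicator_Op, ← integral_indicator (hA.prod MeasurableSet.univ),
    ← integral_indicator (hA.prod hB)]
  refine integral_congr_ae (Eventually.of_forall fun x => ?_)
  by_cases h : x.1 ∈ A <;> by_cases h' : x.2 ∈ B <;> simp [Set.indicator, indB, h, h']

theorem Op_ker (S : V × Z → V) (hS : MeasurePreserving S (ν.prod ζ) ν) (F : Lp ℂ 2 ν)
    (h : ∀ g, Op S hS g F = 0) : F = 0 := by
  have h1 : (fun x => F (S x)) =ᵐ[ν.prod ζ] 0 :=
    ae_zero_of_rect (integrable_comp F hS) fun A B hA hB => by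
      rw [← inner_indicator_Op_ind S hS F hA hB, h, inner_zero_right]
  have h2 : Lp.compMeasurePreserving S hS F = 0 := by
    refine Lp.ext ?_
    refine (Lp.coeFn_compMeasurePreserving F hS).trans ?_
    exact h1.trans (Lp.coeFn_zero _ _ _).symm
  have h3 := Lp.norm_compMeasurePreserving F hS
  rw [h2, norm_zero] at h3
  exact norm_eq_zero.1 h3.symm

end Op

section Trans

variable {V Y : Type*} [MeasurableSpace V] [MeasurableSpace Y]

/-- A translation family on `(V, ν)` with parameters in `Y × Y`. -/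
structure IsTrans (ν : Measure V) (η : Measure Y) (L : V × (Y × Y) → V) : Prop where
  meas : Measurable L
  a1 : (ν.prod (η.prod η)).map (fun x => (L x, x.2)) = ν.prod (η.prod η)
  a2 : (ν.prod (η.prod η)).map (fun x => (x.1, L x)) = ν.prod ν
  a3 : ∀ᵐ x ∂(ν.prod (η.prod η)), L (L x, (x.2.2, x.2.1)) = x.1

variable {ν : Measure V} [IsProbabilityMeasure ν] {η : Measure Y} [IsProbabilityMeasure η]
  {L : V × (Y × Y) → V}

omit [IsProbabilityMeasure ν] in
theorem IsTrans.mp (h : IsTrans ν η L) : MeasurePreserving L (ν.prod (η.prod η)) ν := by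
  refine ⟨h.meas, ?_⟩
  have h1 := congrArg (Measure.map Prod.fst) h.a1
  rw [Measure.map_map measurable_fst (h.meas.prodMk measurable_snd),
    (measurePreserving_fst (μ := ν) (ν := η.prod η)).map_eq] at h1
  exact h1

/-- the inverse translation -/
theorem IsTrans.mp_swap (h : IsTrans ν η L) :
    MeasurePreserving (fun x : V × (Y × Y) => (L x, (x.2.2, x.2.1)))
      (ν.prod (η.prod η)) (ν.prod (η.prod η)) := by
  have h1 : MeasurePreserving (fun x : V × (Y × Y) => (L x, x.2))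
      (ν.prod (η.prod η)) (ν.prod (η.prod η)) := ⟨h.meas.prodMk measurable_snd, h.a1⟩
  have h2 : MeasurePreserving (Prod.map (id : V → V) (Prod.swap : Y × Y → Y × Y))
      (ν.prod (η.prod η)) (ν.prod (η.prod η)) :=
    (MeasurePreserving.id ν).prod Measure.measurePreserving_swap
  exact h2.comp h1

/-- The adjoint kernel. -/
noncomputable def starB (g : BMf (Y × Y)) : BMf (Y × Y) :=
  ⟨fun y => conj (g.1 (y.2, y.1)), by
    have := g.2.1
    fun_prop, by
    obtain ⟨C, hC⟩ := g.2.2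
    exact ⟨C, fun z => by simpa using hC _⟩⟩

theorem adjoint_Op (h : IsTrans ν η L) (g : BMf (Y × Y)) :
    ContinuousLinearMap.adjoint (Op L h.mp g) = Op L h.mp (starB g) := by
  refine ContinuousLinearMap.ext fun F => ext_inner_left ℂ fun G => ?_
  rw [ContinuousLinearMap.adjoint_inner_right, ← inner_conj_symm, inner_Op, inner_Op,
    ← integral_conj]
  have hm : AEStronglyMeasurable
      (fun x : V × (Y × Y) => conj (G x.1) * ((starB g).1 x.2 * F (L x)))
      (ν.prod (η.prod η)) := by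
    have h1 : AEStronglyMeasurable (fun x : V × (Y × Y) => G x.1) (ν.prod (η.prod η)) :=
      (Lp.aestronglyMeasurable G).comp_measurePreserving measurePreserving_fst
    have h2 : AEStronglyMeasurable (fun x : V × (Y × Y) => F (L x)) (ν.prod (η.prod η)) :=
      (Lp.aestronglyMeasurable F).comp_measurePreserving h.mp
    have h3 : AEStronglyMeasurable (fun x : V × (Y × Y) => (starB g).1 x.2)
      (ν.prod (η.prod η)) := ((starB g).2.1.comp measurable_snd).aestronglyMeasurable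
    exact (Complex.continuous_conj.comp_aestronglyMeasurable h1).mul (h3.mul h2)
  have h5 := integral_map h.mp_swap.measurable.aemeasurable (μ := ν.prod (η.prod η))
    (by rw [h.mp_swap.map_eq]; exact hm)
  rw [h.mp_swap.map_eq] at h5
  rw [h5]
  refine integral_congr_ae ?_
  filter_upwards [h.a3] with x hx
  simp only [starB, map_mul, Complex.conj_conj]
  rw [hx]
  ring

omit [IsProbabilityMeasure ν] in
theorem integrable_conj_mul (F G : Lp ℂ 2 ν) : Integrable (fun v => conj (F v) * G v) ν := by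
  have := L2.integrable_inner (𝕜 := ℂ) F G
  refine this.congr (Eventually.of_forall fun v => ?_)
  exact RCLike.inner_apply' _ _

omit [IsProbabilityMeasure ν] in
theorem inner_eq (F G : Lp ℂ 2 ν) : ⟪F, G⟫_ℂ = ∫ v, conj (F v) * G v ∂ν := by
  rw [L2.inner_def]
  exact integral_congr_ae (Eventually.of_forall fun v => RCLike.inner_apply' _ _)

theorem sum_tensor_sq {n : ℕ} (h e : Fin n → Lp ℂ 2 ν) (he : Orthonormal ℂ e) :
    Integrable (fun x : V × V => ‖∑ i, conj (h i x.1) * e i x.2‖ ^ 2) (ν.prod ν) ∧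
    ∫ x : V × V, ‖∑ i, conj (h i x.1) * e i x.2‖ ^ 2 ∂(ν.prod ν) = ∑ i, ‖h i‖ ^ 2 := by
  have h0 : ∀ x : V × V, ((‖∑ i, conj (h i x.1) * e i x.2‖ ^ 2 : ℝ) : ℂ) =
      ∑ i, ∑ j, (conj (h j x.1) * h i x.1) * (conj (e i x.2) * e j x.2) := by
    intro x
    push_cast
    rw [← Complex.conj_mul', map_sum, Finset.sum_mul]
    refine Finset.sum_congr rfl fun i _ => ?_
    rw [Finset.mul_sum]
    refine Finset.sum_congr rfl fun j _ => ?_
    rw [map_mul, Complex.conj_conj]
    ring
  have h1 : ∀ i j, Integrable (fun x : V × V =>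
      (conj (h j x.1) * h i x.1) * (conj (e i x.2) * e j x.2)) (ν.prod ν) := fun i j =>
    (integrable_conj_mul (h j) (h i)).mul_prod (integrable_conj_mul (e i) (e j))
  have h2 : Integrable (fun x : V × V =>
      ∑ i, ∑ j, (conj (h j x.1) * h i x.1) * (conj (e i x.2) * e j x.2)) (ν.prod ν) :=
    integrable_finsetSum _ fun i _ => integrable_finsetSum _ fun j _ => h1 i j
  have h3 : Integrable (fun x : V × V => ((‖∑ i, conj (h i x.1) * e i x.2‖ ^ 2 : ℝ) : ℂ))
      (ν.prod ν) := by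
    simpa only [h0] using h2
  refine ⟨?_, ?_⟩
  · refine h3.re.congr (Eventually.of_forall fun x => ?_)
    exact Complex.ofReal_re _
  · have h4 : ((∫ x : V × V, ‖∑ i, conj (h i x.1) * e i x.2‖ ^ 2 ∂(ν.prod ν) : ℝ) : ℂ) =
        ((∑ i, ‖h i‖ ^ 2 : ℝ) : ℂ) := by
      rw [← integral_complex_ofReal]
      simp only [h0]
      rw [integral_finsetSum _ fun i _ => integrable_finsetSum _ fun j _ => h1 i j]
      push_cast
      refine Finset.sum_congr rfl fun i _ => ?_
      rw [integral_finsetSum _ fun j _ => h1 i j]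
      have h5 : ∀ j, ∫ x : V × V, (conj (h j x.1) * h i x.1) * (conj (e i x.2) * e j x.2)
          ∂(ν.prod ν) = ⟪h j, h i⟫_ℂ * ⟪e i, e j⟫_ℂ := by
        intro j
        rw [inner_eq, inner_eq, ← integral_prod_mul]
      simp only [h5]
      rw [Finset.sum_eq_single i]
      · rw [orthonormal_iff_ite.1 he, if_pos rfl, mul_one, inner_self_eq_norm_sq_to_K]
        rfl
      · intro j _ hji
        rw [orthonormal_iff_ite.1 he, if_neg (Ne.symm hji), mul_zero]
      · simp
    exact_mod_cast h4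

theorem compact_Op (h : IsTrans ν η L) (g : BMf (Y × Y)) : IsCompactOperator (Op L h.mp g) := by
  obtain ⟨C, hC⟩ := g.2.2
  refine isCompactOperator_of_hs _ (C ^ 2) fun n e he => ?_
  set k : Fin n → Lp ℂ 2 ν := fun i => Op L h.mp g (e i) with hk
  obtain ⟨hI, hS⟩ := sum_tensor_sq k e he
  set S : ℝ := ∑ i, ‖k i‖ ^ 2 with hSdef
  have hmp2 : MeasurePreserving (fun x : V × (Y × Y) => (x.1, L x))
      (ν.prod (η.prod η)) (ν.prod ν) := ⟨measurable_fst.prodMk h.meas, h.a2⟩
  have h1 : ((S : ℝ) : ℂ) = ∫ x : V × (Y × Y), g.1 x.2 *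
      ∑ i, conj (k i x.1) * e i (L x) ∂(ν.prod (η.prod η)) := by
    have h2 : ∀ i, ((‖k i‖ ^ 2 : ℝ) : ℂ) =
        ∫ x : V × (Y × Y), conj (k i x.1) * (g.1 x.2 * e i (L x)) ∂(ν.prod (η.prod η)) := by
      intro i
      rw [← inner_Op L h.mp g (e i) (k i)]
      change _ = ⟪k i, k i⟫_ℂ
      rw [inner_self_eq_norm_sq_to_K]
      push_cast
      rfl
    rw [hSdef]
    push_cast
    have h3 : ∀ i ∈ Finset.univ, Integrable
        (fun x : V × (Y × Y) => conj (k i x.1) * (g.1 x.2 * e i (L x)))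
        (ν.prod (η.prod η)) := by
      intro i _
      have h4 := (integrable_conj_mul (Lp.compMeasurePreserving Prod.fst
        (measurePreserving_fst (μ := ν) (ν := η.prod η)) (k i))
        (Lp.compMeasurePreserving L h.mp (e i)))
      have h5 := g.integrable_mul (p := fun x : V × (Y × Y) => x.2) measurable_snd h4
      refine h5.congr ?_
      filter_upwards [Lp.coeFn_compMeasurePreserving (k i)
        (measurePreserving_fst (μ := ν) (ν := η.prod η)),
        Lp.coeFn_compMeasurePreserving (e i) h.mp] with x hx1 hx2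
      rw [hx1, hx2]
      simp only [Function.comp_apply]
      ring
    calc ∑ i, ((‖k i‖ : ℂ)) ^ 2 = ∑ i, ((‖k i‖ ^ 2 : ℝ) : ℂ) := by push_cast; rfl
      _ = ∑ i, ∫ x : V × (Y × Y), conj (k i x.1) * (g.1 x.2 * e i (L x))
            ∂(ν.prod (η.prod η)) := Finset.sum_congr rfl fun i _ => h2 i
      _ = _ := by
        rw [← integral_finsetSum _ h3]
        refine integral_congr_ae (Eventually.of_forall fun x => ?_)
        simp only [Finset.mul_sum]
        exact Finset.sum_congr rfl fun i _ => by ring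
  have hS0 : 0 ≤ S := Finset.sum_nonneg fun i _ => by positivity
  have hIc : Integrable (fun x : V × (Y × Y) => ‖∑ i, conj (k i x.1) * e i (L x)‖ ^ 2)
      (ν.prod (η.prod η)) := hmp2.integrable_comp_of_integrable hI
  have hSc : ∫ x : V × (Y × Y), ‖∑ i, conj (k i x.1) * e i (L x)‖ ^ 2
      ∂(ν.prod (η.prod η)) = S := by
    rw [← hS, ← hmp2.map_eq, integral_map hmp2.measurable.aemeasurable]
    rw [hmp2.map_eq]
    exact hI.aestronglyMeasurable
  have h6 : S ≤ ∫ x : V × (Y × Y), (C ^ 2 + ‖∑ i, conj (k i x.1) * e i (L x)‖ ^ 2) / 2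
      ∂(ν.prod (η.prod η)) := by
    have h7 : S = ‖((S : ℝ) : ℂ)‖ := by
      rw [Complex.norm_real, Real.norm_of_nonneg hS0]
    rw [h7, h1]
    refine (norm_integral_le_integral_norm _).trans ?_
    refine integral_mono_of_nonneg (Eventually.of_forall fun x => norm_nonneg _)
      (((integrable_const (C ^ 2)).add hIc).div_const 2) (Eventually.of_forall fun x => ?_)
    simp only
    rw [norm_mul]
    have h8 := hC x.2
    have h9 := norm_nonneg (∑ i, conj (k i x.1) * e i (L x))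
    nlinarith [mul_le_mul_of_nonneg_right h8 h9,
      sq_nonneg (C - ‖∑ i, conj (k i x.1) * e i (L x)‖)]
  rw [integral_div, integral_add (integrable_const _) hIc, hSc] at h6
  simp only [integral_const, probReal_univ, one_smul] at h6
  change S ≤ C ^ 2
  linarith

/-- Joint eigenfunctions of the averaging operators are translation eigenfunctions. -/
theorem eig_trans (h : IsTrans ν η L) (F : Lp ℂ 2 ν) (hF : F ≠ 0) (lam : BMf (Y × Y) → ℂ)
    (hlam : ∀ g, Op L h.mp g F = lam g • F) :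
    ∃ ψ : Y × Y → ℂ, Measurable ψ ∧ ∀ᵐ x ∂(ν.prod (η.prod η)), F (L x) = ψ x.2 * F x.1 := by
  have hF0 : (‖F‖ : ℂ) ^ 2 ≠ 0 := by
    have := norm_ne_zero_iff.2 hF
    exact_mod_cast pow_ne_zero 2 this
  have hI0 : Integrable (fun x : V × (Y × Y) => conj (F x.1) * F (L x)) (ν.prod (η.prod η)) := by
    have h4 := (integrable_conj_mul (Lp.compMeasurePreserving Prod.fst
      (measurePreserving_fst (μ := ν) (ν := η.prod η)) F) (Lp.compMeasurePreserving L h.mp F))
    refine h4.congr ?_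
    filter_upwards [Lp.coeFn_compMeasurePreserving F
      (measurePreserving_fst (μ := ν) (ν := η.prod η)),
      Lp.coeFn_compMeasurePreserving F h.mp] with x hx1 hx2
    rw [hx1, hx2]
    rfl
  have hI1 : Integrable (fun y : Y × Y => ∫ v, conj (F v) * F (L (v, y)) ∂ν) (η.prod η) :=
    hI0.integral_prod_right
  set ψ : Y × Y → ℂ := fun y => ((‖F‖ : ℂ) ^ 2)⁻¹ * hI1.aestronglyMeasurable.mk _ y with hψ
  have hψm : Measurable ψ :=
    (hI1.aestronglyMeasurable.stronglyMeasurable_mk.measurable).const_mul _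
  have hψe : ∀ᵐ y ∂(η.prod η), ψ y = ((‖F‖ : ℂ) ^ 2)⁻¹ * ∫ v, conj (F v) * F (L (v, y)) ∂ν := by
    filter_upwards [hI1.aestronglyMeasurable.ae_eq_mk] with y hy
    rw [hψ]
    simp only
    rw [← hy]
  have hψi : Integrable ψ (η.prod η) :=
    (hI1.const_mul _).congr (hψe.mono fun y hy => hy.symm)
  have hFi : Integrable (fun v => F v) ν := (Lp.memLp F).integrable one_le_two
  have hpi : Integrable (fun x : V × (Y × Y) => ψ x.2 * F x.1) (ν.prod (η.prod η)) := by
    refine (hFi.mul_prod hψi).congr (Eventually.of_forall fun x => ?_)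
    exact mul_comm _ _
  have hψB : ∀ B (hB : MeasurableSet B), ∫ y in B, ψ y ∂(η.prod η) = lam (indB hB) := by
    intro B hB
    have h1 : ⟪F, Op L h.mp (indB hB) F⟫_ℂ = lam (indB hB) * (‖F‖ : ℂ) ^ 2 := by
      rw [hlam, inner_smul_right, inner_self_eq_norm_sq_to_K]
      rfl
    rw [inner_Op] at h1
    have h2 : ∫ x, conj (F x.1) * ((indB hB).1 x.2 * F (L x)) ∂(ν.prod (η.prod η)) =
        ∫ y in B, ∫ v, conj (F v) * F (L (v, y)) ∂ν ∂(η.prod η) := by
      have h3 : Integrable (fun x : V × (Y × Y) => conj (F x.1) * ((indB hB).1 x.2 * F (L x)))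
          (ν.prod (η.prod η)) := by
        refine ((indB hB).integrable_mul (p := fun x : V × (Y × Y) => x.2) measurable_snd
          hI0).congr (Eventually.of_forall fun x => ?_)
        simp only
        ring
      rw [integral_prod_symm _ h3, ← integral_indicator hB]
      refine integral_congr_ae (Eventually.of_forall fun y => ?_)
      by_cases hy : y ∈ B <;> simp [indB, hy]
    rw [h2] at h1
    have h4 : ∫ y in B, ψ y ∂(η.prod η) =
        ∫ y in B, ((‖F‖ : ℂ) ^ 2)⁻¹ * ∫ v, conj (F v) * F (L (v, y)) ∂ν ∂(η.prod η) :=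
      setIntegral_congr_ae hB (hψe.mono fun y hy _ => hy)
    rw [h4, integral_const_mul, h1, mul_comm, mul_assoc, mul_inv_cancel₀ hF0, mul_one]
  refine ⟨ψ, hψm, ?_⟩
  have key := ae_zero_of_rect (ρ := ν.prod (η.prod η))
    (Φ := fun x => F (L x) - ψ x.2 * F x.1) ((integrable_comp F h.mp).sub hpi) ?_
  · filter_upwards [key] with x hx
    exact sub_eq_zero.1 hx
  · intro A B hA hB
    rw [integral_sub (integrable_comp F h.mp).integrableOn hpi.integrableOn,
      ← inner_indicator_Op_ind L h.mp F hA hB, hlam, inner_smul_right,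
      L2.inner_indicatorConstLp_one]
    have h5 : ∫ x in A ×ˢ B, ψ x.2 * F x.1 ∂(ν.prod (η.prod η)) =
        (∫ v in A, F v ∂ν) * ∫ y in B, ψ y ∂(η.prod η) := by
      rw [← setIntegral_prod_mul]
      exact integral_congr_ae (Eventually.of_forall fun x => mul_comm _ _)
    rw [h5, hψB B hB]
    ring

omit [IsProbabilityMeasure ν] in
/-- The factor `ψ` is unimodular. -/
theorem psi_norm (h : IsTrans ν η L) (F : Lp ℂ 2 ν) (hF : F ≠ 0) {ψ : Y × Y → ℂ}
    (hψ : Measurable ψ) (hψe : ∀ᵐ x ∂(ν.prod (η.prod η)), F (L x) = ψ x.2 * F x.1) :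
    ∀ᵐ y ∂(η.prod η), ‖ψ y‖ = 1 := by
  have hFm : Measurable (fun v => ‖F v‖ₑ ^ 2) :=
    (Lp.stronglyMeasurable F).measurable.enorm.pow_const 2
  set N : ℝ≥0∞ := ∫⁻ v, ‖F v‖ₑ ^ 2 ∂ν with hN
  have hNe : N = ‖F‖ₑ ^ 2 := by
    rw [Lp.enorm_def, hN, eLpNorm_eq_lintegral_rpow_enorm_toReal (by norm_num) (by norm_num)]
    simp only [ENNReal.toReal_ofNat, ENNReal.rpow_ofNat]
    rw [← ENNReal.rpow_natCast, ← ENNReal.rpow_mul]
    norm_num
  have hN0 : N ≠ 0 := by
    rw [hNe]
    exact pow_ne_zero 2 (by simpa using hF)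
  have hNt : N ≠ ∞ := by
    rw [hNe]
    exact ENNReal.pow_ne_top (by simp)
  have hmp1 : MeasurePreserving (fun x : V × (Y × Y) => (L x, x.2))
      (ν.prod (η.prod η)) (ν.prod (η.prod η)) := ⟨h.meas.prodMk measurable_snd, h.a1⟩
  have key : ∀ B, MeasurableSet B → (η.prod η) B < ∞ →
      ∫⁻ y in B, ‖ψ y‖ₑ ^ 2 ∂(η.prod η) = ∫⁻ y in B, 1 ∂(η.prod η) := by
    intro B hB _
    have hBm : Measurable (B.indicator (1 : Y × Y → ℝ≥0∞)) := measurable_one.indicator hB
    have h1 : ∫⁻ x, B.indicator (1 : Y × Y → ℝ≥0∞) x.2 * ‖F (L x)‖ₑ ^ 2 ∂(ν.prod (η.prod η)) =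
        N * (η.prod η) B := by
      have h2 := hmp1.lintegral_comp (f := fun x : V × (Y × Y) =>
        B.indicator (1 : Y × Y → ℝ≥0∞) x.2 * ‖F x.1‖ₑ ^ 2)
        ((hBm.comp measurable_snd).mul (hFm.comp measurable_fst))
      simp only at h2
      rw [h2]
      have h3 := lintegral_prod_mul (μ := ν) (ν := η.prod η) (f := fun v => ‖F v‖ₑ ^ 2)
        (g := B.indicator (1 : Y × Y → ℝ≥0∞)) hFm.aemeasurable hBm.aemeasurable
      rw [lintegral_indicator_one hB] at h3
      rw [← h3]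
      exact lintegral_congr fun x => mul_comm _ _
    have h4 : ∫⁻ x, B.indicator (1 : Y × Y → ℝ≥0∞) x.2 * ‖F (L x)‖ₑ ^ 2 ∂(ν.prod (η.prod η)) =
        N * ∫⁻ y in B, ‖ψ y‖ₑ ^ 2 ∂(η.prod η) := by
      have hm : Measurable (fun y => B.indicator (1 : Y × Y → ℝ≥0∞) y * ‖ψ y‖ₑ ^ 2) :=
        hBm.mul (hψ.enorm.pow_const 2)
      have h3 := lintegral_prod_mul (μ := ν) (ν := η.prod η) (f := fun v => ‖F v‖ₑ ^ 2)
        (g := fun y => B.indicator (1 : Y × Y → ℝ≥0∞) y * ‖ψ y‖ₑ ^ 2) hFm.aemeasurable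
        hm.aemeasurable
      rw [← lintegral_indicator hB]
      have h5 : ∀ y, B.indicator (fun y => ‖ψ y‖ₑ ^ 2) y =
          B.indicator (1 : Y × Y → ℝ≥0∞) y * ‖ψ y‖ₑ ^ 2 := by
        intro y
        by_cases hy : y ∈ B <;> simp [hy]
      simp only [h5]
      rw [← h3]
      refine lintegral_congr_ae ?_
      filter_upwards [hψe] with x hx
      rw [hx, enorm_mul, mul_pow]
      ring
    rw [h1] at h4
    have h6 := (ENNReal.mul_right_inj hN0 hNt).1 h4
    rw [← h6]
    simp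
  have := ae_eq_of_forall_setLIntegral_eq_of_sigmaFinite (μ := η.prod η)
    (hψ.enorm.pow_const 2) measurable_const key
  filter_upwards [this] with y hy
  have h1 : ‖ψ y‖ₑ ^ 2 = 1 := hy
  have h2 : ‖ψ y‖ₑ = 1 := by
    rcases lt_trichotomy (‖ψ y‖ₑ) 1 with h | h | h
    · exact absurd h1 (ne_of_lt (pow_lt_one₀ zero_le h two_ne_zero))
    · exact h
    · exact absurd h1 (ne_of_gt (one_lt_pow₀ h two_ne_zero))
  have h3 := congrArg ENNReal.toReal h2
  simpa using h3

theorem norm_const (h : IsTrans ν η L) (F : Lp ℂ 2 ν) (hF : F ≠ 0) {ψ : Y × Y → ℂ}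
    (hψ : Measurable ψ) (hψe : ∀ᵐ x ∂(ν.prod (η.prod η)), F (L x) = ψ x.2 * F x.1) :
    ∃ c : ℝ, 0 < c ∧ ∀ᵐ v ∂ν, ‖F v‖ = c := by
  have hmp2 : MeasurePreserving (fun x : V × (Y × Y) => (x.1, L x))
      (ν.prod (η.prod η)) (ν.prod ν) := ⟨measurable_fst.prodMk h.meas, h.a2⟩
  have hFm : Measurable (fun v => ‖F v‖) := (Lp.stronglyMeasurable F).measurable.norm
  have h1 : ∀ᵐ x ∂(ν.prod (η.prod η)), ‖F (L x)‖ = ‖F x.1‖ := by
    have h2 := (measurePreserving_snd (μ := ν) (ν := η.prod η)).quasiMeasurePreserving.ae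
      (psi_norm h F hF hψ hψe)
    filter_upwards [hψe, h2] with x hx1 hx2
    rw [hx1, norm_mul, hx2, one_mul]
  have h3 : ∀ᵐ p ∂(ν.prod ν), ‖F p.2‖ = ‖F p.1‖ := by
    rw [← hmp2.map_eq, ae_map_iff hmp2.measurable.aemeasurable]
    · exact h1
    · exact measurableSet_eq_fun (hFm.comp measurable_snd) (hFm.comp measurable_fst)
  have h4 := Measure.ae_ae_of_ae_prod h3
  obtain ⟨v0, hv0⟩ := h4.exists
  refine ⟨‖F v0‖, ?_, hv0⟩
  rw [norm_pos_iff]
  intro h0
  apply hF
  refine Lp.ext ?_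
  filter_upwards [hv0, Lp.coeFn_zero ℂ 2 ν] with v hv hz
  rw [hz]
  simpa [h0] using hv

/-- The set of unimodular translation eigenfunctions. -/
def UEig (ν : Measure V) (η : Measure Y) (L : V × (Y × Y) → V) : Set (Lp ℂ 2 ν) :=
  {F | ∃ f : V → ℂ, Measurable f ∧ (∀ v, ‖f v‖ = 1) ∧ F =ᵐ[ν] f ∧
    ∃ ψ : Y × Y → ℂ, Measurable ψ ∧ (∀ᵐ y ∂(η.prod η), ‖ψ y‖ = 1) ∧
      ∀ᵐ x ∂(ν.prod (η.prod η)), f (L x) = ψ x.2 * f x.1}

theorem eig_mem (h : IsTrans ν η L) (F : Lp ℂ 2 ν) (hF : F ≠ 0) (lam : BMf (Y × Y) → ℂ)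
    (hlam : ∀ g, Op L h.mp g F = lam g • F) :
    F ∈ Submodule.span ℂ (UEig ν η L) := by
  obtain ⟨ψ, hψ, hψe⟩ := eig_trans h F hF lam hlam
  obtain ⟨c, hc0, hc⟩ := norm_const h F hF hψ hψe
  have hFm : Measurable (fun v => F v) := (Lp.stronglyMeasurable F).measurable
  classical
  set f : V → ℂ := fun v => if ‖F v‖ = c then (c : ℂ)⁻¹ * F v else 1 with hf
  have hfm : Measurable f :=
    Measurable.ite (measurableSet_eq_fun hFm.norm measurable_const) (hFm.const_mul _)
      measurable_const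
  have hf1 : ∀ v, ‖f v‖ = 1 := by
    intro v
    rw [hf]
    simp only
    split_ifs with hv
    · rw [norm_mul, norm_inv, hv, Complex.norm_real, Real.norm_of_nonneg hc0.le,
        inv_mul_cancel₀ hc0.ne']
    · simp
  have hfe : ∀ᵐ v ∂ν, f v = (c : ℂ)⁻¹ * F v := by
    filter_upwards [hc] with v hv
    rw [hf]
    simp only
    rw [if_pos hv]
  have hmemf : MemLp f 2 ν :=
    MemLp.of_bound hfm.aestronglyMeasurable 1 (Eventually.of_forall fun v => (hf1 v).le)
  have hG : (c : ℂ)⁻¹ • F ∈ UEig ν η L := by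
    refine ⟨f, hfm, hf1, ?_, ψ, hψ, psi_norm h F hF hψ hψe, ?_⟩
    · filter_upwards [Lp.coeFn_smul (c : ℂ)⁻¹ F, hfe] with v h1 h2
      rw [h1, h2]
      rfl
    · filter_upwards [hψe, h.mp.quasiMeasurePreserving.ae hfe,
        (measurePreserving_fst (μ := ν) (ν := η.prod η)).quasiMeasurePreserving.ae hfe]
        with x h1 h2 h3
      rw [h2, h1, h3]
      ring
  have hc' : (c : ℂ) ≠ 0 := by exact_mod_cast hc0.ne'
  have h2 : F = (c : ℂ) • ((c : ℂ)⁻¹ • F) := by
    rw [smul_smul, mul_inv_cancel₀ hc', one_smul]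
  rw [h2]
  exact Submodule.smul_mem _ _ (Submodule.subset_span hG)

variable {C : Type*} [MeasurableSpace C] {γ : Measure C} [IsProbabilityMeasure γ]
  {P : V × (C × C) → V}

/-- **Lemma A.** Two commuting translation families which coincide on a coupling of their
parameters have a total set of unimodular eigenfunctions. -/
theorem medA (hP : IsTrans ν γ P) (hL : IsTrans ν η L)
    (hc : ∀ᵐ x ∂(ν.prod ((γ.prod γ).prod (η.prod η))),
      P (L (x.1, x.2.2), x.2.1) = L (P (x.1, x.2.1), x.2.2))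
    (Q : Measure ((C × C) × (Y × Y))) [IsProbabilityMeasure Q]
    (hQ1 : Q.map Prod.fst = γ.prod γ) (hQ2 : Q.map Prod.snd = η.prod η)
    (hd : ∀ᵐ x ∂(ν.prod Q), P (x.1, x.2.1) = L (x.1, x.2.2)) :
    (Submodule.span ℂ (UEig ν η L)).topologicalClosure = ⊤ := by
  have hq1 : MeasurePreserving (Prod.fst : (C × C) × (Y × Y) → C × C) Q (γ.prod γ) :=
    ⟨measurable_fst, hQ1⟩
  have hq2 : MeasurePreserving (Prod.snd : (C × C) × (Y × Y) → Y × Y) Q (η.prod η) :=
    ⟨measurable_snd, hQ2⟩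
  have hm1 : MeasurePreserving (Prod.map (id : V → V) (Prod.fst : (C × C) × (Y × Y) → C × C))
      (ν.prod Q) (ν.prod (γ.prod γ)) := (MeasurePreserving.id ν).prod hq1
  have hm2 : MeasurePreserving (Prod.map (id : V → V) (Prod.snd : (C × C) × (Y × Y) → Y × Y))
      (ν.prod Q) (ν.prod (η.prod η)) := (MeasurePreserving.id ν).prod hq2
  have hS1 : MeasurePreserving (fun x : V × ((C × C) × (Y × Y)) => P (x.1, x.2.1))
      (ν.prod Q) ν := hP.mp.comp hm1
  -- the operators in `P`-form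
  let g1 : BMf (Y × Y) → BMf ((C × C) × (Y × Y)) := fun g =>
    ⟨fun z => g.1 z.2, g.2.1.comp measurable_snd, by
      obtain ⟨K, hK⟩ := g.2.2
      exact ⟨K, fun z => hK _⟩⟩
  have hform : ∀ g, Op L hL.mp g = Op _ hS1 (g1 g) := by
    intro g
    refine ContinuousLinearMap.ext fun F => ext_inner_left ℂ fun G => ?_
    rw [inner_Op, inner_Op]
    have hm : AEStronglyMeasurable
        (fun x : V × (Y × Y) => conj (G x.1) * (g.1 x.2 * F (L x))) (ν.prod (η.prod η)) := by
      have h1 : AEStronglyMeasurable (fun x : V × (Y × Y) => G x.1) (ν.prod (η.prod η)) :=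
        (Lp.aestronglyMeasurable G).comp_measurePreserving measurePreserving_fst
      have h2 : AEStronglyMeasurable (fun x : V × (Y × Y) => F (L x)) (ν.prod (η.prod η)) :=
        (Lp.aestronglyMeasurable F).comp_measurePreserving hL.mp
      have h3 : AEStronglyMeasurable (fun x : V × (Y × Y) => g.1 x.2)
        (ν.prod (η.prod η)) := (g.2.1.comp measurable_snd).aestronglyMeasurable
      exact (Complex.continuous_conj.comp_aestronglyMeasurable h1).mul (h3.mul h2)
    have h5 := integral_map hm2.measurable.aemeasurable (μ := ν.prod Q)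
      (by rw [hm2.map_eq]; exact hm)
    rw [hm2.map_eq] at h5
    rw [h5]
    refine integral_congr_ae ?_
    filter_upwards [hd] with x hx
    change conj (G x.1) * (g.1 x.2.2 * F (L (x.1, x.2.2))) =
      conj (G x.1) * (g.1 x.2.2 * F (P (x.1, x.2.1)))
    rw [hx]
  have hcomm : ∀ g g', Commute (Op L hL.mp g) (Op L hL.mp g') := by
    intro g g'
    rw [hform g]
    refine Op_comm hS1 hL.mp (g1 g) g' ?_
    have hm3 : MeasurePreserving
        (Prod.map (id : V → V) (Prod.map (Prod.fst : (C × C) × (Y × Y) → C × C)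
          (id : Y × Y → Y × Y)))
        (ν.prod (Q.prod (η.prod η))) (ν.prod ((γ.prod γ).prod (η.prod η))) :=
      (MeasurePreserving.id ν).prod (hq1.prod (MeasurePreserving.id _))
    filter_upwards [hm3.quasiMeasurePreserving.ae hc] with x hx
    exact hx.symm
  have htot := joint_eig_total (fun g : BMf (Y × Y) => Op L hL.mp g)
    (fun g => compact_Op hL g) hcomm (fun g => ⟨starB g, adjoint_Op hL g⟩)
    (fun F hF => Op_ker L hL.mp F hF)
  rw [eq_top_iff, ← htot]
  refine Submodule.topologicalClosure_mono ?_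
  rw [Submodule.span_le]
  rintro F ⟨hF0, lam, hlam, _⟩
  exact eig_mem hL F hF0 lam hlam

end Trans

end Vale.Agent.P102.RM
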