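import Vale.Agent.P102.RM.Spec522
import Mathlib.MeasureTheory.Function.L2Space
import Mathlib.MeasureTheory.Function.Holder
import Mathlib.MeasureTheory.Integral.Prod
import Mathlib.MeasureTheory.Function.AEEqOfIntegral
import Mathlib.MeasureTheory.Constructions.Polish.Basic

/-!
# Characters of a commuting translation family (P102, static mediality theorem, lemma A)

A *translation family* is a measurable map `L : V × Z → V` such that every `L (·, z)` preserves
`ν`, for almost every `v` the point `L (v, z)` has law `ν`, and `L (·, sw z)` is the inverse of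
`L (·, z)`.  If the translations commute almost everywhere, the unimodular joint
eigenfunctions are total in `L²(ν)`.
-/

namespace Vale.Agent.P102.RM

open MeasureTheory Filter Topology ContinuousLinearMap
open scoped ENNReal InnerProductSpace ComplexConjugate

noncomputable section

variable {V Z : Type*} [MeasurableSpace V] [MeasurableSpace Z]

theorem mp_integral {α β : Type*} [MeasurableSpace α] [MeasurableSpace β] {μ : Measure α}
    {ρ : Measure β} {σ : α → β} (h : MeasurePreserving σ μ ρ) {g : β → ℂ}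
    (hg : AEStronglyMeasurable g ρ) : ∫ x, g (σ x) ∂μ = ∫ y, g y ∂ρ := by
  rw [← h.map_eq, integral_map h.aemeasurable (by rw [h.map_eq]; exact hg)]

/-- Translation family. -/
structure TransFam (ν : Measure V) (ζ : Measure Z) (L : V × Z → V) (sw : Z → Z) : Prop where
  meas : Measurable L
  sw_mp : MeasurePreserving sw ζ ζ
  mp : MeasurePreserving (fun x : V × Z => (L x, x.2)) (ν.prod ζ) (ν.prod ζ)
  indep : MeasurePreserving (fun x : V × Z => (x.1, L x)) (ν.prod ζ) (ν.prod ν)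
  inv : ∀ᵐ x ∂(ν.prod ζ), L (L x, sw x.2) = x.1

/-- Bounded measurable functions. -/
def BddFun (Z : Type*) [MeasurableSpace Z] : Type _ :=
  {h : Z → ℂ // Measurable h ∧ ∃ C : ℝ, ∀ z, ‖h z‖ ≤ C}

namespace TransFam

variable {ν : Measure V} {ζ : Measure Z} [IsProbabilityMeasure ν] [IsProbabilityMeasure ζ]
  {L : V × Z → V} {sw : Z → Z}

theorem mpL (hL : TransFam ν ζ L sw) : MeasurePreserving L (ν.prod ζ) ν :=
  (measurePreserving_fst (μ := ν) (ν := ζ)).comp hL.mp

/-- `f ↦ f ∘ L`. -/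
def opJ (hL : TransFam ν ζ L sw) : Lp ℂ 2 ν →L[ℂ] Lp ℂ 2 (ν.prod ζ) :=
  (Lp.compMeasurePreservingₗᵢ ℂ L hL.mpL).toContinuousLinearMap

/-- `f ↦ f ∘ fst`. -/
def opI (ν : Measure V) (ζ : Measure Z) [IsProbabilityMeasure ν] [IsProbabilityMeasure ζ] :
    Lp ℂ 2 ν →L[ℂ] Lp ℂ 2 (ν.prod ζ) :=
  (Lp.compMeasurePreservingₗᵢ ℂ Prod.fst
    (measurePreserving_fst (μ := ν) (ν := ζ))).toContinuousLinearMap

theorem memLp_snd (h : BddFun Z) :
    MemLp (fun x : V × Z => h.1 x.2) ∞ (ν.prod ζ) := by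
  obtain ⟨C, hC⟩ := h.2.2
  exact memLp_top_of_bound (h.2.1.comp measurable_snd).aestronglyMeasurable C
    (Eventually.of_forall fun x => hC x.2)

/-- Multiplication by `h ∘ snd`. -/
def opM (ν : Measure V) (ζ : Measure Z) [IsProbabilityMeasure ν] [IsProbabilityMeasure ζ]
    (h : BddFun Z) : Lp ℂ 2 (ν.prod ζ) →L[ℂ] Lp ℂ 2 (ν.prod ζ) :=
  (ContinuousLinearMap.mul ℂ ℂ).holderL (ν.prod ζ) ∞ 2 2
    ((memLp_snd (ν := ν) (ζ := ζ) h).toLp _)

theorem opM_coe (h : BddFun Z) (G : Lp ℂ 2 (ν.prod ζ)) :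
    opM ν ζ h G =ᵐ[ν.prod ζ] fun x => h.1 x.2 * G x := by
  have h1 := (ContinuousLinearMap.mul ℂ ℂ).coeFn_holder (r := 2)
    ((memLp_snd (ν := ν) (ζ := ζ) h).toLp _) G
  have h2 := (memLp_snd (ν := ν) (ζ := ζ) h).coeFn_toLp
  filter_upwards [h1, h2] with x h1 h2
  have h3 : opM ν ζ h G x = (ContinuousLinearMap.mul ℂ ℂ)
      (((memLp_snd (ν := ν) (ζ := ζ) h).toLp (fun x : V × Z => h.1 x.2)) x) (G x) := h1
  rw [h3, h2]
  rfl

theorem opJ_coe (hL : TransFam ν ζ L sw) (f : Lp ℂ 2 ν) :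
    hL.opJ f =ᵐ[ν.prod ζ] fun x => f (L x) :=
  Lp.coeFn_compMeasurePreserving f hL.mpL

theorem opI_coe (f : Lp ℂ 2 ν) :
    opI ν ζ f =ᵐ[ν.prod ζ] fun x => f x.1 :=
  Lp.coeFn_compMeasurePreserving f (measurePreserving_fst (μ := ν) (ν := ζ))

/-- `(T_h f) v = ∫ h z f (L (v, z)) dζ(z)`. -/
def opT (hL : TransFam ν ζ L sw) (h : BddFun Z) : Lp ℂ 2 ν →L[ℂ] Lp ℂ 2 ν :=
  (adjoint (opI ν ζ)).comp ((opM ν ζ h).comp hL.opJ)

theorem inner_opT (hL : TransFam ν ζ L sw) (h : BddFun Z) (f g : Lp ℂ 2 ν) :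
    ⟪g, hL.opT h f⟫_ℂ = ∫ x, h.1 x.2 * f (L x) * conj (g x.1) ∂(ν.prod ζ) := by
  rw [opT, comp_apply, adjoint_inner_right, comp_apply, L2.inner_def]
  refine integral_congr_ae ?_
  filter_upwards [opM_coe (ν := ν) (ζ := ζ) h (hL.opJ f), hL.opJ_coe f, opI_coe (ζ := ζ) g]
    with x h1 h2 h3
  rw [h1, h2, h3, RCLike.inner_apply]

/-- Change of variables by `(v, z) ↦ (L (v, z), sw z)`. -/
theorem mpFlip (hL : TransFam ν ζ L sw) :
    MeasurePreserving (fun x : V × Z => (L x, sw x.2)) (ν.prod ζ) (ν.prod ζ) :=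
  ((MeasurePreserving.id ν).prod hL.sw_mp).comp hL.mp

theorem integrable_mul3 (h : BddFun Z) {F G : V × Z → ℂ} (hF : MemLp F 2 (ν.prod ζ))
    (hG : MemLp G 2 (ν.prod ζ)) :
    Integrable (fun x => h.1 x.2 * F x * conj (G x)) (ν.prod ζ) := by
  obtain ⟨C, hC⟩ := h.2.2
  have h1 : Integrable (fun x => F x * conj (G x)) (ν.prod ζ) := by
    have h2 : MemLp (fun x => conj (G x)) 2 (ν.prod ζ) := hG.star
    exact hF.integrable_mul h2
  have h3 : Integrable (fun x => h.1 x.2 * (F x * conj (G x))) (ν.prod ζ) :=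
    h1.bdd_mul (h.2.1.comp measurable_snd).aestronglyMeasurable
      (Eventually.of_forall fun x => hC x.2)
  simpa [mul_assoc] using h3

/-- The index of the adjoint operator. -/
def BddFun.flip (h : BddFun Z) {sw : Z → Z} (hsw : Measurable sw) : BddFun Z :=
  ⟨fun z => conj (h.1 (sw z)), (continuous_star.measurable.comp (h.2.1.comp hsw)), by
    obtain ⟨C, hC⟩ := h.2.2
    exact ⟨C, fun z => by simpa using hC (sw z)⟩⟩

theorem memLp_L (hL : TransFam ν ζ L sw) (f : Lp ℂ 2 ν) :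
    MemLp (fun x => f (L x)) 2 (ν.prod ζ) :=
  (Lp.memLp f).comp_measurePreserving hL.mpL

theorem memLp_fst (f : Lp ℂ 2 ν) : MemLp (fun x : V × Z => f x.1) 2 (ν.prod ζ) :=
  (Lp.memLp f).comp_measurePreserving (measurePreserving_fst (μ := ν) (ν := ζ))

theorem adjoint_opT (hL : TransFam ν ζ L sw) (h : BddFun Z) :
    adjoint (hL.opT h) = hL.opT (BddFun.flip h hL.sw_mp.measurable) := by
  symm
  rw [eq_adjoint_iff]
  intro g f
  have h1 : ⟪hL.opT (BddFun.flip h hL.sw_mp.measurable) g, f⟫_ℂ =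
      conj (∫ x, conj (h.1 (sw x.2)) * g (L x) * conj (f x.1) ∂(ν.prod ζ)) := by
    rw [← inner_conj_symm, hL.inner_opT]
    rfl
  have h2 : ∫ x, h.1 x.2 * f (L x) * conj (g x.1) ∂(ν.prod ζ) =
      ∫ x, h.1 (sw x.2) * f (L (L x, sw x.2)) * conj (g (L x)) ∂(ν.prod ζ) :=
    (mp_integral hL.mpFlip (g := fun x : V × Z => h.1 x.2 * f (L x) * conj (g x.1))
      (integrable_mul3 h (hL.memLp_L f) (memLp_fst g)).aestronglyMeasurable).symm
  rw [h1, hL.inner_opT, ← integral_conj, h2]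
  refine integral_congr_ae ?_
  filter_upwards [hL.inv] with x hx
  rw [hx]
  simp only [map_mul, RCLike.conj_conj]
  ring

/-- Pointwise formula. -/
theorem opT_coe (hL : TransFam ν ζ L sw) (h : BddFun Z) (f : Lp ℂ 2 ν) :
    hL.opT h f =ᵐ[ν] fun v => ∫ z, h.1 z * f (L (v, z)) ∂ζ := by
  have hint : Integrable (fun x : V × Z => h.1 x.2 * f (L x)) (ν.prod ζ) := by
    obtain ⟨C, hC⟩ := h.2.2
    exact ((hL.memLp_L f).integrable (by norm_num)).bdd_mul
      (h.2.1.comp measurable_snd).aestronglyMeasurable (Eventually.of_forall fun x => hC x.2)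
  refine Integrable.ae_eq_of_forall_setIntegral_eq _ _ ((Lp.memLp _).integrable (by norm_num))
    hint.integral_prod_left ?_
  intro s hs _
  have h1 := L2.inner_indicatorConstLp_one (𝕜 := ℂ) hs (measure_ne_top ν s) (hL.opT h f)
  rw [← h1, hL.inner_opT, ← integral_indicator hs]
  have h2 : ∫ x, h.1 x.2 * f (L x) * conj ((indicatorConstLp 2 hs (measure_ne_top ν s) (1 : ℂ))
      x.1) ∂(ν.prod ζ) = ∫ x, (s ×ˢ (Set.univ : Set Z)).indicator
        (fun x : V × Z => h.1 x.2 * f (L x)) x ∂(ν.prod ζ) := by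
    refine integral_congr_ae ?_
    have h3 : ∀ᵐ x ∂(ν.prod ζ), (indicatorConstLp 2 hs (measure_ne_top ν s) (1 : ℂ)) x.1 =
        s.indicator (fun _ => (1 : ℂ)) x.1 :=
      (measurePreserving_fst (μ := ν) (ν := ζ)).quasiMeasurePreserving.ae
        (indicatorConstLp_coeFn (p := 2) (hs := hs) (hμs := measure_ne_top ν s) (c := (1 : ℂ)))
    filter_upwards [h3] with x hx
    rw [hx]
    by_cases hxs : x.1 ∈ s
    · simp [Set.indicator, hxs]
    · simp [Set.indicator, hxs]
  rw [h2, integral_prod _ (hint.indicator (hs.prod MeasurableSet.univ))]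
  refine integral_congr_ae (Eventually.of_forall fun v => ?_)
  by_cases hv : v ∈ s
  · simp [Set.indicator, hv]
  · simp [Set.indicator, hv]

theorem integrable3 (hL : TransFam ν ζ L sw) (h h' : BddFun Z) (f g : Lp ℂ 2 ν) :
    Integrable (fun x : (V × Z) × Z =>
      h.1 x.1.2 * h'.1 x.2 * f (L (L x.1, x.2)) * conj (g x.1.1)) ((ν.prod ζ).prod ζ) := by
  have hmp : MeasurePreserving (fun x : (V × Z) × Z => L (L x.1, x.2))
      ((ν.prod ζ).prod ζ) ν :=
    hL.mpL.comp (hL.mpL.prod (MeasurePreserving.id ζ))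
  have hf : MemLp (fun x : (V × Z) × Z => f (L (L x.1, x.2))) 2 ((ν.prod ζ).prod ζ) :=
    (Lp.memLp f).comp_measurePreserving hmp
  have hg : MemLp (fun x : (V × Z) × Z => g x.1.1) 2 ((ν.prod ζ).prod ζ) :=
    (Lp.memLp g).comp_measurePreserving
      ((measurePreserving_fst (μ := ν) (ν := ζ)).comp
        (measurePreserving_fst (μ := ν.prod ζ) (ν := ζ)))
  obtain ⟨C, hC⟩ := h.2.2
  obtain ⟨C', hC'⟩ := h'.2.2
  have h1 : Integrable (fun x : (V × Z) × Z => f (L (L x.1, x.2)) * conj (g x.1.1))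
      ((ν.prod ζ).prod ζ) := hf.integrable_mul hg.star
  have h2 : Integrable (fun x : (V × Z) × Z =>
      (h.1 x.1.2 * h'.1 x.2) * (f (L (L x.1, x.2)) * conj (g x.1.1)))
      ((ν.prod ζ).prod ζ) := by
    refine h1.bdd_mul (c := C * C') ?_ ?_
    · exact ((h.2.1.comp (measurable_snd.comp measurable_fst)).mul
        (h'.2.1.comp measurable_snd)).aestronglyMeasurable
    · refine Eventually.of_forall fun x => ?_
      rw [norm_mul]
      exact mul_le_mul (hC _) (hC' _) (norm_nonneg _) ((norm_nonneg _).trans (hC x.1.2))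
  simpa [mul_assoc] using h2

/-- The triple integral behind `T_h T_h'`. -/
theorem inner_opT_opT (hL : TransFam ν ζ L sw) (h h' : BddFun Z) (f g : Lp ℂ 2 ν) :
    ⟪g, hL.opT h (hL.opT h' f)⟫_ℂ = ∫ x : (V × Z) × Z,
      h.1 x.1.2 * h'.1 x.2 * f (L (L x.1, x.2)) * conj (g x.1.1) ∂((ν.prod ζ).prod ζ) := by
  rw [hL.inner_opT, integral_prod _ (hL.integrable3 h h' f g)]
  refine integral_congr_ae ?_
  have h3 := hL.mpL.quasiMeasurePreserving.ae (hL.opT_coe h' f)
  filter_upwards [h3] with x hx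
  rw [hx]
  have h4 : (fun z => h.1 x.2 * h'.1 z * f (L (L x, z)) * conj (g x.1)) =
      fun z => (h.1 x.2 * conj (g x.1)) * (h'.1 z * f (L (L x, z))) := by
    funext z; ring
  rw [h4, integral_const_mul]
  ring

theorem opT_commute (hL : TransFam ν ζ L sw)
    (hcomm : ∀ᵐ x ∂((ν.prod ζ).prod ζ), L (L x.1, x.2) = L (L (x.1.1, x.2), x.1.2))
    (h h' : BddFun Z) : Commute (hL.opT h) (hL.opT h') := by
  have hsw : MeasurePreserving (fun x : (V × Z) × Z => ((x.1.1, x.2), x.1.2))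
      ((ν.prod ζ).prod ζ) ((ν.prod ζ).prod ζ) := by
    have h1 := measurePreserving_prodAssoc ν ζ ζ
    have h2 : MeasurePreserving (Prod.map id Prod.swap : V × (Z × Z) → V × (Z × Z))
        (ν.prod (ζ.prod ζ)) (ν.prod (ζ.prod ζ)) :=
      (MeasurePreserving.id ν).prod Measure.measurePreserving_swap
    have h3 := (h1.symm MeasurableEquiv.prodAssoc).comp (h2.comp h1)
    exact h3
  refine ContinuousLinearMap.ext fun f => ?_
  refine ext_inner_left ℂ fun g => ?_
  rw [mul_apply_eq_comp, mul_apply_eq_comp, hL.inner_opT_opT,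
    hL.inner_opT_opT, ← mp_integral hsw (hL.integrable3 h' h f g).aestronglyMeasurable]
  refine integral_congr_ae ?_
  filter_upwards [hcomm] with x hx
  rw [hx]
  ring

/-- Hilbert–Schmidt bound. -/
theorem hs_opT (hL : TransFam ν ζ L sw) (h : BddFun Z) {C : ℝ} (hC : ∀ z, ‖h.1 z‖ ≤ C)
    (n : ℕ) (e : Fin n → Lp ℂ 2 ν) (he : Orthonormal ℂ e) :
    ∑ i, ‖hL.opT h (e i)‖ ^ 2 ≤ C ^ 2 := by
  have hC0 : 0 ≤ C := by
    obtain ⟨v⟩ : Nonempty Z := by
      by_contra hne
      rw [not_nonempty_iff] at hne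
      have : ζ Set.univ = 0 := by
        rw [Set.eq_empty_of_isEmpty (Set.univ : Set Z), measure_empty]
      simp at this
    exact (norm_nonneg _).trans (hC v)
  set a : Fin n → Lp ℂ 2 ν := fun i => hL.opT h (e i) with ha
  set S : ℝ := ∑ i, ‖a i‖ ^ 2 with hS
  have hS0 : 0 ≤ S := Finset.sum_nonneg fun i _ => by positivity
  -- the kernel `K (v, w) = ∑ conj (a_i v) e_i w`
  let K : V × V → ℂ := fun x => ∑ i, conj (a i x.1) * e i x.2
  have hKmeas : AEStronglyMeasurable K (ν.prod ν) := by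
    refine Finset.aestronglyMeasurable_fun_sum _ fun i _ => ?_
    exact (((Lp.aestronglyMeasurable (a i)).comp_measurePreserving
      (measurePreserving_fst (μ := ν) (ν := ν))).star).mul
      ((Lp.aestronglyMeasurable (e i)).comp_measurePreserving
      (measurePreserving_snd (μ := ν) (ν := ν)))
  have hterm : ∀ i j, Integrable (fun x : V × V =>
      (a j x.1 * conj (a i x.1)) * (e i x.2 * conj (e j x.2))) (ν.prod ν) := by
    intro i j
    have h1 : Integrable (fun v => a j v * conj (a i v)) ν :=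
      (Lp.memLp (a j)).integrable_mul (Lp.memLp (a i)).star
    have h2 : Integrable (fun v => e i v * conj (e j v)) ν :=
      (Lp.memLp (e i)).integrable_mul (Lp.memLp (e j)).star
    exact h1.mul_prod h2
  have hKK : ∀ x, ((‖K x‖ ^ 2 : ℝ) : ℂ) = ∑ i, ∑ j,
      (a j x.1 * conj (a i x.1)) * (e i x.2 * conj (e j x.2)) := by
    intro x
    rw [← Complex.normSq_eq_norm_sq, ← Complex.mul_conj]
    simp only [K, map_sum, map_mul, RCLike.conj_conj, Finset.sum_mul_sum]
    refine Finset.sum_congr rfl fun i _ => Finset.sum_congr rfl fun j _ => ?_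
    ring
  have hKint : Integrable (fun x => ((‖K x‖ ^ 2 : ℝ) : ℂ)) (ν.prod ν) := by
    simp_rw [hKK]
    exact integrable_finsetSum _ fun i _ => integrable_finsetSum _ fun j _ => hterm i j
  have hKint' : Integrable (fun x => ‖K x‖ ^ 2) (ν.prod ν) := by
    simpa only [RCLike.re_to_complex, Complex.ofReal_re] using hKint.re
  have hKS : ∫ x, ‖K x‖ ^ 2 ∂(ν.prod ν) = S := by
    have h1 : ((∫ x, ‖K x‖ ^ 2 ∂(ν.prod ν) : ℝ) : ℂ) = (S : ℂ) := by
      rw [← integral_complex_ofReal]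
      simp_rw [hKK]
      rw [integral_finsetSum _ fun i _ => integrable_finsetSum _ fun j _ => hterm i j]
      have h2 : ∀ i, ∫ x : V × V, ∑ j, (a j x.1 * conj (a i x.1)) * (e i x.2 * conj (e j x.2))
          ∂(ν.prod ν) = ((‖a i‖ ^ 2 : ℝ) : ℂ) := by
        intro i
        rw [integral_finsetSum _ fun j _ => hterm i j]
        have h3 : ∀ j, ∫ x : V × V, (a j x.1 * conj (a i x.1)) * (e i x.2 * conj (e j x.2))
            ∂(ν.prod ν) = ⟪a i, a j⟫_ℂ * ⟪e j, e i⟫_ℂ := by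
          intro j
          rw [integral_prod_mul (fun v => a j v * conj (a i v)) (fun v => e i v * conj (e j v)),
            L2.inner_def, L2.inner_def]
          rfl
        simp_rw [h3]
        rw [Finset.sum_eq_single i]
        · rw [inner_self_eq_norm_sq_to_K, inner_self_eq_norm_sq_to_K, he.1 i]
          simp
        · intro j _ hji
          rw [he.2 hji, mul_zero]
        · intro h; exact absurd (Finset.mem_univ i) h
      simp_rw [h2, hS]
      push_cast
      rfl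
    exact_mod_cast h1
  have hS1 : (S : ℂ) = ∫ x, h.1 x.2 * K (x.1, L x) ∂(ν.prod ζ) := by
    have h1 : ∀ i, ((‖a i‖ ^ 2 : ℝ) : ℂ) =
        ∫ x, h.1 x.2 * e i (L x) * conj (a i x.1) ∂(ν.prod ζ) := by
      intro i
      rw [← hL.inner_opT h (e i) (a i), ha]
      simp only
      rw [inner_self_eq_norm_sq_to_K]
      push_cast
      rfl
    have h2 : ∀ i, Integrable (fun x => h.1 x.2 * e i (L x) * conj (a i x.1)) (ν.prod ζ) :=
      fun i => integrable_mul3 h (hL.memLp_L (e i)) (memLp_fst (a i))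
    rw [hS]
    push_cast
    have h3 : ∑ i, ((‖a i‖ : ℝ) : ℂ) ^ 2 =
        ∑ i, ∫ x, h.1 x.2 * e i (L x) * conj (a i x.1) ∂(ν.prod ζ) := by
      refine Finset.sum_congr rfl fun i _ => ?_
      rw [← h1 i]; push_cast; rfl
    rw [h3, ← integral_finsetSum _ fun i _ => h2 i]
    refine integral_congr_ae (Eventually.of_forall fun x => ?_)
    simp only [K, Finset.mul_sum]
    refine Finset.sum_congr rfl fun i _ => by ring
  have hle : S ≤ (C ^ 2 + S) / 2 := by
    have hcomp : Integrable (fun x => ‖K (x.1, L x)‖ ^ 2) (ν.prod ζ) :=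
      hL.indep.integrable_comp_of_integrable hKint'
    have h1 : S = ‖∫ x, h.1 x.2 * K (x.1, L x) ∂(ν.prod ζ)‖ := by
      rw [← hS1, Complex.norm_real, Real.norm_of_nonneg hS0]
    have h2 : ∫ x, ‖K (x.1, L x)‖ ^ 2 ∂(ν.prod ζ) = S := by
      rw [← hKS, ← hL.indep.map_eq, integral_map hL.indep.aemeasurable]
      rw [hL.indep.map_eq]
      exact hKint'.aestronglyMeasurable
    calc S = ‖∫ x, h.1 x.2 * K (x.1, L x) ∂(ν.prod ζ)‖ := h1
      _ ≤ ∫ x, (C ^ 2 + ‖K (x.1, L x)‖ ^ 2) / 2 ∂(ν.prod ζ) := by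
        refine norm_integral_le_of_norm_le (((integrable_const _).add hcomp).div_const 2)
          (Eventually.of_forall fun x => ?_)
        rw [norm_mul]
        have h3 : ‖h.1 x.2‖ * ‖K (x.1, L x)‖ ≤ C * ‖K (x.1, L x)‖ :=
          mul_le_mul_of_nonneg_right (hC _) (norm_nonneg _)
        nlinarith [sq_nonneg (C - ‖K (x.1, L x)‖)]
      _ = (C ^ 2 + S) / 2 := by
        rw [integral_div, integral_add (integrable_const _) hcomp, h2, integral_const]
        simp
  linarith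

theorem compact_opT (hL : TransFam ν ζ L sw) (h : BddFun Z) : IsCompactOperator (hL.opT h) := by
  obtain ⟨C, hC⟩ := h.2.2
  exact isCompactOperator_of_hs (hL.opT h) (C ^ 2) (fun n e he => hL.hs_opT h hC n e he)

theorem ae_zero_of_rect {F : V × Z → ℂ} (hF : Integrable F (ν.prod ζ))
    (h0 : ∀ B : Set V, MeasurableSet B → ∀ A : Set Z, MeasurableSet A →
      ∫ x in B ×ˢ A, F x ∂(ν.prod ζ) = 0) : F =ᵐ[ν.prod ζ] 0 := by
  refine hF.ae_eq_zero_of_forall_setIntegral_eq_zero fun s hs _ => ?_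
  induction s, hs using MeasurableSpace.induction_on_inter
    (generateFrom_prod (α := V) (β := Z)).symm isPiSystem_prod with
  | empty => simp
  | basic t ht =>
    obtain ⟨B, hB, A, hA, rfl⟩ := ht
    exact h0 B hB A hA
  | compl t htm ih =>
    have h1 : ∫ x in t, F x ∂(ν.prod ζ) + ∫ x in tᶜ, F x ∂(ν.prod ζ) = ∫ x, F x ∂(ν.prod ζ) :=
      integral_add_compl htm hF
    have h2 := h0 Set.univ MeasurableSet.univ Set.univ MeasurableSet.univ
    rw [Set.univ_prod_univ, Measure.restrict_univ] at h2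
    rw [ih (measure_lt_top _ _), h2, zero_add] at h1
    exact h1
  | iUnion f hd hm ih =>
    rw [integral_iUnion hm hd hF.integrableOn]
    simp [fun i => ih i (measure_lt_top _ _)]

/-- Indicator of a measurable set as a bounded function. -/
def indB {A : Set Z} (hA : MeasurableSet A) : BddFun Z :=
  ⟨A.indicator (fun _ => (1 : ℂ)), measurable_const.indicator hA, 1, fun z => by
    by_cases hz : z ∈ A <;> simp [Set.indicator, hz]⟩

theorem integrable_L (hL : TransFam ν ζ L sw) (f : Lp ℂ 2 ν) :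
    Integrable (fun x => f (L x)) (ν.prod ζ) :=
  (hL.memLp_L f).integrable (by norm_num)

theorem inner_rect (hL : TransFam ν ζ L sw) (f : Lp ℂ 2 ν) {A : Set Z} (hA : MeasurableSet A)
    {B : Set V} (hB : MeasurableSet B) :
    ⟪indicatorConstLp 2 hB (measure_ne_top ν B) (1 : ℂ), hL.opT (indB hA) f⟫_ℂ =
      ∫ x in B ×ˢ A, f (L x) ∂(ν.prod ζ) := by
  rw [hL.inner_opT, ← integral_indicator (hB.prod hA)]
  refine integral_congr_ae ?_
  have h3 : ∀ᵐ x ∂(ν.prod ζ), (indicatorConstLp 2 hB (measure_ne_top ν B) (1 : ℂ)) x.1 =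
      B.indicator (fun _ => (1 : ℂ)) x.1 :=
    (measurePreserving_fst (μ := ν) (ν := ζ)).quasiMeasurePreserving.ae
      (indicatorConstLp_coeFn (p := 2) (hs := hB) (hμs := measure_ne_top ν B) (c := (1 : ℂ)))
  filter_upwards [h3] with x hx
  rw [hx]
  by_cases hxB : x.1 ∈ B <;> by_cases hxA : x.2 ∈ A <;>
    simp [Set.indicator, hxB, hxA, indB]

theorem eq_zero_of_opT (hL : TransFam ν ζ L sw) (f : Lp ℂ 2 ν) (h0 : ∀ h, hL.opT h f = 0) :
    f = 0 := by
  have h1 : (fun x => f (L x)) =ᵐ[ν.prod ζ] 0 := by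
    refine ae_zero_of_rect (hL.integrable_L f) fun B hB A hA => ?_
    rw [← hL.inner_rect f hA hB, h0, inner_zero_right]
  have h2 : hL.opJ f = 0 := by
    refine Lp.ext ?_
    filter_upwards [hL.opJ_coe f, h1, Lp.coeFn_zero ℂ 2 (ν.prod ζ)] with x hx hx1 hx2
    rw [hx, hx2]
    exact hx1
  have h3 : ‖hL.opJ f‖ = ‖f‖ := (Lp.compMeasurePreservingₗᵢ ℂ L hL.mpL).norm_map f
  rw [h2, norm_zero] at h3
  exact norm_eq_zero.1 h3.symm

/-- A joint eigenvector is an eigenfunction of (almost) every translation. -/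
theorem eigen_ae (hL : TransFam ν ζ L sw) (F : Lp ℂ 2 ν) (hF : F ≠ 0) (lam : BddFun Z → ℂ)
    (hlam : ∀ h, hL.opT h F = lam h • F) :
    ∃ χ : Z → ℂ, Measurable χ ∧ Integrable χ ζ ∧
      ∀ᵐ x ∂(ν.prod ζ), F (L x) = χ x.2 * F x.1 := by
  set N : ℂ := ⟪F, F⟫_ℂ with hN
  have hN0 : N ≠ 0 := by rw [hN]; exact inner_self_ne_zero.2 hF
  have hFm : Measurable F := (Lp.stronglyMeasurable F).measurable
  have hint : Integrable (fun x : V × Z => F (L x) * conj (F x.1)) (ν.prod ζ) :=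
    (hL.memLp_L F).integrable_mul (memLp_fst F).star
  have hmeas : Measurable (fun z => ∫ v, F (L (v, z)) * conj (F v) ∂ν) := by
    have h1 : StronglyMeasurable (fun x : Z × V => F (L (x.2, x.1)) * conj (F x.2)) :=
      ((hFm.comp (hL.meas.comp measurable_swap)).mul
        (continuous_star.measurable.comp (hFm.comp measurable_snd))).stronglyMeasurable
    exact (h1.integral_prod_right' (ν := ν)).measurable
  refine ⟨fun z => (∫ v, F (L (v, z)) * conj (F v) ∂ν) / N, hmeas.div_const N,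
    hint.integral_prod_right.div_const N, ?_⟩
  have hχint : Integrable (fun z => (∫ v, F (L (v, z)) * conj (F v) ∂ν) / N) ζ :=
    hint.integral_prod_right.div_const N
  have hFint : Integrable F ν := (Lp.memLp F).integrable (by norm_num)
  have key : (fun x : V × Z => F (L x) - (F x.1 *
      ((∫ v, F (L (v, x.2)) * conj (F v) ∂ν) / N))) =ᵐ[ν.prod ζ] 0 := by
    refine ae_zero_of_rect ((hL.integrable_L F).sub (hFint.mul_prod hχint)) fun B hB A hA => ?_
    rw [integral_sub (hL.integrable_L F).integrableOn (hFint.mul_prod hχint).integrableOn,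
      ← hL.inner_rect F hA hB, hlam, inner_smul_right,
      setIntegral_prod_mul F (fun z => (∫ v, F (L (v, z)) * conj (F v) ∂ν) / N) B A,
      L2.inner_indicatorConstLp_one]
    have h1 : lam (indB hA) * N = ∫ z in A, (∫ v, F (L (v, z)) * conj (F v) ∂ν) ∂ζ := by
      have h2 : ⟪F, hL.opT (indB hA) F⟫_ℂ = lam (indB hA) * N := by
        rw [hlam, inner_smul_right]
      rw [← h2, hL.inner_opT]
      have h3 : (fun x : V × Z => (indB hA).1 x.2 * F (L x) * conj (F x.1)) =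
          (Set.univ ×ˢ A).indicator (fun x : V × Z => F (L x) * conj (F x.1)) := by
        funext x
        by_cases hxA : x.2 ∈ A <;> simp [Set.indicator, hxA, indB]
      rw [h3, integral_prod_symm _ (hint.indicator (MeasurableSet.univ.prod hA)),
        ← integral_indicator hA]
      refine integral_congr_ae (Eventually.of_forall fun z => ?_)
      by_cases hz : z ∈ A <;> simp [Set.indicator, hz]
    have h4 : ∫ z in A, (∫ v, F (L (v, z)) * conj (F v) ∂ν) / N ∂ζ = lam (indB hA) := by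
      rw [integral_div, ← h1, mul_div_cancel_right₀ _ hN0]
    rw [h4]
    ring
  filter_upwards [key] with x hx
  have h5 : F (L x) - (F x.1 * ((∫ v, F (L (v, x.2)) * conj (F v) ∂ν) / N)) = 0 := hx
  rw [sub_eq_zero.1 h5]
  ring

/-- A joint eigenvector is a multiple of a unimodular function. -/
theorem eigen_unimodular (hL : TransFam ν ζ L sw) (F : Lp ℂ 2 ν) (hF : F ≠ 0)
    (lam : BddFun Z → ℂ) (hlam : ∀ h, hL.opT h F = lam h • F) :
    ∃ c : ℂ, ∃ f : V → ℂ, Measurable f ∧ (∀ v, ‖f v‖ = 1) ∧ (∀ᵐ v ∂ν, F v = c * f v) ∧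
      ∃ ψ : Z → ℂ, Measurable ψ ∧ (∀ z, ‖ψ z‖ = 1) ∧
        ∀ᵐ x ∂(ν.prod ζ), f (L x) = ψ x.2 * f x.1 := by
  obtain ⟨χ, hχm, hχi, hχ⟩ := hL.eigen_ae F hF lam hlam
  have hFm : Measurable F := (Lp.stronglyMeasurable F).measurable
  have hF2 : Integrable (fun v => ‖F v‖ ^ 2) ν := (Lp.memLp F).integrable_norm_pow (by norm_num)
  have hN : ∫ v, ‖F v‖ ^ 2 ∂ν = ‖F‖ ^ 2 := by
    have h1 : ((∫ v, ‖F v‖ ^ 2 ∂ν : ℝ) : ℂ) = ((‖F‖ ^ 2 : ℝ) : ℂ) := by
      rw [← integral_complex_ofReal]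
      have h2 : ⟪F, F⟫_ℂ = ((‖F‖ ^ 2 : ℝ) : ℂ) := by
        rw [inner_self_eq_norm_sq_to_K]; push_cast; rfl
      rw [← h2, L2.inner_def]
      refine integral_congr_ae (Eventually.of_forall fun v => ?_)
      simp only
      rw [inner_self_eq_norm_sq_to_K]
      push_cast
      rfl
    exact_mod_cast h1
  have hFn : ‖F‖ ^ 2 ≠ 0 := by
    have := norm_ne_zero_iff.2 hF
    positivity
  -- the modulus of `χ`
  have hG2 : Integrable (fun x : V × Z => ‖F (L x)‖ ^ 2) (ν.prod ζ) :=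
    hL.mpL.integrable_comp_of_integrable (g := fun v => ‖F v‖ ^ 2) hF2
  have hz1 : (fun z => ∫ v, ‖F (L (v, z))‖ ^ 2 ∂ν) =ᵐ[ζ] fun _ => ‖F‖ ^ 2 := by
    refine Integrable.ae_eq_of_forall_setIntegral_eq _ _ hG2.integral_prod_right
      (integrable_const _) fun A hA _ => ?_
    rw [setIntegral_const]
    have h1 : ∫ z in A, ∫ v, ‖F (L (v, z))‖ ^ 2 ∂ν ∂ζ =
        ∫ x, (Set.univ ×ˢ A).indicator (fun x : V × Z => ‖F (L x)‖ ^ 2) x ∂(ν.prod ζ) := by
      rw [integral_prod_symm _ (hG2.indicator (MeasurableSet.univ.prod hA)),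
        ← integral_indicator hA]
      refine integral_congr_ae (Eventually.of_forall fun z => ?_)
      by_cases hz : z ∈ A <;> simp [Set.indicator, hz]
    have h2 : ∫ x, (Set.univ ×ˢ A).indicator (fun x : V × Z => ‖F (L x)‖ ^ 2) x ∂(ν.prod ζ) =
        ∫ x, (Set.univ ×ˢ A).indicator (fun x : V × Z => ‖F x.1‖ ^ 2) x ∂(ν.prod ζ) := by
      have h3 : AEStronglyMeasurable
          ((Set.univ ×ˢ A).indicator (fun x : V × Z => ‖F x.1‖ ^ 2)) (ν.prod ζ) :=
        (((hFm.comp measurable_fst).norm.pow_const 2).indicator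
          (MeasurableSet.univ.prod hA)).aestronglyMeasurable
      have h4 := integral_map (μ := ν.prod ζ) hL.mp.aemeasurable
        (f := (Set.univ ×ˢ A).indicator (fun x : V × Z => ‖F x.1‖ ^ 2))
        (by rw [hL.mp.map_eq]; exact h3)
      rw [hL.mp.map_eq] at h4
      rw [h4]
      refine integral_congr_ae (Eventually.of_forall fun x => ?_)
      by_cases hxA : x.2 ∈ A <;> simp [Set.indicator, hxA]
    have h5 : ∫ x, (Set.univ ×ˢ A).indicator (fun x : V × Z => ‖F x.1‖ ^ 2) x ∂(ν.prod ζ) =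
        ζ.real A * ‖F‖ ^ 2 := by
      have h6 : (Set.univ ×ˢ A).indicator (fun x : V × Z => ‖F x.1‖ ^ 2) =
          fun x : V × Z => ‖F x.1‖ ^ 2 * A.indicator (fun _ => (1 : ℝ)) x.2 := by
        funext x
        by_cases hxA : x.2 ∈ A <;> simp [Set.indicator, hxA]
      rw [h6, integral_prod_mul (fun v => ‖F v‖ ^ 2) (A.indicator (fun _ => (1 : ℝ))), hN,
        integral_indicator hA, setIntegral_const]
      simp [mul_comm]
    rw [h1, h2, h5, smul_eq_mul]
  have hmod : ∀ᵐ z ∂ζ, ‖χ z‖ = 1 := by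
    have h1 : ∀ᵐ z ∂ζ, ∀ᵐ v ∂ν, F (L (v, z)) = χ z * F v := by
      have h2 : ∀ᵐ y ∂(ζ.prod ν), F (L (y.2, y.1)) = χ y.1 * F y.2 :=
        (Measure.measurePreserving_swap (μ := ζ) (ν := ν)).quasiMeasurePreserving.ae hχ
      exact Measure.ae_ae_of_ae_prod h2
    filter_upwards [h1, hz1] with z hz hz1
    have h3 : ∫ v, ‖F (L (v, z))‖ ^ 2 ∂ν = ‖χ z‖ ^ 2 * ‖F‖ ^ 2 := by
      rw [← hN, ← integral_const_mul]
      refine integral_congr_ae ?_
      filter_upwards [hz] with v hv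
      rw [hv, norm_mul, mul_pow]
    rw [h3] at hz1
    have h4 : ‖χ z‖ ^ 2 = 1 := by
      have := mul_right_cancel₀ hFn (hz1.trans (one_mul _).symm)
      exact this
    have h5 : (0 : ℝ) ≤ ‖χ z‖ := norm_nonneg _
    nlinarith [sq_nonneg (‖χ z‖ - 1), sq_nonneg (‖χ z‖ + 1)]
  -- the modulus of `F` is constant
  have hFc : ∀ᵐ x ∂(ν.prod ν), ‖F x.2‖ = ‖F x.1‖ := by
    rw [← hL.indep.map_eq]
    have hms : MeasurableSet {x : V × V | ‖F x.2‖ = ‖F x.1‖} :=
      measurableSet_eq_fun (hFm.comp measurable_snd).norm (hFm.comp measurable_fst).norm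
    rw [ae_map_iff hL.indep.aemeasurable hms]
    have h2 : ∀ᵐ x ∂(ν.prod ζ), ‖χ x.2‖ = 1 :=
      (measurePreserving_snd (μ := ν) (ν := ζ)).quasiMeasurePreserving.ae hmod
    filter_upwards [hχ, h2] with x hx h2
    rw [hx, norm_mul, h2, one_mul]
  obtain ⟨v₀, hv₀⟩ := (Measure.ae_ae_of_ae_prod hFc).exists
  have hc0 : ‖F v₀‖ ≠ 0 := by
    intro h0
    apply hFn
    rw [← hN]
    have : (fun v => ‖F v‖ ^ 2) =ᵐ[ν] 0 := by
      filter_upwards [hv₀] with w hw
      rw [hw, h0]; simp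
    rw [integral_congr_ae this]; simp
  set c : ℂ := ((‖F v₀‖ : ℝ) : ℂ) with hc
  have hcne : c ≠ 0 := by rw [hc]; exact_mod_cast hc0
  have hset : MeasurableSet {v : V | ‖F v‖ = ‖F v₀‖} :=
    measurableSet_eq_fun hFm.norm measurable_const
  classical
  refine ⟨c, fun v => if ‖F v‖ = ‖F v₀‖ then F v / c else 1,
    Measurable.ite hset (hFm.div_const c) measurable_const, fun v => ?_, ?_, ?_⟩
  · by_cases hv : ‖F v‖ = ‖F v₀‖
    · simp only [hv, if_true, norm_div]
      rw [hc, Complex.norm_real, norm_norm, div_self hc0]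
    · simp [hv]
  · filter_upwards [hv₀] with w hw
    rw [if_pos hw, mul_div_cancel₀ _ hcne]
  · refine ⟨fun z => if ‖χ z‖ = 1 then χ z else 1,
      Measurable.ite (measurableSet_eq_fun hχm.norm measurable_const) hχm measurable_const,
      fun z => ?_, ?_⟩
    · by_cases hz : ‖χ z‖ = 1
      · simp [hz]
      · simp [hz]
    · have h2 : ∀ᵐ x ∂(ν.prod ζ), ‖χ x.2‖ = 1 :=
        (measurePreserving_snd (μ := ν) (ν := ζ)).quasiMeasurePreserving.ae hmod
      have h3 : ∀ᵐ x ∂(ν.prod ζ), ‖F (L x)‖ = ‖F v₀‖ :=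
        hL.mpL.quasiMeasurePreserving.ae hv₀
      have h4 : ∀ᵐ x ∂(ν.prod ζ), ‖F x.1‖ = ‖F v₀‖ :=
        (measurePreserving_fst (μ := ν) (ν := ζ)).quasiMeasurePreserving.ae hv₀
      filter_upwards [hχ, h2, h3, h4] with x hx h2 h3 h4
      simp only [h2, h3, h4, if_true]
      rw [hx]
      ring

/-- The unimodular eigenfunctions of the family, as elements of `L²`. -/
def charSet (ν : Measure V) (ζ : Measure Z) (L : V × Z → V) : Set (Lp ℂ 2 ν) :=
  {F | ∃ f : V → ℂ, Measurable f ∧ (∀ v, ‖f v‖ = 1) ∧ F =ᵐ[ν] f ∧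
    ∃ ψ : Z → ℂ, Measurable ψ ∧ (∀ z, ‖ψ z‖ = 1) ∧
      ∀ᵐ x ∂(ν.prod ζ), f (L x) = ψ x.2 * f x.1}

/-- **Lemma A.** For a commuting translation family the unimodular eigenfunctions are total. -/
theorem charSet_total (hL : TransFam ν ζ L sw)
    (hcomm : ∀ᵐ x ∂((ν.prod ζ).prod ζ), L (L x.1, x.2) = L (L (x.1.1, x.2), x.1.2)) :
    (Submodule.span ℂ (charSet ν ζ L)).topologicalClosure = ⊤ := by
  have h1 := joint_eig_total (fun h : BddFun Z => hL.opT h) hL.compact_opT
    (hL.opT_commute hcomm) (fun h => ⟨_, hL.adjoint_opT h⟩) hL.eq_zero_of_opT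
  rw [eq_top_iff, ← h1]
  refine Submodule.topologicalClosure_mono (Submodule.span_le.2 ?_)
  rintro F ⟨hF, lam, hlam, -⟩
  obtain ⟨c, f, hfm, hf1, hFf, ψ, hψ⟩ := hL.eigen_unimodular F hF lam hlam
  have hmem : MemLp f 2 ν := MemLp.of_bound hfm.aestronglyMeasurable 1
    (Eventually.of_forall fun v => (hf1 v).le)
  have h2 : F = c • hmem.toLp f := by
    refine Lp.ext ?_
    filter_upwards [hFf, Lp.coeFn_smul c (hmem.toLp f), hmem.coeFn_toLp] with v hv h1 h2
    rw [hv, h1, Pi.smul_apply, h2, smul_eq_mul]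
  rw [h2]
  exact Submodule.smul_mem _ _ (Submodule.subset_span ⟨f, hfm, hf1, hmem.coeFn_toLp, ψ, hψ⟩)

/-- Swapping the last two coordinates of a triple product. -/
theorem mp_swap23 {A B C : Type*} [MeasurableSpace A] [MeasurableSpace B] [MeasurableSpace C]
    (α : Measure A) (β : Measure B) (γ : Measure C) [IsProbabilityMeasure α]
    [IsProbabilityMeasure β] [IsProbabilityMeasure γ] :
    MeasurePreserving (fun x : (A × B) × C => ((x.1.1, x.2), x.1.2))
      ((α.prod β).prod γ) ((α.prod γ).prod β) := by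
  have h1 := measurePreserving_prodAssoc α β γ
  have h2 : MeasurePreserving (Prod.map id Prod.swap : A × (B × C) → A × (C × B))
      (α.prod (β.prod γ)) (α.prod (γ.prod β)) :=
    (MeasurePreserving.id α).prod Measure.measurePreserving_swap
  exact ((measurePreserving_prodAssoc α γ β).symm MeasurableEquiv.prodAssoc).comp (h2.comp h1)

/-- Commutation from a second family: if `P` and `L` commute for independent parameters and
there is a coupling of the parameters for which `P = L`, then the `L`'s commute. -/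
theorem comm_of_coupling [StandardBorelSpace V] {Z₁ : Type*} [MeasurableSpace Z₁]
    {ζ₁ : Measure Z₁} [IsProbabilityMeasure ζ₁] {P : V × Z₁ → V}
    (hL : TransFam ν ζ L sw)
    (hc : ∀ᵐ x ∂(ν.prod (ζ₁.prod ζ)), P (L (x.1, x.2.2), x.2.1) = L (P (x.1, x.2.1), x.2.2))
    (Q : Measure (Z₁ × Z)) [IsProbabilityMeasure Q]
    (hQ1 : MeasurePreserving Prod.fst Q ζ₁) (hQ2 : MeasurePreserving Prod.snd Q ζ)
    (hd : ∀ᵐ x ∂(ν.prod Q), P (x.1, x.2.1) = L (x.1, x.2.2)) :
    ∀ᵐ x ∂((ν.prod ζ).prod ζ), L (L x.1, x.2) = L (L (x.1.1, x.2), x.1.2) := by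
  have m1 : MeasurePreserving (fun x : (V × (Z₁ × Z)) × Z => (x.1.1, (x.1.2.1, x.2)))
      ((ν.prod Q).prod ζ) (ν.prod (ζ₁.prod ζ)) :=
    (measurePreserving_prodAssoc ν ζ₁ ζ).comp
      (((MeasurePreserving.id ν).prod hQ1).prod (MeasurePreserving.id ζ))
  have m2 : MeasurePreserving (fun x : (V × (Z₁ × Z)) × Z => (L (x.1.1, x.2), x.1.2))
      ((ν.prod Q).prod ζ) (ν.prod Q) :=
    (hL.mpL.prod (MeasurePreserving.id Q)).comp (mp_swap23 ν Q ζ)
  have m3 : MeasurePreserving (fun x : (V × (Z₁ × Z)) × Z => ((x.1.1, x.1.2.2), x.2))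
      ((ν.prod Q).prod ζ) ((ν.prod ζ).prod ζ) :=
    ((MeasurePreserving.id ν).prod hQ2).prod (MeasurePreserving.id ζ)
  have m0 : MeasurePreserving (fun x : (V × (Z₁ × Z)) × Z => x.1)
      ((ν.prod Q).prod ζ) (ν.prod Q) := measurePreserving_fst
  rw [← m3.map_eq]
  have hms : MeasurableSet {x : (V × Z) × Z | L (L x.1, x.2) = L (L (x.1.1, x.2), x.1.2)} :=
    measurableSet_eq_fun
      (hL.meas.comp ((hL.meas.comp measurable_fst).prodMk measurable_snd))
      (hL.meas.comp ((hL.meas.comp ((measurable_fst.comp measurable_fst).prodMk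
        measurable_snd)).prodMk (measurable_snd.comp measurable_fst)))
  rw [ae_map_iff m3.aemeasurable hms]
  filter_upwards [m0.quasiMeasurePreserving.ae hd, m1.quasiMeasurePreserving.ae hc,
    m2.quasiMeasurePreserving.ae hd] with x h0 h1 h2
  change L (L (x.1.1, x.1.2.2), x.2) = L (L (x.1.1, x.2), x.1.2.2)
  rw [← h0, ← h1, h2]

end TransFam

/-- **Lemma A** in the form used for the static mediality theorem. -/
theorem lemmaA112 {V C Y : Type*} [MeasurableSpace V] [StandardBorelSpace V] [MeasurableSpace C]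
    [MeasurableSpace Y] (ν : Measure V) (γ : Measure C) (η : Measure Y) [IsProbabilityMeasure ν]
    [IsProbabilityMeasure γ] [IsProbabilityMeasure η]
    (P : V × (C × C) → V) (L : V × (Y × Y) → V) (hLm : Measurable L)
    (a1 : (ν.prod (η.prod η)).map (fun x => (L x, x.2)) = ν.prod (η.prod η))
    (a2 : (ν.prod (η.prod η)).map (fun x => (x.1, L x)) = ν.prod ν)
    (a3 : ∀ᵐ x ∂(ν.prod (η.prod η)), L (L x, (x.2.2, x.2.1)) = x.1)
    (c : ∀ᵐ x ∂(ν.prod ((γ.prod γ).prod (η.prod η))),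
      P (L (x.1, x.2.2), x.2.1) = L (P (x.1, x.2.1), x.2.2))
    (Q : Measure ((C × C) × (Y × Y))) (hQ1 : Q.map Prod.fst = γ.prod γ)
    (hQ2 : Q.map Prod.snd = η.prod η)
    (d : ∀ᵐ x ∂(ν.prod Q), P (x.1, x.2.1) = L (x.1, x.2.2)) :
    (Submodule.span ℂ (TransFam.charSet ν (η.prod η) L)).topologicalClosure = ⊤ := by
  have hQp : IsProbabilityMeasure Q := by
    constructor
    have h1 : (Q.map Prod.fst) Set.univ = 1 := by rw [hQ1]; exact measure_univ
    rwa [Measure.map_apply measurable_fst MeasurableSet.univ, Set.preimage_univ] at h1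
  have hL : TransFam ν (η.prod η) L Prod.swap :=
    ⟨hLm, Measure.measurePreserving_swap, ⟨hLm.prodMk measurable_snd, a1⟩,
      ⟨measurable_fst.prodMk hLm, a2⟩, a3⟩
  exact hL.charSet_total (hL.comm_of_coupling c Q ⟨measurable_fst, hQ1⟩
    ⟨measurable_snd, hQ2⟩ d)

end

end Vale.Agent.P102.RM
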