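import Mathlib.Probability.Independence.Basic
import Mathlib.Probability.Independence.InfinitePi
import Mathlib.MeasureTheory.Constructions.Pi
import Vale.Agent.P102.RM.MedA

/-!
P102, block MED, part B: law bookkeeping for the static mediality theorem.
-/

namespace Vale.Agent.P102.RM

set_option linter.unusedSectionVars false

open MeasureTheory ProbabilityTheory

namespace Med

variable {E : Type*} [MeasurableSpace E]

/-- `f` transforms the law `α` of the first coordinate to `ν`, given an independent second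
coordinate of law `γ`. -/
structure Kp (α γ ν : Measure E) (f : E × E → E) : Prop where
  meas : Measurable f
  map : (α.prod γ).map (fun p => (f p, p.2)) = ν.prod γ

/-- Selection of distinct coordinates of a product. -/
theorem sel {ι κ : Type*} [Fintype ι] [Fintype κ] (μ : ι → Measure E)
    [∀ i, IsProbabilityMeasure (μ i)] (e : κ → ι) (he : Function.Injective e) :
    MeasurePreserving (fun (x : ι → E) (j : κ) => x (e j)) (Measure.pi μ)
      (Measure.pi fun j => μ (e j)) := by
  refine ⟨by fun_prop, ?_⟩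
  have h1 : iIndepFun (fun (i : ι) (x : ι → E) => x i) (Measure.pi μ) :=
    iIndepFun_pi (μ := μ) (X := fun _ x => x) (fun i => aemeasurable_id)
  have h2 := h1.precomp he
  rw [iIndepFun_iff_map_fun_eq_pi_map (fun j => (measurable_pi_apply _).aemeasurable)] at h2
  rw [h2]
  congr 1
  funext j
  exact (measurePreserving_eval μ (e j)).map_eq

/-- Replacement of one coordinate. -/
theorem step {ι : Type*} [Fintype ι] [DecidableEq ι] (μ : ι → Measure E)
    [∀ i, IsProbabilityMeasure (μ i)] (i j : ι) (hij : i ≠ j) {ν : Measure E}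
    [IsProbabilityMeasure ν] {f : E × E → E} (hf : Kp (μ i) (μ j) ν f) :
    MeasurePreserving (fun x => Function.update x i (f (x i, x j))) (Measure.pi μ)
      (Measure.pi (Function.update μ i ν)) := by
  have hfm := hf.meas
  have hmeas : Measurable (fun x : ι → E => Function.update x i (f (x i, x j))) := by
    rw [measurable_pi_iff]
    intro k
    by_cases hk : k = i
    · subst hk; simp only [Function.update_self]; fun_prop
    · simp only [Function.update_of_ne hk]; fun_prop
  refine ⟨hmeas, ?_⟩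
  have hprob : ∀ k, IsProbabilityMeasure (Function.update μ i ν k) := by
    intro k
    by_cases hk : k = i
    · subst hk; simpa using (inferInstance : IsProbabilityMeasure ν)
    · rw [Function.update_of_ne hk]; infer_instance
  symm
  refine Measure.pi_eq fun s hs => ?_
  rw [Measure.map_apply hmeas (MeasurableSet.univ_pi hs)]
  have h1 : iIndepFun (fun (i : ι) (x : ι → E) => x i) (Measure.pi μ) :=
    iIndepFun_pi (μ := μ) (X := fun _ x => x) (fun i => aemeasurable_id)
  have h2 := h1.indepFun_finset {i, j} (Finset.univ \ {i, j}) Finset.disjoint_sdiff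
    (fun k => by fun_prop)
  -- the two events
  set A : Set (ι → E) := {x | f (x i, x j) ∈ s i ∧ x j ∈ s j} with hA
  set B : Set (ι → E) := {x | ∀ k ∈ Finset.univ \ {i, j}, x k ∈ s k} with hB
  have hAB : (fun x : ι → E => Function.update x i (f (x i, x j))) ⁻¹' (Set.univ.pi s) =
      A ∩ B := by
    ext x
    simp only [Set.mem_preimage, Set.mem_univ_pi, hA, hB, Set.mem_inter_iff, Set.mem_ofPred_eq,
      Finset.mem_sdiff, Finset.mem_univ, true_and, Finset.mem_insert, Finset.mem_singleton,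
      not_or]
    constructor
    · intro h
      refine ⟨⟨by simpa using h i, by simpa [Function.update_of_ne hij.symm] using h j⟩, ?_⟩
      rintro k ⟨hk, -⟩
      simpa [Function.update_of_ne hk] using h k
    · rintro ⟨⟨h3, h4⟩, h5⟩ k
      by_cases hk : k = i
      · subst hk; simpa using h3
      · rw [Function.update_of_ne hk]
        by_cases hk' : k = j
        · subst hk'; exact h4
        · exact h5 k ⟨hk, hk'⟩
  rw [hAB]
  have hmul : (Measure.pi μ) (A ∩ B) = (Measure.pi μ) A * (Measure.pi μ) B := by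
    have hi : i ∈ ({i, j} : Finset ι) := by simp
    have hj : j ∈ ({i, j} : Finset ι) := by simp
    have := h2.measure_inter_preimage_eq_mul
      {y | f (y ⟨i, hi⟩, y ⟨j, hj⟩) ∈ s i ∧ y ⟨j, hj⟩ ∈ s j}
      {y | ∀ k : (Finset.univ \ {i, j} : Finset ι), y k ∈ s k}
      (by
        refine MeasurableSet.inter ?_ ?_
        · exact (show Measurable (fun y : (({i, j} : Finset ι) → E) =>
            f (y ⟨i, hi⟩, y ⟨j, hj⟩)) by fun_prop) (hs i)
        · exact (show Measurable (fun y : (({i, j} : Finset ι) → E) => y ⟨j, hj⟩)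
            by fun_prop) (hs j))
      (by
        have : {y : ((Finset.univ \ {i, j} : Finset ι) → E) |
            ∀ k : (Finset.univ \ {i, j} : Finset ι), y k ∈ s k} =
            ⋂ k : (Finset.univ \ {i, j} : Finset ι), {y | y k ∈ s k} := by ext; simp
        rw [this]
        exact MeasurableSet.iInter fun k => (measurable_pi_apply k) (hs k))
    have hB' : B = (fun (a : ι → E) (k : (Finset.univ \ {i, j} : Finset ι)) => a k) ⁻¹'
        {y | ∀ k : (Finset.univ \ {i, j} : Finset ι), y k ∈ s k} := by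
      ext x
      simp [hB]
    rw [hB']
    exact this
  rw [hmul]
  have hPA : (Measure.pi μ) A = ν (s i) * (μ j) (s j) := by
    have h3 : MeasurePreserving (fun x : ι → E => (x i, x j)) (Measure.pi μ)
        ((μ i).prod (μ j)) := by
      refine ⟨by fun_prop, ?_⟩
      have h4 := h1.indepFun hij
      rw [indepFun_iff_map_prod_eq_prod_map_map (measurable_pi_apply _).aemeasurable
        (measurable_pi_apply _).aemeasurable] at h4
      rw [h4]
      congr 1
      · exact (measurePreserving_eval μ i).map_eq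
      · exact (measurePreserving_eval μ j).map_eq
    have h5 : A = (fun x : ι → E => (x i, x j)) ⁻¹'
        ((fun p : E × E => (f p, p.2)) ⁻¹' (s i ×ˢ s j)) := by
      ext x; simp [hA]
    rw [h5, h3.measure_preimage, ← Measure.map_apply (by fun_prop) ((hs i).prod (hs j)),
      hf.map, Measure.prod_prod]
    exact ((show Measurable (fun p : E × E => (f p, p.2)) by fun_prop)
      ((hs i).prod (hs j))).nullMeasurableSet
  have hPB : (Measure.pi μ) B = ∏ k ∈ Finset.univ \ {i, j}, (μ k) (s k) := by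
    have h6 : B = Set.univ.pi (fun k => if k ∈ (Finset.univ \ {i, j} : Finset ι) then s k
        else Set.univ) := by
      ext x
      simp only [hB, Set.mem_ofPred_eq, Set.mem_univ_pi]
      refine forall_congr' fun k => ?_
      by_cases hk : k ∈ (Finset.univ \ {i, j} : Finset ι)
      · simp [hk]
      · simp [hk]
    rw [h6, Measure.pi_pi]
    rw [← Finset.prod_subset (Finset.subset_univ (Finset.univ \ {i, j}))]
    · refine Finset.prod_congr rfl fun k hk => ?_
      simp [hk]
    · intro k _ hk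
      simp [hk]
  rw [hPA, hPB]
  have h7 : (∏ k, (Function.update μ i ν k) (s k)) =
      (∏ k ∈ {i, j}, (Function.update μ i ν k) (s k)) *
        ∏ k ∈ Finset.univ \ {i, j}, (Function.update μ i ν k) (s k) := by
    rw [mul_comm, Finset.prod_sdiff (Finset.subset_univ _)]
  rw [h7, Finset.prod_pair hij]
  congr 1
  · rw [Function.update_self, Function.update_of_ne hij.symm]
  · refine Finset.prod_congr rfl fun k hk => ?_
    have : k ≠ i := by
      rintro rfl
      simp at hk
    rw [Function.update_of_ne this]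

/-! ### tuples with product law -/

/-- The tuple `X` of random variables has the product law `μ`. -/
structure IL {Ω : Type*} [MeasurableSpace Ω] (P : Measure Ω) {n : ℕ} (X : Fin n → Ω → E)
    (μ : Fin n → Measure E) : Prop where
  meas : ∀ i, Measurable (X i)
  map : P.map (fun ω i => X i ω) = Measure.pi μ

section IL

variable {Ω : Type*} [MeasurableSpace Ω] {P : Measure Ω} {n : ℕ} {X : Fin n → Ω → E}
  {μ : Fin n → Measure E}

theorem IL.mp (h : IL P X μ) : MeasurePreserving (fun ω i => X i ω) P (Measure.pi μ) :=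
  ⟨measurable_pi_iff.2 h.meas, h.map⟩

theorem IL.of_mp {f : Ω → Fin n → E} (h : MeasurePreserving f P (Measure.pi μ)) :
    IL P (fun i ω => f ω i) μ :=
  ⟨fun i => (measurable_pi_apply i).comp h.measurable, h.map_eq⟩

theorem IL.congr (h : IL P X μ) {Y : Fin n → Ω → E} {κ : Fin n → Measure E}
    (hY : ∀ i, Y i = X i) (hκ : ∀ i, κ i = μ i) : IL P Y κ := by
  rw [show Y = X from funext hY, show κ = μ from funext hκ]; exact h

theorem IL.step (h : IL P X μ) (hμ : ∀ i, IsProbabilityMeasure (μ i)) (i j : Fin n)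
    (hij : i ≠ j) {ν : Measure E} [IsProbabilityMeasure ν] {f : E × E → E}
    (hf : Kp (μ i) (μ j) ν f) :
    IL P (Function.update X i (fun ω => f (X i ω, X j ω))) (Function.update μ i ν) := by
  have h1 := (Med.step μ i j hij hf).comp h.mp
  refine (IL.of_mp h1).congr (fun k => ?_) (fun _ => rfl)
  funext ω
  by_cases hk : k = i
  · subst hk; simp
  · simp [Function.update_of_ne hk]

theorem IL.sel (h : IL P X μ) (hμ : ∀ i, IsProbabilityMeasure (μ i)) {m : ℕ}
    (e : Fin m → Fin n) (he : Function.Injective e) :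
    IL P (fun j => X (e j)) (fun j => μ (e j)) :=
  (IL.of_mp ((Med.sel μ e he).comp h.mp)).congr (fun _ => rfl) (fun _ => rfl)

theorem IL.ae (h : IL P X μ) {q : (Fin n → E) → Prop} (hq : ∀ᵐ y ∂(Measure.pi μ), q y) :
    ∀ᵐ ω ∂P, q (fun i => X i ω) := by
  rw [← h.map] at hq
  exact ae_of_ae_map h.mp.measurable.aemeasurable hq

theorem IL.pair (h : IL P X μ) (hμ : ∀ i, IsProbabilityMeasure (μ i)) (i j : Fin n)
    (hij : i ≠ j) : P.map (fun ω => (X i ω, X j ω)) = (μ i).prod (μ j) := by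
  have h1 : iIndepFun (fun (i : Fin n) (x : Fin n → E) => x i) (Measure.pi μ) :=
    iIndepFun_pi (μ := μ) (X := fun _ x => x) (fun i => aemeasurable_id)
  have h3 : MeasurePreserving (fun x : Fin n → E => (x i, x j)) (Measure.pi μ)
      ((μ i).prod (μ j)) := by
    refine ⟨by fun_prop, ?_⟩
    have h4 := h1.indepFun hij
    rw [indepFun_iff_map_prod_eq_prod_map_map (measurable_pi_apply _).aemeasurable
      (measurable_pi_apply _).aemeasurable] at h4
    rw [h4]
    congr 1
    · exact (measurePreserving_eval μ i).map_eq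
    · exact (measurePreserving_eval μ j).map_eq
  exact (h3.comp h.mp).map_eq

theorem IL.ae2 (h : IL P X μ) (hμ : ∀ i, IsProbabilityMeasure (μ i)) (i j : Fin n)
    (hij : i ≠ j) {q : E × E → Prop} (hq : ∀ᵐ p ∂((μ i).prod (μ j)), q p) :
    ∀ᵐ ω ∂P, q (X i ω, X j ω) := by
  rw [← h.pair hμ i j hij] at hq
  exact ae_of_ae_map ((h.meas i).prodMk (h.meas j)).aemeasurable hq

end IL

/-! ### Latin pairs -/

/-- `f (·, q)` is an isomorphism from law `α` to law `ν` with inverse `g (·, q)`. -/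
structure Lat (α γ ν : Measure E) (f g : E × E → E) : Prop where
  kp : Kp α γ ν f
  meas' : Measurable g
  inv : ∀ᵐ p ∂(α.prod γ), g (f p, p.2) = p.1

theorem measurableSet_eq_sb [StandardBorelSpace E] {Ω : Type*} [MeasurableSpace Ω]
    {f g : Ω → E} (hf : Measurable f) (hg : Measurable g) : MeasurableSet {x | f x = g x} := by
  obtain ⟨φ, hφ⟩ := exists_measurableEmbedding_real E
  have : {x | f x = g x} = {x | φ (f x) = φ (g x)} := by
    ext x; exact (hφ.injective.eq_iff).symm
  rw [this]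
  exact measurableSet_eq_fun (hφ.measurable.comp hf) (hφ.measurable.comp hg)

section Lat

variable [StandardBorelSpace E] {α γ ν : Measure E} [IsProbabilityMeasure α]
  [IsProbabilityMeasure γ] [IsProbabilityMeasure ν] {f g : E × E → E}

theorem Lat.inv' (h : Lat α γ ν f g) : ∀ᵐ p ∂(ν.prod γ), f (g p, p.2) = p.1 := by
  have hf := h.kp.meas
  have hg := h.meas'
  rw [← h.kp.map, ae_map_iff (by fun_prop)
    (measurableSet_eq_sb (by fun_prop) (by fun_prop))]
  filter_upwards [h.inv] with p hp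
  simp only [hp]

theorem Lat.symm (h : Lat α γ ν f g) : Lat ν γ α g f := by
  have hf := h.kp.meas
  have hg := h.meas'
  refine ⟨⟨hg, ?_⟩, hf, h.inv'⟩
  rw [← h.kp.map, Measure.map_map (by fun_prop) (by fun_prop)]
  have : ((fun p : E × E => (g p, p.2)) ∘ fun p : E × E => (f p, p.2)) =ᵐ[α.prod γ] id := by
    filter_upwards [h.inv] with p hp
    simp [hp]
  rw [Measure.map_congr this, Measure.map_id]

/-- if the first coordinate is independent of the value, the same is true for the inverse. -/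
theorem Lat.indep_symm (h : Lat α γ ν f g) (hi : Kp γ α ν (fun p => f p.swap)) :
    Kp γ ν α (fun p => g p.swap) := by
  have hf := h.kp.meas
  have hg := h.meas'
  refine ⟨by fun_prop, ?_⟩
  -- law of `(g p, p.1)` under `ν.prod γ` is `α.prod ν`
  have h1 : (ν.prod γ).map (fun p => (g p, p.1)) = α.prod ν := by
    rw [← h.kp.map, Measure.map_map (by fun_prop) (by fun_prop)]
    have : ((fun p : E × E => (g p, p.1)) ∘ fun p : E × E => (f p, p.2)) =ᵐ[α.prod γ]
        (fun p => (p.1, f p)) := by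
      filter_upwards [h.inv] with p hp
      simp [hp]
    rw [Measure.map_congr this]
    have h2 : (fun p : E × E => (p.1, f p)) =
        Prod.swap ∘ (fun p : E × E => (f p.swap, p.2)) ∘ Prod.swap := by
      funext p; rfl
    rw [h2, ← Measure.map_map (by fun_prop) (by fun_prop),
      ← Measure.map_map (by fun_prop) (by fun_prop), Measure.prod_swap, hi.map,
      Measure.prod_swap]
  have h3 : (fun p : E × E => (g p.swap, p.2)) =
      (fun p : E × E => (g p, p.1)) ∘ Prod.swap := by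
    funext p; rfl
  rw [h3, ← Measure.map_map (by fun_prop) (by fun_prop), Measure.prod_swap, h1]

end Lat

/-! ### nested products -/

theorem mp_cons {n : ℕ} (μ : Fin (n + 1) → Measure E) [∀ i, IsProbabilityMeasure (μ i)] :
    MeasurePreserving (fun (x : Fin (n + 1) → E) => (x 0, fun j : Fin n => x j.succ))
      (Measure.pi μ) ((μ 0).prod (Measure.pi fun j : Fin n => μ j.succ)) := by
  have h := measurePreserving_piFinSuccAbove μ 0
  exact h

theorem law2 (μ : Fin 2 → Measure E) [∀ i, IsProbabilityMeasure (μ i)] :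
    MeasurePreserving (fun (x : Fin 2 → E) => (x 0, x 1)) (Measure.pi μ)
      ((μ 0).prod (μ 1)) :=
  measurePreserving_piFinTwo μ

theorem law3 (μ : Fin 3 → Measure E) [∀ i, IsProbabilityMeasure (μ i)] :
    MeasurePreserving (fun (x : Fin 3 → E) => (x 0, (x 1, x 2))) (Measure.pi μ)
      ((μ 0).prod ((μ 1).prod (μ 2))) :=
  ((MeasurePreserving.id (μ 0)).prod (law2 (fun j : Fin 2 => μ j.succ))).comp (mp_cons μ)

theorem law4 (μ : Fin 4 → Measure E) [∀ i, IsProbabilityMeasure (μ i)] :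
    MeasurePreserving (fun (x : Fin 4 → E) => (x 0, (x 1, (x 2, x 3)))) (Measure.pi μ)
      ((μ 0).prod ((μ 1).prod ((μ 2).prod (μ 3)))) :=
  ((MeasurePreserving.id (μ 0)).prod (law3 (fun j : Fin 3 => μ j.succ))).comp (mp_cons μ)

theorem law4' (μ : Fin 4 → Measure E) [∀ i, IsProbabilityMeasure (μ i)] :
    MeasurePreserving (fun (x : Fin 4 → E) => ((x 0, x 1), (x 2, x 3))) (Measure.pi μ)
      (((μ 0).prod (μ 1)).prod ((μ 2).prod (μ 3))) :=
  ((measurePreserving_prodAssoc (μ 0) (μ 1) ((μ 2).prod (μ 3))).symm _).comp (law4 μ)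

theorem law5 (μ : Fin 5 → Measure E) [∀ i, IsProbabilityMeasure (μ i)] :
    MeasurePreserving (fun (x : Fin 5 → E) => (x 0, ((x 1, x 2), (x 3, x 4)))) (Measure.pi μ)
      ((μ 0).prod (((μ 1).prod (μ 2)).prod ((μ 3).prod (μ 4)))) :=
  ((MeasurePreserving.id (μ 0)).prod (law4' (fun j : Fin 4 => μ j.succ))).comp (mp_cons μ)

theorem mp_inv {α β : Type*} [MeasurableSpace α] [MeasurableSpace β] {μ : Measure α}
    {ν : Measure β} {f : α → β} (hf : MeasurePreserving f μ ν) {g : β → α} (hg : Measurable g)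
    (hgf : ∀ x, g (f x) = x) : MeasurePreserving g ν μ := by
  refine ⟨hg, ?_⟩
  rw [← hf.map_eq, Measure.map_map hg hf.measurable]
  have : g ∘ f = id := funext hgf
  rw [this, Measure.map_id]

instance prob_vec3 {a b c : Measure E} [IsProbabilityMeasure a] [IsProbabilityMeasure b]
    [IsProbabilityMeasure c] : ∀ i, IsProbabilityMeasure ((![a, b, c] : Fin 3 → Measure E) i) := by
  intro i; fin_cases i <;> simp <;> infer_instance

instance prob_vec4 {a b c d : Measure E} [IsProbabilityMeasure a] [IsProbabilityMeasure b]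
    [IsProbabilityMeasure c] [IsProbabilityMeasure d] :
    ∀ i, IsProbabilityMeasure ((![a, b, c, d] : Fin 4 → Measure E) i) := by
  intro i; fin_cases i <;> simp <;> infer_instance

instance prob_vec5 {a b c d e : Measure E} [IsProbabilityMeasure a] [IsProbabilityMeasure b]
    [IsProbabilityMeasure c] [IsProbabilityMeasure d] [IsProbabilityMeasure e] :
    ∀ i, IsProbabilityMeasure ((![a, b, c, d, e] : Fin 5 → Measure E) i) := by
  intro i; fin_cases i <;> simp <;> infer_instance

instance prob_vec6 {a b c d e f : Measure E} [IsProbabilityMeasure a] [IsProbabilityMeasure b]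
    [IsProbabilityMeasure c] [IsProbabilityMeasure d] [IsProbabilityMeasure e]
    [IsProbabilityMeasure f] :
    ∀ i, IsProbabilityMeasure ((![a, b, c, d, e, f] : Fin 6 → Measure E) i) := by
  intro i; fin_cases i <;> simp <;> infer_instance

theorem base3 (a b c : Measure E) [IsProbabilityMeasure a] [IsProbabilityMeasure b]
    [IsProbabilityMeasure c] : IL (a.prod (b.prod c))
      ![fun x => x.1, fun x => x.2.1, fun x => x.2.2] ![a, b, c] := by
  have h := mp_inv (law3 ![a, b, c]) (g := fun x => ![x.1, x.2.1, x.2.2])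
    (by rw [measurable_pi_iff]; intro i; fin_cases i <;> simp <;> fun_prop)
    (by intro x; funext i; fin_cases i <;> rfl)
  refine (IL.of_mp h).congr (fun i => ?_) (fun _ => rfl)
  fin_cases i <;> rfl


theorem law6 (μ : Fin 6 → Measure E) [∀ i, IsProbabilityMeasure (μ i)] :
    MeasurePreserving (fun (x : Fin 6 → E) => (x 0, (x 1, ((x 2, x 3), (x 4, x 5)))))
      (Measure.pi μ)
      ((μ 0).prod ((μ 1).prod (((μ 2).prod (μ 3)).prod ((μ 4).prod (μ 5))))) :=
  ((MeasurePreserving.id (μ 0)).prod (law5 (fun j : Fin 5 => μ j.succ))).comp (mp_cons μ)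

theorem base6 (a b c d e f : Measure E) [IsProbabilityMeasure a] [IsProbabilityMeasure b]
    [IsProbabilityMeasure c] [IsProbabilityMeasure d] [IsProbabilityMeasure e]
    [IsProbabilityMeasure f] : IL (a.prod (b.prod ((c.prod d).prod (e.prod f))))
      ![fun x => x.1, fun x => x.2.1, fun x => x.2.2.1.1, fun x => x.2.2.1.2,
        fun x => x.2.2.2.1, fun x => x.2.2.2.2] ![a, b, c, d, e, f] := by
  have h := mp_inv (law6 ![a, b, c, d, e, f]) (g := fun x => ![x.1, x.2.1, x.2.2.1.1,
      x.2.2.1.2, x.2.2.2.1, x.2.2.2.2])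
    (by rw [measurable_pi_iff]; intro i; fin_cases i <;> simp <;> fun_prop)
    (by intro x; funext i; fin_cases i <;> rfl)
  refine (IL.of_mp h).congr (fun i => ?_) (fun _ => rfl)
  fin_cases i <;> rfl

/-! ### translations of a Latin pair -/

section Trans

/-- the translation defined by a Latin pair -/
def tr (f g : E × E → E) : E × (E × E) → E := fun x => f (g (x.1, x.2.1), x.2.2)

theorem measurable_tr {f g : E × E → E} (hf : Measurable f) (hg : Measurable g) :
    Measurable (tr f g) := by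
  unfold tr; fun_prop

variable [StandardBorelSpace E] {α γ ν : Measure E} [IsProbabilityMeasure α]
  [IsProbabilityMeasure γ] [IsProbabilityMeasure ν] {f g : E × E → E}

theorem tr_isTrans (h : Lat α γ ν f g) (hi : Kp γ α ν (fun p => f p.swap)) :
    IsTrans ν γ (tr f g) := by
  have hf := h.kp.meas
  have hg := h.meas'
  have htr := measurable_tr hf hg
  have b := base3 ν γ γ
  -- `(a, c, c')`
  have b1 : IL (ν.prod (γ.prod γ)) ![fun x => g (x.1, x.2.1), fun x => x.2.1, fun x => x.2.2]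
      ![α, γ, γ] := by
    refine (b.step prob_vec3 0 1 (by decide) (ν := α) (f := g) h.symm.kp).congr
      (fun i => ?_) (fun i => ?_) <;> fin_cases i <;> rfl
  have b2 : IL (ν.prod (γ.prod γ)) ![fun x => tr f g x, fun x => x.2.1, fun x => x.2.2]
      ![ν, γ, γ] := by
    refine (b1.step prob_vec3 0 2 (by decide) (ν := ν) (f := f) h.kp).congr
      (fun i => ?_) (fun i => ?_) <;> fin_cases i <;> rfl
  refine ⟨htr, ?_, ?_, ?_⟩
  · have := ((law3 ![ν, γ, γ]).comp b2.mp).map_eq
    exact this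
  · have b3 : IL (ν.prod (γ.prod γ)) ![fun x => g (x.1, x.2.1),
        fun x => f (g (x.1, x.2.1), x.2.1), fun x => x.2.2] ![α, ν, γ] := by
      refine (b1.step prob_vec3 1 0 (by decide) (ν := ν) (f := fun p => f p.swap) hi).congr
        (fun i => ?_) (fun i => ?_) <;> fin_cases i <;> rfl
    have b4 : IL (ν.prod (γ.prod γ)) ![fun x => g (x.1, x.2.1),
        fun x => f (g (x.1, x.2.1), x.2.1), fun x => tr f g x] ![α, ν, ν] := by
      refine (b3.step prob_vec3 2 0 (by decide) (ν := ν) (f := fun p => f p.swap) hi).congr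
        (fun i => ?_) (fun i => ?_) <;> fin_cases i <;> rfl
    have h5 := b4.pair prob_vec3 1 2 (by decide)
    rw [← show (ν.prod (γ.prod γ)).map (fun x => (f (g (x.1, x.2.1), x.2.1), tr f g x)) =
      ν.prod ν from h5]
    refine Measure.map_congr ?_
    have h6 := b.ae2 prob_vec3 0 1 (by decide) (q := fun p => f (g p, p.2) = p.1) h.inv'
    filter_upwards [h6] with x hx
    have hx' : f (g (x.1, x.2.1), x.2.1) = x.1 := hx
    rw [hx']
  · have h6 := b.ae2 prob_vec3 0 1 (by decide) (q := fun p => f (g p, p.2) = p.1) h.inv'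
    have h7 := b1.ae2 prob_vec3 0 2 (by decide) (q := fun p => g (f p, p.2) = p.1) h.inv
    filter_upwards [h6, h7] with x hx hx'
    have hx1 : f (g (x.1, x.2.1), x.2.1) = x.1 := hx
    have hx2 : g (f (g (x.1, x.2.1), x.2.2), x.2.2) = g (x.1, x.2.1) := hx'
    change f (g (f (g (x.1, x.2.1), x.2.2), x.2.2), x.2.1) = x.1
    rw [hx2, hx1]


end Trans

/-! ### the coarse grid -/

section Grid

/-- The coarse 3 × 3 grid (rows `(a, b, p)`, `(c, d, u)`, `(v, y, z)`), with its laws and
line functions. -/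
structure CG (α β π γ δ υ ν η ζ : Measure E)
    (Cm Am Ym Bm F Fi Pm Pi R Ri Zm Vm : E × E → E) : Prop where
  cv : Lat α γ ν Cm Am
  cv' : Kp γ α ν (fun p => Cm p.swap)
  yy : Lat β δ η Ym Bm
  yy' : Kp δ β η (fun p => Ym p.swap)
  fz : Lat π υ ζ F Fi
  pp : Lat α β π Pm Pi
  rr : Lat γ δ υ R Ri
  rr' : Kp δ γ υ (fun p => R p.swap)
  zz : Lat ν η ζ Zm Vm
  zz' : Kp η ν ζ (fun p => Zm p.swap)
  med : ∀ᵐ x ∂(Measure.pi ![α, β, γ, δ]),
    F (Pm (x 0, x 1), R (x 2, x 3)) = Zm (Cm (x 0, x 2), Ym (x 1, x 3))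

variable [StandardBorelSpace E] {α β π γ δ υ ν η ζ : Measure E} [IsProbabilityMeasure α]
  [IsProbabilityMeasure β] [IsProbabilityMeasure π] [IsProbabilityMeasure γ]
  [IsProbabilityMeasure δ] [IsProbabilityMeasure υ] [IsProbabilityMeasure ν]
  [IsProbabilityMeasure η] [IsProbabilityMeasure ζ]
  {Cm Am Ym Bm F Fi Pm Pi R Ri Zm Vm : E × E → E}
  (h : CG α β π γ δ υ ν η ζ Cm Am Ym Bm F Fi Pm Pi R Ri Zm Vm)
include h

theorem CG.n1 {Ω : Type*} [MeasurableSpace Ω] {P : Measure Ω} {v c y d : Ω → E}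
    (b : IL P ![v, c, y, d] ![ν, γ, η, δ]) :
    ∀ᵐ ω ∂P, Pm (Am (v ω, c ω), Bm (y ω, d ω)) = Fi (Zm (v ω, y ω), R (c ω, d ω)) ∧
      Pi (Pm (Am (v ω, c ω), Bm (y ω, d ω)), Bm (y ω, d ω)) = Am (v ω, c ω) := by
  have b1 : IL P ![fun ω => Am (v ω, c ω), c, y, d] ![α, γ, η, δ] := by
    refine (b.step prob_vec4 0 1 (by decide) (ν := α) (f := Am) h.cv.symm.kp).congr
      (fun i => ?_) (fun i => ?_) <;> fin_cases i <;> rfl
  have b2 : IL P ![fun ω => Am (v ω, c ω), c, fun ω => Bm (y ω, d ω), d] ![α, γ, β, δ] := by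
    refine (b1.step prob_vec4 2 3 (by decide) (ν := β) (f := Bm) h.yy.symm.kp).congr
      (fun i => ?_) (fun i => ?_) <;> fin_cases i <;> rfl
  have b3 : IL P ![fun ω => Am (v ω, c ω), fun ω => Bm (y ω, d ω), c, d] ![α, β, γ, δ] := by
    refine (b2.sel prob_vec4 ![0, 2, 1, 3] (by decide)).congr
      (fun i => ?_) (fun i => ?_) <;> fin_cases i <;> rfl
  have b4 : IL P ![fun ω => Pm (Am (v ω, c ω), Bm (y ω, d ω)), fun ω => Bm (y ω, d ω), c, d]
      ![π, β, γ, δ] := by
    refine (b3.step prob_vec4 0 1 (by decide) (ν := π) (f := Pm) h.pp.kp).congr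
      (fun i => ?_) (fun i => ?_) <;> fin_cases i <;> rfl
  have b5 : IL P ![fun ω => Pm (Am (v ω, c ω), Bm (y ω, d ω)), fun ω => Bm (y ω, d ω),
      fun ω => R (c ω, d ω), d] ![π, β, υ, δ] := by
    refine (b4.step prob_vec4 2 3 (by decide) (ν := υ) (f := R) h.rr.kp).congr
      (fun i => ?_) (fun i => ?_) <;> fin_cases i <;> rfl
  have e1 := b3.ae h.med
  have e2 := b.ae2 prob_vec4 0 1 (by decide) (q := fun p => Cm (Am p, p.2) = p.1) h.cv.inv'
  have e3 := b.ae2 prob_vec4 2 3 (by decide) (q := fun p => Ym (Bm p, p.2) = p.1) h.yy.inv'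
  have e4 := b5.ae2 prob_vec4 0 2 (by decide) (q := fun p => Fi (F p, p.2) = p.1) h.fz.inv
  have e5 := b3.ae2 prob_vec4 0 1 (by decide) (q := fun p => Pi (Pm p, p.2) = p.1) h.pp.inv
  filter_upwards [e1, e2, e3, e4, e5] with ω k1 k2 k3 k4 k5
  have k1' : F (Pm (Am (v ω, c ω), Bm (y ω, d ω)), R (c ω, d ω)) =
      Zm (Cm (Am (v ω, c ω), c ω), Ym (Bm (y ω, d ω), d ω)) := k1
  have k2' : Cm (Am (v ω, c ω), c ω) = v ω := k2
  have k3' : Ym (Bm (y ω, d ω), d ω) = y ω := k3
  have k4' : Fi (F (Pm (Am (v ω, c ω), Bm (y ω, d ω)), R (c ω, d ω)), R (c ω, d ω)) =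
      Pm (Am (v ω, c ω), Bm (y ω, d ω)) := k4
  refine ⟨?_, k5⟩
  rw [← k4', k1', k2', k3']

theorem CG.n3 {Ω : Type*} [MeasurableSpace Ω] {P : Measure Ω} {v c y y1 d : Ω → E}
    (b : IL P ![v, c, y, y1, d] ![ν, γ, η, η, δ]) :
    ∀ᵐ ω ∂P, Am (Vm (Zm (v ω, y ω), y1 ω), c ω) =
      Pi (Pm (Am (v ω, c ω), Bm (y ω, d ω)), Bm (y1 ω, d ω)) := by
  have b1 : IL P ![fun ω => Zm (v ω, y ω), c, y, y1, d] ![ζ, γ, η, η, δ] := by
    refine (b.step prob_vec5 0 2 (by decide) (ν := ζ) (f := Zm) h.zz.kp).congr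
      (fun i => ?_) (fun i => ?_) <;> fin_cases i <;> rfl
  have b2 : IL P ![fun ω => Vm (Zm (v ω, y ω), y1 ω), c, y, y1, d] ![ν, γ, η, η, δ] := by
    refine (b1.step prob_vec5 0 3 (by decide) (ν := ν) (f := Vm) h.zz.symm.kp).congr
      (fun i => ?_) (fun i => ?_) <;> fin_cases i <;> rfl
  have b3 : IL P ![v, c, y, d] ![ν, γ, η, δ] := by
    refine (b.sel prob_vec5 ![0, 1, 2, 4] (by decide)).congr
      (fun i => ?_) (fun i => ?_) <;> fin_cases i <;> rfl
  have b4 : IL P ![fun ω => Vm (Zm (v ω, y ω), y1 ω), c, y1, d] ![ν, γ, η, δ] := by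
    refine (b2.sel prob_vec5 ![0, 1, 3, 4] (by decide)).congr
      (fun i => ?_) (fun i => ?_) <;> fin_cases i <;> rfl
  have e1 := h.n1 b3
  have e2 := h.n1 b4
  have e3 := b1.ae2 prob_vec5 0 3 (by decide) (q := fun p => Zm (Vm p, p.2) = p.1) h.zz.inv'
  filter_upwards [e1, e2, e3] with ω k1 k2 k3
  have k3' : Zm (Vm (Zm (v ω, y ω), y1 ω), y1 ω) = Zm (v ω, y ω) := k3
  rw [← k2.2, k2.1, k3', k1.1]


theorem CG.transP : IsTrans ν γ (tr Cm Am) := tr_isTrans h.cv h.cv'

theorem CG.transL : IsTrans ν η (tr Vm Zm) :=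
  tr_isTrans h.zz.symm (h.zz.indep_symm h.zz')

theorem CG.comm : ∀ᵐ x ∂(ν.prod ((γ.prod γ).prod (η.prod η))),
    tr Cm Am (tr Vm Zm (x.1, x.2.2), x.2.1) = tr Vm Zm (tr Cm Am (x.1, x.2.1), x.2.2) := by
  -- add an auxiliary variable of law `δ`
  suffices H : ∀ᵐ p ∂(δ.prod (ν.prod ((γ.prod γ).prod (η.prod η)))),
      tr Cm Am (tr Vm Zm (p.2.1, p.2.2.2), p.2.2.1) =
        tr Vm Zm (tr Cm Am (p.2.1, p.2.2.1), p.2.2.2) by
    obtain ⟨d, hd⟩ := (Measure.ae_ae_of_ae_prod H).exists
    exact hd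
  have b := base6 δ ν γ γ η η
  set P := δ.prod (ν.prod ((γ.prod γ).prod (η.prod η))) with hP
  set d : E × (E × ((E × E) × (E × E))) → E := fun x => x.1
  set v : E × (E × ((E × E) × (E × E))) → E := fun x => x.2.1
  set c : E × (E × ((E × E) × (E × E))) → E := fun x => x.2.2.1.1
  set c1 : E × (E × ((E × E) × (E × E))) → E := fun x => x.2.2.1.2
  set y : E × (E × ((E × E) × (E × E))) → E := fun x => x.2.2.2.1
  set y1 : E × (E × ((E × E) × (E × E))) → E := fun x => x.2.2.2.2
  have b1 : IL P ![d, fun ω => Am (v ω, c ω), c, c1, y, y1] ![δ, α, γ, γ, η, η] := by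
    refine (b.step prob_vec6 1 2 (by decide) (ν := α) (f := Am) h.cv.symm.kp).congr
      (fun i => ?_) (fun i => ?_) <;> fin_cases i <;> rfl
  have b2 : IL P ![d, fun ω => Cm (Am (v ω, c ω), c1 ω), c, c1, y, y1]
      ![δ, ν, γ, γ, η, η] := by
    refine (b1.step prob_vec6 1 3 (by decide) (ν := ν) (f := Cm) h.cv.kp).congr
      (fun i => ?_) (fun i => ?_) <;> fin_cases i <;> rfl
  have b3 : IL P ![v, c, y, y1, d] ![ν, γ, η, η, δ] := by
    refine (b.sel prob_vec6 ![1, 2, 4, 5, 0] (by decide)).congr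
      (fun i => ?_) (fun i => ?_) <;> fin_cases i <;> rfl
  have b4 : IL P ![fun ω => Cm (Am (v ω, c ω), c1 ω), c1, y, y1, d] ![ν, γ, η, η, δ] := by
    refine (b2.sel prob_vec6 ![1, 3, 4, 5, 0] (by decide)).congr
      (fun i => ?_) (fun i => ?_) <;> fin_cases i <;> rfl
  have b5 : IL P ![fun ω => Zm (Cm (Am (v ω, c ω), c1 ω), y ω), c1, y, y1, d]
      ![ζ, γ, η, η, δ] := by
    refine (b4.step prob_vec5 0 2 (by decide) (ν := ζ) (f := Zm) h.zz.kp).congr
      (fun i => ?_) (fun i => ?_) <;> fin_cases i <;> rfl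
  have b6 : IL P ![fun ω => Vm (Zm (Cm (Am (v ω, c ω), c1 ω), y ω), y1 ω), c1, y, y1, d]
      ![ν, γ, η, η, δ] := by
    refine (b5.step prob_vec5 0 3 (by decide) (ν := ν) (f := Vm) h.zz.symm.kp).congr
      (fun i => ?_) (fun i => ?_) <;> fin_cases i <;> rfl
  have e1 := h.n3 b3
  have e2 := h.n3 b4
  have e3 := b1.ae2 prob_vec6 1 3 (by decide) (q := fun p => Am (Cm p, p.2) = p.1) h.cv.inv
  have e4 := b6.ae2 prob_vec5 0 1 (by decide) (q := fun p => Cm (Am p, p.2) = p.1) h.cv.inv'
  filter_upwards [e1, e2, e3, e4] with ω k1 k2 k3 k4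
  have k3' : Am (Cm (Am (v ω, c ω), c1 ω), c1 ω) = Am (v ω, c ω) := k3
  have k4' : Cm (Am (Vm (Zm (Cm (Am (v ω, c ω), c1 ω), y ω), y1 ω), c1 ω), c1 ω) =
    Vm (Zm (Cm (Am (v ω, c ω), c1 ω), y ω), y1 ω) := k4
  change Cm (Am (Vm (Zm (v ω, y ω), y1 ω), c ω), c1 ω) =
    Vm (Zm (Cm (Am (v ω, c ω), c1 ω), y ω), y1 ω)
  rw [← k4', k2, k1, k3']

/-- the coupling law of the two translation parameters -/
noncomputable def coup (β γ δ : Measure E) (Ym R Ri : E × E → E) :
    Measure ((E × E) × (E × E)) :=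
  (Measure.pi ![β, γ, δ, δ]).map (fun x =>
    ((x 1, Ri (R (x 1, x 2), x 3)), (Ym (x 0, x 2), Ym (x 0, x 3))))

theorem CG.coup_fst : (coup β γ δ Ym R Ri).map Prod.fst = γ.prod γ := by
  have hR := h.rr.kp.meas
  have hRi := h.rr.meas'
  have hY := h.yy.kp.meas
  have b : IL (Measure.pi ![β, γ, δ, δ]) ![fun x => x 0, fun x => x 1, fun x => x 2,
      fun x => x 3] ![β, γ, δ, δ] := by
    refine (IL.of_mp (MeasurePreserving.id _)).congr (fun i => ?_) (fun i => ?_) <;>
      fin_cases i <;> rfl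
  have b1 : IL (Measure.pi ![β, γ, δ, δ]) ![fun x => x 0, fun x => x 1,
      fun x => R (x 1, x 2), fun x => x 3] ![β, γ, υ, δ] := by
    refine (b.step prob_vec4 2 1 (by decide) (ν := υ) (f := fun p => R p.swap) h.rr').congr
      (fun i => ?_) (fun i => ?_) <;> fin_cases i <;> rfl
  have b2 : IL (Measure.pi ![β, γ, δ, δ]) ![fun x => x 0, fun x => x 1,
      fun x => Ri (R (x 1, x 2), x 3), fun x => x 3] ![β, γ, γ, δ] := by
    refine (b1.step prob_vec4 2 3 (by decide) (ν := γ) (f := Ri) h.rr.symm.kp).congr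
      (fun i => ?_) (fun i => ?_) <;> fin_cases i <;> rfl
  have h1 := b2.pair prob_vec4 1 2 (by decide)
  unfold coup
  rw [Measure.map_map measurable_fst (by fun_prop)]
  exact h1

theorem CG.coup_snd : (coup β γ δ Ym R Ri).map Prod.snd = η.prod η := by
  have hR := h.rr.kp.meas
  have hRi := h.rr.meas'
  have hY := h.yy.kp.meas
  have b : IL (Measure.pi ![β, γ, δ, δ]) ![fun x => x 0, fun x => x 1, fun x => x 2,
      fun x => x 3] ![β, γ, δ, δ] := by
    refine (IL.of_mp (MeasurePreserving.id _)).congr (fun i => ?_) (fun i => ?_) <;>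
      fin_cases i <;> rfl
  have b1 : IL (Measure.pi ![β, γ, δ, δ]) ![fun x => x 0, fun x => x 1,
      fun x => Ym (x 0, x 2), fun x => x 3] ![β, γ, η, δ] := by
    refine (b.step prob_vec4 2 0 (by decide) (ν := η) (f := fun p => Ym p.swap) h.yy').congr
      (fun i => ?_) (fun i => ?_) <;> fin_cases i <;> rfl
  have b2 : IL (Measure.pi ![β, γ, δ, δ]) ![fun x => x 0, fun x => x 1,
      fun x => Ym (x 0, x 2), fun x => Ym (x 0, x 3)] ![β, γ, η, η] := by
    refine (b1.step prob_vec4 3 0 (by decide) (ν := η) (f := fun p => Ym p.swap) h.yy').congr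
      (fun i => ?_) (fun i => ?_) <;> fin_cases i <;> rfl
  have h1 := b2.pair prob_vec4 2 3 (by decide)
  unfold coup
  rw [Measure.map_map measurable_snd (by fun_prop)]
  exact h1

theorem CG.agree : ∀ᵐ x ∂(ν.prod (coup β γ δ Ym R Ri)),
    tr Cm Am (x.1, x.2.1) = tr Vm Zm (x.1, x.2.2) := by
  have hR := h.rr.kp.meas
  have hRi := h.rr.meas'
  have hY := h.yy.kp.meas
  have hC := h.cv.kp.meas
  have hA := h.cv.meas'
  have hZ := h.zz.kp.meas
  have hV := h.zz.meas'
  set P := (Measure.pi ![α, β, γ, δ, δ] : Measure (Fin 5 → E)) with hP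
  have b : IL P ![fun x => x 0, fun x => x 1, fun x => x 2,
      fun x => x 3, fun x => x 4] ![α, β, γ, δ, δ] := by
    refine (IL.of_mp (MeasurePreserving.id _)).congr (fun i => ?_) (fun i => ?_) <;>
      fin_cases i <;> rfl
  -- the law of `(v, parameters)`
  have bv : IL P ![fun x => Cm (x 0, x 2), fun x => x 1, fun x => x 2,
      fun x => x 3, fun x => x 4] ![ν, β, γ, δ, δ] := by
    refine (b.step prob_vec5 0 2 (by decide) (ν := ν) (f := Cm) h.cv.kp).congr
      (fun i => ?_) (fun i => ?_) <;> fin_cases i <;> rfl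
  have hlaw : MeasurePreserving (fun x : Fin 5 → E => (Cm (x 0, x 2),
      ((x 2, Ri (R (x 2, x 3), x 4)), (Ym (x 1, x 3), Ym (x 1, x 4))))) P
      (ν.prod (coup β γ δ Ym R Ri)) := by
    have h1 := (mp_cons ![ν, β, γ, δ, δ]).comp bv.mp
    have h2 : MeasurePreserving (fun x : Fin 4 → E =>
      ((x 1, Ri (R (x 1, x 2), x 3)), (Ym (x 0, x 2), Ym (x 0, x 3))))
      (Measure.pi ![β, γ, δ, δ]) (coup β γ δ Ym R Ri) := ⟨by fun_prop, rfl⟩
    have : IsProbabilityMeasure (coup β γ δ Ym R Ri) := by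
      unfold coup
      exact Measure.isProbabilityMeasure_map (by fun_prop)
    have h3 := (MeasurePreserving.id ν).prod h2
    exact h3.comp h1
  have hms : MeasurableSet {x : E × ((E × E) × (E × E)) |
      tr Cm Am (x.1, x.2.1) = tr Vm Zm (x.1, x.2.2)} :=
    measurableSet_eq_sb ((measurable_tr hC hA).comp (by fun_prop))
      ((measurable_tr hV hZ).comp (by fun_prop))
  rw [← hlaw.map_eq, ae_map_iff hlaw.measurable.aemeasurable hms]
  -- the identities
  have b1 : IL P ![fun x => x 0, fun x => x 1, fun x => R (x 2, x 3),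
      fun x => x 3, fun x => x 4] ![α, β, υ, δ, δ] := by
    refine (b.step prob_vec5 2 3 (by decide) (ν := υ) (f := R) h.rr.kp).congr
      (fun i => ?_) (fun i => ?_) <;> fin_cases i <;> rfl
  have b2 : IL P ![fun x => x 0, fun x => x 1, fun x => Ri (R (x 2, x 3), x 4),
      fun x => x 3, fun x => x 4] ![α, β, γ, δ, δ] := by
    refine (b1.step prob_vec5 2 4 (by decide) (ν := γ) (f := Ri) h.rr.symm.kp).congr
      (fun i => ?_) (fun i => ?_) <;> fin_cases i <;> rfl
  have b3 : IL P ![fun x => x 0, fun x => x 1, fun x => Ri (R (x 2, x 3), x 4),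
      fun x => x 4] ![α, β, γ, δ] := by
    refine (b2.sel prob_vec5 ![0, 1, 2, 4] (by decide)).congr
      (fun i => ?_) (fun i => ?_) <;> fin_cases i <;> rfl
  have b4 : IL P ![fun x => x 0, fun x => x 1, fun x => x 2, fun x => x 3]
      ![α, β, γ, δ] := by
    refine (b.sel prob_vec5 ![0, 1, 2, 3] (by decide)).congr
      (fun i => ?_) (fun i => ?_) <;> fin_cases i <;> rfl
  have b5 : IL P ![fun x => Cm (x 0, Ri (R (x 2, x 3), x 4)), fun x => x 1,
      fun x => Ri (R (x 2, x 3), x 4), fun x => x 4] ![ν, β, γ, δ] := by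
    refine (b3.step prob_vec4 0 2 (by decide) (ν := ν) (f := Cm) h.cv.kp).congr
      (fun i => ?_) (fun i => ?_) <;> fin_cases i <;> rfl
  have b6 : IL P ![fun x => Cm (x 0, Ri (R (x 2, x 3), x 4)), fun x => Ym (x 1, x 4),
      fun x => Ri (R (x 2, x 3), x 4), fun x => x 4] ![ν, η, γ, δ] := by
    refine (b5.step prob_vec4 1 3 (by decide) (ν := η) (f := Ym) h.yy.kp).congr
      (fun i => ?_) (fun i => ?_) <;> fin_cases i <;> rfl
  have e1 := b4.ae h.med
  have e2 := b3.ae h.med
  have e3 := b1.ae2 prob_vec5 2 4 (by decide) (q := fun p => R (Ri p, p.2) = p.1) h.rr.inv'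
  have e4 := b6.ae2 prob_vec4 0 1 (by decide) (q := fun p => Vm (Zm p, p.2) = p.1) h.zz.inv
  have e5 := b.ae2 prob_vec5 0 2 (by decide) (q := fun p => Am (Cm p, p.2) = p.1) h.cv.inv
  filter_upwards [e1, e2, e3, e4, e5] with x k1 k2 k3 k4 k5
  have k1' : F (Pm (x 0, x 1), R (x 2, x 3)) = Zm (Cm (x 0, x 2), Ym (x 1, x 3)) := k1
  have k2' : F (Pm (x 0, x 1), R (Ri (R (x 2, x 3), x 4), x 4)) =
    Zm (Cm (x 0, Ri (R (x 2, x 3), x 4)), Ym (x 1, x 4)) := k2
  have k3' : R (Ri (R (x 2, x 3), x 4), x 4) = R (x 2, x 3) := k3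
  have k4' : Vm (Zm (Cm (x 0, Ri (R (x 2, x 3), x 4)), Ym (x 1, x 4)), Ym (x 1, x 4)) =
    Cm (x 0, Ri (R (x 2, x 3), x 4)) := k4
  have k5' : Am (Cm (x 0, x 2), x 2) = x 0 := k5
  change Cm (Am (Cm (x 0, x 2), x 2), Ri (R (x 2, x 3), x 4)) =
    Vm (Zm (Cm (x 0, x 2), Ym (x 1, x 3)), Ym (x 1, x 4))
  have k6 : Zm (Cm (x 0, x 2), Ym (x 1, x 3)) =
      Zm (Cm (x 0, Ri (R (x 2, x 3), x 4)), Ym (x 1, x 4)) := by
    rw [← k1', ← k2', k3']
  rw [k5', k6, k4']

end Grid

end Med

end Vale.Agent.P102.RM
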