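import Vale.Agent.P102.RM.MedB

/-!
P102, block MED, part C: the coarse characters are total.
-/

namespace Vale.Agent.P102.RM

set_option linter.unusedSectionVars false

open MeasureTheory ProbabilityTheory
open scoped ComplexConjugate InnerProductSpace

namespace Med

variable {E : Type*} [MeasurableSpace E]

/-- coarse characters: `f (Cm (a, c)) = G a * χ c`. -/
def CChar (α γ : Measure E) (Cm : E × E → E) : Set (E → ℂ) :=
  {f | Measurable f ∧ (∀ v, ‖f v‖ = 1) ∧ ∃ G χ : E → ℂ, Measurable G ∧ Measurable χ ∧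
    (∀ v, ‖G v‖ = 1) ∧ (∀ v, ‖χ v‖ = 1) ∧ ∀ᵐ p ∂(α.prod γ), f (Cm p) = G p.1 * χ p.2}

theorem isProb_of_fst {α β : Type*} [MeasurableSpace α] [MeasurableSpace β]
    {Q : Measure (α × β)} {μ : Measure α} [IsProbabilityMeasure μ]
    (h : Q.map Prod.fst = μ) : IsProbabilityMeasure Q := by
  constructor
  have h1 : (Q.map Prod.fst) Set.univ = 1 := by rw [h]; exact measure_univ
  rwa [Measure.map_apply measurable_fst MeasurableSet.univ, Set.preimage_univ] at h1

section

variable [StandardBorelSpace E] {α β π γ δ υ ν η ζ : Measure E} [IsProbabilityMeasure α]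
  [IsProbabilityMeasure β] [IsProbabilityMeasure π] [IsProbabilityMeasure γ]
  [IsProbabilityMeasure δ] [IsProbabilityMeasure υ] [IsProbabilityMeasure ν]
  [IsProbabilityMeasure η] [IsProbabilityMeasure ζ]
  {Cm Am Ym Bm F Fi Pm Pi R Ri Zm Vm : E × E → E}
  (h : CG α β π γ δ υ ν η ζ Cm Am Ym Bm F Fi Pm Pi R Ri Zm Vm)
include h

/-- eigenfunctions of the `L` family are eigenfunctions of the `P` family. -/
theorem CG.transfer {f : E → ℂ} (hf : Measurable f) (hf1 : ∀ v, ‖f v‖ = 1)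
    {ψ : E × E → ℂ} (hψ : ∀ᵐ x ∂(ν.prod (η.prod η)), f (tr Vm Zm x) = ψ x.2 * f x.1) :
    ∃ χ : E × E → ℂ, Measurable χ ∧
      ∀ᵐ x ∂(ν.prod (γ.prod γ)), f (tr Cm Am x) = χ x.2 * f x.1 := by
  have hC := h.cv.kp.meas
  have hA := h.cv.meas'
  have htr : Measurable (tr Cm Am) := measurable_tr hC hA
  set Q := coup β γ δ Ym R Ri with hQ
  have hQp : IsProbabilityMeasure Q := isProb_of_fst h.coup_fst
  have hm1 : MeasurePreserving (Prod.map (id : E → E) (Prod.fst : (E × E) × (E × E) → E × E))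
      (ν.prod Q) (ν.prod (γ.prod γ)) :=
    (MeasurePreserving.id ν).prod ⟨measurable_fst, h.coup_fst⟩
  have hm2 : MeasurePreserving (Prod.map (id : E → E) (Prod.snd : (E × E) × (E × E) → E × E))
      (ν.prod Q) (ν.prod (η.prod η)) :=
    (MeasurePreserving.id ν).prod ⟨measurable_snd, h.coup_snd⟩
  have e1 : ∀ᵐ x ∂(ν.prod Q), f (tr Cm Am (x.1, x.2.1)) * conj (f x.1) = ψ x.2.2 := by
    have h1 := hm2.quasiMeasurePreserving.ae hψ
    filter_upwards [h.agree, h1] with x k1 k2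
    have k2' : f (tr Vm Zm (x.1, x.2.2)) = ψ x.2.2 * f x.1 := k2
    rw [k1, k2', mul_assoc, Complex.mul_conj, Complex.normSq_eq_norm_sq, hf1]
    simp
  -- the weight
  let χ : E × E → ℂ := fun cc => ∫ v, f (tr Cm Am (v, cc)) * conj (f v) ∂ν
  have hΦ : Measurable (fun x : (E × E) × E => f (tr Cm Am (x.2, x.1)) * conj (f x.2)) := by
    have h1 : Measurable (fun x : (E × E) × E => f (tr Cm Am (x.2, x.1))) :=
      hf.comp (htr.comp (by fun_prop))
    have h2 : Measurable (fun x : (E × E) × E => conj (f x.2)) :=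
      Complex.continuous_conj.measurable.comp (hf.comp measurable_snd)
    exact h1.mul h2
  have hχ : Measurable χ := (hΦ.stronglyMeasurable.integral_prod_right (ν := ν)).measurable
  refine ⟨χ, hχ, ?_⟩
  have e2 : ∀ᵐ x ∂(ν.prod Q), f (tr Cm Am (x.1, x.2.1)) = χ x.2.1 * f x.1 := by
    -- for almost every parameter the function is constant in `v`
    have e3 : ∀ᵐ z ∂Q, ∀ᵐ v ∂ν, f (tr Cm Am (v, z.1)) * conj (f v) = ψ z.2 := by
      have h1 : ∀ᵐ x ∂(Q.prod ν), f (tr Cm Am (x.2, x.1.1)) * conj (f x.2) = ψ x.1.2 :=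
        (Measure.measurePreserving_swap (μ := Q) (ν := ν)).quasiMeasurePreserving.ae e1
      exact Measure.ae_ae_of_ae_prod h1
    have e4 : ∀ᵐ z ∂Q, χ z.1 = ψ z.2 := by
      filter_upwards [e3] with z hz
      change ∫ v, f (tr Cm Am (v, z.1)) * conj (f v) ∂ν = ψ z.2
      rw [integral_congr_ae hz]
      simp
    have e5 := (measurePreserving_snd (μ := ν) (ν := Q)).quasiMeasurePreserving.ae e4
    filter_upwards [e1, e5] with x k1 k2
    have k2' : χ x.2.1 = ψ x.2.2 := k2
    rw [k2', ← k1, mul_assoc, mul_comm (conj (f x.1)), Complex.mul_conj,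
      Complex.normSq_eq_norm_sq, hf1]
    simp
  have hms : MeasurableSet {x : E × (E × E) | f (tr Cm Am x) = χ x.2 * f x.1} :=
    measurableSet_eq_fun (hf.comp htr) ((hχ.comp measurable_snd).mul (hf.comp measurable_fst))
  rw [← hm1.map_eq, ae_map_iff hm1.measurable.aemeasurable hms]
  exact e2

theorem CG.mem_cchar {f : E → ℂ} (hf : Measurable f) (hf1 : ∀ v, ‖f v‖ = 1)
    {ψ : E × E → ℂ} (hψ : ∀ᵐ x ∂(ν.prod (η.prod η)), f (tr Vm Zm x) = ψ x.2 * f x.1) :
    f ∈ CChar α γ Cm := by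
  obtain ⟨χ, hχ, e1⟩ := h.transfer hf hf1 hψ
  have hC := h.cv.kp.meas
  -- on `(c, (a, c'))`
  have b := base3 γ α γ
  have b1 : IL (γ.prod (α.prod γ)) ![fun x => Cm (x.2.1, x.1), fun x => x.1, fun x => x.2.2]
      ![ν, γ, γ] := by
    have b0 : IL (γ.prod (α.prod γ)) ![fun x => x.2.1, fun x => x.1, fun x => x.2.2]
        ![α, γ, γ] := by
      refine (b.sel prob_vec3 ![1, 0, 2] (by decide)).congr
        (fun i => ?_) (fun i => ?_) <;> fin_cases i <;> rfl
    refine (b0.step prob_vec3 0 1 (by decide) (ν := ν) (f := Cm) h.cv.kp).congr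
      (fun i => ?_) (fun i => ?_) <;> fin_cases i <;> rfl
  have hm : MeasurePreserving (fun x : E × (E × E) => (Cm (x.2.1, x.1), (x.1, x.2.2)))
      (γ.prod (α.prod γ)) (ν.prod (γ.prod γ)) := (law3 ![ν, γ, γ]).comp b1.mp
  have e2 := hm.quasiMeasurePreserving.ae e1
  have e3 := b.ae2 prob_vec3 1 0 (by decide) (q := fun p => Am (Cm p, p.2) = p.1) h.cv.inv
  have e4 : ∀ᵐ x ∂(γ.prod (α.prod γ)), f (Cm x.2) = f (Cm (x.2.1, x.1)) * χ (x.1, x.2.2) := by
    filter_upwards [e2, e3] with x k1 k2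
    have k1' : f (Cm (Am (Cm (x.2.1, x.1), x.1), x.2.2)) =
      χ (x.1, x.2.2) * f (Cm (x.2.1, x.1)) := k1
    have k2' : Am (Cm (x.2.1, x.1), x.1) = x.2.1 := k2
    rw [k2'] at k1'
    rw [mul_comm]
    exact k1'
  obtain ⟨c, hc⟩ := (Measure.ae_ae_of_ae_prod e4).exists
  classical
  refine ⟨hf, hf1, fun a => f (Cm (a, c)), fun c' => if ‖χ (c, c')‖ = 1 then χ (c, c') else 1,
    hf.comp (hC.comp (by fun_prop)), ?_, fun _ => hf1 _, ?_, ?_⟩
  · have h1 : Measurable (fun c' => χ (c, c')) := hχ.comp (by fun_prop)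
    exact Measurable.ite (measurableSet_eq_fun h1.norm measurable_const) h1 measurable_const
  · intro c'
    by_cases h1 : ‖χ (c, c')‖ = 1
    · simp [h1]
    · simp [h1]
  · filter_upwards [hc] with p hp
    have hp' : f (Cm p) = f (Cm (p.1, c)) * χ (c, p.2) := hp
    have h1 : ‖χ (c, p.2)‖ = 1 := by
      have := congrArg norm hp'
      rw [norm_mul, hf1, hf1, one_mul] at this
      exact this.symm
    simp only [h1, if_true]
    exact hp'

/-- **the coarse characters are total.** -/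
theorem CG.total {g : E → ℂ} (hg : MemLp g 2 ν)
    (h0 : ∀ f ∈ CChar α γ Cm, ∫ v, g v * conj (f v) ∂ν = 0) : g =ᵐ[ν] 0 := by
  have hQp : IsProbabilityMeasure (coup β γ δ Ym R Ri) := isProb_of_fst h.coup_fst
  have htop := medA h.transP h.transL h.comm (coup β γ δ Ym R Ri) h.coup_fst h.coup_snd h.agree
  rw [Submodule.topologicalClosure_eq_top_iff] at htop
  have hmem : hg.toLp g ∈ (Submodule.span ℂ (UEig ν η (tr Vm Zm)))ᗮ := by
    rw [Submodule.mem_orthogonal]
    intro u hu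
    induction hu using Submodule.span_induction with
    | mem F hF =>
      obtain ⟨f, hf, hf1, hFf, ψ, -, -, hψ⟩ := hF
      have h1 := h0 f (h.mem_cchar hf hf1 hψ)
      rw [L2.inner_def, ← h1]
      refine integral_congr_ae ?_
      filter_upwards [hFf, hg.coeFn_toLp] with v k1 k2
      rw [RCLike.inner_apply, k1, k2]
    | zero => simp
    | add a b _ _ ha hb => rw [inner_add_left, ha, hb, add_zero]
    | smul c a _ ha => rw [inner_smul_left, ha, mul_zero]
  rw [htop, Submodule.mem_bot] at hmem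
  have h2 := hg.coeFn_toLp
  rw [hmem] at h2
  exact h2.symm.trans (Lp.coeFn_zero _ _ _)

end

end Med

end Vale.Agent.P102.RM
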