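import Vale.Agent.P102.RM.MedA
import Vale.Agent.P102.RM.Defs

/-!
Static mediality theorem, last conversion: a total family of unimodular translation
eigenfunctions gives a total family of characters of a line.
-/

namespace Vale.Agent.P102.RM

open MeasureTheory ENNReal Filter
open scoped InnerProductSpace ComplexConjugate

section Conv

variable {X C U : Type*} [MeasurableSpace X] [MeasurableSpace C] [MeasurableSpace U]
  {α : Measure X} {γ : Measure C} {ν : Measure U} [IsProbabilityMeasure α]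
  [IsProbabilityMeasure γ] [IsProbabilityMeasure ν]

omit [IsProbabilityMeasure ν] in
/-- the transport of `α ⊗ (γ ⊗ γ)` by `f` in the first variables -/
theorem mp_transport {f : X × C → U} (hf : Measurable f)
    (hmp : (α.prod γ).map (fun t => (f t, t.2)) = ν.prod γ) :
    MeasurePreserving (fun t : X × (C × C) => (f (t.1, t.2.1), t.2)) (α.prod (γ.prod γ))
      (ν.prod (γ.prod γ)) := by
  have h1 : MeasurePreserving (fun t : X × C => (f t, t.2)) (α.prod γ) (ν.prod γ) :=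
    ⟨hf.prodMk measurable_snd, hmp⟩
  have h2 := (measurePreserving_prodAssoc ν γ γ).comp
    ((h1.prod (MeasurePreserving.id γ)).comp (measurePreserving_prodAssoc α γ γ).symm)
  exact h2

/-- reordering of the variables -/
theorem mp_reorder :
    MeasurePreserving (fun t : C × (X × C) => (t.2.1, (t.1, t.2.2))) (γ.prod (α.prod γ))
      (α.prod (γ.prod γ)) := by
  have h2 := (measurePreserving_prodAssoc α γ γ).comp
    (((Measure.measurePreserving_swap (μ := γ) (ν := α)).prod (MeasurePreserving.id γ)).comp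
      (measurePreserving_prodAssoc γ α γ).symm)
  exact h2

omit [IsProbabilityMeasure ν] in
/-- a translation eigenfunction splits over the line -/
theorem split_of_UEig {f : X × C → U} (hf : Measurable f)
    (hmp : (α.prod γ).map (fun t => (f t, t.2)) = ν.prod γ) {P : U × (C × C) → U}
    (hP : ∀ᵐ t ∂(α.prod (γ.prod γ)), P (f (t.1, t.2.1), t.2) = f (t.1, t.2.2))
    {g : U → ℂ} (hg : Uni g) {ψ : C × C → ℂ} (hψ : Measurable ψ)
    (hψ1 : ∀ᵐ y ∂(γ.prod γ), ‖ψ y‖ = 1)
    (he : ∀ᵐ x ∂(ν.prod (γ.prod γ)), g (P x) = ψ x.2 * g x.1) :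
    ∃ (F1 : X → ℂ) (F2 : C → ℂ), Uni F1 ∧ Uni F2 ∧
      ∀ᵐ t ∂(α.prod γ), g (f t) = F1 t.1 * F2 t.2 := by
  have h1 := (mp_transport hf hmp).quasiMeasurePreserving.ae he
  have h2 : ∀ᵐ t ∂(α.prod (γ.prod γ)), g (f (t.1, t.2.2)) = ψ t.2 * g (f (t.1, t.2.1)) := by
    filter_upwards [h1, hP] with t ht1 ht2
    rw [← ht2]
    exact ht1
  have h3 := (mp_reorder (α := α) (γ := γ)).quasiMeasurePreserving.ae h2
  have h4 := Measure.ae_ae_of_ae_prod h3
  have h5 := Measure.ae_ae_of_ae_prod hψ1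
  obtain ⟨z0, hz0, hz1⟩ := (h4.and h5).exists
  have hm : Measurable fun z => ψ (z0, z) := hψ.comp measurable_prodMk_left
  refine ⟨fun x => g (f (x, z0)), fun z => if ‖ψ (z0, z)‖ = 1 then ψ (z0, z) else 1,
    ⟨hg.1.comp (hf.comp measurable_prodMk_right), fun x => hg.2 _⟩,
    ⟨Measurable.ite (measurableSet_eq_fun hm.norm measurable_const) hm measurable_const, ?_⟩, ?_⟩
  · intro z
    by_cases hz : ‖ψ (z0, z)‖ = 1
    · simp only [if_pos hz]; exact hz
    · simp only [if_neg hz]; simp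
  · have h6 : ∀ᵐ t ∂(α.prod γ), ‖ψ (z0, t.2)‖ = 1 :=
      (measurePreserving_snd (μ := α) (ν := γ)).quasiMeasurePreserving.ae hz1
    filter_upwards [hz0, h6] with t ht1 ht2
    rw [if_pos ht2, mul_comm]
    exact ht1

/-- **Totality of the characters of a line.** -/
theorem tot_of_UEig {f : X × C → U} (hf : Measurable f)
    (hmp : (α.prod γ).map (fun t => (f t, t.2)) = ν.prod γ) {P : U × (C × C) → U}
    (hP : ∀ᵐ t ∂(α.prod (γ.prod γ)), P (f (t.1, t.2.1), t.2) = f (t.1, t.2.2))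
    (hT : (Submodule.span ℂ (UEig ν γ P)).topologicalClosure = ⊤) {g : U → ℂ} (hg : MemLp g 2 ν)
    (h0 : ∀ F : U → ℂ, Uni F → (∃ (F1 : X → ℂ) (F2 : C → ℂ), Uni F1 ∧ Uni F2 ∧
      ∀ᵐ t ∂(α.prod γ), F (f t) = F1 t.1 * F2 t.2) → ∫ v, g v * conj (F v) ∂ν = 0) :
    g =ᵐ[ν] 0 := by
  have h1 : (Submodule.span ℂ (UEig ν γ P))ᗮ = ⊥ :=
    (Submodule.topologicalClosure_eq_top_iff).1 hT
  have h2 : hg.toLp g ∈ (Submodule.span ℂ (UEig ν γ P))ᗮ := by
    rw [Submodule.mem_orthogonal]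
    intro u hu
    induction hu using Submodule.span_induction with
    | mem F hF =>
      obtain ⟨k, hk, hk1, hFk, ψ, hψ, hψ1, he⟩ := hF
      have h3 := h0 k ⟨hk, hk1⟩ (split_of_UEig hf hmp hP ⟨hk, hk1⟩ hψ hψ1 he)
      rw [L2.inner_def, ← h3]
      refine integral_congr_ae ?_
      filter_upwards [hFk, hg.coeFn_toLp] with v hv1 hv2
      rw [hv1, hv2, RCLike.inner_apply]
    | zero => exact inner_zero_left _
    | add a b _ _ ha hb => rw [inner_add_left, ha, hb, add_zero]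
    | smul c a _ ha => rw [inner_smul_left, ha, mul_zero]
  rw [h1, Submodule.mem_bot] at h2
  have h3 := hg.coeFn_toLp
  rw [h2] at h3
  exact h3.symm.trans (Lp.coeFn_zero ℂ 2 ν)

end Conv

section Line

variable {ι : Type} {V : Type} [MeasurableSpace V]

/-- **Totality of the characters of a line**, in the form of `Total`. -/
theorem total_of_UEig {K : Measure (ι → V)} {p q : ι} {α : Measure V}
    {γ : Measure ({j : ι // j ≠ p ∧ j ≠ q} → V)} {ν : Measure V} [IsProbabilityMeasure α]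
    [IsProbabilityMeasure γ] [IsProbabilityMeasure ν]
    (hαγ : K.map (fun v => (v p, fun j : {j : ι // j ≠ p ∧ j ≠ q} => v j)) = α.prod γ)
    (hν : K.map (fun v => v q) = ν)
    {f : V × ({j : ι // j ≠ p ∧ j ≠ q} → V) → V} (hf : Measurable f)
    (hmp : (α.prod γ).map (fun t => (f t, t.2)) = ν.prod γ)
    (hq : ∀ᵐ v ∂K, v q = f (v p, fun j => v j))
    {P : V × (({j : ι // j ≠ p ∧ j ≠ q} → V) × ({j : ι // j ≠ p ∧ j ≠ q} → V)) → V}
    (hP : ∀ᵐ t ∂(α.prod (γ.prod γ)), P (f (t.1, t.2.1), t.2) = f (t.1, t.2.2))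
    (hT : (Submodule.span ℂ (UEig ν γ P)).topologicalClosure = ⊤) : Total K p q := by
  intro g hg h0
  rw [hν] at hg h0 ⊢
  refine tot_of_UEig hf hmp hP hT hg fun F hF ⟨F1, F2, h1, h2, h3⟩ => h0 F ⟨hF, F1, F2, h1, h2, ?_⟩
  have hm : Measurable (fun v : ι → V => (v p, fun j : {j : ι // j ≠ p ∧ j ≠ q} => v j)) := by
    fun_prop
  have h4 : MeasurePreserving (fun v : ι → V => (v p, fun j : {j : ι // j ≠ p ∧ j ≠ q} => v j)) K
    (α.prod γ) := ⟨hm, hαγ⟩
  filter_upwards [hq, h4.quasiMeasurePreserving.ae h3] with v hv1 hv2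
  rw [hv1]
  exact hv2

end Line

end Vale.Agent.P102.RM
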