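import Vale.Agent.P102.RM.Functor
import Vale.Agent.P102.RM.ExFJoin
import Vale.Agent.P102.RM.Fib2
import Mathlib.MeasureTheory.Measure.SeparableMeasure
import Mathlib.MeasureTheory.Function.ConvergenceInMeasure

/-!
P102, block EXF / REP (helper177). Standard Borel representation of an invariant sub-σ-algebra.
-/

namespace Vale.Agent.P102.RM

open MeasureTheory Filter Topology ProbabilityTheory Set
open Vale.Agent.P102.RM.ExF (LeAE slot)

section Dense

/-- every sub-σ-algebra of a countably generated one is countably generated modulo null sets -/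
theorem exists_sets_dense {Ω : Type*} {m : MeasurableSpace Ω} [mΩ : MeasurableSpace Ω]
    [MeasurableSpace.CountablyGenerated Ω] (μ : Measure Ω) [IsProbabilityMeasure μ]
    (hm : m ≤ mΩ) : ∃ B : ℕ → Set Ω, (∀ n, MeasurableSet[m] (B n)) ∧
      LeAE μ m (MeasurableSpace.generateFrom (Set.range B)) := by
  classical
  let ind : ∀ (A : Set Ω), MeasurableSet A → Lp ℝ 1 μ := fun A hA =>
    indicatorConstLp 1 hA (measure_ne_top μ A) (1 : ℝ)
  let S : Set (Lp ℝ 1 μ) := {f | ∃ (A : Set Ω) (hA : MeasurableSet[m] A), f = ind A (hm _ hA)}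
  have : Fact ((1 : ENNReal) ≠ ⊤) := ⟨ENNReal.one_ne_top⟩
  have : SecondCountableTopology (Lp ℝ 1 μ) := Lp.SecondCountableTopology
  have hSsep : TopologicalSpace.IsSeparable S :=
    TopologicalSpace.IsSeparable.of_separableSpace S
  obtain ⟨t, htS, htc, hcl⟩ := hSsep.exists_countable_dense_subset
  have hSne : (ind ∅ MeasurableSet.empty) ∈ S := ⟨∅, @MeasurableSet.empty _ m, rfl⟩
  have htne : t.Nonempty := by
    by_contra h
    rw [Set.not_nonempty_iff_eq_empty] at h
    have := hcl hSne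
    rw [h, closure_empty] at this
    exact this
  obtain ⟨u, hu⟩ := htc.exists_eq_range htne
  have hB : ∀ n, ∃ (A : Set Ω) (hA : MeasurableSet[m] A), u n = ind A (hm _ hA) := by
    intro n
    exact htS (hu ▸ Set.mem_range_self n)
  choose B hBm hBu using hB
  refine ⟨B, hBm, ?_⟩
  intro C hC
  have hCS : ind C (hm _ hC) ∈ closure (Set.range u) := hu ▸ hcl ⟨C, hC, rfl⟩
  obtain ⟨v, hv, hvlim⟩ := mem_closure_iff_seq_limit.1 hCS
  choose nn hnn using hv
  have hmeas : TendstoInMeasure μ (fun k => (v k : Ω → ℝ)) atTop (ind C (hm _ hC) : Ω → ℝ) :=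
    tendstoInMeasure_of_tendsto_Lp hvlim
  obtain ⟨ns, hns, hae⟩ := hmeas.exists_seq_tendsto_ae
  let C' : Set Ω := ⋃ N : ℕ, ⋂ k : ℕ, B (nn (ns (N + k)))
  refine ⟨C', ?_, ?_⟩
  · refine MeasurableSet.iUnion fun N => MeasurableSet.iInter fun k => ?_
    exact MeasurableSpace.measurableSet_generateFrom (Set.mem_range_self _)
  · have h1 : ∀ᵐ x ∂μ, ∀ k, (v k : Ω → ℝ) x = (B (nn k)).indicator (fun _ => (1 : ℝ)) x := by
      rw [ae_all_iff]
      intro k
      have : v k = ind (B (nn k)) (hm _ (hBm _)) := by rw [← hnn k, hBu]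
      rw [this]
      exact indicatorConstLp_coeFn
    have h2 : ∀ᵐ x ∂μ, (ind C (hm _ hC) : Ω → ℝ) x = C.indicator (fun _ => (1 : ℝ)) x :=
      indicatorConstLp_coeFn
    filter_upwards [h1, h2, hae] with x hx1 hx2 hx3
    rw [hx2] at hx3
    simp only [hx1] at hx3
    apply propext
    change x ∈ C ↔ x ∈ C'
    simp only [C', Set.mem_iUnion, Set.mem_iInter]
    constructor
    · intro hxC
      rw [Set.indicator_of_mem hxC] at hx3
      have h4 : ∀ᶠ k in atTop, (1 / 2 : ℝ) <
          (B (nn (ns k))).indicator (fun _ => (1 : ℝ)) x :=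
        hx3.eventually_const_lt (by norm_num)
      obtain ⟨N, hN⟩ := eventually_atTop.1 h4
      refine ⟨N, fun k => ?_⟩
      have h5 := hN (N + k) (by omega)
      by_contra hxB
      rw [Set.indicator_of_notMem hxB] at h5
      norm_num at h5
    · rintro ⟨N, hN⟩
      by_contra hxC
      rw [Set.indicator_of_notMem hxC] at hx3
      have h4 : ∀ᶠ k in atTop, (B (nn (ns k))).indicator (fun _ => (1 : ℝ)) x < 1 / 2 :=
        hx3.eventually_lt_const (by norm_num)
      obtain ⟨M, hM⟩ := eventually_atTop.1 h4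
      have h5 := hM (N + M) (by omega)
      rw [Set.indicator_of_mem (hN M)] at h5
      norm_num at h5

end Dense

section Shift

/-- the shift on `ℤ × J → β` -/
def shiftE (J β : Type) [MeasurableSpace β] : (ℤ × J → β) ≃ᵐ (ℤ × J → β) where
  toFun c mn := c (mn.1 + 1, mn.2)
  invFun c mn := c (mn.1 - 1, mn.2)
  left_inv c := by funext ⟨m, n⟩; simp
  right_inv c := by funext ⟨m, n⟩; simp
  measurable_toFun := measurable_pi_lambda _ fun mn => measurable_pi_apply _
  measurable_invFun := measurable_pi_lambda _ fun mn => measurable_pi_apply _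

@[simp] theorem shiftE_apply {J β : Type} [MeasurableSpace β] (c : ℤ × J → β) (mn : ℤ × J) :
    shiftE J β c mn = c (mn.1 + 1, mn.2) := rfl

end Shift

section Rep

/-- iterates of the transformation of a system -/
def Sys.it (A : Sys) (n : ℤ) : A.C → A.C := iter A.S n

open Classical in
/-- the coding map -/
noncomputable def codeMap {A Y : Sys} (y : Fac A Y) (B : ℕ → Set A.C) :
    A.C → Y.C × (ℤ × ℕ → Bool) :=
  fun a => (y.f a, fun mn => decide (A.it mn.1 a ∈ B mn.2))

/-- sub-σ-algebras of a system (a subtype, to keep it out of instance resolution) -/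
abbrev Sys.Sub (A : Sys) : Type := {m : MeasurableSpace A.C // m ≤ A.mC}

theorem measurable_codeMap' {A Y : Sys} (y : Fac A Y) (m : A.Sub)
    (hy : Measurable[m.1] y.f) (hS : ∀ n : ℤ, Measurable[m.1, m.1] (A.it n))
    {B : ℕ → Set A.C} (hB : ∀ n, MeasurableSet[m.1] (B n)) :
    Measurable[m.1] (codeMap y B) := by
  refine Measurable.prod (m := m.1) hy ?_
  refine @measurable_pi_lambda _ _ _ m.1 _ _ fun mn => ?_
  refine @measurable_to_bool _ m.1 _ ?_
  classical
  have : (fun a => (codeMap y B a).2 mn) ⁻¹' {true} = A.it mn.1 ⁻¹' (B mn.2) := by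
    ext a; simp [codeMap]
  change MeasurableSet[m.1] ((fun a => (codeMap y B a).2 mn) ⁻¹' {true})
  rw [this]
  exact hS _ (hB _)

theorem codeMap_eqv {A Y : Sys} (y : Fac A Y) (B : ℕ → Set A.C) (a : A.C) :
    codeMap y B (A.S a) = (MeasurableEquiv.prodCongr Y.S (shiftE ℕ Bool)) (codeMap y B a) := by
  have h : ∀ n : ℤ, A.it n (A.S a) = A.it (n + 1) a := fun n => by
    unfold Sys.it
    rw [iter_add_one]
  have h1 : (codeMap y B (A.S a)).1 = Y.S (y.f a) := y.eqv a
  have h2 : (codeMap y B (A.S a)).2 = shiftE ℕ Bool (codeMap y B a).2 := by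
    funext mn
    simp only [codeMap, shiftE_apply]
    rw [h]
  exact Prod.ext h1 h2

theorem measurable_it_sub {A : Sys} (m : A.Sub) (hS : Measurable[m.1, m.1] A.S)
    (hS' : Measurable[m.1, m.1] A.S.symm) (n : ℤ) : Measurable[m.1, m.1] (A.it n) := by
  induction n using Int.induction_on with
  | zero =>
    have : A.it 0 = id := by funext a; exact iter_zero A.S a
    rw [this]; exact @measurable_id _ m.1
  | succ n ih =>
    have : A.it (n + 1) = A.it n ∘ A.S := by funext a; exact iter_add_one A.S n a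
    rw [this]; exact ih.comp hS
  | pred n ih =>
    have : A.it (-(n : ℤ) - 1) = A.it (-n) ∘ A.S.symm := by
      funext a; exact iter_sub_one A.S _ a
    rw [this]; exact ih.comp hS'

/-- (R1) an invariant sub-σ-algebra `m` containing `σ(y)` is, modulo null sets, the σ-algebra of a
factor `V` which maps onto `Y` compatibly (everywhere) -/
theorem exists_rep {A Y : Sys} (y : Fac A Y) (m : A.Sub)
    (hy : Measurable[m.1] y.f) (hS : Measurable[m.1, m.1] A.S)
    (hS' : Measurable[m.1, m.1] A.S.symm) :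
    ∃ (V : Sys) (z : Fac V Y) (e : Fac A V), (∀ a, z.f (e.f a) = y.f a) ∧
      Measurable[m.1] e.f ∧ LeAE A.μ m.1 (MeasurableSpace.comap e.f V.mC) := by
  classical
  obtain ⟨B, hB, hgen⟩ := exists_sets_dense A.μ m.2
  have hcm : Measurable[m.1] (codeMap y B) :=
    measurable_codeMap' y m hy (measurable_it_sub m hS hS') hB
  have hc : Measurable (codeMap y B) := hcm.mono m.2 le_rfl
  let V : Sys := A.image (Y.C × (ℤ × ℕ → Bool)) (codeMap y B) hc
    (MeasurableEquiv.prodCongr Y.S (shiftE ℕ Bool)) (codeMap_eqv y B)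
  let e : Fac A V := A.imageFac (Y.C × (ℤ × ℕ → Bool)) (codeMap y B) hc
    (MeasurableEquiv.prodCongr Y.S (shiftE ℕ Bool)) (codeMap_eqv y B)
  let z : Fac V Y :=
    { f := Prod.fst
      mp := by
        refine ⟨measurable_fst, ?_⟩
        change (A.μ.map (codeMap y B)).map Prod.fst = Y.μ
        rw [Measure.map_map measurable_fst hc]
        exact y.mp.map_eq
      eqv := fun _ => rfl }
  refine ⟨V, z, e, fun _ => rfl, hcm, ?_⟩
  refine hgen.trans_le ?_
  refine MeasurableSpace.generateFrom_le ?_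
  rintro _ ⟨n, rfl⟩
  refine ⟨{v | v.2 (0, n) = true}, ?_, ?_⟩
  · have h0 : Measurable fun v : Y.C × (ℤ × ℕ → Bool) => v.2 (0, n) := by fun_prop
    exact h0 (measurableSet_singleton true)
  · ext a
    change (codeMap y B a).2 (0, n) = true ↔ a ∈ B n
    simp [codeMap, Sys.it, iter_zero]

section exact
variable {ι : Type} [Fintype ι] [DecidableEq ι]

omit [Fintype ι] [DecidableEq ι] in
theorem measurable_side {V Y : Sys} (z : Fac V Y) (s : ι) :
    Measurable (z.side s : (ι → V.C) → _) := by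
  refine Measurable.prodMk (measurable_pi_lambda _ fun j => measurable_pi_apply _) ?_
  exact z.meas.comp (measurable_pi_apply s)

omit [DecidableEq ι] in
/-- (R4) exactness of the represented factor -/
theorem exists_exact_map {A Y : Sys} (y : Fac A Y) (m : A.Sub)
    {V : Sys} (z : Fac V Y) (e : Fac A V) (hz : ∀ a, z.f (e.f a) = y.f a)
    (he : Measurable[m.1] e.f) (hgen : LeAE A.μ m.1 (MeasurableSpace.comap e.f V.mC))
    (r : Ultrafilter (ι → ℤ)) (s : ι)
    (hex : LeAE (D r A).μ (slot s m.1)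
      ((⨆ j, ⨆ (_ : j ≠ s), slot j m.1) ⊔ slot s (MeasurableSpace.comap y.f Y.mC))) :
    ∃ R : ({j : ι // j ≠ s} → V.C) × Y.C → V.C, Measurable R ∧
      ∀ᵐ d ∂(D r V).μ, d s = R (z.side s d) := by
  -- the map to the side of the represented line
  let g : (ι → A.C) → ({j : ι // j ≠ s} → V.C) × Y.C := fun d => z.side s fun i => e.f (d i)
  have hem : Measurable (fun (d : ι → A.C) i => e.f (d i)) :=
    measurable_pi_lambda _ fun i => e.meas.comp (measurable_pi_apply i)
  have hg : Measurable g := (measurable_side z s).comp hem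
  have h1 : ∀ j, j ≠ s → LeAE (D r A).μ (slot j m.1) (MeasurableSpace.comap g inferInstance) := by
    rintro j hj _ ⟨B, hB, rfl⟩
    obtain ⟨_, ⟨C, hC, rfl⟩, hBC⟩ := hgen B hB
    refine ⟨(fun d : ι → A.C => d j) ⁻¹' (e.f ⁻¹' C), ?_, ?_⟩
    · refine ⟨{p | p.1 ⟨j, hj⟩ ∈ C}, ?_, rfl⟩
      exact ((measurable_pi_apply _).comp measurable_fst) hC
    · exact (evF r A j).mp.quasiMeasurePreserving.preimage_ae_eq hBC
  have h2 : LeAE (D r A).μ (slot s (MeasurableSpace.comap y.f Y.mC))
      (MeasurableSpace.comap g inferInstance) := by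
    rintro _ ⟨_, ⟨B, hB, rfl⟩, rfl⟩
    refine ⟨_, ⟨{p | p.2 ∈ B}, measurable_snd hB, rfl⟩, ?_⟩
    refine Filter.EventuallyEq.of_eq ?_
    ext d
    change y.f (d s) ∈ B ↔ z.f (e.f (d s)) ∈ B
    rw [hz]
  have h3 : LeAE (D r A).μ
      ((⨆ j, ⨆ (_ : j ≠ s), slot j m.1) ⊔ slot s (MeasurableSpace.comap y.f Y.mC))
      (MeasurableSpace.comap g inferInstance) := by
    have hj : ∀ j, slot j m.1 ≤ (D r A).mC := fun j => ExF.slot_le j m.2
    refine LeAE.sup (m0 := (D r A).mC) (iSup_le fun j => iSup_le fun _ => hj j)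
      (ExF.slot_le s y.meas.comap_le) ?_ h2
    refine LeAE.iSup (m0 := (D r A).mC) (fun j => iSup_le fun _ => hj j) fun j => ?_
    exact LeAE.iSup (m0 := (D r A).mC) (fun _ => hj j) fun h => h1 j h
  have h4 : LeAE (D r A).μ (slot s m.1) (MeasurableSpace.comap g inferInstance) := hex.trans h3
  obtain ⟨R, hR, hRae⟩ := exists_comp_ae_eq (P := (D r A).μ) (B := fun d : ι → A.C => e.f (d s))
    (A := g) (fun C hC => h4 _ ⟨e.f ⁻¹' C, he hC, rfl⟩)
  refine ⟨R, hR, ?_⟩
  have hset : MeasurableSet {d : ι → V.C | d s = R (z.side s d)} :=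
    measurableSet_eq_fun (measurable_pi_apply s) (hR.comp (measurable_side z s))
  have h5 := (e.D r).mp.map_eq
  change (D r A).μ.map (fun (d : ι → A.C) i => e.f (d i)) = (D r V).μ at h5
  rw [← h5, ae_map_iff hem.aemeasurable hset]
  exact hRae

end exact

end Rep

end Vale.Agent.P102.RM
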