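import Vale.Agent.P102.RM.Defs
import Vale.Agent.P102.RM.Sat3b
import Mathlib.MeasureTheory.SetAlgebra
import Mathlib.Analysis.SpecificLimits.Basic

/-! # SAT: existence of sated extensions, from the existence of countable inverse limits -/

namespace Vale.Agent.P102.RM.Sat

open MeasureTheory Filter Topology ProbabilityTheory

variable {X : Sys}

/-- an observation scheme: for every admissible pair a probability space with a sub-σ-algebra and
an evaluation map, functorial for extensions -/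
structure Obs (X : Sys) where
  Ω : Adm X → Type
  [mΩ : ∀ P, MeasurableSpace (Ω P)]
  μ : ∀ P, Measure (Ω P)
  [pμ : ∀ P, IsProbabilityMeasure (μ P)]
  ev : ∀ P, Ω P → P.W.C
  mev : ∀ P, Measurable (ev P)
  π : ∀ {P' P : Adm X}, Ext P' P → Ω P' → Ω P
  hπ : ∀ {P' P : Adm X} (e : Ext P' P), MeasurePreserving (π e) (μ P') (μ P)
  hev : ∀ {P' P : Adm X} (e : Ext P' P) (ω : Ω P'), ev P (π e ω) = e.w.f (ev P' ω)
  hcomp : ∀ {P'' P' P : Adm X} (e : Ext P' P) (e' : Ext P'' P') (ω : Ω P''),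
    π (e.comp e') ω = π e (π e' ω)
  𝓖 : ∀ P, MeasurableSpace (Ω P)
  hG : ∀ P, 𝓖 P ≤ mΩ P
  hle : ∀ {P' P : Adm X} (e : Ext P' P), (𝓖 P).comap (π e) ≤ 𝓖 P'

attribute [instance] Obs.mΩ Obs.pμ

/-- the value of the functional on the indicator of `S` -/
noncomputable def Obs.val (O : Obs X) (P : Adm X) (S : Set P.W.C) : ℝ :=
  ∫ ω, ((O.μ P)[(O.ev P ⁻¹' S).indicator (fun _ => (1 : ℝ)) | O.𝓖 P]) ω ^ 2 ∂(O.μ P)

lemma ind_memLp {Ω : Type} [MeasurableSpace Ω] {μ : Measure Ω} [IsProbabilityMeasure μ]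
    {S : Set Ω} (hS : MeasurableSet S) : MemLp (S.indicator (fun _ => (1 : ℝ))) 2 μ := by
  refine memLp_two_of_bdd (C := 1)
    (measurable_const.indicator hS).aestronglyMeasurable (ae_of_all _ fun ω => ?_)
  by_cases h : ω ∈ S <;> simp [h]

lemma ind_sq_le {Ω : Type} [MeasurableSpace Ω] {μ : Measure Ω} [IsProbabilityMeasure μ]
    {S : Set Ω} (hS : MeasurableSet S) : ∫ ω, (S.indicator (fun _ => (1 : ℝ)) ω) ^ 2 ∂μ ≤ 1 := by
  have h1 : ∫ _ω : Ω, (1 : ℝ) ∂μ = 1 := by simp
  rw [← h1]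
  refine integral_mono_of_nonneg (ae_of_all _ fun ω => sq_nonneg _) (integrable_const _)
    (ae_of_all _ fun ω => ?_)
  by_cases h : ω ∈ S <;> simp [h]

theorem Obs.val_nonneg (O : Obs X) (P : Adm X) (S : Set P.W.C) : 0 ≤ O.val P S :=
  integral_nonneg fun _ => sq_nonneg _

theorem Obs.val_le_one (O : Obs X) (P : Adm X) {S : Set P.W.C} (hS : MeasurableSet S) :
    O.val P S ≤ 1 :=
  (integral_sq_condExp_le (O.hG P) (ind_memLp (O.mev P hS))).trans (ind_sq_le (O.mev P hS))

lemma Obs.comap_le (O : Obs X) {P' P : Adm X} (e : Ext P' P) :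
    (O.𝓖 P).comap (O.π e) ≤ O.mΩ P' := (O.hle e).trans (O.hG P')

lemma Obs.pre_eq (O : Obs X) {P' P : Adm X} (e : Ext P' P) (S : Set P.W.C) :
    (O.ev P' ⁻¹' (e.w.f ⁻¹' S)).indicator (fun _ => (1 : ℝ))
      = fun ω => (O.ev P ⁻¹' S).indicator (fun _ => (1 : ℝ)) (O.π e ω) := by
  funext ω
  have h : (ω ∈ O.ev P' ⁻¹' (e.w.f ⁻¹' S)) ↔ (O.π e ω ∈ O.ev P ⁻¹' S) := by
    rw [Set.mem_preimage, Set.mem_preimage, Set.mem_preimage, O.hev]
  by_cases h1 : O.π e ω ∈ O.ev P ⁻¹' S
  · rw [Set.indicator_of_mem h1, Set.indicator_of_mem (h.2 h1)]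
  · rw [Set.indicator_of_notMem h1, Set.indicator_of_notMem (fun h2 => h1 (h.1 h2))]

/-- transport of the functional -/
theorem Obs.val_comap (O : Obs X) {P' P : Adm X} (e : Ext P' P) {S : Set P.W.C}
    (hS : MeasurableSet S) :
    ∫ ω, ((O.μ P')[(O.ev P' ⁻¹' (e.w.f ⁻¹' S)).indicator (fun _ => (1 : ℝ)) |
      (O.𝓖 P).comap (O.π e)]) ω ^ 2 ∂(O.μ P') = O.val P S := by
  rw [O.pre_eq e S]
  have hi : Integrable ((O.ev P ⁻¹' S).indicator (fun _ => (1 : ℝ))) (O.μ P) :=
    (ind_memLp (O.mev P hS)).integrable (by norm_num)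
  have h1 := condExp_comap (O.hπ e) (O.hG P) hi
  have h2 : ∫ ω, ((O.μ P')[fun ω => (O.ev P ⁻¹' S).indicator (fun _ => (1 : ℝ)) (O.π e ω) |
      (O.𝓖 P).comap (O.π e)]) ω ^ 2 ∂(O.μ P')
      = ∫ ω, (((O.μ P)[(O.ev P ⁻¹' S).indicator (fun _ => (1 : ℝ)) | O.𝓖 P]) (O.π e ω)) ^ 2
        ∂(O.μ P') := by
    refine integral_congr_ae ?_
    filter_upwards [h1] with ω hω
    rw [hω]
  rw [h2]
  unfold Obs.val
  have h3 : AEStronglyMeasurable (fun ω =>
      (((O.μ P)[(O.ev P ⁻¹' S).indicator (fun _ => (1 : ℝ)) | O.𝓖 P]) ω) ^ 2)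
      ((O.μ P').map (O.π e)) := by
    rw [(O.hπ e).map_eq]
    exact (integrable_condExp.aestronglyMeasurable.pow 2)
  have h4 := integral_map (O.hπ e).measurable.aemeasurable h3
  rw [(O.hπ e).map_eq] at h4
  exact h4.symm

/-- monotonicity of the functional -/
theorem Obs.val_mono (O : Obs X) {P' P : Adm X} (e : Ext P' P) {S : Set P.W.C}
    (hS : MeasurableSet S) : O.val P S ≤ O.val P' (e.w.f ⁻¹' S) := by
  rw [← O.val_comap e hS]
  exact integral_sq_condExp_mono (O.hle e) (O.hG P') (ind_memLp (O.mev P' (e.w.mp.measurable hS)))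

/-- `L` is sated for the functions of `f : L.W → V` -/
def Obs.SatRel (O : Obs X) (L : Adm X) {V : Type} [MeasurableSpace V] (f : L.W.C → V) : Prop :=
  ∀ (R : Adm X) (g : Ext R L) (k : V → ℝ), Measurable k → (∀ a, |k a| ≤ 1) →
    (O.μ R)[fun ω => k (f (g.w.f (O.ev R ω))) | (O.𝓖 L).comap (O.π g)]
      =ᵐ[O.μ R] (O.μ R)[fun ω => k (f (g.w.f (O.ev R ω))) | O.𝓖 R]

lemma bdd_integrable {Ω V : Type} [MeasurableSpace Ω] [MeasurableSpace V] {μ : Measure Ω}
    [IsProbabilityMeasure μ] {g : Ω → V} (hg : Measurable g) {k : V → ℝ} (hk : Measurable k)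
    (hb : ∀ a, |k a| ≤ 1) : Integrable (fun ω => k (g ω)) μ :=
  Integrable.of_bound (hk.comp hg).aestronglyMeasurable 1 (ae_of_all _ fun ω => hb _)

theorem Obs.SatRel.ext {O : Obs X} {L : Adm X} {V : Type} [MeasurableSpace V] {f : L.W.C → V}
    (h : O.SatRel L f) {L' : Adm X} (e : Ext L' L) :
    O.SatRel L' (fun a => f (e.w.f a)) := by
  intro R g k hk hb
  have h1 := h R (e.comp g) k hk hb
  have e1 : (O.𝓖 L).comap (O.π (e.comp g)) = ((O.𝓖 L).comap (O.π e)).comap (O.π g) := by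
    rw [MeasurableSpace.comap_comp]
    congr 1
    funext ω
    exact O.hcomp e g ω
  have h2 : (O.𝓖 L).comap (O.π (e.comp g)) ≤ (O.𝓖 L').comap (O.π g) := by
    rw [e1]
    exact MeasurableSpace.comap_mono (O.hle e)
  set F : O.Ω R → ℝ := fun ω => k (f ((e.comp g).w.f (O.ev R ω))) with hF
  have hF' : (fun ω => k (f (e.w.f (g.w.f (O.ev R ω))))) = F := rfl
  simp only [hF']
  have h3 : (O.μ R)[(O.μ R)[F | O.𝓖 R] | (O.𝓖 L').comap (O.π g)]
      =ᵐ[O.μ R] (O.μ R)[F | (O.𝓖 L').comap (O.π g)] :=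
    condExp_condExp_of_le (O.hle g) (O.hG R)
  have h4 : (O.μ R)[(O.μ R)[F | O.𝓖 R] | (O.𝓖 L').comap (O.π g)]
      =ᵐ[O.μ R] (O.μ R)[(O.μ R)[F | (O.𝓖 L).comap (O.π (e.comp g))] | (O.𝓖 L').comap (O.π g)] :=
    condExp_congr_ae h1.symm
  have h5 : (O.μ R)[(O.μ R)[F | (O.𝓖 L).comap (O.π (e.comp g))] | (O.𝓖 L').comap (O.π g)]
      = (O.μ R)[F | (O.𝓖 L).comap (O.π (e.comp g))] :=
    condExp_of_stronglyMeasurable (O.comap_le g) (stronglyMeasurable_condExp.mono h2)
      integrable_condExp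
  rw [h5] at h4
  exact (h3.symm.trans h4).trans h1

/-- from a π-system to all functions -/
theorem Obs.satRel_of_piSystem (O : Obs X) (L : Adm X) {V : Type} [mV : MeasurableSpace V]
    {f : L.W.C → V} (hf : Measurable f) (C : Set (Set V))
    (hC : mV = MeasurableSpace.generateFrom C) (hpi : IsPiSystem C)
    (h : ∀ (R : Adm X) (g : Ext R L), ∀ A ∈ C,
      O.val R (g.w.f ⁻¹' (f ⁻¹' A)) ≤ O.val L (f ⁻¹' A)) : O.SatRel L f := by
  intro R g k hk hb
  have hg : Measurable (fun ω => f (g.w.f (O.ev R ω))) :=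
    hf.comp (g.w.mp.measurable.comp (O.mev R))
  refine condExp_comp_eq_of_piSystem (E := ℝ) hg (O.comap_le g) (O.hG R) hC hpi ?_ k ?_
  · intro A hA
    have hAm : MeasurableSet A := by
      rw [hC]; exact MeasurableSpace.measurableSet_generateFrom hA
    have hm : MeasurableSet (O.ev R ⁻¹' (g.w.f ⁻¹' (f ⁻¹' A))) :=
      O.mev R (g.w.mp.measurable (hf hAm))
    refine condExp_eq_of_integral_sq_le (O.hle g) (O.hG R) (ind_memLp hm) ?_
    have h1 := O.val_comap g (hf hAm)
    have h2 := h R g A hA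
    exact h2.trans (le_of_eq h1.symm)
  · exact Integrable.of_bound hk.aestronglyMeasurable 1 (ae_of_all _ fun a => hb a)

/-- existence of countable inverse limits of admissible pairs -/
def HasInvLim (X : Sys) : Prop :=
  ∀ (B : ℕ → Adm X) (e : ∀ n, Ext (B (n + 1)) (B n)), ∃ (L : Adm X) (f : ∀ n, Ext L (B n)),
    (∀ n a, (f n).w.f a = (e n).w.f ((f (n + 1)).w.f a)) ∧
    L.W.mC = ⨆ n, MeasurableSpace.comap (f n).w.f (B n).W.mC

/-! ### Level 1 -/

section level1

variable {J : Type} [Encodable J]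

/-- the total score -/
noncomputable def score (O : J → Obs X) {V : Type} (C : ℕ → Set V) (B : Adm X)
    (w : B.W.C → V) : ℝ :=
  ∑' k : J × ℕ, (1 / 2 : ℝ) ^ Encodable.encode k * (O k.1).val B (w ⁻¹' C k.2)

variable {O : J → Obs X} {V : Type} [MeasurableSpace V] {C : ℕ → Set V}

lemma score_summable (O : J → Obs X) (hC : ∀ n, MeasurableSet (C n)) (B : Adm X)
    {w : B.W.C → V} (hw : Measurable w) :
    Summable fun k : J × ℕ => (1 / 2 : ℝ) ^ Encodable.encode k * (O k.1).val B (w ⁻¹' C k.2) := by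
  refine Summable.of_nonneg_of_le (fun k => ?_) (fun k => ?_) summable_geometric_two_encode
  · exact mul_nonneg (by positivity) ((O k.1).val_nonneg _ _)
  · have := (O k.1).val_le_one B (hw (hC k.2))
    calc (1 / 2 : ℝ) ^ Encodable.encode k * (O k.1).val B (w ⁻¹' C k.2)
        ≤ (1 / 2 : ℝ) ^ Encodable.encode k * 1 := by gcongr
      _ = _ := mul_one _

lemma score_le (O : J → Obs X) (hC : ∀ n, MeasurableSet (C n)) (B : Adm X)
    {w : B.W.C → V} (hw : Measurable w) :
    score O C B w ≤ ∑' k : J × ℕ, (1 / 2 : ℝ) ^ Encodable.encode k := by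
  refine (score_summable O hC B hw).tsum_le_tsum (fun k => ?_) summable_geometric_two_encode
  have := (O k.1).val_le_one B (hw (hC k.2))
  calc (1 / 2 : ℝ) ^ Encodable.encode k * (O k.1).val B (w ⁻¹' C k.2)
      ≤ (1 / 2 : ℝ) ^ Encodable.encode k * 1 := by gcongr
    _ = _ := mul_one _

lemma score_mono (O : J → Obs X) (hC : ∀ n, MeasurableSet (C n)) {B B' : Adm X}
    {w : B.W.C → V} (hw : Measurable w) (e : Ext B' B) :
    score O C B w ≤ score O C B' (fun a => w (e.w.f a)) := by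
  refine (score_summable O hC B hw).tsum_le_tsum (fun k => ?_)
    (score_summable O hC B' (hw.comp e.w.mp.measurable))
  have := (O k.1).val_mono e (hw (hC k.2))
  have h2 : (0 : ℝ) ≤ (1 / 2 : ℝ) ^ Encodable.encode k := by positivity
  exact mul_le_mul_of_nonneg_left this h2

lemma val_eq_of_score_le (O : J → Obs X) (hC : ∀ n, MeasurableSet (C n)) {B B' : Adm X}
    {w : B.W.C → V} (hw : Measurable w) (e : Ext B' B)
    (h : score O C B' (fun a => w (e.w.f a)) ≤ score O C B w) (j : J) (n : ℕ) :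
    (O j).val B' (e.w.f ⁻¹' (w ⁻¹' C n)) ≤ (O j).val B (w ⁻¹' C n) := by
  by_contra hlt
  push Not at hlt
  have hlt' : score O C B w < score O C B' (fun a => w (e.w.f a)) := by
    refine Summable.tsum_lt_tsum (i := (j, n)) (fun k => ?_) ?_ (score_summable O hC B hw)
      (score_summable O hC B' (hw.comp e.w.mp.measurable))
    · have := (O k.1).val_mono e (hw (hC k.2))
      have h2 : (0 : ℝ) ≤ (1 / 2 : ℝ) ^ Encodable.encode k := by positivity
      exact mul_le_mul_of_nonneg_left this h2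
    · have h2 : (0 : ℝ) < (1 / 2 : ℝ) ^ Encodable.encode (j, n) := by positivity
      exact mul_lt_mul_of_pos_left hlt h2
  exact absurd h (not_le.2 hlt')

/-- near-optimal extension -/
lemma exists_step (O : J → Obs X) (hC : ∀ n, MeasurableSet (C n)) (B : Adm X)
    {w : B.W.C → V} (hw : Measurable w) {ε : ℝ} (hε : 0 < ε) :
    ∃ (B' : Adm X) (e : Ext B' B), ∀ (R : Adm X) (g : Ext R B'),
      score O C R (fun a => w (e.w.f (g.w.f a))) ≤ score O C B' (fun a => w (e.w.f a)) + ε := by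
  set T : Set ℝ := {x | ∃ (R : Adm X) (g : Ext R B), x = score O C R (fun a => w (g.w.f a))}
    with hT
  have hne : T.Nonempty := ⟨_, B, Ext.refl B, rfl⟩
  have hbd : BddAbove T := by
    refine ⟨∑' k : J × ℕ, (1 / 2 : ℝ) ^ Encodable.encode k, ?_⟩
    rintro _ ⟨R, g, rfl⟩
    exact score_le O hC R (hw.comp g.w.mp.measurable)
  obtain ⟨_, ⟨B', e, rfl⟩, hlt⟩ := exists_lt_of_lt_csSup hne (show sSup T - ε < sSup T by linarith)
  refine ⟨B', e, fun R g => ?_⟩
  have h1 : score O C R (fun a => w (e.w.f (g.w.f a))) ≤ sSup T :=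
    le_csSup hbd ⟨R, e.comp g, rfl⟩
  linarith

/-- Level 1 -/
theorem level1 (hlim : HasInvLim X) (O : J → Obs X) (A : Adm X) :
    ∃ (L : Adm X) (e : Ext L A), ∀ j, (O j).SatRel L e.w.f := by
  -- a countable generating π-system
  obtain ⟨C, hCpi, hCgen⟩ : ∃ C : ℕ → Set A.W.C, IsPiSystem (Set.range C) ∧
      A.W.mC = MeasurableSpace.generateFrom (Set.range C) := by
    have hc : (generateSetAlgebra (MeasurableSpace.countableGeneratingSet A.W.C)).Countable :=
      countable_generateSetAlgebra MeasurableSpace.countable_countableGeneratingSet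
    have hne : (generateSetAlgebra (MeasurableSpace.countableGeneratingSet A.W.C)).Nonempty :=
      ⟨∅, generateSetAlgebra.empty⟩
    obtain ⟨C, hC⟩ := hc.exists_eq_range hne
    refine ⟨C, ?_, ?_⟩
    · rw [← hC]
      intro s hs t ht _
      exact (isSetAlgebra_generateSetAlgebra).inter_mem hs ht
    · rw [← hC, generateFrom_generateSetAlgebra_eq,
        MeasurableSpace.generateFrom_countableGeneratingSet]
  have hCm : ∀ n, MeasurableSet (C n) := fun n => by
    rw [hCgen]; exact MeasurableSpace.measurableSet_generateFrom ⟨n, rfl⟩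
  -- the chain
  have hstep : ∀ (n : ℕ) (s : Σ B : Adm X, Ext B A), ∃ p : Σ B' : Adm X, Ext B' s.1,
      ∀ (R : Adm X) (g : Ext R p.1),
        score O C R (fun a => s.2.w.f (p.2.w.f (g.w.f a)))
          ≤ score O C p.1 (fun a => s.2.w.f (p.2.w.f a)) + (1 / 2 : ℝ) ^ n := by
    intro n s
    obtain ⟨B', e, h⟩ := exists_step O hCm s.1 s.2.w.mp.measurable
      (ε := (1 / 2 : ℝ) ^ n) (by positivity)
    exact ⟨⟨B', e⟩, h⟩
  choose nx hnx using hstep
  let sq : ℕ → Σ B : Adm X, Ext B A := fun n => Nat.rec (motive := fun _ => Σ B : Adm X, Ext B A)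
    ⟨A, Ext.refl A⟩ (fun n s => ⟨(nx n s).1, s.2.comp (nx n s).2⟩) n
  let B : ℕ → Adm X := fun n => (sq n).1
  let e : ∀ n, Ext (B (n + 1)) (B n) := fun n => (nx n (sq n)).2
  obtain ⟨L, f, hf, -⟩ := hlim B e
  have hbase : ∀ n a, (sq n).2.w.f ((f n).w.f a) = (f 0).w.f a := by
    intro n
    induction n with
    | zero => intro a; rfl
    | succ n ih =>
      intro a
      have h1 : (sq (n + 1)).2.w.f ((f (n + 1)).w.f a)
          = (sq n).2.w.f ((e n).w.f ((f (n + 1)).w.f a)) := rfl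
      rw [h1, ← hf n a]
      exact ih a
  refine ⟨L, f 0, fun j => ?_⟩
  have hkey : ∀ (R : Adm X) (g : Ext R L),
      score O C R (fun a => (f 0).w.f (g.w.f a)) ≤ score O C L (f 0).w.f := by
    intro R g
    have h1 : ∀ n : ℕ, score O C R (fun a => (f 0).w.f (g.w.f a))
        ≤ score O C L (f 0).w.f + (1 / 2 : ℝ) ^ n := by
      intro n
      have h2 := hnx n (sq n) R ((f (n + 1)).comp g)
      have h3 : (fun a => (sq n).2.w.f ((nx n (sq n)).2.w.f (((f (n + 1)).comp g).w.f a)))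
          = fun a => (f 0).w.f (g.w.f a) := by
        funext a
        exact hbase (n + 1) (g.w.f a)
      rw [h3] at h2
      refine h2.trans ?_
      have h4 := score_mono O hCm (B := B (n + 1))
        (w := fun a => (sq n).2.w.f ((nx n (sq n)).2.w.f a))
        ((sq n).2.w.mp.measurable.comp (nx n (sq n)).2.w.mp.measurable) (f (n + 1))
      have h5 : (fun a => (sq n).2.w.f ((nx n (sq n)).2.w.f ((f (n + 1)).w.f a)))
          = (f 0).w.f := by
        funext a
        exact hbase (n + 1) a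
      rw [h5] at h4
      have h6 : score O C (nx n (sq n)).1 (fun a => (sq n).2.w.f ((nx n (sq n)).2.w.f a))
          ≤ score O C L (f 0).w.f := h4
      linarith
    have h7 : Tendsto (fun n : ℕ => score O C L (f 0).w.f + (1 / 2 : ℝ) ^ n) atTop
        (𝓝 (score O C L (f 0).w.f + 0)) :=
      tendsto_const_nhds.add (tendsto_pow_atTop_nhds_zero_of_lt_one (by norm_num) (by norm_num))
    rw [add_zero] at h7
    exact ge_of_tendsto' h7 h1
  refine (O j).satRel_of_piSystem L (f 0).w.mp.measurable (Set.range C) hCgen hCpi ?_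
  rintro R g _ ⟨n, rfl⟩
  exact val_eq_of_score_le O hCm (f 0).w.mp.measurable g (hkey R g) j n

/-- Level 2 -/
theorem level2 (hlim : HasInvLim X) (O : J → Obs X) (A : Adm X) :
    ∃ (L : Adm X) (_ : Ext L A), ∀ j, (O j).SatRel L (fun a => a) := by
  choose nx ex hx using level1 hlim O
  let B : ℕ → Adm X := fun n => Nat.rec (motive := fun _ => Adm X) A (fun _ s => nx s) n
  let e : ∀ n, Ext (B (n + 1)) (B n) := fun n => ex (B n)
  obtain ⟨L, f, hf, hgen⟩ := hlim B e
  refine ⟨L, f 0, fun j => ?_⟩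
  have h1 : ∀ n, (O j).SatRel L (f n).w.f := by
    intro n
    have h2 : (O j).SatRel (B (n + 1)) (e n).w.f := hx (B n) j
    have h3 := h2.ext (f (n + 1))
    have h4 : (fun a => (e n).w.f ((f (n + 1)).w.f a)) = (f n).w.f := by
      funext a; exact (hf n a).symm
    rw [h4] at h3
    exact h3
  have hmono : Monotone fun n => MeasurableSpace.comap (f n).w.f (B n).W.mC := by
    refine monotone_nat_of_le_succ fun n => ?_
    have h4 : (f n).w.f = (e n).w.f ∘ (f (n + 1)).w.f := by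
      funext a; exact hf n a
    rw [h4, ← MeasurableSpace.comap_comp]
    exact MeasurableSpace.comap_mono (e n).w.mp.measurable.comap_le
  intro R g k hk hb
  have hg : Measurable (fun ω => g.w.f ((O j).ev R ω)) := g.w.mp.measurable.comp ((O j).mev R)
  refine condExp_comp_eq_of_chain (E := ℝ) hg ((O j).comap_le g) ((O j).hG R)
    (A := fun n => (B n).W.C) (fun n => (f n).w.f) hmono hgen ?_ k ?_
  · intro n k hk hb
    exact h1 n R g k hk hb
  · exact Integrable.of_bound hk.aestronglyMeasurable 1 (ae_of_all _ fun a => hb a)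

end level1

end Vale.Agent.P102.RM.Sat
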