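import Vale.Agent.P102.RM.Sat231
import Vale.Agent.P102.RM.Functor
import Vale.Agent.P102.RM.InvLimAdm

/-! # SAT, final part: every admissible pair has a sated extension -/

namespace Vale.Agent.P102.RM.Sat

open MeasureTheory Filter Topology ProbabilityTheory

variable {X : Sys}

theorem hasInvLim231 (X : Sys) : HasInvLim X := by
  intro B e
  obtain ⟨L, f, h1, -, h3⟩ := exists_invLim B e
  exact ⟨L, f, h1, h3⟩

/-- complex valued functions -/
theorem Obs.SatRel.complex {O : Obs X} {L : Adm X} (h : O.SatRel L (fun a => a))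
    {R : Adm X} (g : Ext R L) {k : L.W.C → ℂ} (hk : Bdd k) :
    (O.μ R)[fun ω => k (g.w.f (O.ev R ω)) | (O.𝓖 L).comap (O.π g)]
      =ᵐ[O.μ R] (O.μ R)[fun ω => k (g.w.f (O.ev R ω)) | O.𝓖 R] := by
  have hg : Measurable (fun ω => g.w.f (O.ev R ω)) := g.w.mp.measurable.comp (O.mev R)
  refine condExp_comp_eq_of_piSystem (E := ℂ) hg (O.comap_le g) (O.hG R)
    (C := {A | MeasurableSet A}) (MeasurableSpace.generateFrom_measurableSet).symm
    MeasurableSpace.isPiSystem_measurableSet ?_ k ?_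
  · intro A hA
    have h3 := h R g (A.indicator fun _ => (1 : ℝ)) (measurable_const.indicator hA) (fun a => by
      by_cases ha : a ∈ A
      · simp [ha]
      · simp [ha])
    exact h3
  · exact hk.integrable _

/-- conditional expectations in an extension of a sated pair -/
theorem Obs.SatRel.condExp_eq {O : Obs X} {L : Adm X} (h : O.SatRel L (fun a => a))
    {R : Adm X} (g : Ext R L) {k : L.W.C → ℂ} (hk : Bdd k) :
    (O.μ R)[fun ω => k (g.w.f (O.ev R ω)) | O.𝓖 R]
      =ᵐ[O.μ R] fun ω => ((O.μ L)[fun ω => k (O.ev L ω) | O.𝓖 L]) (O.π g ω) := by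
  refine (h.complex g hk).symm.trans ?_
  have hi : Integrable (fun ω => k (O.ev L ω)) (O.μ L) := (hk.comp (O.mev L)).integrable _
  have h1 := condExp_comap (O.hπ g) (O.hG L) hi
  have h2 : (fun ω => k (O.ev L (O.π g ω))) = fun ω => k (g.w.f (O.ev R ω)) := by
    funext ω
    rw [O.hev]
  rw [h2] at h1
  exact h1

theorem Obs.SatRel.norm_eq {O : Obs X} {L : Adm X} (h : O.SatRel L (fun a => a))
    {R : Adm X} (g : Ext R L) {k : L.W.C → ℂ} (hk : Bdd k) :
    ∫ ω, ‖((O.μ R)[fun ω => k (g.w.f (O.ev R ω)) | O.𝓖 R]) ω‖ ^ 2 ∂(O.μ R)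
      = ∫ ω, ‖((O.μ L)[fun ω => k (O.ev L ω) | O.𝓖 L]) ω‖ ^ 2 ∂(O.μ L) := by
  have h1 := h.condExp_eq g hk
  have h2 : ∫ ω, ‖((O.μ R)[fun ω => k (g.w.f (O.ev R ω)) | O.𝓖 R]) ω‖ ^ 2 ∂(O.μ R)
      = ∫ ω, ‖((O.μ L)[fun ω => k (O.ev L ω) | O.𝓖 L]) (O.π g ω)‖ ^ 2 ∂(O.μ R) := by
    refine integral_congr_ae ?_
    filter_upwards [h1] with ω hω
    rw [hω]
  rw [h2]
  have h3 : AEStronglyMeasurable (fun ω =>
      ‖((O.μ L)[fun ω => k (O.ev L ω) | O.𝓖 L]) ω‖ ^ 2) ((O.μ R).map (O.π g)) := by
    rw [(O.hπ g).map_eq]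
    exact (integrable_condExp.aestronglyMeasurable.norm.pow 2)
  have h4 := integral_map (O.hπ g).measurable.aemeasurable h3
  rw [(O.hπ g).map_eq] at h4
  exact h4.symm

/-- the scheme of the functional `M` -/
noncomputable def obsM (X : Sys) : Obs X where
  Ω P := P.W.C
  μ P := P.W.μ
  ev P := fun a => a
  mev P := measurable_id
  π e := e.w.f
  hπ e := e.w.mp
  hev e ω := rfl
  hcomp e e' ω := rfl
  𝓖 P := MeasurableSpace.comap P.y.f inferInstance
  hG P := P.y.meas.comap_le
  hle {P' P} e := by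
    rw [MeasurableSpace.comap_comp]
    have h : P.y.f ∘ e.w.f = e.v.f ∘ P'.y.f := by
      funext a; exact e.hy a
    rw [h, ← MeasurableSpace.comap_comp]
    exact MeasurableSpace.comap_mono e.v.meas.comap_le

section slots
variable {ι : Type} [Fintype ι] [DecidableEq ι]

omit [Fintype ι] [DecidableEq ι] in
theorem measurable_side {V Y : Sys} (y : Fac V Y) (s : ι) : Measurable (y.side s) := by
  refine Measurable.prodMk ?_ ?_
  · exact measurable_pi_lambda _ fun j => measurable_pi_apply _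
  · exact y.meas.comp (measurable_pi_apply s)

/-- the scheme of the functional `N^s` -/
noncomputable def obsN (X : Sys) (r : Ultrafilter (ι → ℤ)) (s : ι) : Obs X where
  Ω P := ι → P.W.C
  μ P := (D r P.W).μ
  ev P := fun d => d s
  mev P := measurable_pi_apply s
  π e := fun d i => e.w.f (d i)
  hπ e := (e.w.D r).mp
  hev e ω := rfl
  hcomp e e' ω := rfl
  𝓖 P := MeasurableSpace.comap (P.y.side s) inferInstance
  hG P := (measurable_side P.y s).comap_le
  hle {P' P} e := by
    rw [MeasurableSpace.comap_comp]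
    let h0 : ({j : ι // j ≠ s} → P'.W.C) × P'.Y.C → ({j : ι // j ≠ s} → P.W.C) × P.Y.C :=
      fun a => (fun j => e.w.f (a.1 j), e.v.f a.2)
    have hm : Measurable h0 := by
      refine Measurable.prodMk ?_ ?_
      · exact measurable_pi_lambda _ fun j =>
          e.w.meas.comp ((measurable_pi_apply j).comp measurable_fst)
      · exact e.v.meas.comp measurable_snd
    have h : (P.y.side s) ∘ (fun (d : ι → P'.W.C) i => e.w.f (d i)) = h0 ∘ (P'.y.side s) := by
      funext d
      simp only [Function.comp_apply, Fac.side, h0, e.hy]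
    rw [h, ← MeasurableSpace.comap_comp]
    exact MeasurableSpace.comap_mono hm.comap_le

/-- **Existence of sated extensions.** -/
theorem exists_sated231 (X : Sys) (P : Adm X) (ι : Type) [Fintype ι] [DecidableEq ι]
    (r : Ultrafilter (ι → ℤ)) : ∃ (P' : Adm X) (_ : Ext P' P), SatM P' ∧ ∀ s, SatN P' r s := by
  have : Encodable (Option ι) := Encodable.ofCountable _
  obtain ⟨L, e, hL⟩ := level2 (hasInvLim231 X)
    (fun j : Option ι => j.elim (obsM X) (fun s => obsN X r s)) P
  refine ⟨L, e, ?_, ?_⟩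
  · intro R g f hf
    have h1 : (obsM X).SatRel L (fun a => a) := hL none
    exact le_of_eq (h1.norm_eq g hf)
  · intro s R g f hf
    have h1 : (obsN X r s).SatRel L (fun a => a) := hL (some s)
    exact le_of_eq (h1.norm_eq g hf)

end slots

end Vale.Agent.P102.RM.Sat
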