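import Mathlib.Probability.Martingale.Convergence
import Mathlib.MeasureTheory.Function.ConditionalExpectation.PullOut
import Mathlib.MeasureTheory.Function.ConditionalExpectation.Real
import Mathlib.MeasureTheory.Function.ConditionalExpectation.CondJensen
import Mathlib.MeasureTheory.Integral.DominatedConvergence

/-! # SAT, part 3: continuity of the functionals, and passing from sets to functions -/

namespace Vale.Agent.P102.RM.Sat

open MeasureTheory Filter Topology Set

variable {Ω : Type} {m m1 m2 m0 : MeasurableSpace Ω} {P : Measure Ω}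

/-! ### (3a) continuity -/

/-- **Continuity** of `∫ (E[f|F_n])²` along an increasing sequence of sub-`σ`-algebras. -/
theorem tendsto_integral_sq_condExp [IsFiniteMeasure P] (F : ℕ → MeasurableSpace Ω)
    (hmono : Monotone F) (hle : ∀ n, F n ≤ m0) (f : Ω → ℝ) (C : ℝ)
    (hC : ∀ᵐ ω ∂P, |f ω| ≤ C) :
    Tendsto (fun n => ∫ ω, (P[f|F n]) ω ^ 2 ∂P) atTop (𝓝 (∫ ω, (P[f|⨆ n, F n]) ω ^ 2 ∂P)) := by
  let ℱ : Filtration ℕ m0 := ⟨F, hmono, hle⟩
  have h1 : ∀ᵐ x ∂P, Tendsto (fun n => (P[f|F n]) x) atTop (𝓝 ((P[f|⨆ n, F n]) x)) :=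
    tendsto_ae_condExp (ℱ := ℱ) f
  refine MeasureTheory.tendsto_integral_of_dominated_convergence (fun _ => C ^ 2) (fun n => ?_)
    (integrable_const _) (fun n => ?_) ?_
  · exact ((stronglyMeasurable_condExp.mono (hle n)).pow 2).aestronglyMeasurable
  · filter_upwards [ae_bdd_abs_condExp_of_ae_bdd_abs (m := F n) hC] with ω hω
    rw [Real.norm_eq_abs, abs_pow]
    exact pow_le_pow_left₀ (abs_nonneg _) hω 2
  · filter_upwards [h1] with ω hω
    exact hω.pow 2

/-! ### (3b) from a π-system to all functions -/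

section General

variable {E : Type} [NormedAddCommGroup E] [NormedSpace ℝ E] [CompleteSpace E]

lemma condExp_eq_of_tendsto {f : Ω → E} {fn : ℕ → Ω → E}
    (hf : Integrable f P) (hfn : ∀ n, Integrable (fn n) P)
    (hlim : Tendsto (fun n => eLpNorm (fn n - f) 1 P) atTop (𝓝 0))
    (h : ∀ n, P[fn n|m1] =ᵐ[P] P[fn n|m2]) : P[f|m1] =ᵐ[P] P[f|m2] := by
  have hb : ∀ n, eLpNorm (P[f|m1] - P[f|m2]) 1 P
      ≤ eLpNorm (fn n - f) 1 P + eLpNorm (fn n - f) 1 P := by
    intro n
    have e1 : P[f|m1] - P[f|m2] =ᵐ[P] P[fn n - f|m2] - P[fn n - f|m1] := by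
      filter_upwards [h n, condExp_sub (hfn n) hf m1, condExp_sub (hfn n) hf m2] with ω h1 h2 h3
      simp only [Pi.sub_apply] at h2 h3 ⊢
      rw [h2, h3, h1]
      abel
    rw [eLpNorm_congr_ae e1]
    refine (eLpNorm_sub_le integrable_condExp.aestronglyMeasurable
      integrable_condExp.aestronglyMeasurable le_rfl).trans ?_
    exact add_le_add (eLpNorm_condExp_le_eLpNorm _ le_rfl) (eLpNorm_condExp_le_eLpNorm _ le_rfl)
  have h0 : Tendsto (fun n => eLpNorm (fn n - f) 1 P + eLpNorm (fn n - f) 1 P) atTop (𝓝 0) := by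
    simpa using hlim.add hlim
  have h1 : eLpNorm (P[f|m1] - P[f|m2]) 1 P = 0 :=
    le_antisymm (ge_of_tendsto' h0 hb) bot_le
  rw [eLpNorm_eq_zero_iff (integrable_condExp.aestronglyMeasurable.sub
    integrable_condExp.aestronglyMeasurable) one_ne_zero] at h1
  filter_upwards [h1] with ω hω
  simpa [sub_eq_zero] using hω

variable {V : Type} [mV : MeasurableSpace V] {g : Ω → V}

/-- partial sums of disjoint indicators converge in `L¹` -/
lemma tendsto_eLpNorm_sum_indicator [IsFiniteMeasure P] {F : ℕ → Set Ω}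
    (hF : ∀ i, MeasurableSet (F i)) (hd : Pairwise (Function.onFun Disjoint F)) :
    Tendsto (fun n => eLpNorm ((∑ i ∈ Finset.range n, (F i).indicator (fun _ => (1 : ℝ)))
      - (⋃ i, F i).indicator (fun _ => (1 : ℝ))) 1 P) atTop (𝓝 0) := by
  have hint : ∀ A : Set Ω, MeasurableSet A →
      Integrable (A.indicator (fun _ => (1 : ℝ))) P := fun A hA =>
    (integrable_const (1 : ℝ)).indicator hA
  have hlim : ∀ ω, Tendsto (fun n => (∑ i ∈ Finset.range n,
      (F i).indicator (fun _ => (1 : ℝ))) ω) atTop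
      (𝓝 ((⋃ i, F i).indicator (fun _ => (1 : ℝ)) ω)) := by
    intro ω
    simp only [Finset.sum_apply]
    by_cases hω : ∃ i, ω ∈ F i
    · obtain ⟨i, hi⟩ := hω
      have hval : (⋃ i, F i).indicator (fun _ => (1 : ℝ)) ω = 1 := by
        rw [indicator_of_mem]
        exact mem_iUnion.2 ⟨i, hi⟩
      rw [hval]
      refine tendsto_const_nhds.congr' ?_
      filter_upwards [eventually_gt_atTop i] with n hn
      rw [Finset.sum_eq_single i]
      · rw [indicator_of_mem hi]
      · intro j _ hj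
        rw [indicator_of_notMem]
        intro hj'
        exact (Set.disjoint_left.1 (hd hj)) hj' hi
      · intro hi'
        exact absurd (Finset.mem_range.2 hn) hi'
    · have hval : (⋃ i, F i).indicator (fun _ => (1 : ℝ)) ω = 0 := by
        rw [indicator_of_notMem]
        intro h'
        exact hω (mem_iUnion.1 h')
      rw [hval]
      refine tendsto_const_nhds.congr fun n => ?_
      rw [Finset.sum_eq_zero]
      intro j _
      rw [indicator_of_notMem]
      intro hj'
      exact hω ⟨j, hj'⟩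
  have hbd : ∀ (n : ℕ) (ω : Ω), ‖(∑ i ∈ Finset.range n,
      (F i).indicator (fun _ => (1 : ℝ))) ω‖ ≤ 1 := by
    intro n ω
    simp only [Finset.sum_apply]
    by_cases hω : ∃ i, ω ∈ F i
    · obtain ⟨i, hi⟩ := hω
      have hz : ∀ j, j ≠ i → (F j).indicator (fun _ => (1 : ℝ)) ω = 0 := by
        intro j hj
        rw [indicator_of_notMem]
        intro hj'
        exact (Set.disjoint_left.1 (hd hj)) hj' hi
      by_cases hn : i ∈ Finset.range n
      · rw [Finset.sum_eq_single_of_mem i hn fun j _ hj => hz j hj, indicator_of_mem hi]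
        simp
      · rw [Finset.sum_eq_zero]
        · simp
        · intro j hj
          exact hz j (fun hji => hn (hji ▸ hj))
    · rw [Finset.sum_eq_zero]
      · simp
      · intro j _
        rw [indicator_of_notMem]
        intro hj'
        exact hω ⟨j, hj'⟩
  have hbd' : ∀ ω : Ω, ‖(⋃ i, F i).indicator (fun _ => (1 : ℝ)) ω‖ ≤ 1 := by
    intro ω
    by_cases hω : ω ∈ ⋃ i, F i
    · rw [indicator_of_mem hω]; simp
    · rw [indicator_of_notMem hω]; simp
  simp_rw [eLpNorm_one_eq_lintegral_enorm]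
  have h0 : ∫⁻ _ω, (0 : ENNReal) ∂P = 0 := by simp
  rw [← h0]
  refine tendsto_lintegral_of_dominated_convergence' (fun _ => (2 : ENNReal)) (fun n => ?_)
    (fun n => Eventually.of_forall fun ω => ?_) (by simp [ENNReal.mul_eq_top]) ?_
  · exact ((integrable_finsetSum' _ fun i _ => hint _ (hF i)).sub
      (hint _ (MeasurableSet.iUnion hF))).aestronglyMeasurable.enorm
  · simp only [Pi.sub_apply]
    refine (enorm_sub_le (a := (∑ i ∈ Finset.range n,
      (F i).indicator (fun _ => (1 : ℝ))) ω)).trans ?_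
    have e2 : (2 : ENNReal) = 1 + 1 := by norm_num
    rw [e2]
    refine add_le_add ?_ ?_
    · rw [← ofReal_norm, ← ENNReal.ofReal_one]
      exact ENNReal.ofReal_le_ofReal (hbd n ω)
    · rw [← ofReal_norm, ← ENNReal.ofReal_one]
      exact ENNReal.ofReal_le_ofReal (hbd' ω)
  · refine Eventually.of_forall fun ω => ?_
    have h3 := (hlim ω).sub_const ((⋃ i, F i).indicator (fun _ => (1 : ℝ)) ω)
    rw [sub_self] at h3
    have h4 := h3.enorm
    simpa using h4

lemma condExp_indicator_comp_eq_of_piSystem [IsFiniteMeasure P] (hg : Measurable[m0] g)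
    (h1 : m1 ≤ m0) (h2 : m2 ≤ m0) {C : Set (Set V)}
    (hC : mV = MeasurableSpace.generateFrom C) (hpi : IsPiSystem C)
    (h : ∀ A ∈ C, P[(g ⁻¹' A).indicator (fun _ => (1 : ℝ))|m1]
      =ᵐ[P] P[(g ⁻¹' A).indicator (fun _ => (1 : ℝ))|m2]) :
    ∀ A, MeasurableSet A → P[(g ⁻¹' A).indicator (fun _ => (1 : ℝ))|m1]
      =ᵐ[P] P[(g ⁻¹' A).indicator (fun _ => (1 : ℝ))|m2] := by
  have hint : ∀ A, MeasurableSet A →
      Integrable ((g ⁻¹' A).indicator (fun _ => (1 : ℝ))) P := fun A hA =>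
    (integrable_const (1 : ℝ)).indicator (hg hA)
  have hint' : ∀ A : Set Ω, MeasurableSet[m0] A →
      Integrable (A.indicator (fun _ => (1 : ℝ))) P := fun A hA =>
    (integrable_const (1 : ℝ)).indicator hA
  have hone : P[(fun _ : Ω => (1 : ℝ))|m1] =ᵐ[P] P[(fun _ : Ω => (1 : ℝ))|m2] := by
    rw [condExp_const h1, condExp_const h2]
  intro A hA
  induction A, hA using MeasurableSpace.induction_on_inter hC hpi with
  | empty => simp
  | basic t ht => exact h t ht
  | compl t htm ih =>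
    have e : (g ⁻¹' tᶜ).indicator (fun _ => (1 : ℝ))
        = (fun _ => (1 : ℝ)) - (g ⁻¹' t).indicator (fun _ => (1 : ℝ)) := by
      funext ω
      by_cases hω : g ω ∈ t
      · simp [indicator, hω]
      · simp [indicator, hω]
    rw [e]
    refine (condExp_sub (integrable_const _) (hint t htm) m1).trans ?_
    refine (hone.sub ih).trans ?_
    exact (condExp_sub (integrable_const _) (hint t htm) m2).symm
  | iUnion f hd hfm ih =>
    have hd' : Pairwise (Function.onFun Disjoint fun i => g ⁻¹' f i) := fun i j hij =>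
      (hd hij).preimage g
    rw [preimage_iUnion]
    refine condExp_eq_of_tendsto (hint' _ (MeasurableSet.iUnion fun i => hg (hfm i)))
      (fn := fun n => ∑ i ∈ Finset.range n, (g ⁻¹' f i).indicator (fun _ => (1 : ℝ)))
      (fun n => integrable_finsetSum' _ fun i _ => hint _ (hfm i)) ?_ ?_
    · exact tendsto_eLpNorm_sum_indicator (m0 := m0) (fun i => hg (hfm i)) hd'
    · intro n
      induction n with
      | zero => simp
      | succ n ihn =>
        rw [Finset.sum_range_succ]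
        have i1 : Integrable (∑ i ∈ Finset.range n,
            (g ⁻¹' f i).indicator (fun _ => (1 : ℝ))) P :=
          integrable_finsetSum' _ fun i _ => hint _ (hfm i)
        refine (condExp_add i1 (hint _ (hfm n)) m1).trans ?_
        refine (ihn.add (ih n)).trans ?_
        exact (condExp_add i1 (hint _ (hfm n)) m2).symm

/-- **From a π-system to all integrable functions.** -/
theorem condExp_comp_eq_of_piSystem [IsFiniteMeasure P] (hg : Measurable[m0] g)
    (h1 : m1 ≤ m0) (h2 : m2 ≤ m0) {C : Set (Set V)}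
    (hC : mV = MeasurableSpace.generateFrom C) (hpi : IsPiSystem C)
    (h : ∀ A ∈ C, P[(g ⁻¹' A).indicator (fun _ => (1 : ℝ))|m1]
      =ᵐ[P] P[(g ⁻¹' A).indicator (fun _ => (1 : ℝ))|m2]) (k : V → E)
    (hk : Integrable k (P.map g)) :
    P[fun ω => k (g ω)|m1] =ᵐ[P] P[fun ω => k (g ω)|m2] := by
  have hset := condExp_indicator_comp_eq_of_piSystem hg h1 h2 hC hpi h
  have hcomp : ∀ k : V → E, Integrable k (P.map g) → Integrable (fun ω => k (g ω)) P :=
    fun k hk => hk.comp_measurable hg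
  refine Integrable.induction (P := fun k : V → E =>
    P[fun ω => k (g ω)|m1] =ᵐ[P] P[fun ω => k (g ω)|m2]) ?_ ?_ ?_ ?_ hk
  · intro c s hs _
    let T : ℝ →L[ℝ] E := ContinuousLinearMap.toSpanSingleton ℝ c
    have e : (fun ω => (s.indicator (fun _ => c) (g ω) : E))
        = T ∘ ((g ⁻¹' s).indicator (fun _ => (1 : ℝ))) := by
      funext ω
      by_cases hω : g ω ∈ s
      · simp [indicator, hω, T]
      · simp [indicator, hω, T]
    have hi : Integrable ((g ⁻¹' s).indicator (fun _ => (1 : ℝ))) P :=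
      (integrable_const (1 : ℝ)).indicator (hg hs)
    simp only [e]
    refine (T.comp_condExp_comm (m := m1) hi).symm.trans ?_
    refine EventuallyEq.trans ?_ (T.comp_condExp_comm (m := m2) hi)
    filter_upwards [hset s hs] with ω hω
    simp only [Function.comp_apply, hω]
  · intro f f' _ hf hf' h3 h4
    have e : (fun ω => (f + f') (g ω)) = (fun ω => f (g ω)) + (fun ω => f' (g ω)) := rfl
    simp only [e]
    refine (condExp_add (hcomp f hf) (hcomp f' hf') m1).trans ?_
    exact (h3.add h4).trans (condExp_add (hcomp f hf) (hcomp f' hf') m2).symm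
  · rw [← isSeqClosed_iff_isClosed]
    intro u v hu huv
    simp only [mem_ofPred_eq] at hu ⊢
    have hu1 : ∀ n, Integrable (u n) (P.map g) := fun n => L1.integrable_coeFn _
    have hv1 : Integrable v (P.map g) := L1.integrable_coeFn _
    refine condExp_eq_of_tendsto (hcomp _ hv1) (fun n => hcomp _ (hu1 n)) ?_ hu
    have h5 := (Lp.tendsto_Lp_iff_tendsto_eLpNorm' u v).1 huv
    refine h5.congr fun n => ?_
    exact eLpNorm_map_measure (g := (⇑(u n) - ⇑v)) ((hu1 n).sub hv1).aestronglyMeasurable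
      hg.aemeasurable
  · intro f f' hff' hf h3
    have e : (fun ω => f (g ω)) =ᵐ[P] fun ω => f' (g ω) := ae_of_ae_map hg.aemeasurable hff'
    exact (condExp_congr_ae e).symm.trans (h3.trans (condExp_congr_ae e))

end General

/-! ### (3c), (3d): nested conditional expectations -/

section Nested

lemma memLp_two_of_bdd [IsFiniteMeasure P] {f : Ω → ℝ} {C : ℝ} (hf : AEStronglyMeasurable f P)
    (hC : ∀ᵐ ω ∂P, |f ω| ≤ C) : MemLp f 2 P :=
  MemLp.of_bound hf C (by simpa using hC)

lemma memLp_two_condExp [IsFiniteMeasure P] {f : Ω → ℝ} (hf : MemLp f 2 P)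
    (m : MeasurableSpace Ω) : MemLp (P[f|m]) 2 P := hf.condExp (by norm_num)

lemma integral_mul_condExp_nested [IsFiniteMeasure P]
    (h12 : m1 ≤ m2) (h2 : m2 ≤ m0) {f : Ω → ℝ} (hf : MemLp f 2 P) :
    ∫ ω, (P[f|m1]) ω * (P[f|m2]) ω ∂P = ∫ ω, (P[f|m1]) ω ^ 2 ∂P := by
  have h1 : m1 ≤ m0 := h12.trans h2
  have hi : Integrable (fun ω => (P[f|m1]) ω * (P[f|m2]) ω) P :=
    (memLp_two_condExp hf m1).integrable_mul (memLp_two_condExp hf m2)
  rw [← integral_condExp (m := m1) h1 (f := fun ω => (P[f|m1]) ω * (P[f|m2]) ω)]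
  refine integral_congr_ae ?_
  have h3 : P[(P[f|m1]) * (P[f|m2])|m1] =ᵐ[P] (P[f|m1]) * P[P[f|m2]|m1] :=
    condExp_mul_of_stronglyMeasurable_left stronglyMeasurable_condExp hi integrable_condExp
  have h4 : P[P[f|m2]|m1] =ᵐ[P] P[f|m1] := condExp_condExp_of_le h12 h2
  filter_upwards [h3, h4] with ω h5 h6
  have h7 : (P[fun ω => (P[f|m1]) ω * (P[f|m2]) ω|m1]) ω = ((P[f|m1]) * P[P[f|m2]|m1]) ω := h5
  rw [h7, Pi.mul_apply, h6, sq]

lemma integral_sq_sub_condExp [IsFiniteMeasure P]
    (h12 : m1 ≤ m2) (h2 : m2 ≤ m0) {f : Ω → ℝ} (hf : MemLp f 2 P) :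
    ∫ ω, ((P[f|m2]) ω - (P[f|m1]) ω) ^ 2 ∂P
      = ∫ ω, (P[f|m2]) ω ^ 2 ∂P - ∫ ω, (P[f|m1]) ω ^ 2 ∂P := by
  have i1 : Integrable (fun ω => (P[f|m1]) ω ^ 2) P := (memLp_two_condExp hf m1).integrable_sq
  have i2 : Integrable (fun ω => (P[f|m2]) ω ^ 2) P := (memLp_two_condExp hf m2).integrable_sq
  have i12 : Integrable (fun ω => (P[f|m1]) ω * (P[f|m2]) ω) P :=
    (memLp_two_condExp hf m1).integrable_mul (memLp_two_condExp hf m2)
  have e : ∀ ω, ((P[f|m2]) ω - (P[f|m1]) ω) ^ 2
      = (P[f|m2]) ω ^ 2 - 2 * ((P[f|m1]) ω * (P[f|m2]) ω) + (P[f|m1]) ω ^ 2 := by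
    intro ω; ring
  simp_rw [e]
  have i3 : Integrable (fun ω => (P[f|m2]) ω ^ 2 - 2 * ((P[f|m1]) ω * (P[f|m2]) ω)) P :=
    i2.sub (i12.const_mul 2)
  rw [integral_add i3 i1, integral_sub i2 (i12.const_mul 2),
    integral_const_mul, integral_mul_condExp_nested h12 h2 hf]
  ring

/-- (3d) monotonicity. -/
theorem integral_sq_condExp_mono [IsFiniteMeasure P]
    (h12 : m1 ≤ m2) (h2 : m2 ≤ m0) {f : Ω → ℝ} (hf : MemLp f 2 P) :
    ∫ ω, (P[f|m1]) ω ^ 2 ∂P ≤ ∫ ω, (P[f|m2]) ω ^ 2 ∂P := by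
  have h := integral_sq_sub_condExp h12 h2 hf
  have h0 : 0 ≤ ∫ ω, ((P[f|m2]) ω - (P[f|m1]) ω) ^ 2 ∂P :=
    integral_nonneg fun ω => sq_nonneg _
  linarith

/-- (3c) equality of norms gives equality. -/
theorem condExp_eq_of_integral_sq_le [IsFiniteMeasure P]
    (h12 : m1 ≤ m2) (h2 : m2 ≤ m0) {f : Ω → ℝ} (hf : MemLp f 2 P)
    (h : ∫ ω, (P[f|m2]) ω ^ 2 ∂P ≤ ∫ ω, (P[f|m1]) ω ^ 2 ∂P) :
    P[f|m1] =ᵐ[P] P[f|m2] := by
  have h3 := integral_sq_sub_condExp h12 h2 hf
  have h0 : ∫ ω, ((P[f|m2]) ω - (P[f|m1]) ω) ^ 2 ∂P = 0 :=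
    le_antisymm (by linarith) (integral_nonneg fun ω => sq_nonneg _)
  have hi : Integrable (fun ω => ((P[f|m2]) ω - (P[f|m1]) ω) ^ 2) P :=
    ((memLp_two_condExp hf m2).sub (memLp_two_condExp hf m1)).integrable_sq
  rw [integral_eq_zero_iff_of_nonneg (fun ω => sq_nonneg _) hi] at h0
  filter_upwards [h0] with ω hω
  have h4 : (P[f|m2]) ω - (P[f|m1]) ω = 0 := pow_eq_zero_iff (n := 2) (by norm_num) |>.1 hω
  linarith

/-- (3d') upper bound. -/
theorem integral_sq_condExp_le [IsFiniteMeasure P]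
    (h1 : m1 ≤ m0) {f : Ω → ℝ} (hf : MemLp f 2 P) :
    ∫ ω, (P[f|m1]) ω ^ 2 ∂P ≤ ∫ ω, f ω ^ 2 ∂P := by
  have h := integral_sq_condExp_mono h1 le_rfl hf
  have e : P[f|m0] =ᵐ[P] f := condExp_of_aestronglyMeasurable' le_rfl hf.1
    (hf.integrable (by norm_num))
  refine h.trans (le_of_eq (integral_congr_ae ?_))
  filter_upwards [e] with ω hω
  rw [hω]

end Nested

/-! ### (3e) transport under a measure preserving map -/

section Transport

variable {Ω' : Type} {m0' : MeasurableSpace Ω'} {P' : Measure Ω'} {π : Ω' → Ω}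
variable {E : Type} [NormedAddCommGroup E] [NormedSpace ℝ E] [CompleteSpace E]

theorem condExp_comap [IsFiniteMeasure P'] (hπ : MeasurePreserving π P' P)
    (hm : m ≤ m0) {f : Ω → E} (hf : Integrable f P) :
    P'[fun ω => f (π ω)|m.comap π] =ᵐ[P'] fun ω => (P[f|m]) (π ω) := by
  have : IsFiniteMeasure P := by
    rw [← hπ.map_eq]; infer_instance
  have hle : m.comap π ≤ m0' := (MeasurableSpace.comap_mono hm).trans hπ.measurable.comap_le
  have hf' : Integrable (fun ω => f (π ω)) P' := hπ.integrable_comp_of_integrable hf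
  symm
  refine ae_eq_condExp_of_forall_setIntegral_eq hle hf' (fun s _ _ => ?_) (fun s hs _ => ?_) ?_
  · exact (hπ.integrable_comp_of_integrable integrable_condExp).integrableOn
  · obtain ⟨t, ht, rfl⟩ := hs
    have ht0 : MeasurableSet t := hm t ht
    have e1 : ∫ x in π ⁻¹' t, (P[f|m]) (π x) ∂P' = ∫ y in t, (P[f|m]) y ∂P := by
      rw [← hπ.map_eq]
      refine (setIntegral_map ht0 ?_ hπ.measurable.aemeasurable).symm
      rw [hπ.map_eq]
      exact integrable_condExp.aestronglyMeasurable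
    have e2 : ∫ x in π ⁻¹' t, f (π x) ∂P' = ∫ y in t, f y ∂P := by
      rw [← hπ.map_eq]
      refine (setIntegral_map ht0 ?_ hπ.measurable.aemeasurable).symm
      rw [hπ.map_eq]
      exact hf.aestronglyMeasurable
    rw [e1, e2]
    exact setIntegral_condExp hm hf ht
  · exact (stronglyMeasurable_condExp.comp_measurable
      (comap_measurable π)).aestronglyMeasurable

end Transport

end Vale.Agent.P102.RM.Sat
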