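import Vale.Agent.P102.RM.Skeleton
import Vale.Agent.P102.RM.Sat231b

namespace Vale.Agent.P102.RM

/-- block SAT -/
theorem b_SAT_231 : B_SAT := fun X P ι _ _ r => Sat.exists_sated231 X P ι r

end Vale.Agent.P102.RM
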