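import Vale.Agent.P102.RM.Sat231c
import Vale.Agent.P102.RM.CE

/-! # `N`-satedness in `cE` form (P102) -/

namespace Vale.Agent.P102.RM

open MeasureTheory Filter Topology ProbabilityTheory

variable {X : Sys} {ι : Type} [Fintype ι] [DecidableEq ι]

/-- `(*)`: in every extension `P1` of an `N^s`-sated pair, the projection of `k(w_s)` to the side
data of `P1` is the function `Q` of the side data of `P`. -/
theorem SatN.integral_cE {P : Adm X} {r : Ultrafilter (ι → ℤ)} {s : ι} (h : SatN P r s)
    {P1 : Adm X} (e : Ext P1 P) {k : P.W.C → ℂ} (hk : Bdd k)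
    {u : ({j : ι // j ≠ s} → P1.W.C) × P1.Y.C → ℂ} (hu : Bdd u) :
    ∫ d : ι → P1.W.C, k (e.w.f (d s)) * u (P1.y.side s d) ∂(D r P1.W).μ
      = ∫ d : ι → P1.W.C, cE (D r P.W).μ (P.y.side s) (fun d : (D r P.W).C => k (d s))
          (P.y.side s (fun o => e.w.f (d o))) * u (P1.y.side s d) ∂(D r P1.W).μ := by
  refine (h.integral_eq e hk hu).trans ?_
  have hF : Bdd (fun d : (D r P.W).C => k (d s)) := hk.comp (measurable_pi_apply s)
  have h1 := cE_comp_ae_eq (μ := (D r P.W).μ) (g := P.y.side s)
    (F := fun d : (D r P.W).C => k (d s)) (Sat.measurable_side P.y s) (hF.integrable _)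
  have h2 := (e.w.D r).mp.quasiMeasurePreserving.ae h1
  refine integral_congr_ae ?_
  filter_upwards [h2] with d hd
  exact congrArg (fun c : ℂ => c * u (P1.y.side s d)) hd.symm

end Vale.Agent.P102.RM
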