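import Vale.Agent.P102.RM.Ideal408

/-!
P102, Theorem E (second copy), part 3: `b_the_408`.
-/

namespace Vale.Agent.P102.RM.T408

open MeasureTheory Filter Topology ProbabilityTheory

variable {X : Sys} {ι : Type} [Fintype ι] [DecidableEq ι]

/-- `w_t` and `x_b` are independent in `D r W` -/
theorem indep_w_x (P : Adm X) (r : Ultrafilter (ι → ℤ)) {t b c : ι} (htb : t ≠ b) (hct : c ≠ t)
    (hcb : c ≠ b) (hL : LineInd r P.y c) :
    IndepFun (evF r P.W t).f (P.x.comp (evF r P.W b)).f (D r P.W).μ := by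
  refine indepFun_of_integral (evF r P.W t).meas (P.x.comp (evF r P.W b)).meas ?_
  intro f φ hf hφ
  set m : ℂ := ∫ x, φ x ∂X.μ with hm
  have hφx : Bdd (fun w : P.W.C => φ (P.x.f w) - m) := (hφ.comp P.x.meas).sub (Bdd.const _)
  let f' : ι → P.W.C → ℂ := fun i =>
    if i = b then fun w => φ (P.x.f w) - m else if i = t then f else fun _ => 1
  have hf' : ∀ i, Bdd (f' i) := by
    intro i
    by_cases h : i = b
    · simp only [f', h, if_true]; exact hφx
    · by_cases h2 : i = t
      · simp only [f', if_neg h, if_pos h2]; exact hf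
      · simp only [f', if_neg h, if_neg h2]; exact Bdd.const 1
  have h1 := hL f' (fun _ => 1) hf' (Bdd.const 1)
  simp only [one_mul] at h1
  have hb : b ∈ Finset.univ.erase c := by simp [hcb.symm]
  have ht : t ∈ (Finset.univ.erase c).erase b := by simp [htb, hct.symm]
  have hfb : f' b = fun w => φ (P.x.f w) - m := by simp only [f', if_true]
  have hft : f' t = f := by simp only [f', if_neg htb, if_true]
  have h2 : ∀ d : ι → P.W.C, ∏ j ∈ Finset.univ.erase c, f' j (d j)
      = (φ (P.x.f (d b)) - m) * f (d t) := by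
    intro d
    rw [← Finset.mul_prod_erase _ _ hb, hfb, ← Finset.mul_prod_erase _ _ ht, hft]
    have h3 : ∏ x ∈ ((Finset.univ.erase c).erase b).erase t, f' x (d x) = 1 := by
      refine Finset.prod_eq_one fun x hx => ?_
      simp only [Finset.mem_erase, Finset.mem_univ, and_true] at hx
      simp only [f', if_neg hx.2.1, if_neg hx.1]
    rw [h3, mul_one]
  have h3 : ∀ᵐ d ∂(D r P.W).μ, P.y.ce (f' b) (P.y.f (d b)) = 0 := by
    rw [hfb]
    exact ((P.y.comp (evF r P.W b)).mp.quasiMeasurePreserving.ae (ce_x_sub_const P hφ))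
  have key : ∫ d : ι → P.W.C, (φ (P.x.f (d b)) - m) * f (d t) ∂(D r P.W).μ = 0 := by
    calc ∫ d : ι → P.W.C, (φ (P.x.f (d b)) - m) * f (d t) ∂(D r P.W).μ
        = ∫ d : ι → P.W.C, ∏ j ∈ Finset.univ.erase c, f' j (d j) ∂(D r P.W).μ := by
          simp only [h2]
      _ = ∫ d : ι → P.W.C, ∏ j ∈ Finset.univ.erase c, P.y.ce (f' j) (P.y.f (d j))
            ∂(D r P.W).μ := h1
      _ = ∫ d : ι → P.W.C, (0 : ℂ) ∂(D r P.W).μ := by
          refine integral_congr_ae ?_
          filter_upwards [h3] with d hd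
          rw [← Finset.mul_prod_erase _ _ hb, hd]
          ring
      _ = 0 := integral_zero _ _
  have i1 : Integrable (fun d : ι → P.W.C => φ (P.x.f (d b)) * f (d t)) (D r P.W).μ :=
    (((hφ.comp P.x.meas).comp (measurable_pi_apply b)).mul
      (hf.comp (measurable_pi_apply t))).integrable _
  have i2 : Integrable (fun d : ι → P.W.C => m * f (d t)) (D r P.W).μ :=
    ((Bdd.const m).mul (hf.comp (measurable_pi_apply t))).integrable _
  simp only [sub_mul] at key
  rw [integral_sub i1 i2, integral_const_mul, sub_eq_zero] at key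
  have h5 : ∫ d : (D r P.W).C, φ (P.x.f (d b)) ∂(D r P.W).μ = m :=
    (P.x.comp (evF r P.W b)).integral_comp hφ
  calc ∫ d : (D r P.W).C, f ((evF r P.W t).f d) * φ ((P.x.comp (evF r P.W b)).f d) ∂(D r P.W).μ
      = ∫ d : ι → P.W.C, φ (P.x.f (d b)) * f (d t) ∂(D r P.W).μ := by
        refine integral_congr_ae (Eventually.of_forall fun d => ?_)
        show f (d t) * φ (P.x.f (d b)) = φ (P.x.f (d b)) * f (d t)
        ring
    _ = m * ∫ d : ι → P.W.C, f (d t) ∂(D r P.W).μ := key
    _ = _ := by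
        rw [mul_comm]
        congr 1
        exact h5.symm

/-- **Theorem E** -/
theorem theE (P : Adm X) (r : Ultrafilter (ι → ℤ)) (s : ι) {t b : ι} (htb : t ≠ b)
    (hL : ∀ c, LineInd r P.y c) (hcard : 3 ≤ Fintype.card ι) (hN : SatN P r s)
    (f : ι → P.W.C → ℂ) (g : ι → X.C → ℂ) (hf : ∀ i, Bdd (f i)) (hg : ∀ i, Bdd (g i)) :
    cl r P.W t (fun d => (∏ a ∈ (Finset.univ.erase t).erase b, f a (d a)) *
      cl r X s (fun d => ∏ o ∈ Finset.univ.erase s, g o (d o)) (P.x.f (d b))) ∈ Exa P r s := by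
  obtain ⟨c, hct, hcb⟩ : ∃ c, c ≠ t ∧ c ≠ b := by
    by_contra h
    push Not at h
    have h1 : (Finset.univ : Finset ι) ⊆ {t, b} := by
      intro c _
      by_cases hc : c = t
      · simp [hc]
      · simp [h c hc]
    have h2 := Finset.card_le_card h1
    have h3 : ({t, b} : Finset ι).card ≤ 2 := Finset.card_le_two
    rw [Finset.card_univ] at h2
    omega
  have hind := indep_w_x P r htb hct hcb (hL c)
  set K : (ι → X.C) → ℂ := fun d => ∏ o ∈ Finset.univ.erase s, g o (d o) with hK
  have hKb : Bdd K := bdd_prod_coord _ hg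
  set ψ : X.C → ℂ := cl r X s K with hψ
  have hψb : Bdd ψ := hKb.cl r X s
  have hFa : Bdd (fun d : ι → P.W.C => ∏ a ∈ (Finset.univ.erase t).erase b, f a (d a)) :=
    Bdd.prod _ fun i _ => (hf i).comp (measurable_pi_apply i)
  have hF : Bdd (fun d : ι → P.W.C =>
      (∏ a ∈ (Finset.univ.erase t).erase b, f a (d a)) * ψ (P.x.f (d b))) :=
    hFa.mul ((hψb.comp P.x.meas).comp (measurable_pi_apply b))
  have hΨ : Bdd (cl r P.W t (fun d : ι → P.W.C =>
      (∏ a ∈ (Finset.univ.erase t).erase b, f a (d a)) * ψ (P.x.f (d b)))) := hF.cl r P.W t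
  refine exa_of_core P r s hΨ fun k hk => ?_
  let H : ({j : ι // j ≠ s} → (D r P.W).C) × (Y1 P r t b).C → ℂ := fun c =>
    (∏ a : J t b, f a (c.2.1 a)) * ∏ o : {j : ι // j ≠ s}, g o (P.x.f (c.1 o b))
  have hH : Bdd H := by
    refine Bdd.mul ?_ ?_
    · refine Bdd.prod _ fun a _ => (hf a).comp ?_
      exact (measurable_pi_apply a).comp (measurable_fst.comp measurable_snd)
    · refine Bdd.prod _ fun o _ => (hg o).comp ?_
      exact P.x.meas.comp ((measurable_pi_apply b).comp
        ((measurable_pi_apply o).comp measurable_fst))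
  have prod_s : ∀ u : ι → ℂ, ∏ o : {j : ι // j ≠ s}, u o = ∏ o ∈ Finset.univ.erase s, u o := by
    intro u
    symm
    refine Finset.prod_subtype _ (fun a => ?_) u
    simp
  have hHeq : ∀ d : ι → ι → P.W.C, H ((P1 P r htb (hL b)).y.side s d)
      = (∏ a ∈ (Finset.univ.erase t).erase b, f a (d s a)) *
        K (fun o => P.x.f (d o b)) := by
    intro d
    show (∏ a : J t b, f a (d s a)) * ∏ o : {j : ι // j ≠ s}, g o (P.x.f (d o b)) = _
    rw [prod_J t b (fun a => f a (d s a)), prod_s (fun o => g o (P.x.f (d o b)))]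
  have hkb : Bdd (fun d : (D r P.W).C => k (d t)) := hk.comp (measurable_pi_apply t)
  have hkΨ := hk.mul hΨ
  -- left side
  have l1 : ∫ d : ι → P.W.C, k (d s) * cl r P.W t (fun d : ι → P.W.C =>
      (∏ a ∈ (Finset.univ.erase t).erase b, f a (d a)) * ψ (P.x.f (d b))) (d s) ∂(D r P.W).μ
      = ∫ d : (D r P.W).C, k (d t) * ((∏ a ∈ (Finset.univ.erase t).erase b, f a (d a)) *
        ψ (P.x.f (d b))) ∂(D r P.W).μ :=
    ((evF r P.W s).integral_comp hkΨ).trans (integral_mul_cl r P.W t hF hk).symm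
  have l2 := integral_row_col r (P.x.comp (evF r P.W b)) s
    (fun d : (D r P.W).C => k (d t) * ∏ a ∈ (Finset.univ.erase t).erase b, f a (d a))
    (hkb.mul hFa) K hKb
  have l3 := star P r s hN (E1 P r htb (hL b)) hk hH
  -- right side
  set G : (ι → P.W.C) → ℂ := fun a => Q P r s k (P.y.side s a) with hG
  have hGb : Bdd G := (Q_bdd P r s hk).comp (measurable_side' P.y s)
  have r1 := integral_row_two r (evF r P.W t) (P.x.comp (evF r P.W b)) hind s
    (fun d : (D r P.W).C => ∏ a ∈ (Finset.univ.erase t).erase b, f a (d a)) hFa G hGb K hKb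
  have r2 : ∫ z : (D r P.W).C, (∏ a ∈ (Finset.univ.erase t).erase b, f a (z a)) *
      (cl r P.W s G (z t) * ψ (P.x.f (z b))) ∂(D r P.W).μ
      = ∫ d : ι → P.W.C, cl r P.W t (fun d : ι → P.W.C =>
      (∏ a ∈ (Finset.univ.erase t).erase b, f a (d a)) * ψ (P.x.f (d b))) (d s) * G d
        ∂(D r P.W).μ := by
    rw [integral_mul_cl r P.W s hGb hΨ]
    have e1 := integral_mul_cl r P.W t hF (hGb.cl r P.W s)
    calc ∫ z : (D r P.W).C, (∏ a ∈ (Finset.univ.erase t).erase b, f a (z a)) *
          (cl r P.W s G (z t) * ψ (P.x.f (z b))) ∂(D r P.W).μ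
        = ∫ d : (D r P.W).C, cl r P.W s G (d t) *
          ((∏ a ∈ (Finset.univ.erase t).erase b, f a (d a)) * ψ (P.x.f (d b)))
            ∂(D r P.W).μ := by
          refine integral_congr_ae (Eventually.of_forall fun d => ?_)
          simp only
          ring
      _ = _ := e1
      _ = _ := by simp only [mul_comm]
  rw [l1, ← r2]
  refine Eq.trans ?_ (l2.symm.trans (Eq.trans ?_ (l3.trans (Eq.trans ?_ r1))))
  · refine integral_congr_ae (Eventually.of_forall fun d => ?_)
    show k (d t) * ((∏ a ∈ (Finset.univ.erase t).erase b, f a (d a)) * ψ (P.x.f (d b)))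
      = (k (d t) * ∏ a ∈ (Finset.univ.erase t).erase b, f a (d a)) * ψ (P.x.f (d b))
    ring
  · refine integral_congr_ae (Eventually.of_forall fun d => ?_)
    show (k (d s t) * ∏ a ∈ (Finset.univ.erase t).erase b, f a (d s a)) *
      K (fun o => P.x.f (d o b)) = k (d s t) * H ((P1 P r htb (hL b)).y.side s d)
    rw [hHeq]
    ring
  · refine integral_congr_ae (Eventually.of_forall fun d => ?_)
    show G (fun o => d o t) * H ((P1 P r htb (hL b)).y.side s d)
      = (∏ a ∈ (Finset.univ.erase t).erase b, f a (d s a)) *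
        (G (fun o => d o t) * K (fun o => P.x.f (d o b)))
    rw [hHeq]
    ring

theorem b_the_408 (hLINE : B_LINE) : B_THE := by
  intro X P ι _ _ r hcard hK hM hN s t b htb f g hf hg
  exact theE P r s htb (fun c => hLINE X P ι r hM hK c) hcard (hN s) f g hf hg

end Vale.Agent.P102.RM.T408
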