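import Mathlib.MeasureTheory.Function.ConditionalExpectation.PullOut
import Mathlib.MeasureTheory.Function.ConditionalExpectation.Real
import Mathlib.MeasureTheory.Function.FactorsThrough
import Mathlib.MeasureTheory.Function.L2Space

/-!
P102, blocks THE + IDEAL, part 1: conditional expectations of bounded complex functions.
Pull-out, Pythagoras, the norm lemma (satedness gives equality of conditional expectations) and
Lemma A (the abstract form of Theorem E).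
-/

namespace Vale.Agent.P102.RM.TE

open MeasureTheory Filter Set ComplexConjugate

variable {Ω : Type*} {m0 : MeasurableSpace Ω} {P : Measure Ω} [IsProbabilityMeasure P]

/-- a.e. bounded complex functions -/
def AB (P : Measure Ω) (f : Ω → ℂ) : Prop := ∃ C : ℝ, ∀ᵐ ω ∂P, ‖f ω‖ ≤ C

omit [IsProbabilityMeasure P] in
theorem AB.condExp {f : Ω → ℂ} (hf : AB P f) (m : MeasurableSpace Ω) : AB P (P[f|m]) := by
  obtain ⟨C, hC⟩ := hf
  exact ⟨C, ae_bdd_norm_condExp_of_ae_bdd_norm hC⟩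

omit [IsProbabilityMeasure P] in
theorem AB.mul {f g : Ω → ℂ} (hf : AB P f) (hg : AB P g) : AB P (fun ω => f ω * g ω) := by
  obtain ⟨C, hC⟩ := hf
  obtain ⟨D, hD⟩ := hg
  refine ⟨C * D, ?_⟩
  filter_upwards [hC, hD] with ω h1 h2
  rw [norm_mul]
  exact mul_le_mul h1 h2 (norm_nonneg _) ((norm_nonneg _).trans h1)

omit [IsProbabilityMeasure P] in
theorem AB.sub {f g : Ω → ℂ} (hf : AB P f) (hg : AB P g) : AB P (fun ω => f ω - g ω) := by
  obtain ⟨C, hC⟩ := hf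
  obtain ⟨D, hD⟩ := hg
  refine ⟨C + D, ?_⟩
  filter_upwards [hC, hD] with ω h1 h2
  exact (norm_sub_le _ _).trans (add_le_add h1 h2)

omit [IsProbabilityMeasure P] in
theorem AB.star {f : Ω → ℂ} (hf : AB P f) : AB P (fun ω => conj (f ω)) := by
  obtain ⟨C, hC⟩ := hf
  refine ⟨C, ?_⟩
  filter_upwards [hC] with ω h1
  rwa [RCLike.norm_conj]

theorem AB.integrable {f : Ω → ℂ} (hf : AB P f) (hm : AEStronglyMeasurable[m0] f P) :
    Integrable f P := by
  obtain ⟨C, hC⟩ := hf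
  exact Integrable.of_bound hm C hC

/-- `∫ A * F = ∫ A * E[F|m]` for bounded `m`-measurable `A`. -/
theorem integral_mul_condExp {m : MeasurableSpace Ω} (hm : m ≤ m0) {A F : Ω → ℂ}
    (hA : AEStronglyMeasurable[m] A P) (hAb : AB P A) (hF : AEStronglyMeasurable[m0] F P)
    (hFb : AB P F) : ∫ ω, A ω * F ω ∂P = ∫ ω, A ω * (P[F|m]) ω ∂P := by
  have hAi : AEStronglyMeasurable[m0] A P := hA.mono hm
  have hint : Integrable (fun ω => A ω * F ω) P := (hAb.mul hFb).integrable (hAi.mul hF)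
  have h1 : P[fun ω => A ω * F ω|m] =ᵐ[P] fun ω => A ω * (P[F|m]) ω :=
    condExp_bilin_of_aestronglyMeasurable_left (ContinuousLinearMap.mul ℝ ℂ) hA hint
      (hFb.integrable hF)
  have h2 : ∫ ω, (P[fun ω => A ω * F ω|m]) ω ∂P = ∫ ω, A ω * F ω ∂P := integral_condExp hm
  rw [← h2]
  exact integral_congr_ae h1

omit [IsProbabilityMeasure P] in
theorem integral_conj' {f : Ω → ℂ} : ∫ ω, conj (f ω) ∂P = conj (∫ ω, f ω ∂P) :=
  integral_conj

omit [IsProbabilityMeasure P] in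
theorem integral_sq_eq {u : Ω → ℂ} :
    ((∫ ω, ‖u ω‖ ^ 2 ∂P : ℝ) : ℂ) = ∫ ω, u ω * conj (u ω) ∂P := by
  rw [← integral_complex_ofReal]
  refine integral_congr_ae (Eventually.of_forall fun ω => ?_)
  simp only [Complex.mul_conj, Complex.normSq_eq_norm_sq]

/-- If `∫ F conj F = ∫ E[F|m] conj E[F|m]` then `F = E[F|m]` a.e. -/
theorem condExp_ae_eq_self_of_sq {m : MeasurableSpace Ω} (hm : m ≤ m0) {F : Ω → ℂ}
    (hF : AEStronglyMeasurable[m0] F P) (hFb : AB P F)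
    (h : ∫ ω, F ω * conj (F ω) ∂P = ∫ ω, (P[F|m]) ω * conj ((P[F|m]) ω) ∂P) :
    P[F|m] =ᵐ[P] F := by
  have hE : AEStronglyMeasurable[m] (P[F|m]) P :=
    stronglyMeasurable_condExp.aestronglyMeasurable
  have hE0 : AEStronglyMeasurable[m0] (P[F|m]) P := hE.mono hm
  have hEb : AB P (P[F|m]) := hFb.condExp m
  have hEc : AEStronglyMeasurable[m] (fun ω => conj ((P[F|m]) ω)) P :=
    Complex.continuous_conj.comp_aestronglyMeasurable hE
  have hEc0 : AEStronglyMeasurable[m0] (fun ω => conj ((P[F|m]) ω)) P := hEc.mono hm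
  have hFc : AEStronglyMeasurable[m0] (fun ω => conj (F ω)) P :=
    Complex.continuous_conj.comp_aestronglyMeasurable hF
  have h1 : ∫ ω, conj ((P[F|m]) ω) * F ω ∂P = ∫ ω, conj ((P[F|m]) ω) * (P[F|m]) ω ∂P :=
    integral_mul_condExp hm hEc hEb.star hF hFb
  have h1' : ∫ ω, (P[F|m]) ω * conj (F ω) ∂P = ∫ ω, (P[F|m]) ω * conj ((P[F|m]) ω) ∂P := by
    have h2 := congrArg conj h1
    rw [← integral_conj', ← integral_conj'] at h2
    simpa only [map_mul, Complex.conj_conj] using h2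
  have i1 : Integrable (fun ω => F ω * conj (F ω)) P :=
    (hFb.mul hFb.star).integrable (hF.mul hFc)
  have i2 : Integrable (fun ω => (P[F|m]) ω * conj (F ω)) P :=
    (hEb.mul hFb.star).integrable (hE0.mul hFc)
  have i3 : Integrable (fun ω => conj ((P[F|m]) ω) * F ω) P :=
    (hEb.star.mul hFb).integrable (hEc0.mul hF)
  have i4 : Integrable (fun ω => (P[F|m]) ω * conj ((P[F|m]) ω)) P :=
    (hEb.mul hEb.star).integrable (hE0.mul hEc0)
  have h0 : ∫ ω, (((P[F|m]) ω - F ω) * conj ((P[F|m]) ω - F ω)) ∂P = 0 := by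
    have : ∀ ω, ((P[F|m]) ω - F ω) * conj ((P[F|m]) ω - F ω)
        = (P[F|m]) ω * conj ((P[F|m]) ω) - (P[F|m]) ω * conj (F ω)
          - (conj ((P[F|m]) ω) * F ω - F ω * conj (F ω)) := fun ω => by
      rw [map_sub]; ring
    simp_rw [this]
    have e1 : ∫ ω, ((P[F|m]) ω * conj ((P[F|m]) ω) - (P[F|m]) ω * conj (F ω)
          - (conj ((P[F|m]) ω) * F ω - F ω * conj (F ω))) ∂P
        = ∫ ω, ((P[F|m]) ω * conj ((P[F|m]) ω) - (P[F|m]) ω * conj (F ω)) ∂P
          - ∫ ω, (conj ((P[F|m]) ω) * F ω - F ω * conj (F ω)) ∂P :=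
      integral_sub (i4.sub i2) (i3.sub i1)
    have e2 : ∫ ω, ((P[F|m]) ω * conj ((P[F|m]) ω) - (P[F|m]) ω * conj (F ω)) ∂P
        = ∫ ω, (P[F|m]) ω * conj ((P[F|m]) ω) ∂P - ∫ ω, (P[F|m]) ω * conj (F ω) ∂P :=
      integral_sub i4 i2
    have e3 : ∫ ω, (conj ((P[F|m]) ω) * F ω - F ω * conj (F ω)) ∂P
        = ∫ ω, conj ((P[F|m]) ω) * F ω ∂P - ∫ ω, F ω * conj (F ω) ∂P := integral_sub i3 i1
    have e4 : ∫ ω, conj ((P[F|m]) ω) * (P[F|m]) ω ∂P = ∫ ω, (P[F|m]) ω * conj ((P[F|m]) ω) ∂P :=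
      integral_congr_ae (Eventually.of_forall fun ω => mul_comm _ _)
    rw [e1, e2, e3, h1', h1, e4, h]
    ring
  have h2 : ∫ ω, ‖(P[F|m]) ω - F ω‖ ^ 2 ∂P = 0 := by
    have h3 : ((∫ ω, ‖(P[F|m]) ω - F ω‖ ^ 2 ∂P : ℝ) : ℂ) = 0 := by
      rw [← h0]
      exact integral_sq_eq
    exact_mod_cast h3
  have h4 : (fun ω => ‖(P[F|m]) ω - F ω‖ ^ 2) =ᵐ[P] 0 := by
    refine (integral_eq_zero_iff_of_nonneg (fun ω => sq_nonneg _) ?_).1 h2
    have hd : AB P (fun ω => ((P[F|m]) ω - F ω) * ((P[F|m]) ω - F ω)) :=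
      (hEb.sub hFb).mul (hEb.sub hFb)
    have := (hd.integrable ((hE0.sub hF).mul (hE0.sub hF))).norm
    refine this.congr (Eventually.of_forall fun ω => ?_)
    simp only [norm_mul, sq]
  filter_upwards [h4] with ω hω
  have h5 : ‖(P[F|m]) ω - F ω‖ ^ 2 = 0 := hω
  have h6 := pow_eq_zero_iff (two_ne_zero) |>.1 h5
  exact sub_eq_zero.1 (norm_eq_zero.1 h6)

/-- **Norm lemma.** If `∫ ‖E[f|m']‖² ≤ ∫ ‖E[f|m]‖²` with `m ≤ m'` then the two conditional
expectations are equal. -/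
theorem condExp_eq_of_norm_le {m m' : MeasurableSpace Ω} (hm : m ≤ m') (hm' : m' ≤ m0)
    {f : Ω → ℂ} (hfb : AB P f)
    (h : ∫ ω, ‖(P[f|m']) ω‖ ^ 2 ∂P ≤ ∫ ω, ‖(P[f|m]) ω‖ ^ 2 ∂P) :
    P[f|m'] =ᵐ[P] P[f|m] := by
  set g : Ω → ℂ := P[f|m'] with hg
  have hgm : AEStronglyMeasurable[m0] g P :=
    (stronglyMeasurable_condExp.mono hm').aestronglyMeasurable
  have hgb : AB P g := hfb.condExp m'
  have htower : P[g|m] =ᵐ[P] P[f|m] := condExp_condExp_of_le hm hm'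
  -- Pythagoras
  have hE : AEStronglyMeasurable[m] (P[g|m]) P :=
    stronglyMeasurable_condExp.aestronglyMeasurable
  have hE0 : AEStronglyMeasurable[m0] (P[g|m]) P := hE.mono (hm.trans hm')
  have hEb : AB P (P[g|m]) := hgb.condExp m
  have hEc : AEStronglyMeasurable[m] (fun ω => conj ((P[g|m]) ω)) P :=
    Complex.continuous_conj.comp_aestronglyMeasurable hE
  have hEc0 : AEStronglyMeasurable[m0] (fun ω => conj ((P[g|m]) ω)) P :=
    hEc.mono (hm.trans hm')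
  have hgc : AEStronglyMeasurable[m0] (fun ω => conj (g ω)) P :=
    Complex.continuous_conj.comp_aestronglyMeasurable hgm
  have h1 : ∫ ω, conj ((P[g|m]) ω) * g ω ∂P = ∫ ω, conj ((P[g|m]) ω) * (P[g|m]) ω ∂P :=
    integral_mul_condExp (hm.trans hm') hEc hEb.star hgm hgb
  have h1' : ∫ ω, (P[g|m]) ω * conj (g ω) ∂P = ∫ ω, (P[g|m]) ω * conj ((P[g|m]) ω) ∂P := by
    have h2 := congrArg conj h1
    rw [← integral_conj', ← integral_conj'] at h2
    simpa only [map_mul, Complex.conj_conj] using h2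
  have i1 : Integrable (fun ω => g ω * conj (g ω)) P :=
    (hgb.mul hgb.star).integrable (hgm.mul hgc)
  have i2 : Integrable (fun ω => (P[g|m]) ω * conj (g ω)) P :=
    (hEb.mul hgb.star).integrable (hE0.mul hgc)
  have i3 : Integrable (fun ω => conj ((P[g|m]) ω) * g ω) P :=
    (hEb.star.mul hgb).integrable (hEc0.mul hgm)
  have i4 : Integrable (fun ω => (P[g|m]) ω * conj ((P[g|m]) ω)) P :=
    (hEb.mul hEb.star).integrable (hE0.mul hEc0)
  have hnorm : ∀ {u : Ω → ℂ}, ((∫ ω, ‖u ω‖ ^ 2 ∂P : ℝ) : ℂ) = ∫ ω, u ω * conj (u ω) ∂P :=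
    integral_sq_eq
  have hpy : ((∫ ω, ‖g ω - (P[g|m]) ω‖ ^ 2 ∂P : ℝ) : ℂ)
      = ((∫ ω, ‖g ω‖ ^ 2 ∂P - ∫ ω, ‖(P[g|m]) ω‖ ^ 2 ∂P : ℝ) : ℂ) := by
    rw [hnorm, Complex.ofReal_sub, hnorm, hnorm]
    have : ∀ ω, (g ω - (P[g|m]) ω) * conj (g ω - (P[g|m]) ω)
        = (g ω * conj (g ω) - (P[g|m]) ω * conj (g ω))
          - (conj ((P[g|m]) ω) * g ω - (P[g|m]) ω * conj ((P[g|m]) ω)) := fun ω => by
      rw [map_sub]; ring
    simp_rw [this]
    have e1 : ∫ ω, ((g ω * conj (g ω) - (P[g|m]) ω * conj (g ω))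
          - (conj ((P[g|m]) ω) * g ω - (P[g|m]) ω * conj ((P[g|m]) ω))) ∂P
        = ∫ ω, (g ω * conj (g ω) - (P[g|m]) ω * conj (g ω)) ∂P
          - ∫ ω, (conj ((P[g|m]) ω) * g ω - (P[g|m]) ω * conj ((P[g|m]) ω)) ∂P :=
      integral_sub (i1.sub i2) (i3.sub i4)
    have e2 : ∫ ω, (g ω * conj (g ω) - (P[g|m]) ω * conj (g ω)) ∂P
        = ∫ ω, g ω * conj (g ω) ∂P - ∫ ω, (P[g|m]) ω * conj (g ω) ∂P := integral_sub i1 i2
    have e3 : ∫ ω, (conj ((P[g|m]) ω) * g ω - (P[g|m]) ω * conj ((P[g|m]) ω)) ∂P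
        = ∫ ω, conj ((P[g|m]) ω) * g ω ∂P - ∫ ω, (P[g|m]) ω * conj ((P[g|m]) ω) ∂P :=
      integral_sub i3 i4
    have e4 : ∫ ω, conj ((P[g|m]) ω) * (P[g|m]) ω ∂P = ∫ ω, (P[g|m]) ω * conj ((P[g|m]) ω) ∂P :=
      integral_congr_ae (Eventually.of_forall fun ω => mul_comm _ _)
    rw [e1, e2, e3, h1', h1, e4]
    ring
  have hpy' : ∫ ω, ‖g ω - (P[g|m]) ω‖ ^ 2 ∂P
      = ∫ ω, ‖g ω‖ ^ 2 ∂P - ∫ ω, ‖(P[g|m]) ω‖ ^ 2 ∂P := by exact_mod_cast hpy
  have heq : ∫ ω, ‖(P[g|m]) ω‖ ^ 2 ∂P = ∫ ω, ‖(P[f|m]) ω‖ ^ 2 ∂P :=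
    integral_congr_ae (by filter_upwards [htower] with ω hω; rw [hω])
  have h0 : ∫ ω, ‖g ω - (P[g|m]) ω‖ ^ 2 ∂P = 0 := by
    refine le_antisymm ?_ (integral_nonneg fun ω => sq_nonneg _)
    rw [hpy', heq]
    linarith
  have h4 : (fun ω => ‖g ω - (P[g|m]) ω‖ ^ 2) =ᵐ[P] 0 := by
    refine (integral_eq_zero_iff_of_nonneg (fun ω => sq_nonneg _) ?_).1 h0
    have hd : AB P (fun ω => (g ω - (P[g|m]) ω) * (g ω - (P[g|m]) ω)) :=
      (hgb.sub hEb).mul (hgb.sub hEb)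
    have := (hd.integrable ((hgm.sub hE0).mul (hgm.sub hE0))).norm
    refine this.congr (Eventually.of_forall fun ω => ?_)
    simp only [norm_mul, sq]
  filter_upwards [h4, htower] with ω hω h7
  have h5 : ‖g ω - (P[g|m]) ω‖ ^ 2 = 0 := hω
  have h6 := pow_eq_zero_iff (two_ne_zero) |>.1 h5
  rw [sub_eq_zero.1 (norm_eq_zero.1 h6), h7]

/-- **Lemma A.** `B ≤ B'`, `B ≤ C`, `H` bounded and `B'`-measurable, `Z = E[H|C]`; if
`E[Z|B'] = E[Z|B]` then `Z = E[Z|B]`. -/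
theorem lemmaA {mB mB' mC : MeasurableSpace Ω} (hB' : mB' ≤ m0) (hBC : mB ≤ mC) (hC : mC ≤ m0)
    {H Z : Ω → ℂ} (hH : AEStronglyMeasurable[mB'] H P) (hHb : AB P H)
    (hZ : P[H|mC] =ᵐ[P] Z) (hZm : AEStronglyMeasurable[mC] Z P) (hZb : AB P Z)
    (hsat : P[Z|mB'] =ᵐ[P] P[Z|mB]) : P[Z|mB] =ᵐ[P] Z := by
  have hB0 : mB ≤ m0 := hBC.trans hC
  have hH0 : AEStronglyMeasurable[m0] H P := hH.mono hB'
  have hZ0 : AEStronglyMeasurable[m0] Z P := hZm.mono hC
  have hZc : AEStronglyMeasurable[mC] (fun ω => conj (Z ω)) P :=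
    Complex.continuous_conj.comp_aestronglyMeasurable hZm
  have hAm : AEStronglyMeasurable[mB] (P[Z|mB]) P :=
    stronglyMeasurable_condExp.aestronglyMeasurable
  have hAb : AB P (P[Z|mB]) := hZb.condExp mB
  have hAc : AEStronglyMeasurable[mB] (fun ω => conj ((P[Z|mB]) ω)) P :=
    Complex.continuous_conj.comp_aestronglyMeasurable hAm
  refine condExp_ae_eq_self_of_sq hB0 hZ0 hZb ?_
  have hHc : AEStronglyMeasurable[mB'] (fun ω => conj (H ω)) P :=
    Complex.continuous_conj.comp_aestronglyMeasurable hH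
  calc ∫ ω, Z ω * conj (Z ω) ∂P = ∫ ω, conj (Z ω) * (P[H|mC]) ω ∂P := integral_congr_ae (by
        filter_upwards [hZ] with ω hω
        rw [hω, mul_comm])
    _ = ∫ ω, conj (Z ω) * H ω ∂P := (integral_mul_condExp hC hZc hZb.star hH0 hHb).symm
    _ = conj (∫ ω, conj (H ω) * Z ω ∂P) := by
        rw [← integral_conj']
        refine integral_congr_ae (Eventually.of_forall fun ω => ?_)
        simp only [map_mul, Complex.conj_conj]
        ring
    _ = conj (∫ ω, conj (H ω) * (P[Z|mB']) ω ∂P) := by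
        rw [integral_mul_condExp hB' hHc hHb.star hZ0 hZb]
    _ = conj (∫ ω, conj (H ω) * (P[Z|mB]) ω ∂P) := by
        congr 1
        refine integral_congr_ae ?_
        filter_upwards [hsat] with ω hω
        rw [hω]
    _ = ∫ ω, conj ((P[Z|mB]) ω) * H ω ∂P := by
        rw [← integral_conj']
        refine integral_congr_ae (Eventually.of_forall fun ω => ?_)
        simp only [map_mul, Complex.conj_conj]
        ring
    _ = ∫ ω, conj ((P[Z|mB]) ω) * (P[H|mC]) ω ∂P :=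
        integral_mul_condExp hC (hAc.mono hBC) hAb.star hH0 hHb
    _ = ∫ ω, conj ((P[Z|mB]) ω) * Z ω ∂P := integral_congr_ae (by
        filter_upwards [hZ] with ω hω
        rw [hω])
    _ = ∫ ω, conj ((P[Z|mB]) ω) * (P[Z|mB]) ω ∂P := integral_mul_condExp hB0 hAc hAb.star hZ0 hZb
    _ = ∫ ω, (P[Z|mB]) ω * conj ((P[Z|mB]) ω) ∂P :=
        integral_congr_ae (Eventually.of_forall fun ω => mul_comm _ _)

/-- Conditional expectations and measure preserving maps. -/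
theorem condExp_comp_mp {Ω' : Type*} {m m0' : MeasurableSpace Ω'} {P' : Measure Ω'}
    [IsProbabilityMeasure P'] {φ : Ω → Ω'} (hφ : MeasurePreserving φ P P')
    (hm : m ≤ m0') {f : Ω' → ℂ} (hf : Integrable f P') :
    P[fun ω => f (φ ω)|m.comap φ] =ᵐ[P] fun ω => (P'[f|m]) (φ ω) := by
  have hmc : m.comap φ ≤ m0 := (MeasurableSpace.comap_mono hm).trans hφ.measurable.comap_le
  have hfi : Integrable (fun ω => f (φ ω)) P := hφ.integrable_comp_of_integrable hf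
  have hgi : Integrable (fun ω => (P'[f|m]) (φ ω)) P :=
    hφ.integrable_comp_of_integrable integrable_condExp
  symm
  refine ae_eq_condExp_of_forall_setIntegral_eq hmc hfi (fun s _ _ => hgi.integrableOn) ?_ ?_
  · rintro s ⟨t, ht, rfl⟩ -
    have h1 : ∀ g : Ω' → ℂ, AEStronglyMeasurable g P' →
        ∫ ω in φ ⁻¹' t, g (φ ω) ∂P = ∫ x in t, g x ∂P' := by
      intro g hg
      rw [← hφ.map_eq] at hg ⊢
      exact (setIntegral_map (hm t ht) hg hφ.measurable.aemeasurable).symm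
    rw [h1 _ integrable_condExp.aestronglyMeasurable, h1 _ hf.aestronglyMeasurable]
    exact setIntegral_condExp hm hf ht
  · exact (stronglyMeasurable_condExp.comp_measurable
      (measurable_iff_comap_le.2 le_rfl)).aestronglyMeasurable

omit [IsProbabilityMeasure P] in
/-- Set integrals of two functions which agree on a pi-system. -/
theorem setIntegral_eq_of_piSystem {m : MeasurableSpace Ω} (hm : m ≤ m0) {S : Set (Set Ω)}
    (hgen : m = MeasurableSpace.generateFrom S) (hpi : IsPiSystem S) (huniv : univ ∈ S)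
    {u v : Ω → ℂ} (hu : Integrable u P) (hv : Integrable v P)
    (h : ∀ E ∈ S, ∫ ω in E, u ω ∂P = ∫ ω in E, v ω ∂P) (E : Set Ω) (hE : MeasurableSet[m] E) :
    ∫ ω in E, u ω ∂P = ∫ ω in E, v ω ∂P := by
  have htot : ∫ ω, u ω ∂P = ∫ ω, v ω ∂P := by simpa using h univ huniv
  induction E, hE using MeasurableSpace.induction_on_inter hgen hpi with
  | empty => simp
  | basic t ht => exact h t ht
  | compl t ht ih =>
    rw [setIntegral_compl (hm t ht) hu, setIntegral_compl (hm t ht) hv, ih, htot]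
  | iUnion f hd hfm ih =>
    rw [integral_iUnion (fun i => hm _ (hfm i)) hd hu.integrableOn,
      integral_iUnion (fun i => hm _ (hfm i)) hd hv.integrableOn]
    exact tsum_congr ih

/-- Conditional expectations of two functions which agree on a pi-system. -/
theorem condExp_eq_of_piSystem {m : MeasurableSpace Ω} (hm : m ≤ m0) {S : Set (Set Ω)}
    (hgen : m = MeasurableSpace.generateFrom S) (hpi : IsPiSystem S) (huniv : univ ∈ S)
    {u v : Ω → ℂ} (hu : Integrable u P) (hv : Integrable v P)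
    (h : ∀ E ∈ S, ∫ ω in E, u ω ∂P = ∫ ω in E, v ω ∂P) : P[u|m] =ᵐ[P] P[v|m] := by
  refine ae_eq_condExp_of_forall_setIntegral_eq hm hv
    (fun s _ _ => integrable_condExp.integrableOn) (fun s hs _ => ?_)
    stronglyMeasurable_condExp.aestronglyMeasurable
  rw [setIntegral_condExp hm hu hs]
  exact setIntegral_eq_of_piSystem hm hgen hpi huniv hu hv h s hs

end Vale.Agent.P102.RM.TE
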