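import Vale.Agent.P102.RM.Functor
import Vale.Agent.P102.RM.TheE1
import Mathlib.MeasureTheory.Integral.Prod

/-!
P102, blocks THE + IDEAL, part 2: the functions `cl`, and product formulas in limit joinings.
-/

namespace Vale.Agent.P102.RM.TE

open MeasureTheory Filter Topology ProbabilityTheory

theorem integral_mp {Ω Ω' : Type*} [MeasurableSpace Ω] [MeasurableSpace Ω'] {μ : Measure Ω}
    {ν : Measure Ω'} {p : Ω → Ω'} (hp : MeasurePreserving p μ ν) {f : Ω' → ℂ} (hf : Measurable f) :
    ∫ a, f (p a) ∂μ = ∫ b, f b ∂ν := by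
  rw [← hp.map_eq]
  exact (integral_map hp.measurable.aemeasurable hf.aestronglyMeasurable).symm

/-! ### `cE` and `cl` -/

theorem bdd_cE {Ω G : Type*} [MeasurableSpace Ω] [StandardBorelSpace Ω] [Nonempty Ω]
    [MeasurableSpace G] (μ : Measure Ω) [IsFiniteMeasure μ] (g : Ω → G) {F : Ω → ℂ}
    (hF : Bdd F) : Bdd (cE μ g F) := by
  obtain ⟨C, hC⟩ := hF.2
  refine ⟨(hF.1.stronglyMeasurable.integral_kernel).measurable, C, fun y => ?_⟩
  have h1 : ‖∫ a, F a ∂(condDistrib id g μ y)‖ ≤ ∫ _, C ∂(condDistrib id g μ y) :=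
    norm_integral_le_of_norm_le (integrable_const _) (Eventually.of_forall hC)
  have h2 : ∫ _, C ∂(condDistrib id g μ y) = C := by simp
  rw [h2] at h1
  exact h1

theorem condExp_eq_cE {Ω G : Type*} [MeasurableSpace Ω] [StandardBorelSpace Ω] [Nonempty Ω]
    [MeasurableSpace G] (μ : Measure Ω) [IsFiniteMeasure μ] {g : Ω → G} (hg : Measurable g)
    {F : Ω → ℂ} (hF : Bdd F) :
    μ[F|MeasurableSpace.comap g inferInstance] =ᵐ[μ] fun ω => cE μ g F (g ω) :=
  condExp_ae_eq_integral_condDistrib_id hg (hF.integrable μ)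

theorem integral_cE_mul {Ω G : Type*} [MeasurableSpace Ω] [StandardBorelSpace Ω] [Nonempty Ω]
    [MeasurableSpace G] (μ : Measure Ω) [IsProbabilityMeasure μ] {g : Ω → G} (hg : Measurable g)
    {F : Ω → ℂ} (hF : Bdd F) {β : G → ℂ} (hβ : Bdd β) :
    ∫ ω, F ω * β (g ω) ∂μ = ∫ ω, cE μ g F (g ω) * β (g ω) ∂μ := by
  have h1 : ∫ ω, β (g ω) * F ω ∂μ
      = ∫ ω, β (g ω) * (μ[F|MeasurableSpace.comap g inferInstance]) ω ∂μ := by
    refine integral_mul_condExp hg.comap_le ?_ ?_ hF.1.aestronglyMeasurable ?_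
    · exact (hβ.1.comp (measurable_iff_comap_le.2 le_rfl)).aestronglyMeasurable
    · exact (hβ.2).imp fun C hC => Eventually.of_forall fun ω => hC _
    · exact (hF.2).imp fun C hC => Eventually.of_forall fun ω => hC _
  calc ∫ ω, F ω * β (g ω) ∂μ = ∫ ω, β (g ω) * F ω ∂μ :=
        integral_congr_ae (Eventually.of_forall fun ω => mul_comm _ _)
    _ = _ := h1
    _ = _ := integral_congr_ae (by
        filter_upwards [condExp_eq_cE μ hg hF] with ω hω
        rw [hω, mul_comm])

section lim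
variable {ι : Type} [Fintype ι]

theorem bdd_cl (r : Ultrafilter (ι → ℤ)) (A : Sys) (t : ι) {F : (ι → A.C) → ℂ} (hF : Bdd F) :
    Bdd (cl r A t F) :=
  bdd_cE (Ω := (D r A).C) (D r A).μ (fun d : ι → A.C => d t) hF

theorem integral_cl (r : Ultrafilter (ι → ℤ)) (A : Sys) (t : ι) {F : (ι → A.C) → ℂ} (hF : Bdd F)
    {β : A.C → ℂ} (hβ : Bdd β) :
    ∫ d, F d * β (d t) ∂(D r A).μ = ∫ a, cl r A t F a * β a ∂A.μ := by
  have h1 := integral_cE_mul (Ω := (D r A).C) (D r A).μ (g := fun d : ι → A.C => d t)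
    (measurable_pi_apply t) hF hβ
  have h2 : ∫ d : ι → A.C, cl r A t F (d t) * β (d t) ∂(D r A).μ
      = ∫ a, cl r A t F a * β a ∂A.μ :=
    integral_mp (evF r A t).mp ((bdd_cl r A t hF).mul hβ).1
  rw [← h2]
  exact h1

omit [Fintype ι] in
/-- powers of the diagonal automorphism -/
theorem iter_diag (A : Sys) (n : ℤ) (d : ι → A.C) (i : ι) :
    iter (diag ι A) n d i = iter A.S n (d i) := by
  induction n using Int.induction_on generalizing d with
  | zero => rw [iter_zero, iter_zero]
  | succ n ih => rw [iter_add_one, iter_add_one, ih]; rfl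
  | pred n ih => rw [iter_sub_one, iter_sub_one, ih]; rfl

variable [DecidableEq ι]

/-- **Replacement.** A function of slot `s` may be replaced by its conditional expectation on the
factor `B` if all the other slots only use functions on `B`. -/
theorem limM_replace (r : Ultrafilter (ι → ℤ)) {A B : Sys} (p : Fac A B) (s : ι)
    {f : ι → B.C → ℂ} (hf : ∀ i, Bdd (f i)) {F : A.C → ℂ} (hF : Bdd F) {G : B.C → ℂ}
    (hG : Bdd G)
    (h : ∀ β : B.C → ℂ, Bdd β → ∫ a, F a * β (p.f a) ∂A.μ = ∫ b, G b * β b ∂B.μ) :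
    ∫ d, F (d s) * ∏ o ∈ Finset.univ.erase s, f o (p.f (d o)) ∂(D r A).μ
      = ∫ e, G (e s) * ∏ o ∈ Finset.univ.erase s, f o (e o) ∂(D r B).μ := by
  have key : ∀ t : ι → ℤ,
      ∫ a, ∏ i, (if i = s then F else fun a => f i (p.f a)) (iter A.S (t i) a) ∂A.μ
        = ∫ b, ∏ i, (if i = s then G else f i) (iter B.S (t i) b) ∂B.μ := by
    intro t
    have hA : ∀ a, ∏ i, (if i = s then F else fun a => f i (p.f a)) (iter A.S (t i) a)
        = F (iter A.S (t s) a) *
          ∏ o ∈ Finset.univ.erase s, f o (iter B.S (t o) (p.f a)) := by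
      intro a
      rw [← Finset.mul_prod_erase Finset.univ _ (Finset.mem_univ s), if_pos rfl]
      congr 1
      refine Finset.prod_congr rfl fun o ho => ?_
      rw [if_neg (Finset.ne_of_mem_erase ho), Fac.iter]
    have hB : ∀ b, ∏ i, (if i = s then G else f i) (iter B.S (t i) b)
        = G (iter B.S (t s) b) * ∏ o ∈ Finset.univ.erase s, f o (iter B.S (t o) b) := by
      intro b
      rw [← Finset.mul_prod_erase Finset.univ _ (Finset.mem_univ s), if_pos rfl]
      congr 1
      refine Finset.prod_congr rfl fun o ho => ?_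
      rw [if_neg (Finset.ne_of_mem_erase ho)]
    simp_rw [hA, hB]
    set β : B.C → ℂ := fun b => ∏ o ∈ Finset.univ.erase s, f o (iter B.S (t o - t s) b) with hβ
    have hβb : Bdd β := Bdd.prod _ (f := fun o b => f o (iter B.S (t o - t s) b))
      fun o _ => (hf o).comp (measurable_iter _ _)
    have e1 : ∀ b, ∏ o ∈ Finset.univ.erase s, f o (iter B.S (t o) b) = β (iter B.S (t s) b) := by
      intro b
      simp only [hβ]
      refine Finset.prod_congr rfl fun o _ => ?_
      rw [← iter_add, sub_add_cancel]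
    calc ∫ a, F (iter A.S (t s) a) * ∏ o ∈ Finset.univ.erase s, f o (iter B.S (t o) (p.f a)) ∂A.μ
        = ∫ a, (fun a => F a * β (p.f a)) (iter A.S (t s) a) ∂A.μ := by
          refine integral_congr_ae (Eventually.of_forall fun a => ?_)
          simp only
          rw [e1, Fac.iter]
      _ = ∫ a, F a * β (p.f a) ∂A.μ :=
          integral_mp (iter_mp A.S A.mp (t s)) (hF.mul (hβb.comp p.meas)).1
      _ = ∫ b, G b * β b ∂B.μ := h β hβb
      _ = ∫ b, (fun b => G b * β b) (iter B.S (t s) b) ∂B.μ :=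
          (integral_mp (iter_mp B.S B.mp (t s)) (hG.mul hβb).1).symm
      _ = _ := by
          refine integral_congr_ae (Eventually.of_forall fun b => ?_)
          simp only
          rw [e1]
  have h1 := tendsto_limM r A (fun i => if i = s then F else fun a => f i (p.f a)) (by
    intro i
    split_ifs
    · exact hF
    · exact (hf i).comp p.meas)
  have h2 := tendsto_limM r B (fun i => if i = s then G else f i) (by
    intro i
    split_ifs
    · exact hG
    · exact hf i)
  have h3 := tendsto_nhds_unique (h1.congr fun t => key t) h2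
  have e1 : ∀ d : ι → A.C, ∏ i, (if i = s then F else fun a => f i (p.f a)) (d i)
      = F (d s) * ∏ o ∈ Finset.univ.erase s, f o (p.f (d o)) := by
    intro d
    rw [← Finset.mul_prod_erase Finset.univ _ (Finset.mem_univ s), if_pos rfl]
    congr 1
    refine Finset.prod_congr rfl fun o ho => ?_
    rw [if_neg (Finset.ne_of_mem_erase ho)]
  have e2 : ∀ d : ι → B.C, ∏ i, (if i = s then G else f i) (d i)
      = G (d s) * ∏ o ∈ Finset.univ.erase s, f o (d o) := by
    intro d
    rw [← Finset.mul_prod_erase Finset.univ _ (Finset.mem_univ s), if_pos rfl]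
    congr 1
    refine Finset.prod_congr rfl fun o ho => ?_
    rw [if_neg (Finset.ne_of_mem_erase ho)]
  simp_rw [e1, e2] at h3
  exact h3

/-- the image of a system in a product -/
noncomputable def pairSys {Z W X : Sys} (w : Fac Z W) (x : Fac Z X) : Sys :=
  Z.image (W.C × X.C) (fun z => (w.f z, x.f z)) (w.meas.prodMk x.meas)
    (MeasurableEquiv.prodCongr W.S X.S) (fun a => by
      rw [w.eqv, x.eqv]; rfl)

noncomputable def pairFac {Z W X : Sys} (w : Fac Z W) (x : Fac Z X) : Fac Z (pairSys w x) where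
  f := fun z => (w.f z, x.f z)
  mp := ⟨w.meas.prodMk x.meas, rfl⟩
  eqv := fun a => by
    change (w.f (Z.S a), x.f (Z.S a)) = _
    rw [w.eqv, x.eqv]; rfl

noncomputable def pairFst {Z W X : Sys} (w : Fac Z W) (x : Fac Z X) : Fac (pairSys w x) W where
  f := fun u => u.1
  mp := by
    refine ⟨measurable_fst, ?_⟩
    change (Z.μ.map (fun z => (w.f z, x.f z))).map Prod.fst = W.μ
    rw [Measure.map_map measurable_fst (w.meas.prodMk x.meas)]
    exact w.mp.map_eq
  eqv := fun _ => rfl

noncomputable def pairSnd {Z W X : Sys} (w : Fac Z W) (x : Fac Z X) : Fac (pairSys w x) X where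
  f := fun u => u.2
  mp := by
    refine ⟨measurable_snd, ?_⟩
    change (Z.μ.map (fun z => (w.f z, x.f z))).map Prod.snd = X.μ
    rw [Measure.map_map measurable_snd (w.meas.prodMk x.meas)]
    exact x.mp.map_eq
  eqv := fun _ => rfl

theorem pair_indep {Z W X : Sys} (w : Fac Z W) (x : Fac Z X) (h : IndepFun w.f x.f Z.μ) :
    IndepFun (pairFst w x).f (pairSnd w x).f (pairSys w x).μ := by
  rw [indepFun_iff_map_prod_eq_prod_map_map (pairFst w x).meas.aemeasurable
    (pairSnd w x).meas.aemeasurable, (pairFst w x).mp.map_eq, (pairSnd w x).mp.map_eq]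
  have h1 := (indepFun_iff_map_prod_eq_prod_map_map w.meas.aemeasurable
    x.meas.aemeasurable).1 h
  rw [w.mp.map_eq, x.mp.map_eq] at h1
  rw [← h1]
  change (Z.μ.map (fun z => (w.f z, x.f z))).map (fun u => (u.1, u.2)) = _
  exact Measure.map_id

omit [DecidableEq ι] in
theorem integral_pair (r : Ultrafilter (ι → ℤ)) {Z W X : Sys} (w : Fac Z W) (x : Fac Z X)
    (h : IndepFun w.f x.f Z.μ) {Ψ : (ι → W.C) × (ι → X.C) → ℂ} (hΨ : Bdd Ψ) :
    ∫ e : ι → W.C × X.C, Ψ (fun i => (e i).1, fun i => (e i).2) ∂(D r (pairSys w x)).μ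
      = ∫ v, ∫ z, Ψ (v, z) ∂(D r X).μ ∂(D r W).μ := by
  have hi := indep_D r (pairFst w x) (pairSnd w x) (pair_indep w x h)
  have h1 := (indepFun_iff_map_prod_eq_prod_map_map ((pairFst w x).D r).meas.aemeasurable
    ((pairSnd w x).D r).meas.aemeasurable).1 hi
  rw [((pairFst w x).D r).mp.map_eq, ((pairSnd w x).D r).mp.map_eq] at h1
  have hmp : MeasurePreserving (fun e => (((pairFst w x).D r).f e, ((pairSnd w x).D r).f e))
      (D r (pairSys w x)).μ ((D r W).μ.prod (D r X).μ) :=
    ⟨((pairFst w x).D r).meas.prodMk ((pairSnd w x).D r).meas, h1⟩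
  have h2 := integral_mp hmp hΨ.1
  have h3 : Integrable Ψ ((D r W).μ.prod (D r X).μ) := hΨ.integrable _
  rw [← integral_prod Ψ h3, ← h2]
  rfl

/-- **Base formula.** If the factors `w`, `x` of `Z` are independent then `∏ g_o(x_o)` may be
replaced by `psi(x_s)`, `psi = E[∏_{o ≠ s} g_o(x_o) | x_s]`. -/
theorem base_formula (r : Ultrafilter (ι → ℤ)) {Z W X : Sys} (w : Fac Z W) (x : Fac Z X)
    (hwx : IndepFun w.f x.f Z.μ) (s : ι) {α : ι → W.C → ℂ} (hα : ∀ i, Bdd (α i))
    {g : ι → X.C → ℂ} (hg : ∀ i, Bdd (g i)) {F : Z.C → ℂ} (hF : Bdd F) :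
    ∫ d : ι → Z.C, F (d s) * ∏ o ∈ Finset.univ.erase s, (α o (w.f (d o)) * g o (x.f (d o)))
        ∂(D r Z).μ
      = ∫ d : ι → Z.C, (F (d s) * cl r X s (fun e => ∏ o ∈ Finset.univ.erase s, g o (e o))
          (x.f (d s))) * ∏ o ∈ Finset.univ.erase s, α o (w.f (d o)) ∂(D r Z).μ := by
  have hgp : Bdd (fun e : ι → X.C => ∏ o ∈ Finset.univ.erase s, g o (e o)) :=
    Bdd.prod _ (f := fun o (e : ι → X.C) => g o (e o)) fun o _ => (hg o).comp (measurable_pi_apply o)
  have hαp : Bdd (fun e : ι → W.C => ∏ o ∈ Finset.univ.erase s, α o (e o)) :=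
    Bdd.prod _ (f := fun o (e : ι → W.C) => α o (e o)) fun o _ => (hα o).comp (measurable_pi_apply o)
  set psi : X.C → ℂ := cl r X s (fun e => ∏ o ∈ Finset.univ.erase s, g o (e o)) with hpsi
  have hpsib : Bdd psi := bdd_cl r X s hgp
  let p := pairFac w x
  set G : W.C × X.C → ℂ := cE Z.μ p.f F with hG
  have hGb : Bdd G := bdd_cE Z.μ p.f hF
  have hGi : ∀ β : W.C × X.C → ℂ, Bdd β →
      ∫ a, F a * β (p.f a) ∂Z.μ = ∫ b, G b * β b ∂(pairSys w x).μ := by
    intro β hβ
    rw [integral_cE_mul Z.μ p.meas hF hβ]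
    exact integral_mp p.mp (hGb.mul hβ).1
  -- left side
  have hL := limM_replace r p s (f := fun o u => α o u.1 * g o u.2)
    (fun o => ((hα o).comp measurable_fst).mul ((hg o).comp measurable_snd)) hF hGb hGi
  -- right side
  have hR := limM_replace r p s (f := fun o u => α o u.1)
    (fun o => (hα o).comp measurable_fst) (F := fun z => F z * psi (x.f z))
    (hF.mul (hpsib.comp x.meas)) (G := fun u => G u * psi u.2)
    (hGb.mul (hpsib.comp measurable_snd)) (by
      intro β hβ
      have h1 := hGi (fun u => psi u.2 * β u) ((hpsib.comp measurable_snd).mul hβ)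
      calc ∫ a, F a * psi (x.f a) * β (p.f a) ∂Z.μ
          = ∫ a, F a * (fun u : W.C × X.C => psi u.2 * β u) (p.f a) ∂Z.μ :=
            integral_congr_ae (Eventually.of_forall fun a => by
              simp only [p, pairFac]; ring)
        _ = _ := h1
        _ = _ := integral_congr_ae (Eventually.of_forall fun a => by
              simp only; ring))
  have hΨ1 : Bdd (fun q : (ι → W.C) × (ι → X.C) => G (q.1 s, q.2 s) *
      ((∏ o ∈ Finset.univ.erase s, α o (q.1 o)) * ∏ o ∈ Finset.univ.erase s, g o (q.2 o))) := by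
    refine (hGb.comp ?_).mul ((hαp.comp measurable_fst).mul (hgp.comp measurable_snd))
    exact ((measurable_pi_apply s).comp measurable_fst).prodMk
      ((measurable_pi_apply s).comp measurable_snd)
  have hΨ2 : Bdd (fun q : (ι → W.C) × (ι → X.C) => (G (q.1 s, q.2 s) * psi (q.2 s)) *
      (∏ o ∈ Finset.univ.erase s, α o (q.1 o))) := by
    refine ((hGb.comp ?_).mul (hpsib.comp ?_)).mul (hαp.comp measurable_fst)
    · exact ((measurable_pi_apply s).comp measurable_fst).prodMk
        ((measurable_pi_apply s).comp measurable_snd)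
    · exact (measurable_pi_apply s).comp measurable_snd
  have e1 := integral_pair r w x hwx hΨ1
  have e2 := integral_pair r w x hwx hΨ2
  have hmid : ∫ v : ι → W.C, ∫ z : ι → X.C, G (v s, z s) *
      ((∏ o ∈ Finset.univ.erase s, α o (v o)) * ∏ o ∈ Finset.univ.erase s, g o (z o))
        ∂(D r X).μ ∂(D r W).μ
      = ∫ v : ι → W.C, ∫ z : ι → X.C, (G (v s, z s) * psi (z s)) *
        (∏ o ∈ Finset.univ.erase s, α o (v o)) ∂(D r X).μ ∂(D r W).μ := by
    refine integral_congr_ae (Eventually.of_forall fun v => ?_)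
    have hβ : Bdd fun x' : X.C => G (v s, x') := hGb.comp (measurable_const.prodMk measurable_id)
    have h1 := integral_cl r X s hgp hβ
    have h2 : ∫ z : ι → X.C, psi (z s) * G (v s, z s) ∂(D r X).μ = ∫ a, psi a * G (v s, a) ∂X.μ :=
      integral_mp (evF r X s).mp (hpsib.mul hβ).1
    calc ∫ z : ι → X.C, G (v s, z s) *
          ((∏ o ∈ Finset.univ.erase s, α o (v o)) * ∏ o ∈ Finset.univ.erase s, g o (z o))
            ∂(D r X).μ
        = ∫ z : ι → X.C, (∏ o ∈ Finset.univ.erase s, α o (v o)) *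
            ((∏ o ∈ Finset.univ.erase s, g o (z o)) * G (v s, z s)) ∂(D r X).μ :=
          integral_congr_ae (Eventually.of_forall fun z => by simp only; ring)
      _ = (∏ o ∈ Finset.univ.erase s, α o (v o)) *
            ∫ z : ι → X.C, (∏ o ∈ Finset.univ.erase s, g o (z o)) * G (v s, z s) ∂(D r X).μ :=
          integral_const_mul _ _
      _ = (∏ o ∈ Finset.univ.erase s, α o (v o)) *
            ∫ z : ι → X.C, psi (z s) * G (v s, z s) ∂(D r X).μ := by rw [h1, h2]
      _ = ∫ z : ι → X.C, (∏ o ∈ Finset.univ.erase s, α o (v o)) *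
            (psi (z s) * G (v s, z s)) ∂(D r X).μ := (integral_const_mul _ _).symm
      _ = _ := integral_congr_ae (Eventually.of_forall fun z => by simp only; ring)
  calc ∫ d : ι → Z.C, F (d s) * ∏ o ∈ Finset.univ.erase s, (α o (w.f (d o)) * g o (x.f (d o)))
        ∂(D r Z).μ
      = ∫ e : ι → W.C × X.C, G (e s) * ∏ o ∈ Finset.univ.erase s, (α o (e o).1 * g o (e o).2)
          ∂(D r (pairSys w x)).μ := hL
    _ = ∫ e : ι → W.C × X.C, (fun q : (ι → W.C) × (ι → X.C) => G (q.1 s, q.2 s) *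
          ((∏ o ∈ Finset.univ.erase s, α o (q.1 o)) * ∏ o ∈ Finset.univ.erase s, g o (q.2 o)))
          (fun i => (e i).1, fun i => (e i).2) ∂(D r (pairSys w x)).μ :=
        integral_congr_ae (Eventually.of_forall fun e =>
          congrArg (fun c => G (e s) * c) Finset.prod_mul_distrib)
    _ = _ := e1
    _ = _ := hmid
    _ = _ := e2.symm
    _ = ∫ e : ι → W.C × X.C, (G (e s) * psi (e s).2) * ∏ o ∈ Finset.univ.erase s, α o (e o).1
          ∂(D r (pairSys w x)).μ := rfl
    _ = _ := hR.symm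

end lim

end Vale.Agent.P102.RM.TE
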