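import Vale.Agent.P102.RM.TheE2

/-!
P102, blocks THE + IDEAL, part 3: the key identity `E[H | column t] = Φ(w_{s,t})`.
-/

namespace Vale.Agent.P102.RM.TE

open MeasureTheory Filter Topology ProbabilityTheory

section grid
variable {ι : Type} [Fintype ι]

/-- the sigma-algebra of the column `t` in the grid -/
@[reducible] def colσ (A : Sys) (t : ι) : MeasurableSpace (ι → ι → A.C) :=
  MeasurableSpace.comap (fun d o => d o t) (inferInstance : MeasurableSpace (ι → A.C))

omit [Fintype ι] in
theorem measurable_col (A : Sys) (t : ι) :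
    Measurable (fun (d : ι → ι → A.C) (o : ι) => d o t) :=
  measurable_pi_lambda _ fun o => (measurable_pi_apply t).comp (measurable_pi_apply o)

/-- `E[H | column t] = Φ(d s t)` follows from product test functions. -/
theorem key_identity (r : Ultrafilter (ι → ℤ)) (A : Sys) (s t : ι)
    {H : (ι → ι → A.C) → ℂ} (hH : Bdd H) {Φ : A.C → ℂ} (hΦ : Bdd Φ)
    (h : ∀ α : ι → A.C → ℂ, (∀ i, Bdd (α i)) →
      ∫ d : ι → ι → A.C, H d * ∏ o, α o (d o t) ∂(D r (D r A)).μ
        = ∫ d : ι → ι → A.C, Φ (d s t) * ∏ o, α o (d o t) ∂(D r (D r A)).μ) :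
    (D r (D r A)).μ[H|colσ A t] =ᵐ[(D r (D r A)).μ] fun d => Φ (d s t) := by
  classical
  have hΦ' : Bdd (fun d : ι → ι → A.C => Φ (d s t)) :=
    hΦ.comp ((measurable_pi_apply t).comp (measurable_pi_apply s))
  have hle : colσ A t ≤ (inferInstance : MeasurableSpace (ι → ι → A.C)) :=
    (measurable_col A t).comap_le
  have hgen : colσ A t = MeasurableSpace.generateFrom
      (Set.preimage (fun (d : ι → ι → A.C) (o : ι) => d o t) ''
        (Set.pi Set.univ '' Set.pi Set.univ fun _ : ι => {s : Set A.C | MeasurableSet s})) := by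
    rw [← MeasurableSpace.comap_generateFrom]
    unfold colσ
    rw [generateFrom_pi]
  have h1 : (D r (D r A)).μ[H|colσ A t] =ᵐ[(D r (D r A)).μ]
      (D r (D r A)).μ[fun d : ι → ι → A.C => Φ (d s t)|colσ A t] := by
    refine condExp_eq_of_piSystem (P := (D r (D r A)).μ) hle hgen (isPiSystem_pi.comap _)
      ⟨Set.univ, ⟨fun _ => Set.univ, by simp, by simp⟩, rfl⟩ (hH.integrable _)
      (hΦ'.integrable _) ?_
    rintro _ ⟨_, ⟨E, hE, rfl⟩, rfl⟩
    have hE' : ∀ o, MeasurableSet (E o) := fun o => hE o (Set.mem_univ o)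
    have hm : MeasurableSet ((fun (d : ι → ι → A.C) (o : ι) => d o t) ⁻¹' Set.univ.pi E) :=
      measurable_col A t (MeasurableSet.univ_pi hE')
    have h2 := h (fun o => (E o).indicator 1) (fun o => Bdd.indicator (hE' o))
    have h3 : ∀ u : (ι → ι → A.C) → ℂ,
        ∫ d in (fun (d : ι → ι → A.C) (o : ι) => d o t) ⁻¹' Set.univ.pi E, u d
          ∂(D r (D r A)).μ
          = ∫ d : ι → ι → A.C, u d * ∏ o, (E o).indicator (1 : A.C → ℂ) (d o t)
            ∂(D r (D r A)).μ := by
      intro u
      rw [← integral_indicator hm]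
      refine integral_congr_ae (Eventually.of_forall fun d => ?_)
      by_cases hd : ∀ o, d o t ∈ E o
      · have h4 : d ∈ (fun (d : ι → ι → A.C) (o : ι) => d o t) ⁻¹' Set.univ.pi E := by
          simpa [Set.mem_pi] using hd
        have h5 : ∏ o, (E o).indicator (1 : A.C → ℂ) (d o t) = 1 :=
          Finset.prod_eq_one fun o _ => by simp [hd o]
        simp only [Set.indicator_of_mem h4, h5, mul_one]
      · have h4 : d ∉ (fun (d : ι → ι → A.C) (o : ι) => d o t) ⁻¹' Set.univ.pi E := by
          simpa [Set.mem_pi] using hd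
        obtain ⟨o, ho⟩ := not_forall.1 hd
        have h5 : ∏ o, (E o).indicator (1 : A.C → ℂ) (d o t) = 0 :=
          Finset.prod_eq_zero (Finset.mem_univ o) (by simp [ho])
        simp only [Set.indicator_of_notMem h4, h5, mul_zero]
    rw [h3, h3]
    exact h2
  refine h1.trans ?_
  rw [condExp_of_stronglyMeasurable hle ?_ (hΦ'.integrable _)]
  have h6 : Measurable fun w : ι → A.C => Φ (w s) := hΦ.1.comp (measurable_pi_apply s)
  have h7 : Measurable[colσ A t] fun d : ι → ι → A.C => Φ (d s t) :=
    h6.comp (measurable_iff_comap_le.2 (le_refl (colσ A t)))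
  exact h7.stronglyMeasurable

variable [DecidableEq ι]

/-- functions of the row `s` against products over the column `t` -/
theorem key_row (r : Ultrafilter (ι → ℤ)) (A : Sys) (s t : ι) {F : (ι → A.C) → ℂ} (hF : Bdd F)
    {α : ι → A.C → ℂ} (hα : ∀ i, Bdd (α i)) :
    ∫ d : ι → ι → A.C, F (d s) * ∏ o, α o (d o t) ∂(D r (D r A)).μ
      = ∫ d : ι → ι → A.C, cl r A t F (d s t) * ∏ o, α o (d o t) ∂(D r (D r A)).μ := by
  have hαs : Bdd (fun w : ι → A.C => α s (w t)) := (hα s).comp (measurable_pi_apply t)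
  have hcl : Bdd (cl r A t F) := bdd_cl r A t hF
  have h1 := limM_replace r (evF r A t) s (f := α) hα (F := fun w => F w * α s (w t))
    (hF.mul hαs) (G := fun a => cl r A t F a * α s a) (hcl.mul (hα s)) (by
      intro β hβ
      have h2 := integral_cl r A t hF ((hα s).mul hβ)
      calc ∫ a : ι → A.C, F a * α s (a t) * β (a t) ∂(D r A).μ
          = ∫ a : ι → A.C, F a * (α s (a t) * β (a t)) ∂(D r A).μ :=
            integral_congr_ae (Eventually.of_forall fun a => mul_assoc _ _ _)
        _ = _ := h2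
        _ = _ := integral_congr_ae (Eventually.of_forall fun a => (mul_assoc _ _ _).symm))
  have hprod : Bdd (fun e : ι → A.C => cl r A t F (e s) * ∏ o, α o (e o)) :=
    (hcl.comp (measurable_pi_apply s)).mul
      (Bdd.prod _ (f := fun o (e : ι → A.C) => α o (e o)) fun o _ =>
        (hα o).comp (measurable_pi_apply o))
  have h3 := integral_mp (colF r A t).mp hprod.1
  calc ∫ d : ι → ι → A.C, F (d s) * ∏ o, α o (d o t) ∂(D r (D r A)).μ
      = ∫ d : ι → ι → A.C, (F (d s) * α s (d s t)) * ∏ o ∈ Finset.univ.erase s, α o (d o t)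
          ∂(D r (D r A)).μ := by
        refine integral_congr_ae (Eventually.of_forall fun d => ?_)
        simp only
        rw [← Finset.mul_prod_erase Finset.univ _ (Finset.mem_univ s), mul_assoc]
    _ = ∫ e : ι → A.C, (cl r A t F (e s) * α s (e s)) * ∏ o ∈ Finset.univ.erase s, α o (e o)
          ∂(D r A).μ := h1
    _ = ∫ e : ι → A.C, cl r A t F (e s) * ∏ o, α o (e o) ∂(D r A).μ := by
        refine integral_congr_ae (Eventually.of_forall fun d => ?_)
        simp only
        rw [← Finset.mul_prod_erase Finset.univ _ (Finset.mem_univ s), mul_assoc]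
    _ = _ := h3.symm

/-- the key identity in the closure case -/
theorem key_ideal (r : Ultrafilter (ι → ℤ)) (A : Sys) (s t : ι) {F : (ι → A.C) → ℂ}
    (hF : Bdd F) :
    (D r (D r A)).μ[fun d : ι → ι → A.C => F (d s)|colσ A t]
      =ᵐ[(D r (D r A)).μ] fun d => cl r A t F (d s t) :=
  key_identity r A s t (hF.comp (measurable_pi_apply s)) (bdd_cl r A t hF)
    fun _ hα => key_row r A s t hF hα

/-- the key identity in the base case -/
theorem key_base (r : Ultrafilter (ι → ℤ)) {A X : Sys} (x : Fac A X) (s t b : ι)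
    (hind : IndepFun (evF r A t).f (x.comp (evF r A b)).f (D r A).μ)
    {F : (ι → A.C) → ℂ} (hF : Bdd F) {g : ι → X.C → ℂ} (hg : ∀ i, Bdd (g i)) :
    (D r (D r A)).μ[fun d : ι → ι → A.C =>
        F (d s) * ∏ o ∈ Finset.univ.erase s, g o (x.f (d o b))|colσ A t]
      =ᵐ[(D r (D r A)).μ] fun d => cl r A t (fun w => F w *
        cl r X s (fun e => ∏ o ∈ Finset.univ.erase s, g o (e o)) (x.f (w b))) (d s t) := by
  have hgp : Bdd (fun e : ι → X.C => ∏ o ∈ Finset.univ.erase s, g o (e o)) :=
    Bdd.prod _ (f := fun o (e : ι → X.C) => g o (e o)) fun o _ => (hg o).comp (measurable_pi_apply o)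
  have hpsi : Bdd (cl r X s (fun e => ∏ o ∈ Finset.univ.erase s, g o (e o))) := bdd_cl r X s hgp
  have hpx : Bdd (fun w : ι → A.C =>
      cl r X s (fun e => ∏ o ∈ Finset.univ.erase s, g o (e o)) (x.f (w b))) :=
    hpsi.comp (x.meas.comp (measurable_pi_apply b))
  have hgx : Bdd (fun d : ι → ι → A.C => ∏ o ∈ Finset.univ.erase s, g o (x.f (d o b))) :=
    Bdd.prod _ (f := fun o (d : ι → ι → A.C) => g o (x.f (d o b))) fun o _ =>
      (hg o).comp (x.meas.comp ((measurable_pi_apply b).comp (measurable_pi_apply o)))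
  refine key_identity r A s t ((hF.comp (measurable_pi_apply s)).mul hgx)
    (bdd_cl r A t (hF.mul hpx)) fun α hα => ?_
  have hαs : Bdd (fun w : ι → A.C => α s (w t)) := (hα s).comp (measurable_pi_apply t)
  have h1 := base_formula r (evF r A t) (x.comp (evF r A b)) hind s hα hg
    (F := fun w => F w * α s (w t)) (hF.mul hαs)
  have h2 := key_row r A s t (hF.mul hpx) hα
  calc ∫ d : ι → ι → A.C, (F (d s) * ∏ o ∈ Finset.univ.erase s, g o (x.f (d o b))) *
        ∏ o, α o (d o t) ∂(D r (D r A)).μ
      = ∫ d : ι → ι → A.C, (F (d s) * α s (d s t)) * ∏ o ∈ Finset.univ.erase s,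
          (α o (d o t) * g o (x.f (d o b))) ∂(D r (D r A)).μ := by
        refine integral_congr_ae (Eventually.of_forall fun d => ?_)
        simp only
        rw [← Finset.mul_prod_erase Finset.univ _ (Finset.mem_univ s), Finset.prod_mul_distrib]
        ring
    _ = _ := h1
    _ = ∫ d : ι → ι → A.C, (F (d s) *
          cl r X s (fun e => ∏ o ∈ Finset.univ.erase s, g o (e o)) (x.f (d s b))) *
          ∏ o, α o (d o t) ∂(D r (D r A)).μ := by
        refine integral_congr_ae (Eventually.of_forall fun d => ?_)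
        simp only
        rw [← Finset.mul_prod_erase Finset.univ (fun o => α o (d o t)) (Finset.mem_univ s)]
        change (F (d s) * α s (d s t) *
          cl r X s (fun e => ∏ o ∈ Finset.univ.erase s, g o (e o)) (x.f (d s b))) *
          ∏ o ∈ Finset.univ.erase s, α o (d o t) = _
        ring
    _ = _ := h2

end grid

end Vale.Agent.P102.RM.TE
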