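import Vale.Agent.P102.RM.TheE3
import Vale.Agent.P102.RM.WLdyn2

/-!
P102, blocks THE + IDEAL, part 4: the key extension `W' = D r W` (via slot `t`),
`Y' = ((w_a)_{a ≠ t,b}, (y_i)_i)`.
-/

namespace Vale.Agent.P102.RM.TE

open MeasureTheory Filter Topology ProbabilityTheory

variable {X : Sys} {ι : Type}

/-- the carrier of `Y'` -/
abbrev EC (P : Adm X) (t b : ι) : Type := ({a : ι // a ≠ t ∧ a ≠ b} → P.W.C) × (ι → P.Y.C)

/-- the map `W' → Y'` -/
def eβ (P : Adm X) (t b : ι) (d : ι → P.W.C) : EC P t b := (fun a => d a, fun i => P.y.f (d i))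

/-- the automorphism of `Y'` -/
def eS (P : Adm X) (t b : ι) : EC P t b ≃ᵐ EC P t b :=
  MeasurableEquiv.prodCongr (MeasurableEquiv.piCongrRight fun _ => P.W.S)
    (MeasurableEquiv.piCongrRight fun _ => P.Y.S)

theorem measurable_eβ (P : Adm X) (t b : ι) : Measurable (eβ P t b) :=
  (measurable_pi_lambda _ fun _ => measurable_pi_apply _).prodMk
    (measurable_pi_lambda _ fun i => P.y.meas.comp (measurable_pi_apply i))

theorem eβ_eqv (P : Adm X) (t b : ι) (d : ι → P.W.C) :
    eβ P t b (diag ι P.W d) = eS P t b (eβ P t b d) := by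
  refine Prod.ext ?_ ?_
  · funext a; rfl
  · funext i
    exact P.y.eqv (d i)

variable [Fintype ι]

noncomputable def eY (P : Adm X) (r : Ultrafilter (ι → ℤ)) (t b : ι) : Sys :=
  (D r P.W).image (EC P t b) (eβ P t b) (measurable_eβ P t b) (eS P t b) (eβ_eqv P t b)

noncomputable def eYF (P : Adm X) (r : Ultrafilter (ι → ℤ)) (t b : ι) :
    Fac (D r P.W) (eY P r t b) where
  f := eβ P t b
  mp := ⟨measurable_eβ P t b, rfl⟩
  eqv := eβ_eqv P t b

/-- `E[φ(x) | y]` is constant -/
theorem ce_x (P : Adm X) {φ : X.C → ℂ} (hφ : Bdd φ) :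
    P.y.ce (fun w => φ (P.x.f w)) =ᵐ[P.Y.μ] fun _ => ∫ a, φ a ∂X.μ := by
  refine Fac.ce_ae_eq_of_test P.y (hφ.comp P.x.meas) (Bdd.const _) fun u hu => ?_
  rw [integral_mul_of_indep P.y.meas P.x.meas P.ind.symm hu hφ, integral_mul_const]
  rw [integral_mp P.y.mp hu.1, integral_mp P.x.mp hφ.1]

variable [DecidableEq ι]

theorem lineInd_x (P : Adm X) (r : Ultrafilter (ι → ℤ)) {t b : ι} (htb : t ≠ b)
    (h : LineInd r P.y b) {φ : X.C → ℂ} (hφ : Bdd φ) {f : ι → P.W.C → ℂ} (hf : ∀ i, Bdd (f i))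
    {u : (ι → P.Y.C) → ℂ} (hu : Bdd u) :
    ∫ d : ι → P.W.C, φ (P.x.f (d t)) * (u (fun i => P.y.f (d i)) *
        ∏ a ∈ (Finset.univ.erase b).erase t, f a (d a)) ∂(D r P.W).μ
      = (∫ a, φ a ∂X.μ) * ∫ d : ι → P.W.C, u (fun i => P.y.f (d i)) *
        ∏ a ∈ (Finset.univ.erase b).erase t, f a (d a) ∂(D r P.W).μ := by
  have hmem : t ∈ Finset.univ.erase b := Finset.mem_erase.2 ⟨htb, Finset.mem_univ _⟩
  have key : ∀ φ' : X.C → ℂ, Bdd φ' →
      ∫ d : ι → P.W.C, φ' (P.x.f (d t)) * (u (fun i => P.y.f (d i)) *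
        ∏ a ∈ (Finset.univ.erase b).erase t, f a (d a)) ∂(D r P.W).μ
      = (∫ a, φ' a ∂X.μ) * ∫ d : ι → P.W.C, u (fun i => P.y.f (d i)) *
        ∏ a ∈ (Finset.univ.erase b).erase t, P.y.ce (f a) (P.y.f (d a)) ∂(D r P.W).μ := by
    intro φ' hφ'
    have h1 := h (fun j => if j = t then fun w => φ' (P.x.f w) else f j) u (by
      intro j
      by_cases hj : j = t
      · simp only [hj, if_true]
        exact hφ'.comp P.x.meas
      · simp only [hj, if_false]
        exact hf j) hu
    have e1 : ∀ d : ι → P.W.C, ∏ j ∈ Finset.univ.erase b,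
        (if j = t then fun w => φ' (P.x.f w) else f j) (d j)
        = φ' (P.x.f (d t)) * ∏ a ∈ (Finset.univ.erase b).erase t, f a (d a) := by
      intro d
      rw [← Finset.mul_prod_erase _ _ hmem, if_pos rfl]
      congr 1
      refine Finset.prod_congr rfl fun a ha => ?_
      rw [if_neg (Finset.ne_of_mem_erase ha)]
    have e2 : ∀ d : ι → P.W.C, ∏ j ∈ Finset.univ.erase b,
        P.y.ce (if j = t then fun w => φ' (P.x.f w) else f j) (P.y.f (d j))
        = P.y.ce (fun w => φ' (P.x.f w)) (P.y.f (d t)) *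
          ∏ a ∈ (Finset.univ.erase b).erase t, P.y.ce (f a) (P.y.f (d a)) := by
      intro d
      rw [← Finset.mul_prod_erase _ _ hmem, if_pos rfl]
      congr 1
      refine Finset.prod_congr rfl fun a ha => ?_
      rw [if_neg (Finset.ne_of_mem_erase ha)]
    simp_rw [e1, e2] at h1
    have h2 : ∀ᵐ d ∂(D r P.W).μ, P.y.ce (fun w => φ' (P.x.f w)) (P.y.f (d t))
        = ∫ a, φ' a ∂X.μ :=
      (P.y.comp (evF r P.W t)).mp.quasiMeasurePreserving.ae (ce_x P hφ')
    calc ∫ d : ι → P.W.C, φ' (P.x.f (d t)) * (u (fun i => P.y.f (d i)) *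
        ∏ a ∈ (Finset.univ.erase b).erase t, f a (d a)) ∂(D r P.W).μ
        = ∫ d : ι → P.W.C, u (fun i => P.y.f (d i)) * (φ' (P.x.f (d t)) *
          ∏ a ∈ (Finset.univ.erase b).erase t, f a (d a)) ∂(D r P.W).μ :=
          integral_congr_ae (Eventually.of_forall fun d => by simp only; ring)
      _ = _ := h1
      _ = ∫ d : ι → P.W.C, (∫ a, φ' a ∂X.μ) * (u (fun i => P.y.f (d i)) *
          ∏ a ∈ (Finset.univ.erase b).erase t, P.y.ce (f a) (P.y.f (d a))) ∂(D r P.W).μ :=
          integral_congr_ae (by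
            filter_upwards [h2] with d hd
            rw [hd]; ring)
      _ = _ := integral_const_mul _ _
  rw [key φ hφ]
  have h3 := key (fun _ => 1) (Bdd.const 1)
  simp only [one_mul] at h3
  rw [h3]
  simp

/-- the rectangles which generate the sigma-algebra of `Y'` -/
theorem indep_e (P : Adm X) (r : Ultrafilter (ι → ℤ)) {t b : ι} (htb : t ≠ b)
    (h : LineInd r P.y b) :
    IndepFun (P.x.comp (evF r P.W t)).f (eYF P r t b).f (D r P.W).μ := by
  rw [indepFun_iff_measure_inter_preimage_eq_mul]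
  intro A B hA hB
  set μ := (D r P.W).μ with hμ
  have hfm : Measurable (P.x.comp (evF r P.W t)).f := (P.x.comp (evF r P.W t)).meas
  have hgm : Measurable (eβ P t b) := measurable_eβ P t b
  set a : Set (ι → P.W.C) := (P.x.comp (evF r P.W t)).f ⁻¹' A with ha
  have ham : MeasurableSet a := hfm hA
  -- two measures on `EC`
  have hEq : (μ.restrict a).map (eβ P t b) = (μ a) • (μ.map (eβ P t b)) := by
    have : IsFiniteMeasure ((μ.restrict a).map (eβ P t b)) := inferInstance
    refine ext_of_generate_finite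
      (Set.image2 (fun x1 x2 => x1 ×ˢ x2)
        (Set.pi Set.univ '' Set.pi Set.univ fun _ : {a : ι // a ≠ t ∧ a ≠ b} =>
          {s : Set P.W.C | MeasurableSet s}) {s : Set (ι → P.Y.C) | MeasurableSet s})
      ?_ (isPiSystem_pi.prod MeasurableSpace.isPiSystem_measurableSet) ?_ ?_
    · refine (generateFrom_eq_prod generateFrom_pi MeasurableSpace.generateFrom_measurableSet
        ?_ isCountablySpanning_measurableSet).symm
      exact ⟨fun _ => Set.univ, fun _ => ⟨fun _ => Set.univ, by simp, by simp⟩,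
        Set.iUnion_const _⟩
    · rintro _ ⟨_, ⟨E, hE, rfl⟩, C, hC, rfl⟩
      have hE' : ∀ i, MeasurableSet (E i) := fun i => hE i (Set.mem_univ i)
      have hR : MeasurableSet (Set.univ.pi E ×ˢ C) := (MeasurableSet.univ_pi hE').prod hC
      rw [Measure.map_apply hgm hR, Measure.restrict_apply (hgm hR), Measure.smul_apply,
        Measure.map_apply hgm hR, smul_eq_mul]
      -- the test functions
      let E' : ι → Set P.W.C := fun j => if hj : j ≠ t ∧ j ≠ b then E ⟨j, hj⟩ else Set.univ
      have hE'' : ∀ j, MeasurableSet (E' j) := by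
        intro j
        simp only [E']
        split_ifs with hj
        · exact hE' _
        · exact MeasurableSet.univ
      have h1 := lineInd_x P r htb h (φ := A.indicator 1) (Bdd.indicator hA)
        (f := fun j => (E' j).indicator 1) (fun j => Bdd.indicator (hE'' j))
        (u := C.indicator 1) (Bdd.indicator hC)
      have e1 : ∀ d : ι → P.W.C, C.indicator (1 : (ι → P.Y.C) → ℂ) (fun i => P.y.f (d i)) *
          ∏ j ∈ (Finset.univ.erase b).erase t, (E' j).indicator (1 : P.W.C → ℂ) (d j)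
          = (eβ P t b ⁻¹' (Set.univ.pi E ×ˢ C)).indicator (fun _ => (1 : ℂ)) d := by
        intro d
        have hmem : d ∈ eβ P t b ⁻¹' (Set.univ.pi E ×ˢ C) ↔
            (∀ j : {a : ι // a ≠ t ∧ a ≠ b}, d j ∈ E j) ∧ (fun i => P.y.f (d i)) ∈ C := by
          simp [eβ, Set.mem_pi]
        by_cases hc : (fun i => P.y.f (d i)) ∈ C
        · by_cases hb : ∀ j : {a : ι // a ≠ t ∧ a ≠ b}, d j ∈ E j
          · rw [Set.indicator_of_mem (hmem.2 ⟨hb, hc⟩), Set.indicator_of_mem hc]
            rw [Finset.prod_eq_one, mul_one]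
            · rfl
            · intro j hj
              have hj' : j ≠ t ∧ j ≠ b := by
                simpa [Finset.mem_erase] using hj
              have : d j ∈ E' j := by
                simp only [E', dif_pos hj']
                exact hb ⟨j, hj'⟩
              simp [this]
          · have hd : d ∉ eβ P t b ⁻¹' (Set.univ.pi E ×ˢ C) := fun hd => hb (hmem.1 hd).1
            rw [Set.indicator_of_notMem hd]
            obtain ⟨j, hj⟩ := not_forall.1 hb
            rw [Finset.prod_eq_zero (i := (j : ι)), mul_zero]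
            · simp [Finset.mem_erase, j.2.1, j.2.2]
            · have : d j ∉ E' j := by
                simp only [E', dif_pos j.2]
                exact hj
              simp [this]
        · have hd : d ∉ eβ P t b ⁻¹' (Set.univ.pi E ×ˢ C) := fun hd => hc (hmem.1 hd).2
          rw [Set.indicator_of_notMem hd, Set.indicator_of_notMem hc, zero_mul]
      simp_rw [e1] at h1
      have e2 : ∀ d : ι → P.W.C, A.indicator (1 : X.C → ℂ) (P.x.f (d t)) *
          (eβ P t b ⁻¹' (Set.univ.pi E ×ˢ C)).indicator (fun _ => (1 : ℂ)) d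
          = (eβ P t b ⁻¹' (Set.univ.pi E ×ˢ C) ∩ a).indicator (fun _ => (1 : ℂ)) d := by
        intro d
        have hiff : d ∈ a ↔ P.x.f (d t) ∈ A := Iff.rfl
        by_cases h3 : P.x.f (d t) ∈ A <;>
          by_cases h4 : d ∈ eβ P t b ⁻¹' (Set.univ.pi E ×ˢ C)
        · rw [Set.indicator_of_mem h3, Set.indicator_of_mem h4,
            Set.indicator_of_mem (Set.mem_inter h4 (hiff.2 h3))]
          simp
        · have h9 : d ∉ eβ P t b ⁻¹' (Set.univ.pi E ×ˢ C) ∩ a := fun h5 => h4 h5.1
          rw [Set.indicator_of_notMem h4, Set.indicator_of_notMem h9, mul_zero]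
        · have h9 : d ∉ eβ P t b ⁻¹' (Set.univ.pi E ×ˢ C) ∩ a := fun h5 => h3 (hiff.1 h5.2)
          rw [Set.indicator_of_notMem h3, Set.indicator_of_notMem h9, zero_mul]
        · have h9 : d ∉ eβ P t b ⁻¹' (Set.univ.pi E ×ˢ C) ∩ a := fun h5 => h4 h5.1
          rw [Set.indicator_of_notMem h4, Set.indicator_of_notMem h9, mul_zero]
      simp_rw [e2] at h1
      have hm1 : MeasurableSet (eβ P t b ⁻¹' (Set.univ.pi E ×ˢ C) ∩ a) := (hgm hR).inter ham
      have e3 : ∫ x, A.indicator (1 : X.C → ℂ) x ∂X.μ = ((X.μ.real A : ℝ) : ℂ) := by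
        calc ∫ x, A.indicator (1 : X.C → ℂ) x ∂X.μ
            = ∫ x, A.indicator (fun _ => (1 : ℂ)) x ∂X.μ := rfl
          _ = _ := by rw [integral_indicator_const _ hA]; simp
      rw [integral_indicator_const _ hm1, integral_indicator_const _ (hgm hR), e3] at h1
      simp only [Complex.real_smul, mul_one] at h1
      have h6 : μ.real (eβ P t b ⁻¹' (Set.univ.pi E ×ˢ C) ∩ a)
          = X.μ.real A * μ.real (eβ P t b ⁻¹' (Set.univ.pi E ×ˢ C)) := by exact_mod_cast h1
      have h7 : μ a = X.μ A := (P.x.comp (evF r P.W t)).mp.measure_preimage hA.nullMeasurableSet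
      rw [h7, ← ENNReal.ofReal_toReal (measure_ne_top μ (eβ P t b ⁻¹' (Set.univ.pi E ×ˢ C) ∩ a)),
        ← ENNReal.ofReal_toReal (measure_ne_top X.μ A),
        ← ENNReal.ofReal_toReal (measure_ne_top μ (eβ P t b ⁻¹' (Set.univ.pi E ×ˢ C))),
        ← ENNReal.ofReal_mul ENNReal.toReal_nonneg]
      exact congrArg ENNReal.ofReal h6
    · rw [Measure.map_apply hgm MeasurableSet.univ, Measure.smul_apply,
        Measure.map_apply hgm MeasurableSet.univ]
      simp
  have h8 : ∀ B' : Set (EC P t b), MeasurableSet B' →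
      μ (a ∩ eβ P t b ⁻¹' B') = μ a * μ (eβ P t b ⁻¹' B') := by
    intro B' hB'
    have h9 : ((μ.restrict a).map (eβ P t b)) B' = ((μ a) • (μ.map (eβ P t b))) B' := by rw [hEq]
    rw [Measure.map_apply hgm hB', Measure.restrict_apply (hgm hB'), Measure.smul_apply,
      Measure.map_apply hgm hB', smul_eq_mul, Set.inter_comm] at h9
    exact h9
  exact h8 B hB

/-- the key extension -/
noncomputable def extE (P : Adm X) (r : Ultrafilter (ι → ℤ)) {t b : ι} (htb : t ≠ b)
    (h : LineInd r P.y b) : Adm X where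
  W := D r P.W
  Y := eY P r t b
  x := P.x.comp (evF r P.W t)
  y := eYF P r t b
  ind := indep_e P r htb h

noncomputable def eYv (P : Adm X) (r : Ultrafilter (ι → ℤ)) (t b : ι) :
    Fac (eY P r t b) P.Y where
  f := fun z => z.2 t
  mp := by
    refine ⟨(measurable_pi_apply t).comp measurable_snd, ?_⟩
    change ((limM r P.W).map (eβ P t b)).map (fun z : EC P t b => z.2 t) = P.Y.μ
    have hm : Measurable (fun z : EC P t b => z.2 t) :=
      (measurable_pi_apply t).comp measurable_snd
    rw [Measure.map_map hm (measurable_eβ P t b)]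
    exact (P.y.comp (evF r P.W t)).mp.map_eq
  eqv := fun _ => rfl

noncomputable def extEE (P : Adm X) (r : Ultrafilter (ι → ℤ)) {t b : ι} (htb : t ≠ b)
    (h : LineInd r P.y b) : Ext (extE P r htb h) P where
  w := evF r P.W t
  v := eYv P r t b
  hx := ae_of_all _ fun _ => rfl
  hy := fun _ => rfl

end Vale.Agent.P102.RM.TE
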