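import Vale.Agent.P102.RM.TheE4
import Vale.Agent.P102.RM.Line
import Vale.Agent.P102.RM.Up

/-!
P102, blocks THE + IDEAL, part 5: `b_the : B_THE` and `b_ideal : B_IDEAL`.
-/

namespace Vale.Agent.P102.RM.TE

open MeasureTheory Filter Topology ProbabilityTheory

variable {X : Sys} {ι : Type} [Fintype ι] [DecidableEq ι]

/-- the side information of slot `s` in the column `t` -/
def sideCol (P : Adm X) (s t : ι) (d : ι → ι → P.W.C) :
    ({j : ι // j ≠ s} → P.W.C) × P.Y.C :=
  P.y.side s (fun o => d o t)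

theorem integral_mp_real {Ω Ω' : Type*} [MeasurableSpace Ω] [MeasurableSpace Ω'] {μ : Measure Ω}
    {ν : Measure Ω'} {p : Ω → Ω'} (hp : MeasurePreserving p μ ν) {f : Ω' → ℝ} (hf : Measurable f) :
    ∫ a, f (p a) ∂μ = ∫ b, f b ∂ν := by
  rw [← hp.map_eq]
  exact (integral_map hp.measurable.aemeasurable hf.aestronglyMeasurable).symm

omit [Fintype ι] [DecidableEq ι] in
theorem measurable_side {V Y : Sys} (y : Fac V Y) (s : ι) : Measurable (y.side s) :=
  (measurable_pi_lambda _ fun _ => measurable_pi_apply _).prodMk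
    (y.meas.comp (measurable_pi_apply s))

omit [Fintype ι] [DecidableEq ι] in
theorem measurable_sideCol (P : Adm X) (s t : ι) : Measurable (sideCol P s t) :=
  (measurable_side P.y s).comp (measurable_col P.W t)

/-- the side information of slot `s` in the extended pair -/
noncomputable abbrev bigσ (P : Adm X) (r : Ultrafilter (ι → ℤ)) (s : ι) {t b : ι} (htb : t ≠ b)
    (h : LineInd r P.y b) : MeasurableSpace (ι → ι → P.W.C) :=
  MeasurableSpace.comap ((extE P r htb h).y.side s) inferInstance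

theorem bigσ_le (P : Adm X) (r : Ultrafilter (ι → ℤ)) (s : ι) {t b : ι} (htb : t ≠ b)
    (h : LineInd r P.y b) :
    bigσ P r s htb h ≤ (inferInstance : MeasurableSpace (ι → ι → P.W.C)) :=
  (measurable_side (extE P r htb h).y s).comap_le

/-- points outside slot `s` are measurable -/
theorem meas_big_out (P : Adm X) (r : Ultrafilter (ι → ℤ)) (s : ι) {t b : ι} (htb : t ≠ b)
    (h : LineInd r P.y b) {o : ι} (ho : o ≠ s) (c : ι) :
    Measurable[bigσ P r s htb h] (fun d : ι → ι → P.W.C => d o c) := by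
  have h1 : Measurable (fun z : ({j : ι // j ≠ s} → (ι → P.W.C)) × EC P t b => z.1 ⟨o, ho⟩ c) :=
    (measurable_pi_apply c).comp ((measurable_pi_apply _).comp measurable_fst)
  exact h1.comp (comap_measurable ((extE P r htb h).y.side s))

/-- the points `w_{s,a}`, `a ≠ t, b` are measurable -/
theorem meas_big_in (P : Adm X) (r : Ultrafilter (ι → ℤ)) (s : ι) {t b : ι} (htb : t ≠ b)
    (h : LineInd r P.y b) {a : ι} (ha : a ≠ t ∧ a ≠ b) :
    Measurable[bigσ P r s htb h] (fun d : ι → ι → P.W.C => d s a) := by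
  have h1 : Measurable (fun z : ({j : ι // j ≠ s} → (ι → P.W.C)) × EC P t b => z.2.1 ⟨a, ha⟩) :=
    (measurable_pi_apply _).comp (measurable_fst.comp measurable_snd)
  exact h1.comp (comap_measurable ((extE P r htb h).y.side s))

/-- the base points of row `s` are measurable -/
theorem meas_big_y (P : Adm X) (r : Ultrafilter (ι → ℤ)) (s : ι) {t b : ι} (htb : t ≠ b)
    (h : LineInd r P.y b) (c : ι) :
    Measurable[bigσ P r s htb h] (fun d : ι → ι → P.W.C => P.y.f (d s c)) := by
  have h1 : Measurable (fun z : ({j : ι // j ≠ s} → (ι → P.W.C)) × EC P t b => z.2.2 c) :=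
    (measurable_pi_apply _).comp (measurable_snd.comp measurable_snd)
  exact h1.comp (comap_measurable ((extE P r htb h).y.side s))

theorem meas_big_sideCol (P : Adm X) (r : Ultrafilter (ι → ℤ)) (s : ι) {t b : ι} (htb : t ≠ b)
    (h : LineInd r P.y b) (c : ι) :
    Measurable[bigσ P r s htb h] (sideCol P s c) := by
  refine Measurable.prodMk ?_ (meas_big_y P r s htb h c)
  exact @measurable_pi_lambda _ _ _ (bigσ P r s htb h) _ _
    fun j => meas_big_out P r s htb h j.2 c

/-- satedness for the key extension -/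
theorem sat_big (P : Adm X) (r : Ultrafilter (ι → ℤ)) {s : ι} (hN : SatN P r s) {t b : ι}
    (htb : t ≠ b) (h : LineInd r P.y b) {Φ : P.W.C → ℂ} (hΦ : Bdd Φ) :
    (D r (D r P.W)).μ[fun d : ι → ι → P.W.C => Φ (d s t)|bigσ P r s htb h]
      =ᵐ[(D r (D r P.W)).μ]
    (D r (D r P.W)).μ[fun d : ι → ι → P.W.C => Φ (d s t)|
      MeasurableSpace.comap (sideCol P s t) inferInstance] := by
  have h1 : (extE P r htb h).N r s (Φ ∘ (extEE P r htb h).w.f) ≤ P.N r s Φ :=
    hN (extE P r htb h) (extEE P r htb h) Φ hΦ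
  have hΦ' : Bdd (fun d : ι → ι → P.W.C => Φ (d s t)) :=
    hΦ.comp ((measurable_pi_apply t).comp (measurable_pi_apply s))
  have hΦs : Bdd (fun d : ι → P.W.C => Φ (d s)) := hΦ.comp (measurable_pi_apply s)
  refine condExp_eq_of_norm_le ?_ (bigσ_le P r s htb h)
    (hΦ'.2.imp fun C hC => Eventually.of_forall hC) ?_
  · exact measurable_iff_comap_le.1 (meas_big_sideCol P r s htb h t)
  · have h2 : P.N r s Φ = ∫ d : ι → ι → P.W.C,
        ‖((D r (D r P.W)).μ[fun d : ι → ι → P.W.C => Φ (d s t)|
          MeasurableSpace.comap (sideCol P s t) inferInstance]) d‖ ^ 2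
            ∂(D r (D r P.W)).μ := by
      have hmp := (colF r P.W t).mp
      have h3 := condExp_comp_mp (P := (D r (D r P.W)).μ) (P' := (D r P.W).μ) hmp
        (measurable_side P.y s).comap_le (hΦs.integrable (D r P.W).μ)
      rw [MeasurableSpace.comap_comp] at h3
      have h4 : P.N r s Φ = ∫ d : ι → P.W.C, ‖((D r P.W).μ[fun d : ι → P.W.C => Φ (d s)|
          MeasurableSpace.comap (P.y.side s) inferInstance]) d‖ ^ 2 ∂(D r P.W).μ := rfl
      rw [h4]
      have hmeas : Measurable ((D r P.W).μ[fun d : ι → P.W.C => Φ (d s)|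
          MeasurableSpace.comap (P.y.side s) inferInstance]) :=
        (stronglyMeasurable_condExp.mono (measurable_side P.y s).comap_le).measurable
      have h5 : ∫ d : ι → P.W.C, ‖((D r P.W).μ[fun d : ι → P.W.C => Φ (d s)|
          MeasurableSpace.comap (P.y.side s) inferInstance]) d‖ ^ 2 ∂(D r P.W).μ
          = ∫ d : ι → ι → P.W.C, ‖((D r P.W).μ[fun d : ι → P.W.C => Φ (d s)|
          MeasurableSpace.comap (P.y.side s) inferInstance]) (fun o => d o t)‖ ^ 2
            ∂(D r (D r P.W)).μ :=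
        (integral_mp_real hmp (hmeas.norm.pow_const 2)).symm
      rw [h5]
      refine integral_congr_ae ?_
      filter_upwards [h3] with d hd
      have h6 : ((D r (D r P.W)).μ[fun d : ι → ι → P.W.C => Φ (d s t)|
          MeasurableSpace.comap (sideCol P s t) inferInstance]) d
          = ((D r P.W).μ[fun d : ι → P.W.C => Φ (d s)|
          MeasurableSpace.comap (P.y.side s) inferInstance]) (fun o => d o t) := hd
      rw [h6]
    rw [h2] at h1
    exact h1

/-- **From the key identity to exactness.** -/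
theorem exa_of_key (P : Adm X) (r : Ultrafilter (ι → ℤ)) {s : ι} (hN : SatN P r s) {t b : ι}
    (htb : t ≠ b) (h : LineInd r P.y b) {H : (ι → ι → P.W.C) → ℂ} (hHb : Bdd H)
    {Φ : P.W.C → ℂ} (hΦ : Bdd Φ)
    (hH : AEStronglyMeasurable[bigσ P r s htb h] H (D r (D r P.W)).μ)
    (hkey : (D r (D r P.W)).μ[H|colσ P.W t] =ᵐ[(D r (D r P.W)).μ] fun d => Φ (d s t)) :
    Φ ∈ Exa P r s := by
  have hΦ' : Bdd (fun d : ι → ι → P.W.C => Φ (d s t)) :=
    hΦ.comp ((measurable_pi_apply t).comp (measurable_pi_apply s))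
  have h6 : Measurable fun w : ι → P.W.C => Φ (w s) := hΦ.1.comp (measurable_pi_apply s)
  have h7 : Measurable[colσ P.W t] fun d : ι → ι → P.W.C => Φ (d s t) :=
    h6.comp (measurable_iff_comap_le.2 (le_refl (colσ P.W t)))
  have hBC : MeasurableSpace.comap (sideCol P s t) inferInstance ≤ colσ P.W t := by
    rw [← measurable_iff_comap_le]
    exact (measurable_side P.y s).comp (measurable_iff_comap_le.2 (le_refl (colσ P.W t)))
  have h1 := lemmaA (P := (D r (D r P.W)).μ) (bigσ_le P r s htb h) hBC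
    (measurable_col P.W t).comap_le hH (hHb.2.imp fun C hC => Eventually.of_forall hC) hkey
    h7.stronglyMeasurable.aestronglyMeasurable
    (hΦ'.2.imp fun C hC => Eventually.of_forall hC) (sat_big P r hN htb h hΦ)
  obtain ⟨g, hg, hge⟩ := (stronglyMeasurable_condExp (μ := (D r (D r P.W)).μ)
    (m := MeasurableSpace.comap (sideCol P s t) inferInstance)
    (f := fun d : ι → ι → P.W.C => Φ (d s t))).exists_eq_measurable_comp
  refine ⟨hΦ, g, hg.measurable, ?_⟩
  have h2 : ∀ᵐ d ∂(D r (D r P.W)).μ, Φ (d s t) = g (P.y.side s (fun o => d o t)) := by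
    filter_upwards [h1] with d hd
    rw [← hd, hge]
    rfl
  have hmp := (colF r P.W t).mp
  have hms : MeasurableSet {d : ι → P.W.C | Φ (d s) = g (P.y.side s d)} :=
    measurableSet_eq_fun h6 (hg.measurable.comp (measurable_side P.y s))
  have h3 := (ae_map_iff (μ := (D r (D r P.W)).μ) hmp.measurable.aemeasurable hms).2 h2
  rw [hmp.map_eq] at h3
  exact h3

end Vale.Agent.P102.RM.TE

namespace Vale.Agent.P102.RM

open MeasureTheory Filter Topology ProbabilityTheory TE

/-- **The ideal (closure) property.** -/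
theorem b_ideal : B_IDEAL := by
  intro X P ι _ _ r _ hk hM hN s t b htb f hf Φ₀ hΦ₀
  have hLine : ∀ s, LineInd r P.y s := b_line b_up X P ι r hM hk
  obtain ⟨hΦ₀b, g₀, hg₀, hg₀'⟩ := hΦ₀
  have hfp : Bdd (fun d : ι → P.W.C => ∏ a ∈ (Finset.univ.erase t).erase b, f a (d a)) :=
    Bdd.prod _ (f := fun a (d : ι → P.W.C) => f a (d a)) fun a _ =>
      (hf a).comp (measurable_pi_apply a)
  have hF : Bdd (fun d : ι → P.W.C =>
      (∏ a ∈ (Finset.univ.erase t).erase b, f a (d a)) * Φ₀ (d b)) :=
    hfp.mul (hΦ₀b.comp (measurable_pi_apply b))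
  refine exa_of_key P r (hN s) htb (hLine b) (hF.comp (measurable_pi_apply s))
    (bdd_cl r P.W t hF) ?_ (key_ideal r P.W s t hF)
  -- measurability of `H`
  have h1 : Measurable[bigσ P r s htb (hLine b)] (fun d : ι → ι → P.W.C =>
      (∏ a ∈ (Finset.univ.erase t).erase b, f a (d s a)) * g₀ (sideCol P s b d)) := by
    refine Measurable.mul ?_ (hg₀.comp (meas_big_sideCol P r s htb (hLine b) b))
    refine Finset.measurable_prod _ fun a ha => ?_
    have ha' : a ≠ t ∧ a ≠ b := by
      rw [Finset.mem_erase, Finset.mem_erase] at ha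
      exact ⟨ha.2.1, ha.1⟩
    exact (hf a).1.comp (meas_big_in P r s htb (hLine b) ha')
  refine h1.stronglyMeasurable.aestronglyMeasurable.congr ?_
  have h2 : ∀ᵐ d ∂(D r (D r P.W)).μ, Φ₀ (d s b) = g₀ (P.y.side s (fun o => d o b)) :=
    (colF r P.W b).mp.quasiMeasurePreserving.ae hg₀'
  filter_upwards [h2] with d hd
  rw [hd]
  rfl

/-- **Theorem E.** -/
theorem b_the : B_THE := by
  intro X P ι _ _ r hcard hk hM hN s t b htb f g hf hg
  have hLine : ∀ s, LineInd r P.y s := b_line b_up X P ι r hM hk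
  have hfp : Bdd (fun d : ι → P.W.C => ∏ a ∈ (Finset.univ.erase t).erase b, f a (d a)) :=
    Bdd.prod _ (f := fun a (d : ι → P.W.C) => f a (d a)) fun a _ =>
      (hf a).comp (measurable_pi_apply a)
  have hgp : Bdd (fun e : ι → X.C => ∏ o ∈ Finset.univ.erase s, g o (e o)) :=
    Bdd.prod _ (f := fun o (e : ι → X.C) => g o (e o)) fun o _ => (hg o).comp (measurable_pi_apply o)
  have hF : Bdd (fun d : ι → P.W.C => (∏ a ∈ (Finset.univ.erase t).erase b, f a (d a)) *
      cl r X s (fun d => ∏ o ∈ Finset.univ.erase s, g o (d o)) (P.x.f (d b))) :=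
    hfp.mul ((bdd_cl r X s hgp).comp (P.x.meas.comp (measurable_pi_apply b)))
  have hgx : Bdd (fun d : ι → ι → P.W.C => ∏ o ∈ Finset.univ.erase s, g o (P.x.f (d o b))) :=
    Bdd.prod _ (f := fun o (d : ι → ι → P.W.C) => g o (P.x.f (d o b))) fun o _ =>
      (hg o).comp (P.x.meas.comp ((measurable_pi_apply b).comp (measurable_pi_apply o)))
  -- a third slot
  obtain ⟨c, hc⟩ : ∃ c : ι, c ∉ ({t, b} : Finset ι) := by
    by_contra hcon
    have h1 : (Finset.univ : Finset ι) ⊆ {t, b} := fun c _ => by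
      by_contra hc
      exact hcon ⟨c, hc⟩
    have h2 := Finset.card_le_card h1
    have h3 : ({t, b} : Finset ι).card ≤ 2 := Finset.card_le_two
    rw [Finset.card_univ] at h2
    omega
  simp only [Finset.mem_insert, Finset.mem_singleton, not_or] at hc
  have hind : IndepFun (evF r P.W t).f (P.x.comp (evF r P.W b)).f (D r P.W).μ := by
    have h1 := indep_e P r (t := b) (b := c) (Ne.symm hc.2) (hLine c)
    have h2 : Measurable (fun z : EC P b c => z.1 ⟨t, htb, Ne.symm hc.1⟩) :=
      (measurable_pi_apply _).comp measurable_fst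
    have h3 := h1.comp measurable_id h2
    exact h3.symm
  refine exa_of_key P r (hN s) htb (hLine b) ((hfp.comp (measurable_pi_apply s)).mul hgx)
    (bdd_cl r P.W t hF) ?_ (key_base r P.x s t b hind hfp hg)
  have h1 : Measurable[bigσ P r s htb (hLine b)] (fun d : ι → ι → P.W.C =>
      (∏ a ∈ (Finset.univ.erase t).erase b, f a (d s a)) *
        ∏ o ∈ Finset.univ.erase s, g o (P.x.f (d o b))) := by
    refine Measurable.mul ?_ ?_
    · refine Finset.measurable_prod _ fun a ha => ?_
      have ha' : a ≠ t ∧ a ≠ b := by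
        rw [Finset.mem_erase, Finset.mem_erase] at ha
        exact ⟨ha.2.1, ha.1⟩
      exact (hf a).1.comp (meas_big_in P r s htb (hLine b) ha')
    · refine Finset.measurable_prod _ fun o ho => ?_
      exact (hg o).1.comp (P.x.meas.comp
        (meas_big_out P r s htb (hLine b) (Finset.ne_of_mem_erase ho) b))
  exact h1.stronglyMeasurable.aestronglyMeasurable

end Vale.Agent.P102.RM
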