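import Vale.Agent.P102.RM.BTot

/-!
P102, Rokhlin: block TOT. `b_tot : B_TOT` is in `BTot.lean`; this file only re-exports it.
-/
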