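import Vale.Agent.P102.RM.GridHyp
import Mathlib.MeasureTheory.Constructions.Pi

/-!
P102, Rokhlin: block TOT, part 2: static lemmas on lines and grids.
-/

namespace Vale.Agent.P102.RM

open MeasureTheory Filter Topology ProbabilityTheory Set
open scoped ENNReal

section

variable {ι V : Type} [Fintype ι] [DecidableEq ι] [MeasurableSpace V]

/-- insert in slot `s` the value `R u` -/
def insMap (s : ι) (R : ({j : ι // j ≠ s} → V) → V) (u : {j : ι // j ≠ s} → V) : ι → V :=
  fun j => if h : j ≠ s then u ⟨j, h⟩ else R u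

omit [Fintype ι] in
theorem measurable_insMap (s : ι) {R : ({j : ι // j ≠ s} → V) → V} (hR : Measurable R) :
    Measurable (insMap s R) := by
  refine measurable_pi_lambda _ fun j => ?_
  by_cases h : j ≠ s
  · simpa only [insMap, dif_pos h] using measurable_pi_apply _
  · simpa only [insMap, dif_neg h] using hR

omit [Fintype ι] [MeasurableSpace V] in
theorem insMap_restrict {s : ι} {R : ({j : ι // j ≠ s} → V) → V} {v : ι → V}
    (hv : v s = R (fun j => v j)) : insMap s R (fun j => v j) = v := by
  funext j
  by_cases h : j ≠ s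
  · simp only [insMap, dif_pos h]
  · have h' : j = s := not_not.1 h
    simp only [insMap, dif_neg h]
    rw [h', hv]

omit [Fintype ι] in
/-- a line law which is exact in slot `s` is the image of its restriction. -/
theorem line_eq_map_insMap {K : Measure (ι → V)} {s : ι} {R : ({j : ι // j ≠ s} → V) → V}
    (hR : Measurable R) (hK : ∀ᵐ v ∂K, v s = R (fun j => v j)) :
    K = (K.map (fun (v : ι → V) (j : {j : ι // j ≠ s}) => v j)).map (insMap s R) := by
  rw [Measure.map_map (measurable_insMap s hR) (by fun_prop)]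
  conv_lhs => rw [← Measure.map_id (μ := K)]
  refine Measure.map_congr (hK.mono fun v hv => ?_)
  exact (insMap_restrict hv).symm

omit [Fintype ι] in
/-- two line laws with the same restriction and the same exactness map coincide. -/
theorem line_eq_of_exact {K K' : Measure (ι → V)} {s : ι} {R : ({j : ι // j ≠ s} → V) → V}
    (hR : Measurable R) (hK : ∀ᵐ v ∂K, v s = R (fun j => v j))
    (hK' : ∀ᵐ v ∂K', v s = R (fun j => v j))
    (h : K.map (fun (v : ι → V) (j : {j : ι // j ≠ s}) => v j) =
      K'.map (fun (v : ι → V) (j : {j : ι // j ≠ s}) => v j)) : K = K' := by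
  rw [line_eq_map_insMap hR hK, line_eq_map_insMap hR hK', h]

/-- block law, curried form -/
def blockC (s s' : ι) (w : ι → ι → V) : {i : ι // i ≠ s} → {j : ι // j ≠ s'} → V :=
  fun i j => w i j

/-- block law, uncurried form -/
def blockU (s s' : ι) (w : ι → ι → V) : {i : ι // i ≠ s} × {j : ι // j ≠ s'} → V :=
  fun x => w x.1 x.2

omit [Fintype ι] [DecidableEq ι] in
theorem measurable_blockC (s s' : ι) : Measurable (blockC (V := V) s s') := by
  unfold blockC; fun_prop

omit [Fintype ι] [DecidableEq ι] in
theorem measurable_blockU (s s' : ι) : Measurable (blockU (V := V) s s') := by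
  unfold blockU; fun_prop

end

/-- curried product measures -/
theorem pi_uncurry {I J V : Type*} [Fintype I] [Fintype J] [MeasurableSpace V]
    (ν : I → J → Measure V) [∀ i j, IsProbabilityMeasure (ν i j)] :
    (Measure.pi fun i => Measure.pi fun j => ν i j).map
      (fun (w : I → J → V) (x : I × J) => w x.1 x.2) = Measure.pi fun x : I × J => ν x.1 x.2 := by
  symm
  refine Measure.pi_eq fun s hs => ?_
  rw [Measure.map_apply (by fun_prop) (MeasurableSet.univ_pi hs)]
  have h1 : (fun (w : I → J → V) (x : I × J) => w x.1 x.2) ⁻¹' univ.pi s =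
      univ.pi fun i => univ.pi fun j => s (i, j) := by
    ext w
    simp only [mem_preimage, Set.mem_pi, mem_univ, true_implies]
    exact ⟨fun h i j => h (i, j), fun h x => h x.1 x.2⟩
  rw [h1, Measure.pi_pi]
  simp only [Measure.pi_pi]
  rw [Fintype.prod_prod_type]

theorem pi_curry {I J V : Type*} [Fintype I] [Fintype J] [MeasurableSpace V]
    (ν : I → J → Measure V) [∀ i j, IsProbabilityMeasure (ν i j)] :
    (Measure.pi fun x : I × J => ν x.1 x.2).map
      (fun (w : I × J → V) (i : I) (j : J) => w (i, j)) =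
        Measure.pi fun i => Measure.pi fun j => ν i j := by
  rw [← pi_uncurry, Measure.map_map (by fun_prop) (by fun_prop)]
  exact Measure.map_id

section

variable {ι V : Type} [Fintype ι] [DecidableEq ι] [MeasurableSpace V]

theorem blockU_iff_blockC (s s' : ι) (G : Measure (ι → ι → V)) (ν : ι → ι → Measure V)
    [∀ i j, IsProbabilityMeasure (ν i j)] :
    G.map (blockU s s') = Measure.pi (fun x : {i : ι // i ≠ s} × {j : ι // j ≠ s'} => ν x.1 x.2) ↔
    G.map (blockC s s') = Measure.pi (fun i : {i : ι // i ≠ s} =>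
      Measure.pi fun j : {j : ι // j ≠ s'} => ν i j) := by
  constructor
  · intro h
    rw [← pi_curry (fun (i : {i : ι // i ≠ s}) (j : {j : ι // j ≠ s'}) => ν i j), ← h,
      Measure.map_map (by fun_prop) (measurable_blockU s s')]
    rfl
  · intro h
    rw [← pi_uncurry (fun (i : {i : ι // i ≠ s}) (j : {j : ι // j ≠ s'}) => ν i j), ← h,
      Measure.map_map (by fun_prop) (measurable_blockC s s')]
    rfl

/-- change of the omitted column: the block `(s, s')` is independent, the rows are exact in
slot `s'`, and the row laws `K i` are exact in slot `s'` and independent outside `s''`. -/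
theorem block_change {s s' s'' : ι} {G : Measure (ι → ι → V)} {ν : ι → ι → Measure V}
    [∀ i j, IsProbabilityMeasure (ν i j)] {K : ι → Measure (ι → V)}
    {R : ι → ({j : ι // j ≠ s'} → V) → V} (hR : ∀ i, Measurable (R i))
    (hG : G.map (blockC s s') = Measure.pi (fun i : {i : ι // i ≠ s} =>
      Measure.pi fun j : {j : ι // j ≠ s'} => ν i j))
    (hGR : ∀ i, i ≠ s → ∀ᵐ w ∂G, w i s' = R i (fun j => w i j))
    (hK' : ∀ i, (K i).map (fun (v : ι → V) (j : {j : ι // j ≠ s'}) => v j) =
      Measure.pi fun j : {j : ι // j ≠ s'} => ν i j)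
    (hKR : ∀ i, ∀ᵐ v ∂(K i), v s' = R i (fun j => v j))
    (hK'' : ∀ i, (K i).map (fun (v : ι → V) (j : {j : ι // j ≠ s''}) => v j) =
      Measure.pi fun j : {j : ι // j ≠ s''} => ν i j) :
    G.map (blockC s s'') = Measure.pi (fun i : {i : ι // i ≠ s} =>
      Measure.pi fun j : {j : ι // j ≠ s''} => ν i j) := by
  -- the rows
  have hrow : G.map (blockC s s'') = (G.map (blockC s s')).map
      (fun (u : {i : ι // i ≠ s} → {j : ι // j ≠ s'} → V) (i : {i : ι // i ≠ s})
        (j : {j : ι // j ≠ s''}) => insMap s' (R i) (u i) j) := by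
    have hm : Measurable (fun (u : {i : ι // i ≠ s} → {j : ι // j ≠ s'} → V)
        (i : {i : ι // i ≠ s}) (j : {j : ι // j ≠ s''}) => insMap s' (R i) (u i) j) := by
      refine measurable_pi_lambda _ fun i => measurable_pi_lambda _ fun j => ?_
      exact (measurable_pi_apply (j : ι)).comp
        ((measurable_insMap s' (hR i)).comp (measurable_pi_apply i))
    rw [Measure.map_map hm (measurable_blockC s s')]
    refine Measure.map_congr ?_
    have h1 : ∀ᵐ w ∂G, ∀ i : {i : ι // i ≠ s}, w i s' = R i (fun j => w i j) :=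
      ae_all_iff.2 fun i => hGR i i.2
    filter_upwards [h1] with w hw
    funext i j
    show w i j = insMap s' (R i) (fun j => w i j) j
    rw [insMap_restrict (hw i)]
  rw [hrow, hG]
  -- product of the images
  have h2 : (fun (u : {i : ι // i ≠ s} → {j : ι // j ≠ s'} → V) (i : {i : ι // i ≠ s})
        (j : {j : ι // j ≠ s''}) => insMap s' (R i) (u i) j) =
      fun (u : {i : ι // i ≠ s} → {j : ι // j ≠ s'} → V) (i : {i : ι // i ≠ s}) =>
        ((fun (v : ι → V) (j : {j : ι // j ≠ s''}) => v j) ∘ insMap s' (R i)) (u i) := rfl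
  have hmR : ∀ i, Measurable ((fun (v : ι → V) (j : {j : ι // j ≠ s''}) => v j) ∘
      insMap s' (R i)) := fun i =>
    (measurable_pi_lambda _ fun j => measurable_pi_apply _).comp (measurable_insMap s' (hR i))
  have h3 : ∀ i : {i : ι // i ≠ s}, (Measure.pi fun j : {j : ι // j ≠ s'} => ν i j).map
      ((fun (v : ι → V) (j : {j : ι // j ≠ s''}) => v j) ∘ insMap s' (R i)) =
      Measure.pi fun j : {j : ι // j ≠ s''} => ν i j := by
    intro i
    rw [← hK' i, ← Measure.map_map (by fun_prop) (measurable_insMap s' (hR i)),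
      ← line_eq_map_insMap (hR i) (hKR i), hK'' i]
  have h4 : ∀ i : {i : ι // i ≠ s}, SigmaFinite
      ((Measure.pi fun j : {j : ι // j ≠ s'} => ν i j).map
        ((fun (v : ι → V) (j : {j : ι // j ≠ s''}) => v j) ∘ insMap s' (R i))) := fun i => by
    rw [h3 i]; infer_instance
  rw [h2, Measure.pi_map_pi (fun i : {i : ι // i ≠ s} => (hmR i).aemeasurable)]
  congr 1
  funext i
  exact h3 i

/-- transposition of blocks. -/
theorem blockU_transpose {s s' : ι} {G : Measure (ι → ι → V)} {ν : ι → ι → Measure V}
    [∀ i j, IsProbabilityMeasure (ν i j)]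
    (h : G.map (blockU s s') =
      Measure.pi (fun x : {i : ι // i ≠ s} × {j : ι // j ≠ s'} => ν x.1 x.2)) :
    (G.map (fun (w : ι → ι → V) i j => w j i)).map (blockU s' s) =
      Measure.pi (fun x : {i : ι // i ≠ s'} × {j : ι // j ≠ s} => ν x.2 x.1) := by
  have h1 : (G.map (fun (w : ι → ι → V) i j => w j i)).map (blockU s' s) =
      (G.map (blockU s s')).map
        (fun (u : {i : ι // i ≠ s} × {j : ι // j ≠ s'} → V)
          (x : {i : ι // i ≠ s'} × {j : ι // j ≠ s}) => u (x.2, x.1)) := by
    rw [Measure.map_map (measurable_blockU s' s) (by fun_prop),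
      Measure.map_map (by fun_prop) (measurable_blockU s s')]
    rfl
  rw [h1, h]
  symm
  refine Measure.pi_eq fun S hS => ?_
  rw [Measure.map_apply (by fun_prop) (MeasurableSet.univ_pi hS)]
  have h2 : (fun (u : {i : ι // i ≠ s} × {j : ι // j ≠ s'} → V)
          (x : {i : ι // i ≠ s'} × {j : ι // j ≠ s}) => u (x.2, x.1)) ⁻¹' univ.pi S =
      univ.pi fun x => S (x.2, x.1) := by
    ext w
    simp only [mem_preimage, Set.mem_pi, mem_univ, true_implies]
    exact ⟨fun h x => h (x.2, x.1), fun h x => h (x.2, x.1)⟩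
  rw [h2, Measure.pi_pi]
  exact Fintype.prod_equiv (Equiv.prodComm _ _) _ _ fun x => rfl

/-- transposition of grids -/
def trE (ι V : Type) [MeasurableSpace V] : (ι → ι → V) ≃ᵐ (ι → ι → V) where
  toFun w i j := w j i
  invFun w i j := w j i
  left_inv _ := rfl
  right_inv _ := rfl
  measurable_toFun := by
    show Measurable fun (w : ι → ι → V) i j => w j i
    fun_prop
  measurable_invFun := by
    show Measurable fun (w : ι → ι → V) i j => w j i
    fun_prop

/-- change of the omitted row: transposed version of `block_change`. -/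
theorem block_change' {s s' s'' : ι} {G : Measure (ι → ι → V)} {ν : ι → ι → Measure V}
    [∀ i j, IsProbabilityMeasure (ν i j)] {K : ι → Measure (ι → V)}
    {R : ι → ({i : ι // i ≠ s'} → V) → V} (hR : ∀ i, Measurable (R i))
    (hG : G.map (blockU s' s) =
      Measure.pi (fun x : {i : ι // i ≠ s'} × {j : ι // j ≠ s} => ν x.1 x.2))
    (hGR : ∀ j, j ≠ s → ∀ᵐ w ∂G, w s' j = R j (fun i => w i j))
    (hK' : ∀ j, (K j).map (fun (v : ι → V) (i : {i : ι // i ≠ s'}) => v i) =
      Measure.pi fun i : {i : ι // i ≠ s'} => ν i j)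
    (hKR : ∀ j, ∀ᵐ v ∂(K j), v s' = R j (fun i => v i))
    (hK'' : ∀ j, (K j).map (fun (v : ι → V) (i : {i : ι // i ≠ s''}) => v i) =
      Measure.pi fun i : {i : ι // i ≠ s''} => ν i j) :
    G.map (blockU s'' s) =
      Measure.pi (fun x : {i : ι // i ≠ s''} × {j : ι // j ≠ s} => ν x.1 x.2) := by
  have hT := blockU_transpose hG
  have hT' := (blockU_iff_blockC s s' (G.map (fun (w : ι → ι → V) i j => w j i))
    (fun i j => ν j i)).1 hT
  have hR' : ∀ i, i ≠ s → ∀ᵐ w ∂(G.map (fun (w : ι → ι → V) i j => w j i)),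
      w i s' = R i (fun j => w i j) := by
    intro i hi
    have := (trE ι V).measurableEmbedding.ae_map_iff (μ := G)
      (p := fun w => w i s' = R i (fun j => w i j))
    exact this.2 (hGR i hi)
  have h1 := block_change (s := s) (s' := s') (s'' := s'')
    (G := G.map (fun (w : ι → ι → V) i j => w j i)) (ν := fun i j => ν j i) (K := K) hR
    hT' hR' hK' hKR hK''
  have h2 := blockU_transpose (ν := fun i j => ν j i)
    ((blockU_iff_blockC s s'' _ (fun i j => ν j i)).2 h1)
  have h3 : (G.map (fun (w : ι → ι → V) i j => w j i)).map (fun (w : ι → ι → V) i j => w j i)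
      = G := by
    rw [Measure.map_map (by fun_prop) (by fun_prop)]
    exact Measure.map_id
  rw [h3] at h2
  exact h2

end

end Vale.Agent.P102.RM
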