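import Vale.Agent.P102.RM.TotLine
import Vale.Agent.P102.RM.TotGridStat

/-!
P102, Rokhlin: block TOT, part 3: the fibres of the grid `D r (D r V)` over a.e. base grid
satisfy `GridHyp`.
-/

namespace Vale.Agent.P102.RM

open MeasureTheory Filter Topology ProbabilityTheory Set
open scoped ENNReal

section Static

variable {ι V : Type} [Fintype ι] [DecidableEq ι] [MeasurableSpace V]

/-- a column of an independent block. -/
theorem block_col {s s' t : ι} (ht : t ≠ s') {G : Measure (ι → ι → V)} {ν : ι → ι → Measure V}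
    [∀ i j, IsProbabilityMeasure (ν i j)]
    (hG : G.map (blockC s s') = Measure.pi (fun i : {i : ι // i ≠ s} =>
      Measure.pi fun j : {j : ι // j ≠ s'} => ν i j)) :
    (G.map (fun (w : ι → ι → V) (i : ι) => w i t)).map
      (fun (v : ι → V) (i : {i : ι // i ≠ s}) => v i) =
      Measure.pi fun i : {i : ι // i ≠ s} => ν i t := by
  have h1 : (G.map (fun (w : ι → ι → V) (i : ι) => w i t)).map
      (fun (v : ι → V) (i : {i : ι // i ≠ s}) => v i) = (G.map (blockC s s')).map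
      (fun (u : {i : ι // i ≠ s} → {j : ι // j ≠ s'} → V) (i : {i : ι // i ≠ s}) =>
        u i ⟨t, ht⟩) := by
    rw [Measure.map_map (by fun_prop) (by fun_prop),
      Measure.map_map (by fun_prop) (measurable_blockC s s')]
    rfl
  have h2 : ∀ i : {i : ι // i ≠ s}, (Measure.pi fun j : {j : ι // j ≠ s'} => ν i j).map
      (fun v : {j : ι // j ≠ s'} → V => v ⟨t, ht⟩) = ν i t := by
    intro i
    have := Measure.pi_map_eval (μ := fun j : {j : ι // j ≠ s'} => ν i j) ⟨t, ht⟩
    simpa [Function.eval] using this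
  have h4 : ∀ i : {i : ι // i ≠ s}, SigmaFinite
      ((Measure.pi fun j : {j : ι // j ≠ s'} => ν i j).map
        (fun v : {j : ι // j ≠ s'} → V => v ⟨t, ht⟩)) := fun i => by
    rw [h2 i]; infer_instance
  rw [h1, hG, Measure.pi_map_pi (f := fun (i : {i : ι // i ≠ s})
    (v : {j : ι // j ≠ s'} → V) => v ⟨t, ht⟩) (fun i => (measurable_pi_apply _).aemeasurable)]
  congr 1
  funext i
  exact h2 i

end Static

section Grid

variable {ι : Type} [Fintype ι] [DecidableEq ι] {r : Ultrafilter (ι → ℤ)} {V Y : Sys}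

/-- the law of a grid given its base grid -/
noncomputable def Fac.gridK (r : Ultrafilter (ι → ℤ)) (y : Fac V Y) :
    Kernel (ι → ι → Y.C) (ι → ι → V.C) :=
  condDistrib (_root_.id : (RM.D r (RM.D r V)).C → (ι → ι → V.C))
    (fun (w : (RM.D r (RM.D r V)).C) (i j : ι) => y.f (w i j)) (RM.D r (RM.D r V)).μ

instance (y : Fac V Y) (r : Ultrafilter (ι → ℤ)) : IsMarkovKernel (y.gridK r) := by
  unfold Fac.gridK; infer_instance

omit [Fintype ι] [DecidableEq ι] in
theorem measurable_ygrid (y : Fac V Y) :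
    Measurable (fun (w : ι → ι → V.C) (i j : ι) => y.f (w i j)) :=
  measurable_pi_lambda _ fun i => measurable_pi_lambda _ fun j =>
    y.meas.comp ((measurable_pi_apply j).comp (measurable_pi_apply i))

omit [DecidableEq ι] in
theorem gridK_base (y : Fac V Y) (r : Ultrafilter (ι → ℤ)) :
    (D r (D r V)).μ.map (fun (w : (D r (D r V)).C) (i j : ι) => y.f (w i j)) =
      (D r (D r Y)).μ := ((y.D r).D r).mp.map_eq

omit [DecidableEq ι] in
/-- a.e. statements pass to the grid fibres. -/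
theorem ae_gridK_of_ae (y : Fac V Y) (r : Ultrafilter (ι → ℤ))
    {Q : (ι → ι → Y.C) × (ι → ι → V.C) → Prop} (hQ : MeasurableSet {p | Q p})
    (h : ∀ᵐ w ∂(D r (D r V)).μ, Q (fun i j => y.f (w i j), w)) :
    ∀ᵐ g ∂(D r (D r Y)).μ, ∀ᵐ w ∂(y.gridK r g), Q (g, w) := by
  have h1 := ae_fibre_of_ae (P := (D r (D r V)).μ)
    (A := fun (w : (D r (D r V)).C) (i j : ι) => y.f (w i j))
    (measurable_ygrid y) (B := (id : (D r (D r V)).C → (ι → ι → V.C))) measurable_id hQ h
  rw [gridK_base] at h1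
  exact h1

/-- integral form over the product of subtypes -/
theorem GridInd.subtype {y : Fac V Y} {s s' : ι} (h : GridInd r y s s')
    (f : {i : ι // i ≠ s} × {j : ι // j ≠ s'} → V.C → ℂ) (g : (ι → ι → Y.C) → ℂ)
    (hf : ∀ x, Bdd (f x)) (hg : Bdd g) :
    ∫ d, g (fun i j => y.f (d i j)) *
        ∏ x : {i : ι // i ≠ s} × {j : ι // j ≠ s'}, f x (d x.1 x.2) ∂(D r (D r V)).μ
      = ∫ d, g (fun i j => y.f (d i j)) *
        ∏ x : {i : ι // i ≠ s} × {j : ι // j ≠ s'}, y.ce (f x) (y.f (d x.1 x.2))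
          ∂(D r (D r V)).μ := by
  have h1 := h (fun i j => if hij : i ≠ s ∧ j ≠ s' then f (⟨i, hij.1⟩, ⟨j, hij.2⟩)
    else fun _ => 1) g (by
      intro i j
      by_cases hi : i ≠ s ∧ j ≠ s'
      · simpa only [dif_pos hi] using hf (⟨i, hi.1⟩, ⟨j, hi.2⟩)
      · simpa only [dif_neg hi] using Bdd.const 1) hg
  simp only [prod_erase_eq] at h1
  have h2 : ∀ (i : {i : ι // i ≠ s}) (j : {j : ι // j ≠ s'}),
      (if hij : (i : ι) ≠ s ∧ (j : ι) ≠ s' then f (⟨i, hij.1⟩, ⟨j, hij.2⟩)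
        else fun _ => 1) = f (i, j) := fun i j => dif_pos ⟨i.2, j.2⟩
  simp only [h2] at h1
  simp only [Fintype.prod_prod_type]
  exact h1

theorem GridInd.gridK {y : Fac V Y} {s s' : ι} (h : GridInd r y s s') :
    ∀ᵐ g ∂(D r (D r Y)).μ, (y.gridK r g).map (blockU s s')
      = Measure.pi fun x : {i : ι // i ≠ s} × {j : ι // j ≠ s'} => y.om (g x.1 x.2) := by
  have hm : Measurable (blockU (V := V.C) s s') := measurable_blockU s s'
  have h1 := condDistrib_pi_of_integral (P := (D r (D r V)).μ)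
    (A := fun (w : (D r (D r V)).C) (i j : ι) => y.f (w i j)) (measurable_ygrid y)
    (B := fun (x : {i : ι // i ≠ s} × {j : ι // j ≠ s'}) (d : (D r (D r V)).C) => d x.1 x.2)
    (fun x => (measurable_pi_apply (x.2 : ι)).comp
      (measurable_pi_apply (X := fun _ : ι => ι → V.C) (x.1 : ι)))
    (fun x => y.om.comap (fun g : ι → ι → Y.C => g x.1 x.2)
      ((measurable_pi_apply (x.2 : ι)).comp
        (measurable_pi_apply (X := fun _ : ι => ι → Y.C) (x.1 : ι)))) (by
      intro f g hf hg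
      exact h.subtype f g hf hg)
  have h2 := condDistrib_comp (mβ := (inferInstance : MeasurableSpace (ι → ι → Y.C)))
    (μ := (D r (D r V)).μ) (Y := (id : (D r (D r V)).C → (ι → ι → V.C)))
    (fun (w : (D r (D r V)).C) (i j : ι) => y.f (w i j)) aemeasurable_id hm
  rw [gridK_base] at h1 h2
  filter_upwards [h1, h2] with η h3 h4
  rw [Kernel.map_apply _ hm] at h4
  rw [show y.gridK r η = condDistrib (id : (D r (D r V)).C → (ι → ι → V.C))
    (fun (w : (D r (D r V)).C) (i j : ι) => y.f (w i j)) (D r (D r V)).μ η from rfl, ← h4]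
  exact h3

end Grid

section EP

variable {ι : Type} [Fintype ι] [DecidableEq ι] {r : Ultrafilter (ι → ℤ)} {p q : ι} {Y : Sys}

/-- **The grid fibres of an exact pair.** Over a.e. base grid `g` the law `G = gridK r g` of the
grid satisfies `GridHyp`, and its column `p` has the law `lineK` of the column `p` of `g`. -/
theorem EP.gridHyp (hpq : p ≠ q) (E : EP r p q Y) :
    ∀ᵐ g ∂(D r (D r Y)).μ,
      GridHyp p q (fun i j => E.y.om (g i j)) (E.y.gridK r g) ∧
        (E.y.gridK r g).map (fun (w : ι → ι → E.V.C) (i : ι) => w i p) =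
          E.y.lineK r (fun i => g i p) := by
  -- exactness in the fibres
  have rowp : ∀ i, ∀ᵐ g ∂(D r (D r Y)).μ, ∀ᵐ w ∂(E.y.gridK r g),
      w i p = E.Rp (fun j => w i j, g i p) := by
    intro i
    refine ae_gridK_of_ae E.y r
      (Q := fun x : (ι → ι → Y.C) × (ι → ι → E.V.C) =>
        x.2 i p = E.Rp (fun j => x.2 i j, x.1 i p)) ?_ ?_
    · exact measurableSet_eq_fun (by fun_prop) (E.mRp.comp (by fun_prop))
    · exact (rowF r E.V i).mp.quasiMeasurePreserving.ae E.hRp
  have rowq : ∀ i, ∀ᵐ g ∂(D r (D r Y)).μ, ∀ᵐ w ∂(E.y.gridK r g),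
      w i q = E.Rq (fun j => w i j, g i q) := by
    intro i
    refine ae_gridK_of_ae E.y r
      (Q := fun x : (ι → ι → Y.C) × (ι → ι → E.V.C) =>
        x.2 i q = E.Rq (fun j => x.2 i j, x.1 i q)) ?_ ?_
    · exact measurableSet_eq_fun (by fun_prop) (E.mRq.comp (by fun_prop))
    · exact (rowF r E.V i).mp.quasiMeasurePreserving.ae E.hRq
  have colp : ∀ j, ∀ᵐ g ∂(D r (D r Y)).μ, ∀ᵐ w ∂(E.y.gridK r g),
      w p j = E.Rp (fun i => w i j, g p j) := by
    intro j
    refine ae_gridK_of_ae E.y r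
      (Q := fun x : (ι → ι → Y.C) × (ι → ι → E.V.C) =>
        x.2 p j = E.Rp (fun i => x.2 i j, x.1 p j)) ?_ ?_
    · exact measurableSet_eq_fun (by fun_prop) (E.mRp.comp (by fun_prop))
    · exact (colF r E.V j).mp.quasiMeasurePreserving.ae E.hRp
  have colq : ∀ j, ∀ᵐ g ∂(D r (D r Y)).μ, ∀ᵐ w ∂(E.y.gridK r g),
      w q j = E.Rq (fun i => w i j, g q j) := by
    intro j
    refine ae_gridK_of_ae E.y r
      (Q := fun x : (ι → ι → Y.C) × (ι → ι → E.V.C) =>
        x.2 q j = E.Rq (fun i => x.2 i j, x.1 q j)) ?_ ?_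
    · exact measurableSet_eq_fun (by fun_prop) (E.mRq.comp (by fun_prop))
    · exact (colF r E.V j).mp.quasiMeasurePreserving.ae E.hRq
  -- line laws of rows and columns of the base grid
  have rK : ∀ {Q : (ι → Y.C) → Prop}, (∀ᵐ η ∂(D r Y).μ, Q η) →
      ∀ i, ∀ᵐ g ∂(D r (D r Y)).μ, Q (g i) := fun h i =>
    (rowF r Y i).mp.quasiMeasurePreserving.ae h
  have cK : ∀ {Q : (ι → Y.C) → Prop}, (∀ᵐ η ∂(D r Y).μ, Q η) →
      ∀ j, ∀ᵐ g ∂(D r (D r Y)).μ, Q (fun i => g i j) := fun h j =>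
    (colF r Y j).mp.quasiMeasurePreserving.ae h
  filter_upwards [ae_all_iff.2 fun s => ae_all_iff.2 fun s' => (E.grid s s').gridK,
    ae_all_iff.2 rowp, ae_all_iff.2 rowq, ae_all_iff.2 colp,
    ae_all_iff.2 colq, cK (E.line q).lineK p, cK E.lineK_exact_q p] with g h1 h2 h3 h4 h5 h6 h7
  refine ⟨⟨inferInstance, inferInstance, h1, ?_, ?_⟩, ?_⟩
  · rintro i s (rfl | rfl)
    · exact ⟨fun u => E.Rp (u, g i s), E.mRp.comp (by fun_prop), h2 i⟩
    · exact ⟨fun u => E.Rq (u, g i s), E.mRq.comp (by fun_prop), h3 i⟩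
  · rintro j s (rfl | rfl)
    · exact ⟨fun u => E.Rp (u, g s j), E.mRp.comp (by fun_prop), h4 j⟩
    · exact ⟨fun u => E.Rq (u, g s j), E.mRq.comp (by fun_prop), h5 j⟩
  refine line_eq_of_exact (s := q) (R := fun u => E.Rq (u, g q p))
    (E.mRq.comp (by fun_prop)) ?_ h7 ?_
  · have hm : Measurable (fun (w : ι → ι → E.V.C) (i : ι) => w i p) := by fun_prop
    have hs : MeasurableSet {v : ι → E.V.C | v q = E.Rq (fun j => v j, g q p)} :=
      measurableSet_eq_fun (by fun_prop) (E.mRq.comp (by fun_prop))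
    rw [ae_map_iff hm.aemeasurable hs]
    exact h5 p
  · rw [h6]
    exact block_col (s := q) (s' := q) (ν := fun i j => E.y.om (g i j)) hpq
      ((blockU_iff_blockC q q _ (fun i j => E.y.om (g i j))).1 (h1 q q))

end EP

end Vale.Agent.P102.RM
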