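import Vale.Agent.P102.RM.Defs
import Vale.Agent.P102.RM.Functor
import Vale.Agent.P102.RM.Fib2

/-!
P102, Rokhlin: block TOT, part 1: the line kernel `lineK` of an exact pair.
-/

namespace Vale.Agent.P102.RM

open MeasureTheory Filter Topology ProbabilityTheory Set
open scoped ENNReal

/-! ### Integral form ⇒ box formula -/

section Box

variable {I 𝒴 : Type*} [Fintype I] [MeasurableSpace 𝒴] {V : I → Type*}
  [∀ i, MeasurableSpace (V i)] {Ω : Type*} [MeasurableSpace Ω]

/-- The integral form of conditional independence with given fibre laws implies the box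
formula. -/
theorem box_of_integral {P : Measure Ω} [IsProbabilityMeasure P] {A : Ω → 𝒴}
    (hA : Measurable A) {B : ∀ i, Ω → V i} (hB : ∀ i, Measurable (B i))
    (κ : ∀ i, Kernel 𝒴 (V i)) [∀ i, IsMarkovKernel (κ i)]
    (h : ∀ (f : ∀ i, V i → ℂ) (g : 𝒴 → ℂ), (∀ i, Bdd (f i)) → Bdd g →
      ∫ ω, g (A ω) * ∏ i, f i (B i ω) ∂P = ∫ ω, g (A ω) * ∏ i, ∫ v, f i v ∂(κ i (A ω)) ∂P)
    (C : Set 𝒴) (s : ∀ i, Set (V i)) (hC : MeasurableSet C) (hs : ∀ i, MeasurableSet (s i)) :
    P (A ⁻¹' C ∩ ⋂ i, B i ⁻¹' s i) = ∫⁻ ω in A ⁻¹' C, ∏ i, κ i (A ω) (s i) ∂P := by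
  have h1 := h (fun i => (s i).indicator 1) (C.indicator 1) (fun i => Bdd.indicator (hs i))
    (Bdd.indicator hC)
  have hE : MeasurableSet (A ⁻¹' C ∩ ⋂ i, B i ⁻¹' s i) :=
    (hA hC).inter (MeasurableSet.iInter fun i => (hB i) (hs i))
  have h2 : ∫ ω, C.indicator (1 : 𝒴 → ℂ) (A ω) * ∏ i, (s i).indicator (1 : V i → ℂ) (B i ω) ∂P
      = ((P.real (A ⁻¹' C ∩ ⋂ i, B i ⁻¹' s i) : ℝ) : ℂ) := by
    have h3 : (fun ω => C.indicator (1 : 𝒴 → ℂ) (A ω) *
        ∏ i, (s i).indicator (1 : V i → ℂ) (B i ω)) =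
        (A ⁻¹' C ∩ ⋂ i, B i ⁻¹' s i).indicator (fun _ => (1 : ℂ)) := by
      funext ω
      by_cases hω : ω ∈ A ⁻¹' C ∩ ⋂ i, B i ⁻¹' s i
      · rw [indicator_of_mem hω]
        obtain ⟨h4, h5⟩ := hω
        rw [mem_iInter] at h5
        rw [indicator_of_mem (show A ω ∈ C from h4), Finset.prod_eq_one fun i _ => by
          rw [indicator_of_mem (show B i ω ∈ s i from h5 i)]; rfl]
        simp
      · rw [indicator_of_notMem hω]
        by_cases h4 : A ω ∈ C
        · have h5 : ¬ ∀ i, B i ω ∈ s i := fun h6 => hω ⟨h4, mem_iInter.2 h6⟩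
          obtain ⟨i, hi⟩ := not_forall.1 h5
          rw [Finset.prod_eq_zero (Finset.mem_univ i) (indicator_of_notMem hi _), mul_zero]
        · rw [indicator_of_notMem h4, zero_mul]
    rw [h3, integral_indicator_const _ hE]
    simp
  have hmeas : Measurable fun ω => ∏ i, κ i (A ω) (s i) :=
    Finset.measurable_prod _ fun i _ => ((κ i).measurable_coe (hs i)).comp hA
  have hle : ∀ ω, ∏ i, κ i (A ω) (s i) ≤ 1 := fun ω =>
    Finset.prod_le_one' fun i _ => prob_le_one
  have h4 : ∫ ω, C.indicator (1 : 𝒴 → ℂ) (A ω) *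
      ∏ i, ∫ v, (s i).indicator (1 : V i → ℂ) v ∂(κ i (A ω)) ∂P
      = (((∫⁻ ω in A ⁻¹' C, ∏ i, κ i (A ω) (s i) ∂P).toReal : ℝ) : ℂ) := by
    rw [← integral_toReal hmeas.aemeasurable.restrict
      (Filter.Eventually.of_forall fun ω => (hle ω).trans_lt ENNReal.one_lt_top),
      ← integral_indicator (hA hC), ← integral_complex_ofReal]
    refine integral_congr_ae (Filter.Eventually.of_forall fun ω => ?_)
    by_cases hω : A ω ∈ C
    · have h6 : ω ∈ A ⁻¹' C := hω
      simp only [indicator_of_mem hω, indicator_of_mem h6, Pi.one_apply, one_mul]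
      rw [ENNReal.toReal_prod, Complex.ofReal_prod]
      refine Finset.prod_congr rfl fun i _ => ?_
      have h5 : ∫ v, (s i).indicator (1 : V i → ℂ) v ∂(κ i (A ω)) =
          (((κ i (A ω)).real (s i) : ℝ) : ℂ) := by
        have : (s i).indicator (1 : V i → ℂ) = (s i).indicator (fun _ => (1 : ℂ)) := rfl
        rw [this, integral_indicator_const _ (hs i)]
        simp
      rw [h5]; rfl
    · have h6 : ω ∉ A ⁻¹' C := hω
      simp only [indicator_of_notMem hω, indicator_of_notMem h6, zero_mul, Complex.ofReal_zero]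
  rw [h2, h4, Complex.ofReal_inj, measureReal_def] at h1
  have h3 : ∫⁻ ω in A ⁻¹' C, ∏ i, κ i (A ω) (s i) ∂P ≠ ∞ := by
    have : ∫⁻ ω in A ⁻¹' C, ∏ i, κ i (A ω) (s i) ∂P ≤ 1 := by
      calc _ ≤ ∫⁻ _ in A ⁻¹' C, 1 ∂P := lintegral_mono hle
        _ = P (A ⁻¹' C) := by simp
        _ ≤ 1 := prob_le_one
    exact (this.trans_lt ENNReal.one_lt_top).ne
  exact (ENNReal.toReal_eq_toReal_iff' (measure_ne_top _ _) h3).1 h1

/-- (F1) from the integral form: the conditional law of `(Bᵢ)` given `A` is a product. -/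
theorem condDistrib_pi_of_integral [∀ i, StandardBorelSpace (V i)] [∀ i, Nonempty (V i)]
    {P : Measure Ω} [IsProbabilityMeasure P] {A : Ω → 𝒴}
    (hA : Measurable A) {B : ∀ i, Ω → V i} (hB : ∀ i, Measurable (B i))
    (κ : ∀ i, Kernel 𝒴 (V i)) [∀ i, IsMarkovKernel (κ i)]
    (h : ∀ (f : ∀ i, V i → ℂ) (g : 𝒴 → ℂ), (∀ i, Bdd (f i)) → Bdd g →
      ∫ ω, g (A ω) * ∏ i, f i (B i ω) ∂P = ∫ ω, g (A ω) * ∏ i, ∫ v, f i v ∂(κ i (A ω)) ∂P) :
    ∀ᵐ a ∂(P.map A), condDistrib (fun ω i => B i ω) A P a = Measure.pi fun i => κ i a :=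
  condDistrib_ae_eq_piKernel hA hB κ (box_of_integral hA hB κ h)

end Box

/-! ### The line kernel -/

section Line

variable {ι : Type} [Fintype ι] {r : Ultrafilter (ι → ℤ)} {V Y : Sys}

omit [Fintype ι] in
theorem measurable_yline (y : Fac V Y) :
    Measurable (fun (d : ι → V.C) (i : ι) => y.f (d i)) :=
  measurable_pi_lambda _ fun i => y.meas.comp (measurable_pi_apply i)

theorem lineK_base (y : Fac V Y) (r : Ultrafilter (ι → ℤ)) :
    (D r V).μ.map (fun (d : (D r V).C) (i : ι) => y.f (d i)) = (D r Y).μ := (y.D r).mp.map_eq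

instance (y : Fac V Y) (r : Ultrafilter (ι → ℤ)) : IsMarkovKernel (y.lineK r) := by
  unfold Fac.lineK; infer_instance

/-- a.e. statements pass to the line fibres. -/
theorem ae_lineK_of_ae (y : Fac V Y) (r : Ultrafilter (ι → ℤ))
    {Q : (ι → Y.C) × (ι → V.C) → Prop} (hQ : MeasurableSet {p | Q p})
    (h : ∀ᵐ d ∂(D r V).μ, Q (fun i => y.f (d i), d)) :
    ∀ᵐ η ∂(D r Y).μ, ∀ᵐ v ∂(y.lineK r η), Q (η, v) := by
  have h1 := ae_fibre_of_ae (P := (D r V).μ) (A := fun (d : (D r V).C) (i : ι) => y.f (d i))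
    (measurable_yline y) (B := (id : (D r V).C → (ι → V.C))) measurable_id hQ h
  rw [lineK_base] at h1
  exact h1

/-- equivariance of the line kernel. -/
theorem lineK_equivariant (y : Fac V Y) (r : Ultrafilter (ι → ℤ)) :
    ∀ᵐ η ∂(D r Y).μ, y.lineK r ((D r Y).S η) = (y.lineK r η).map (D r V).S := by
  have h1 := condDistrib_equivariant (P := (D r V).μ)
    (A := fun (d : (D r V).C) (i : ι) => y.f (d i))
    (measurable_yline y) (B := (id : (D r V).C → (ι → V.C))) measurable_id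
    (D r Y).S (τ := (D r V).S) (D r V).S.measurable (by
      have h2 : (fun ω : (D r V).C => ((D r Y).S fun i => y.f (ω i), (D r V).S (id ω))) =
          (fun ω : (D r V).C => ((fun i => y.f (ω i) : ι → Y.C), (id ω : ι → V.C))) ∘
            (D r V).S := by
        funext ω
        refine Prod.ext ?_ rfl
        funext i
        exact (y.eqv (ω i)).symm
      have hm : Measurable (fun ω : (D r V).C =>
          ((fun i => y.f (ω i) : ι → Y.C), (id ω : ι → V.C))) :=
        (measurable_yline y).prodMk measurable_id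
      rw [h2, ← Measure.map_map hm (D r V).S.measurable, (D r V).mp.map_eq])
  rw [lineK_base] at h1
  exact h1

variable [DecidableEq ι]

theorem prod_erase_eq {M : Type*} [CommMonoid M] (s : ι) (f : ι → M) :
    ∏ j ∈ Finset.univ.erase s, f j = ∏ j : {j : ι // j ≠ s}, f j :=
  Finset.prod_subtype _ (by simp) f

/-- integral form over the subtype -/
theorem LineInd.subtype {y : Fac V Y} {s : ι} (h : LineInd r y s)
    (f : {j : ι // j ≠ s} → V.C → ℂ) (g : (ι → Y.C) → ℂ) (hf : ∀ i, Bdd (f i)) (hg : Bdd g) :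
    ∫ d, g (fun i => y.f (d i)) * ∏ j : {j : ι // j ≠ s}, f j (d j) ∂(D r V).μ
      = ∫ d, g (fun i => y.f (d i)) * ∏ j : {j : ι // j ≠ s}, y.ce (f j) (y.f (d j))
        ∂(D r V).μ := by
  have h1 := h (fun j => if hj : j ≠ s then f ⟨j, hj⟩ else fun _ => 1) g (by
    intro i
    by_cases hi : i ≠ s
    · simpa only [dif_pos hi] using hf ⟨i, hi⟩
    · simpa only [dif_neg hi] using Bdd.const 1) hg
  simp only [prod_erase_eq] at h1
  have h2 : ∀ j : {j : ι // j ≠ s}, (if hj : (j : ι) ≠ s then f ⟨j, hj⟩ else fun _ => 1) = f j :=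
    fun j => dif_pos j.2
  simp only [h2] at h1
  exact h1

/-- the points outside slot `s` are independent in a.e. line fibre, with own fibre laws -/
theorem LineInd.lineK {y : Fac V Y} {s : ι} (h : LineInd r y s) :
    ∀ᵐ η ∂(D r Y).μ, (y.lineK r η).map (fun (v : ι → V.C) (j : {j : ι // j ≠ s}) => v j)
      = Measure.pi fun j : {j : ι // j ≠ s} => y.om (η j) := by
  have hm : Measurable (fun (v : ι → V.C) (j : {j : ι // j ≠ s}) => v j) := by fun_prop
  have h1 := condDistrib_pi_of_integral (P := (D r V).μ)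
    (A := fun (d : (D r V).C) (i : ι) => y.f (d i)) (measurable_yline y)
    (B := fun (j : {j : ι // j ≠ s}) (d : (D r V).C) => d j) (fun j => measurable_pi_apply _)
    (fun j => y.om.comap (fun η : ι → Y.C => η j) (measurable_pi_apply _)) (by
      intro f g hf hg
      exact h.subtype f g hf hg)
  have h2 := condDistrib_comp (mβ := (inferInstance : MeasurableSpace (ι → Y.C)))
    (μ := (D r V).μ) (Y := (id : (D r V).C → (ι → V.C)))
    (fun (d : (D r V).C) (i : ι) => y.f (d i)) aemeasurable_id hm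
  rw [lineK_base] at h1 h2
  filter_upwards [h1, h2] with η h3 h4
  rw [Kernel.map_apply _ hm] at h4
  rw [show y.lineK r η = condDistrib (id : (D r V).C → (ι → V.C))
    (fun (d : (D r V).C) (i : ι) => y.f (d i)) (D r V).μ η from rfl, ← h4]
  exact h3

end Line

/-! ### Exact pairs -/

section EP

variable {ι : Type} [Fintype ι] [DecidableEq ι] {r : Ultrafilter (ι → ℤ)} {p q : ι} {Y : Sys}

theorem EP.lineK_exact_p (E : EP r p q Y) :
    ∀ᵐ η ∂(D r Y).μ, ∀ᵐ v ∂(E.y.lineK r η), v p = E.Rp (fun j => v j, η p) := by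
  refine ae_lineK_of_ae E.y r
    (Q := fun x : (ι → Y.C) × (ι → E.V.C) => x.2 p = E.Rp (fun j => x.2 j, x.1 p)) ?_ E.hRp
  exact measurableSet_eq_fun (by fun_prop) (E.mRp.comp (by fun_prop))

theorem EP.lineK_exact_q (E : EP r p q Y) :
    ∀ᵐ η ∂(D r Y).μ, ∀ᵐ v ∂(E.y.lineK r η), v q = E.Rq (fun j => v j, η q) := by
  refine ae_lineK_of_ae E.y r
    (Q := fun x : (ι → Y.C) × (ι → E.V.C) => x.2 q = E.Rq (fun j => x.2 j, x.1 q)) ?_ E.hRq
  exact measurableSet_eq_fun (by fun_prop) (E.mRq.comp (by fun_prop))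

end EP

end Vale.Agent.P102.RM
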