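import Mathlib.Probability.Independence.Basic
import Mathlib.Probability.ConditionalExpectation
import Mathlib.MeasureTheory.Function.ConditionalExpectation.PullOut
import Mathlib.MeasureTheory.Function.ConditionalExpectation.Real

/-!
# The upgrade lemma, abstract form

`C` finite, for every `c : C` sub-sigma-algebras `mX c` (the point `x_c`), `mW c` (the point
`w_c`), `mY c` (the point `y_c`), and a sigma-algebra `mB` containing all `y_c`.
If the `x_c` are jointly independent of each other and of `mB`, and if (satedness) `w_c` is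
independent of `G` given `y_c` whenever `G` contains `mB` and is independent of `x_c`, then given
`mB` the `w_c` are independent, each with its law given `y_c`.
-/

open MeasureTheory ProbabilityTheory Filter Set

namespace Vale.Agent.P102.RM

section UpAbs

variable {Ω : Type*}

/-- The pi-system of intersections `a ∩ b`, generating `m1 ⊔ m2`. -/
def interSets (m1 m2 : MeasurableSpace Ω) : Set (Set Ω) :=
  {s | ∃ a b, MeasurableSet[m1] a ∧ MeasurableSet[m2] b ∧ s = a ∩ b}

theorem isPiSystem_interSets (m1 m2 : MeasurableSpace Ω) : IsPiSystem (interSets m1 m2) := by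
  rintro _ ⟨a, b, ha, hb, rfl⟩ _ ⟨c, d, hc, hd, rfl⟩ _
  refine ⟨a ∩ c, b ∩ d, MeasurableSet.inter ha hc, MeasurableSet.inter hb hd, ?_⟩
  ext ω
  simp only [mem_inter_iff]
  tauto

theorem generateFrom_interSets (m1 m2 : MeasurableSpace Ω) :
    MeasurableSpace.generateFrom (interSets m1 m2) = m1 ⊔ m2 := by
  refine le_antisymm (MeasurableSpace.generateFrom_le ?_) (sup_le ?_ ?_)
  · rintro _ ⟨a, b, ha, hb, rfl⟩
    exact MeasurableSet.inter (le_sup_left (b := m2) a ha) (le_sup_right (a := m1) b hb)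
  · intro a ha
    exact MeasurableSpace.measurableSet_generateFrom
      ⟨a, univ, ha, MeasurableSet.univ, (inter_univ a).symm⟩
  · intro b hb
    exact MeasurableSpace.measurableSet_generateFrom
      ⟨univ, b, MeasurableSet.univ, hb, (univ_inter b).symm⟩

/-- Contraction: if `m1` is independent of `mH`, and `mW` is independent of `m1 ⊔ mH` given
`mY ≤ mH`, then `m1` is independent of `mW ⊔ mH`. -/
theorem indep_sup_of_condExp {m1 mW mH mY m0 : MeasurableSpace Ω} {P : Measure Ω}
    [IsProbabilityMeasure P] (h1 : m1 ≤ m0) (hW : mW ≤ m0)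
    (hH : mH ≤ m0) (hYH : mY ≤ mH) (hind : Indep m1 mH P)
    (hci : ∀ A, MeasurableSet[mW] A →
      P[A.indicator (fun _ => (1 : ℝ)) | m1 ⊔ mH] =ᵐ[P] P[A.indicator (fun _ => (1 : ℝ)) | mY]) :
    Indep m1 (mW ⊔ mH) P := by
  have hG : m1 ⊔ mH ≤ m0 := sup_le h1 hH
  refine IndepSets.indep h1 (sup_le hW hH) (@MeasurableSpace.isPiSystem_measurableSet Ω m1)
    (isPiSystem_interSets mW mH) (@MeasurableSpace.generateFrom_measurableSet Ω m1).symm
    (generateFrom_interSets mW mH).symm ?_
  rw [IndepSets_iff]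
  rintro B _ hB ⟨A, K, hA, hK, rfl⟩
  have hB' : MeasurableSet[m1] B := hB
  have hB0 : MeasurableSet B := h1 B hB'
  have hA0 : MeasurableSet A := hW A hA
  have hK0 : MeasurableSet K := hH K hK
  set f : Ω → ℝ := A.indicator (fun _ => (1 : ℝ)) with hf
  have hfi : Integrable f P := (integrable_const (1 : ℝ)).indicator hA0
  set g : Ω → ℝ := P[f | mY] with hg
  have hgi : Integrable g P := integrable_condExp
  have hgm : StronglyMeasurable[mH] g := stronglyMeasurable_condExp.mono hYH
  have key : ∀ s, MeasurableSet[m1 ⊔ mH] s → P.real (s ∩ A) = ∫ ω in s, g ω ∂P := by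
    intro s hs
    have e1 : ∫ ω in s, (P[f | m1 ⊔ mH]) ω ∂P = ∫ ω in s, f ω ∂P :=
      setIntegral_condExp hG hfi hs
    have e2 : ∫ ω in s, (P[f | m1 ⊔ mH]) ω ∂P = ∫ ω in s, g ω ∂P :=
      integral_congr_ae (ae_restrict_of_ae (hci A hA))
    rw [← e2, e1, hf, setIntegral_indicator hA0]
    simp
  have hBG : MeasurableSet[m1 ⊔ mH] B := (le_sup_left : m1 ≤ m1 ⊔ mH) B hB'
  have hKG : MeasurableSet[m1 ⊔ mH] K := (le_sup_right : mH ≤ m1 ⊔ mH) K hK
  have hgK : StronglyMeasurable[mH] (K.indicator g) := hgm.indicator hK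
  have e3 : P[K.indicator g | m1] =ᵐ[P] fun _ => ∫ ω, K.indicator g ω ∂P :=
    condExp_indep_eq hH h1 hgK hind.symm
  have e4 : ∫ ω in B ∩ K, g ω ∂P = P.real B * ∫ ω in K, g ω ∂P := by
    rw [← setIntegral_indicator hK0, ← setIntegral_condExp h1 (hgi.indicator hK0) hB',
      integral_congr_ae (ae_restrict_of_ae e3), integral_const, integral_indicator hK0]
    simp
  have e5 : P.real (B ∩ (A ∩ K)) = P.real B * P.real (A ∩ K) := by
    have : B ∩ (A ∩ K) = (B ∩ K) ∩ A := by
      ext ω
      simp only [mem_inter_iff]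
      tauto
    rw [this, key (B ∩ K) (MeasurableSet.inter hBG hKG), e4, inter_comm A K, key K hKG]
  rw [← ENNReal.toReal_eq_toReal_iff' (measure_ne_top _ _)
    (ENNReal.mul_ne_top (measure_ne_top _ _) (measure_ne_top _ _)), ENNReal.toReal_mul]
  exact e5

/-- `w_c` for `c ∈ D`, `x_c` for `c ∉ D`. -/
@[instance_reducible] def mixSA {C : Type*} [DecidableEq C] (mX mW : C → MeasurableSpace Ω) (D : Finset C) (c : C) :
    MeasurableSpace Ω := if c ∈ D then mW c else mX c

theorem inv_finset_sup {C : Type*} {m : C → MeasurableSpace Ω} {mB : MeasurableSpace Ω}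
    (Inv : MeasurableSpace Ω → Prop) (hsup : ∀ a b, Inv a → Inv b → Inv (a ⊔ b))
    (hm : ∀ c, Inv (m c)) (hB : Inv mB) (s : Finset C) : Inv (s.sup m ⊔ mB) := by
  classical
  induction s using Finset.induction_on with
  | empty => simpa using hB
  | insert c s _ ih =>
    rw [Finset.sup_insert, sup_assoc]
    exact hsup _ _ (hm c) ih

section Main

variable {C : Type*} [Fintype C] [DecidableEq C] {mX mW mY : C → MeasurableSpace Ω}
  {mB m0 : MeasurableSpace Ω} {P : Measure Ω} [IsProbabilityMeasure P]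

omit [IsProbabilityMeasure P] in
/-- The hypothesis `hind` of the upgrade lemma from joint independence of the `x_c` and `mB`. -/
theorem indep_of_iIndep_option (hX : ∀ c, mX c ≤ m0) (hB : mB ≤ m0)
    (h : iIndep (fun o : Option C => o.elim mB mX) P) (c : C) :
    Indep (mX c) ((Finset.univ.erase c).sup mX ⊔ mB) P := by
  have h_le : ∀ o : Option C, (o.elim mB mX : MeasurableSpace Ω) ≤ m0 := by
    intro o
    cases o with
    | none => exact hB
    | some e => exact hX e
  have h1 := indep_iSup_of_disjoint h_le h (S := {some c}) (T := {some c}ᶜ)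
    disjoint_compl_right
  refine indep_of_indep_of_le h1 ?_ ?_
  · exact le_iSup₂_of_le (some c) rfl (le_refl _)
  · refine sup_le (Finset.sup_le fun e he => ?_) ?_
    · refine le_iSup₂_of_le (some e) ?_ (le_refl _)
      simpa using (Finset.mem_erase.1 he).1
    · refine le_iSup₂_of_le none ?_ (le_refl _)
      simp

/-- The satedness hypothesis of the upgrade lemma. `Inv` is any property of sub-sigma-algebras
which is stable under suprema (invariance under the dynamics; take `fun _ => True` if it is not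
needed). -/
def UpSat (mX mW mY : C → MeasurableSpace Ω) (mB m0 : MeasurableSpace Ω) (P : Measure[m0] Ω)
    (Inv : MeasurableSpace Ω → Prop) : Prop :=
  ∀ (c : C) (G : MeasurableSpace Ω), G ≤ m0 → Inv G → mB ≤ G → Indep (mX c) G P →
    ∀ f : Ω → ℝ, StronglyMeasurable[mW c] f → (∃ K : ℝ, ∀ ω, |f ω| ≤ K) →
      P[f | G] =ᵐ[P] P[f | mY c]

omit [Fintype C] in
theorem mixSA_le (hXW : ∀ c, mX c ≤ mW c) (hW : ∀ c, mW c ≤ m0) (D : Finset C) (c : C) :
    mixSA mX mW D c ≤ m0 := by
  unfold mixSA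
  split_ifs
  · exact hW c
  · exact (hXW c).trans (hW c)

omit [Fintype C] in
theorem inv_mixSA (Inv : MeasurableSpace Ω → Prop) (hIX : ∀ c, Inv (mX c))
    (hIW : ∀ c, Inv (mW c)) (D : Finset C) (c : C) : Inv (mixSA mX mW D c) := by
  unfold mixSA
  split_ifs
  · exact hIW c
  · exact hIX c

theorem upgrade_indep (hXW : ∀ c, mX c ≤ mW c) (hW : ∀ c, mW c ≤ m0) (hB : mB ≤ m0)
    (hYB : ∀ c, mY c ≤ mB) {Inv : MeasurableSpace Ω → Prop}
    (hsup : ∀ a b, Inv a → Inv b → Inv (a ⊔ b)) (hIX : ∀ c, Inv (mX c)) (hIW : ∀ c, Inv (mW c))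
    (hIB : Inv mB) (hind : ∀ c, Indep (mX c) ((Finset.univ.erase c).sup mX ⊔ mB) P)
    (sat : UpSat mX mW mY mB m0 P Inv) (D : Finset C) :
    ∀ c, c ∉ D → Indep (mX c) ((Finset.univ.erase c).sup (mixSA mX mW D) ⊔ mB) P := by
  induction D using Finset.induction_on with
  | empty =>
    intro c _
    have : mixSA mX mW ∅ = mX := by
      funext c
      simp [mixSA]
    rw [this]
    exact hind c
  | insert d D hd ih =>
    intro c hc
    have hcd : c ≠ d := fun h => hc (h ▸ Finset.mem_insert_self d D)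
    have hcD : c ∉ D := fun h => hc (Finset.mem_insert_of_mem h)
    have hG0 : ∀ s : Finset C, s.sup (mixSA mX mW D) ⊔ mB ≤ m0 := fun s =>
      sup_le (Finset.sup_le fun e _ => mixSA_le hXW hW D e) hB
    set H : MeasurableSpace Ω :=
      ((Finset.univ.erase c).erase d).sup (mixSA mX mW D) ⊔ mB with hH
    have e1 : (Finset.univ.erase c).sup (mixSA mX mW (insert d D)) ⊔ mB = mW d ⊔ H := by
      have hmem : d ∈ Finset.univ.erase c := Finset.mem_erase.2 ⟨hcd.symm, Finset.mem_univ d⟩
      rw [← Finset.insert_erase hmem, Finset.sup_insert, sup_assoc, hH]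
      have e2 : mixSA mX mW (insert d D) d = mW d := by
        simp [mixSA]
      have e3 : ((Finset.univ.erase c).erase d).sup (mixSA mX mW (insert d D)) =
          ((Finset.univ.erase c).erase d).sup (mixSA mX mW D) := by
        refine Finset.sup_congr rfl fun e he => ?_
        have hed : e ≠ d := (Finset.mem_erase.1 he).1
        simp [mixSA, hed]
      rw [e2, e3]
    have e4 : (Finset.univ.erase d).sup (mixSA mX mW D) ⊔ mB = mX c ⊔ H := by
      have hmem : c ∈ Finset.univ.erase d := Finset.mem_erase.2 ⟨hcd, Finset.mem_univ c⟩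
      rw [← Finset.insert_erase hmem, Finset.sup_insert, sup_assoc, hH,
        Finset.erase_right_comm (a := d) (b := c)]
      have e5 : mixSA mX mW D c = mX c := by
        simp [mixSA, hcD]
      rw [e5]
    rw [e1]
    refine indep_sup_of_condExp (mY := mY d) ((hXW c).trans (hW c)) (hW d) (hG0 _)
      ((hYB d).trans le_sup_right) ?_ ?_
    · refine indep_of_indep_of_le_right (ih c hcD) ?_
      exact sup_le_sup_right (Finset.sup_mono (Finset.erase_subset _ _)) mB
    · intro A hA
      rw [← e4]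
      refine sat d _ (hG0 _) (inv_finset_sup Inv hsup (inv_mixSA Inv hIX hIW D) hIB _)
        le_sup_right (ih d hd) _ ?_ ?_
      · exact (stronglyMeasurable_const (b := (1 : ℝ))).indicator hA
      · refine ⟨1, fun ω => ?_⟩
        by_cases h : ω ∈ A <;> simp [h]

/-- Conclusion (1): given `mB` and the `w_d`, `d ∈ D`, the point `w_c` (`c ∉ D`) has its law
given `y_c`. -/
theorem upgrade_condExp (hXW : ∀ c, mX c ≤ mW c) (hW : ∀ c, mW c ≤ m0) (hB : mB ≤ m0)
    (hYB : ∀ c, mY c ≤ mB) {Inv : MeasurableSpace Ω → Prop}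
    (hsup : ∀ a b, Inv a → Inv b → Inv (a ⊔ b)) (hIX : ∀ c, Inv (mX c)) (hIW : ∀ c, Inv (mW c))
    (hIB : Inv mB) (hind : ∀ c, Indep (mX c) ((Finset.univ.erase c).sup mX ⊔ mB) P)
    (sat : UpSat mX mW mY mB m0 P Inv) (D : Finset C) {c : C} (hc : c ∉ D) {f : Ω → ℝ}
    (hf : StronglyMeasurable[mW c] f) (hfb : ∃ K : ℝ, ∀ ω, |f ω| ≤ K) :
    P[f | D.sup mW ⊔ mB] =ᵐ[P] P[f | mY c] := by
  have hG0 : (Finset.univ.erase c).sup (mixSA mX mW D) ⊔ mB ≤ m0 :=
    sup_le (Finset.sup_le fun e _ => mixSA_le hXW hW D e) hB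
  have h1 := sat c _ hG0 (inv_finset_sup Inv hsup (inv_mixSA Inv hIX hIW D) hIB _) le_sup_right
    (upgrade_indep hXW hW hB hYB hsup hIX hIW hIB hind sat D c hc) f hf hfb
  have hle : D.sup mW ⊔ mB ≤ (Finset.univ.erase c).sup (mixSA mX mW D) ⊔ mB := by
    refine sup_le_sup_right (Finset.sup_le fun d hd => ?_) mB
    have e : mixSA mX mW D d = mW d := by
      simp [mixSA, hd]
    rw [← e]
    exact Finset.le_sup (f := mixSA mX mW D)
      (Finset.mem_erase.2 ⟨fun h => hc (h ▸ hd), Finset.mem_univ d⟩)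
  have hM0 : D.sup mW ⊔ mB ≤ m0 := hle.trans hG0
  calc P[f | D.sup mW ⊔ mB]
      =ᵐ[P] P[P[f | (Finset.univ.erase c).sup (mixSA mX mW D) ⊔ mB] | D.sup mW ⊔ mB] :=
        (condExp_condExp_of_le hle hG0).symm
    _ =ᵐ[P] P[P[f | mY c] | D.sup mW ⊔ mB] := condExp_congr_ae h1
    _ = P[f | mY c] := condExp_of_stronglyMeasurable hM0
        (stronglyMeasurable_condExp.mono ((hYB c).trans le_sup_right)) integrable_condExp

/-- Conclusion (2): given `mB` the `w_c` are independent, each with its law given `y_c`. -/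
theorem upgrade_prod (hXW : ∀ c, mX c ≤ mW c) (hW : ∀ c, mW c ≤ m0) (hB : mB ≤ m0)
    (hYB : ∀ c, mY c ≤ mB) {Inv : MeasurableSpace Ω → Prop}
    (hsup : ∀ a b, Inv a → Inv b → Inv (a ⊔ b)) (hIX : ∀ c, Inv (mX c)) (hIW : ∀ c, Inv (mW c))
    (hIB : Inv mB) (hind : ∀ c, Indep (mX c) ((Finset.univ.erase c).sup mX ⊔ mB) P)
    (sat : UpSat mX mW mY mB m0 P Inv) (D : Finset C) {f : C → Ω → ℝ}
    (hf : ∀ c ∈ D, StronglyMeasurable[mW c] (f c)) (hfb : ∀ c ∈ D, ∃ K : ℝ, ∀ ω, |f c ω| ≤ K) :
    P[∏ c ∈ D, f c | mB] =ᵐ[P] ∏ c ∈ D, P[f c | mY c] := by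
  induction D using Finset.induction_on with
  | empty =>
    simp only [Finset.prod_empty]
    have : P[(1 : Ω → ℝ) | mB] = 1 := condExp_const hB (1 : ℝ)
    rw [this]
  | insert d D hd ih =>
    have ih' := ih (fun c hc => hf c (Finset.mem_insert_of_mem hc))
      (fun c hc => hfb c (Finset.mem_insert_of_mem hc))
    set g : Ω → ℝ := ∏ c ∈ D, f c with hg
    set M : MeasurableSpace Ω := D.sup mW ⊔ mB with hM
    have hM0 : M ≤ m0 := sup_le (Finset.sup_le fun c _ => hW c) hB
    have hgM : StronglyMeasurable[M] g := by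
      refine Finset.stronglyMeasurable_prod D fun c hc => ?_
      exact (hf c (Finset.mem_insert_of_mem hc)).mono
        ((Finset.le_sup (f := mW) hc).trans le_sup_left)
    have hgb : ∃ K : ℝ, ∀ ω, |g ω| ≤ K := by
      have : ∀ E : Finset C, E ⊆ D → ∃ K : ℝ, ∀ ω, |(∏ c ∈ E, f c) ω| ≤ K := by
        intro E
        induction E using Finset.induction_on with
        | empty => exact fun _ => ⟨1, fun ω => by simp⟩
        | insert e E he ihE =>
          intro hED
          obtain ⟨K1, hK1⟩ := hfb e (Finset.mem_insert_of_mem (hED (Finset.mem_insert_self e E)))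
          obtain ⟨K2, hK2⟩ := ihE fun x hx => hED (Finset.mem_insert_of_mem hx)
          refine ⟨K1 * K2, fun ω => ?_⟩
          rw [Finset.prod_insert he, Pi.mul_apply, abs_mul]
          exact mul_le_mul (hK1 ω) (hK2 ω) (abs_nonneg _) ((abs_nonneg _).trans (hK1 ω))
      exact this D (Finset.Subset.refl D)
    obtain ⟨Kg, hKg⟩ := hgb
    obtain ⟨Kd, hKd⟩ := hfb d (Finset.mem_insert_self d D)
    have hfd : StronglyMeasurable[m0] (f d) := (hf d (Finset.mem_insert_self d D)).mono (hW d)
    have hg0 : StronglyMeasurable[m0] g := hgM.mono hM0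
    have hfdi : Integrable (f d) P :=
      Integrable.of_bound hfd.aestronglyMeasurable Kd (Eventually.of_forall fun ω => hKd ω)
    have hgi : Integrable g P :=
      Integrable.of_bound hg0.aestronglyMeasurable Kg (Eventually.of_forall fun ω => hKg ω)
    have hfg : Integrable (f d * g) P := by
      refine Integrable.of_bound (hfd.mul hg0).aestronglyMeasurable (Kd * Kg)
        (Eventually.of_forall fun ω => ?_)
      rw [Pi.mul_apply, Real.norm_eq_abs, abs_mul]
      exact mul_le_mul (hKd ω) (hKg ω) (abs_nonneg _) ((abs_nonneg _).trans (hKd ω))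
    have h1 : P[f d * g | M] =ᵐ[P] P[f d | mY d] * g :=
      (condExp_mul_of_stronglyMeasurable_right hgM hfg hfdi).trans
        ((upgrade_condExp hXW hW hB hYB hsup hIX hIW hIB hind sat D hd
          (hf d (Finset.mem_insert_self d D)) ⟨Kd, hKd⟩).mul (EventuallyEq.refl _ g))
    have hE : StronglyMeasurable[mB] (P[f d | mY d]) := stronglyMeasurable_condExp.mono (hYB d)
    have hEg : Integrable (P[f d | mY d] * g) P :=
      (integrable_condExp (m := M) (f := f d * g)).congr h1
    rw [Finset.prod_insert hd, Finset.prod_insert hd, ← hg]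
    calc P[f d * g | mB] =ᵐ[P] P[P[f d * g | M] | mB] :=
          (condExp_condExp_of_le le_sup_right hM0).symm
      _ =ᵐ[P] P[P[f d | mY d] * g | mB] := condExp_congr_ae h1
      _ =ᵐ[P] P[f d | mY d] * P[g | mB] :=
          condExp_mul_of_stronglyMeasurable_left hE hEg hgi
      _ =ᵐ[P] P[f d | mY d] * ∏ c ∈ D, P[f c | mY c] := (EventuallyEq.refl _ _).mul ih'

/-- Conclusion (3): each `w_c` is independent of `mB` given `y_c`. -/
theorem upgrade_single (hXW : ∀ c, mX c ≤ mW c) (hW : ∀ c, mW c ≤ m0) (hB : mB ≤ m0)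
    (hYB : ∀ c, mY c ≤ mB) {Inv : MeasurableSpace Ω → Prop}
    (hsup : ∀ a b, Inv a → Inv b → Inv (a ⊔ b)) (hIX : ∀ c, Inv (mX c)) (hIW : ∀ c, Inv (mW c))
    (hIB : Inv mB) (hind : ∀ c, Indep (mX c) ((Finset.univ.erase c).sup mX ⊔ mB) P)
    (sat : UpSat mX mW mY mB m0 P Inv) {c : C} {f : Ω → ℝ}
    (hf : StronglyMeasurable[mW c] f) (hfb : ∃ K : ℝ, ∀ ω, |f ω| ≤ K) :
    P[f | mB] =ᵐ[P] P[f | mY c] := by
  have h := upgrade_condExp hXW hW hB hYB hsup hIX hIW hIB hind sat ∅
    (Finset.notMem_empty c) hf hfb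
  simpa using h

end Main

end UpAbs

end Vale.Agent.P102.RM
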