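import Vale.Agent.P102.RM.UpAbs
import Mathlib.MeasureTheory.Function.ConditionalExpectation.CondJensen

/-!
# The upgrade lemma, abstract form, complex functions

The satedness hypothesis is for bounded complex functions; the conclusion is the integral formula
`∫ h * ∏ f_c = ∫ h * ∏ E[f_c | y_c]` with bounded complex functions.
-/

open MeasureTheory ProbabilityTheory Filter Set

namespace Vale.Agent.P102.RM

section UpAbsC

variable {Ω : Type*} {C : Type*} [Fintype C] [DecidableEq C]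
  {mX mW mY : C → MeasurableSpace Ω} {mB m0 : MeasurableSpace Ω} {P : Measure Ω}
  [IsProbabilityMeasure P]

/-- The satedness hypothesis of the upgrade lemma, complex functions. -/
def UpSatC (mX mW mY : C → MeasurableSpace Ω) (mB m0 : MeasurableSpace Ω) (P : Measure[m0] Ω)
    (Inv : MeasurableSpace Ω → Prop) : Prop :=
  ∀ (c : C) (G : MeasurableSpace Ω), G ≤ m0 → Inv G → mB ≤ G → Indep (mX c) G P →
    ∀ f : Ω → ℂ, StronglyMeasurable[mW c] f → (∃ K : ℝ, ∀ ω, ‖f ω‖ ≤ K) →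
      P[f | G] =ᵐ[P] P[f | mY c]

omit [Fintype C] [DecidableEq C] in
theorem UpSatC.real (hW : ∀ c, mW c ≤ m0) {Inv : MeasurableSpace Ω → Prop}
    (h : UpSatC mX mW mY mB m0 P Inv) : UpSat mX mW mY mB m0 P Inv := by
  intro c G hG hInv hBG hind f hf ⟨K, hK⟩
  have hfC : StronglyMeasurable[mW c] (fun ω => (f ω : ℂ)) :=
    Complex.continuous_ofReal.comp_stronglyMeasurable hf
  have hfi : Integrable (fun ω => (f ω : ℂ)) P := by
    refine Integrable.of_bound (hfC.mono (hW c)).aestronglyMeasurable K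
      (Eventually.of_forall fun ω => ?_)
    simpa using hK ω
  have h1 := h c G hG hInv hBG hind (fun ω => (f ω : ℂ)) hfC
    ⟨K, fun ω => by simpa using hK ω⟩
  have e : ∀ m : MeasurableSpace Ω,
      P[f | m] =ᵐ[P] fun ω => ((P[fun ω => (f ω : ℂ) | m]) ω).re := by
    intro m
    have h2 := ContinuousLinearMap.comp_condExp_comm (m := m) hfi Complex.reCLM
    have h3 : (fun ω => Complex.reCLM ((fun ω => (f ω : ℂ)) ω)) = f := by
      funext ω
      simp
    have h4 : (⇑Complex.reCLM ∘ fun ω => (f ω : ℂ)) = f := by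
      funext ω
      simp
    rw [h4] at h2
    exact h2.symm
  refine (e G).trans (EventuallyEq.trans ?_ (e (mY c)).symm)
  filter_upwards [h1] with ω hω
  rw [hω]

theorem upgradeC_condExp (hXW : ∀ c, mX c ≤ mW c) (hW : ∀ c, mW c ≤ m0) (hB : mB ≤ m0)
    (hYB : ∀ c, mY c ≤ mB) {Inv : MeasurableSpace Ω → Prop}
    (hsup : ∀ a b, Inv a → Inv b → Inv (a ⊔ b)) (hIX : ∀ c, Inv (mX c)) (hIW : ∀ c, Inv (mW c))
    (hIB : Inv mB) (hind : ∀ c, Indep (mX c) ((Finset.univ.erase c).sup mX ⊔ mB) P)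
    (sat : UpSatC mX mW mY mB m0 P Inv) (D : Finset C) {c : C} (hc : c ∉ D) {f : Ω → ℂ}
    (hf : StronglyMeasurable[mW c] f) (hfb : ∃ K : ℝ, ∀ ω, ‖f ω‖ ≤ K) :
    P[f | D.sup mW ⊔ mB] =ᵐ[P] P[f | mY c] := by
  have hG0 : (Finset.univ.erase c).sup (mixSA mX mW D) ⊔ mB ≤ m0 :=
    sup_le (Finset.sup_le fun e _ => mixSA_le hXW hW D e) hB
  have h1 := sat c _ hG0 (inv_finset_sup Inv hsup (inv_mixSA Inv hIX hIW D) hIB _) le_sup_right
    (upgrade_indep hXW hW hB hYB hsup hIX hIW hIB hind (sat.real hW) D c hc) f hf hfb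
  have hle : D.sup mW ⊔ mB ≤ (Finset.univ.erase c).sup (mixSA mX mW D) ⊔ mB := by
    refine sup_le_sup_right (Finset.sup_le fun d hd => ?_) mB
    have e : mixSA mX mW D d = mW d := by
      simp [mixSA, hd]
    rw [← e]
    exact Finset.le_sup (f := mixSA mX mW D)
      (Finset.mem_erase.2 ⟨fun h => hc (h ▸ hd), Finset.mem_univ d⟩)
  have hM0 : D.sup mW ⊔ mB ≤ m0 := hle.trans hG0
  calc P[f | D.sup mW ⊔ mB]
      =ᵐ[P] P[P[f | (Finset.univ.erase c).sup (mixSA mX mW D) ⊔ mB] | D.sup mW ⊔ mB] :=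
        (condExp_condExp_of_le hle hG0).symm
    _ =ᵐ[P] P[P[f | mY c] | D.sup mW ⊔ mB] := condExp_congr_ae h1
    _ = P[f | mY c] := condExp_of_stronglyMeasurable hM0
        (stronglyMeasurable_condExp.mono ((hYB c).trans le_sup_right)) integrable_condExp

/-- bounded products -/
theorem exists_bound_finset_prod {E : Type*} {f : E → Ω → ℂ} (D : Finset E)
    (hfb : ∀ c ∈ D, ∃ K : ℝ, ∀ ω, ‖f c ω‖ ≤ K) : ∃ K : ℝ, ∀ ω, ‖∏ c ∈ D, f c ω‖ ≤ K := by
  classical
  induction D using Finset.induction_on with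
  | empty => exact ⟨1, fun ω => by simp⟩
  | insert e D he ih =>
    obtain ⟨K1, hK1⟩ := hfb e (Finset.mem_insert_self e D)
    obtain ⟨K2, hK2⟩ := ih fun x hx => hfb x (Finset.mem_insert_of_mem hx)
    refine ⟨K1 * K2, fun ω => ?_⟩
    rw [Finset.prod_insert he, norm_mul]
    exact mul_le_mul (hK1 ω) (hK2 ω) (norm_nonneg _) ((norm_nonneg _).trans (hK1 ω))

/-- The conditional expectation of a bounded function has a bounded strongly measurable
version. -/
theorem exists_bounded_version {m : MeasurableSpace Ω} (hm : m ≤ m0) {f : Ω → ℂ} {K : ℝ}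
    (hf : ∀ ω, ‖f ω‖ ≤ K) (hfi : Integrable f P) :
    ∃ g : Ω → ℂ, StronglyMeasurable[m] g ∧ (∃ K' : ℝ, ∀ ω, ‖g ω‖ ≤ K') ∧ g =ᵐ[P] P[f | m] := by
  have hb : ∀ᵐ ω ∂P, ‖(P[f | m]) ω‖ ≤ K := by
    have h1 := norm_condExp_le (m := m) (μ := P) (f := f)
    have h2 : P[fun ω => ‖f ω‖ | m] ≤ᵐ[P] P[fun _ => K | m] :=
      condExp_mono hfi.norm (integrable_const K) (Eventually.of_forall hf)
    filter_upwards [h1, h2] with ω e1 e2
    refine e1.trans (e2.trans ?_)
    rw [condExp_const hm]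
  have hs : MeasurableSet[m] {ω | ‖(P[f | m]) ω‖ ≤ K} := by
    have : StronglyMeasurable[m] fun ω => ‖(P[f | m]) ω‖ := stronglyMeasurable_condExp.norm
    exact this.measurable measurableSet_Iic
  refine ⟨{ω | ‖(P[f | m]) ω‖ ≤ K}.indicator (P[f | m]),
    stronglyMeasurable_condExp.indicator hs, ⟨|K|, fun ω => ?_⟩, ?_⟩
  · by_cases h : ω ∈ {ω | ‖(P[f | m]) ω‖ ≤ K}
    · rw [indicator_of_mem h]
      exact le_trans h (le_abs_self K)
    · rw [indicator_of_notMem h, norm_zero]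
      exact abs_nonneg K
  · filter_upwards [hb] with ω hω
    rw [indicator_of_mem (show ω ∈ {ω | ‖(P[f | m]) ω‖ ≤ K} from hω)]

theorem upgradeC_integral (hXW : ∀ c, mX c ≤ mW c) (hW : ∀ c, mW c ≤ m0) (hB : mB ≤ m0)
    (hYB : ∀ c, mY c ≤ mB) {Inv : MeasurableSpace Ω → Prop}
    (hsup : ∀ a b, Inv a → Inv b → Inv (a ⊔ b)) (hIX : ∀ c, Inv (mX c)) (hIW : ∀ c, Inv (mW c))
    (hIB : Inv mB) (hind : ∀ c, Indep (mX c) ((Finset.univ.erase c).sup mX ⊔ mB) P)
    (sat : UpSatC mX mW mY mB m0 P Inv) {f : C → Ω → ℂ}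
    (hf : ∀ c, StronglyMeasurable[mW c] (f c)) (hfb : ∀ c, ∃ K : ℝ, ∀ ω, ‖f c ω‖ ≤ K)
    (D : Finset C) : ∀ h : Ω → ℂ, StronglyMeasurable[mB] h → (∃ K : ℝ, ∀ ω, ‖h ω‖ ≤ K) →
    ∫ ω, h ω * ∏ c ∈ D, f c ω ∂P = ∫ ω, h ω * ∏ c ∈ D, (P[f c | mY c]) ω ∂P := by
  induction D using Finset.induction_on with
  | empty =>
    intro h _ _
    simp
  | insert d D hd ih =>
    intro h hh hhb
    obtain ⟨Kh, hKh⟩ := hhb
    obtain ⟨Kd, hKd⟩ := hfb d
    obtain ⟨Kg, hKg⟩ := exists_bound_finset_prod D fun c _ => hfb c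
    set M : MeasurableSpace Ω := D.sup mW ⊔ mB with hM
    have hM0 : M ≤ m0 := sup_le (Finset.sup_le fun c _ => hW c) hB
    set g : Ω → ℂ := fun ω => ∏ c ∈ D, f c ω with hg
    have hgM : StronglyMeasurable[M] g := by
      have : StronglyMeasurable[M] (∏ c ∈ D, f c) := by
        refine Finset.stronglyMeasurable_prod D fun c hc => ?_
        exact (hf c).mono ((Finset.le_sup (f := mW) hc).trans le_sup_left)
      convert this using 1
      funext ω
      rw [hg, Finset.prod_apply]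
    have hhM : StronglyMeasurable[M] h := hh.mono le_sup_right
    have hfd : StronglyMeasurable[m0] (f d) := (hf d).mono (hW d)
    have hfdi : Integrable (f d) P :=
      Integrable.of_bound hfd.aestronglyMeasurable Kd (Eventually.of_forall hKd)
    have hhg : StronglyMeasurable[M] fun ω => h ω * g ω := hhM.mul hgM
    have hbd : ∀ ω, ‖h ω * g ω‖ ≤ Kh * Kg := fun ω => by
      rw [norm_mul]
      exact mul_le_mul (hKh ω) (hKg ω) (norm_nonneg _) ((norm_nonneg _).trans (hKh ω))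
    -- replace `f d` by its conditional expectation
    have hup := upgradeC_condExp hXW hW hB hYB hsup hIX hIW hIB hind sat D hd (hf d) ⟨Kd, hKd⟩
    have hprodi : Integrable (fun ω => (h ω * g ω) * f d ω) P := by
      refine Integrable.of_bound ((hhg.mono hM0).mul hfd).aestronglyMeasurable ((Kh * Kg) * Kd)
        (Eventually.of_forall fun ω => ?_)
      rw [norm_mul]
      exact mul_le_mul (hbd ω) (hKd ω) (norm_nonneg _) ((norm_nonneg _).trans (hbd ω))
    have hpull : P[fun ω => (h ω * g ω) * f d ω | M] =ᵐ[P]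
        fun ω => (h ω * g ω) * (P[f d | M]) ω :=
      condExp_bilin_of_aestronglyMeasurable_left (ContinuousLinearMap.mul ℝ ℂ)
        hhg.aestronglyMeasurable hprodi hfdi
    obtain ⟨v, hv, ⟨Kv, hKv⟩, hve⟩ := exists_bounded_version (P := P)
      ((hYB d).trans hB) hKd hfdi
    have e1 : ∫ ω, (h ω * g ω) * f d ω ∂P = ∫ ω, (h ω * g ω) * v ω ∂P := by
      rw [← integral_condExp hM0 (f := fun ω => (h ω * g ω) * f d ω), integral_congr_ae hpull]
      refine integral_congr_ae ?_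
      filter_upwards [hup, hve] with ω h1 h2
      rw [h1, h2]
    have e2 := ih (fun ω => h ω * v ω) (hh.mul (hv.mono (hYB d)))
      ⟨Kh * Kv, fun ω => by
        rw [norm_mul]
        exact mul_le_mul (hKh ω) (hKv ω) (norm_nonneg _) ((norm_nonneg _).trans (hKh ω))⟩
    calc ∫ ω, h ω * ∏ c ∈ insert d D, f c ω ∂P
        = ∫ ω, (h ω * g ω) * f d ω ∂P := by
          refine integral_congr_ae (Eventually.of_forall fun ω => ?_)
          simp only
          rw [Finset.prod_insert hd, hg]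
          ring
      _ = ∫ ω, (h ω * g ω) * v ω ∂P := e1
      _ = ∫ ω, (h ω * v ω) * ∏ c ∈ D, f c ω ∂P := by
          refine integral_congr_ae (Eventually.of_forall fun ω => ?_)
          simp only [hg]
          ring
      _ = ∫ ω, (h ω * v ω) * ∏ c ∈ D, (P[f c | mY c]) ω ∂P := e2
      _ = ∫ ω, h ω * ∏ c ∈ insert d D, (P[f c | mY c]) ω ∂P := by
          refine integral_congr_ae ?_
          filter_upwards [hve] with ω h1
          rw [Finset.prod_insert hd, h1]
          ring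

end UpAbsC

end Vale.Agent.P102.RM
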