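import Vale.Agent.P102.RM.Skeleton
import Vale.Agent.P102.RM.Functor

/-!
P102 (Rokhlin), campaign RM, block XE, part 1: the function `cE μ g F` tested against functions of
`g`, conjugation, and naturality of `cl` under factor maps.
-/

namespace Vale.Agent.P102.RM

open MeasureTheory Filter Topology ProbabilityTheory

namespace XE

section cE
variable {Ω G : Type*} [MeasurableSpace Ω] [StandardBorelSpace Ω] [Nonempty Ω] [MeasurableSpace G]
  (μ : Measure Ω) [IsFiniteMeasure μ]

theorem cE_bdd (g : Ω → G) {F : Ω → ℂ} (hF : Bdd F) : Bdd (cE μ g F) := by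
  obtain ⟨hm, C, hC⟩ := hF
  refine ⟨?_, C, fun y => ?_⟩
  · unfold cE
    exact (StronglyMeasurable.integral_kernel hm.stronglyMeasurable).measurable
  · unfold cE
    calc ‖∫ a, F a ∂(condDistrib id g μ y)‖ ≤ ∫ a, ‖F a‖ ∂(condDistrib id g μ y) :=
          norm_integral_le_integral_norm _
      _ ≤ ∫ _, C ∂(condDistrib id g μ y) :=
          integral_mono_of_nonneg (Eventually.of_forall fun _ => norm_nonneg _)
            (integrable_const C) (Eventually.of_forall hC)
      _ = C := by simp

theorem cE_conj (g : Ω → G) (F : Ω → ℂ) (y : G) :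
    cE μ g (fun a => (starRingEnd ℂ) (F a)) y = (starRingEnd ℂ) (cE μ g F y) := by
  unfold cE
  exact integral_conj

/-- `cE μ g F` represents the conditional expectation of `F` given `g`. -/
theorem integral_mul_cE {g : Ω → G} (hg : Measurable g) {F : Ω → ℂ} (hF : Bdd F) {h : G → ℂ}
    (hh : Bdd h) : ∫ a, F a * h (g a) ∂μ = ∫ y, cE μ g F y * h y ∂(μ.map g) := by
  have h1 : (μ.map g) ⊗ₘ condDistrib id g μ = μ.map fun a => (g a, id a) :=
    compProd_map_condDistrib aemeasurable_id
  have hfin : IsFiniteMeasure (μ.map g) := inferInstance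
  have hb : Bdd (fun p : G × Ω => F p.2 * h p.1) :=
    (hF.comp measurable_snd).mul (hh.comp measurable_fst)
  calc ∫ a, F a * h (g a) ∂μ
      = ∫ p, F p.2 * h p.1 ∂(μ.map fun a => (g a, id a)) := by
        rw [integral_map (hg.prodMk measurable_id).aemeasurable hb.1.aestronglyMeasurable]
        rfl
    _ = ∫ p, F p.2 * h p.1 ∂((μ.map g) ⊗ₘ condDistrib id g μ) := by rw [h1]
    _ = ∫ y, ∫ a, F a * h y ∂(condDistrib id g μ y) ∂(μ.map g) := by
        rw [Measure.integral_compProd (hb.integrable _)]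
    _ = ∫ y, cE μ g F y * h y ∂(μ.map g) := by
        refine integral_congr_ae (Eventually.of_forall fun y => ?_)
        simp only [cE]
        exact integral_mul_const (h y) F

end cE

/-- two bounded functions with the same integrals against all bounded functions agree a.e. -/
theorem ae_eq_of_test {Ω : Type*} [MeasurableSpace Ω] (μ : Measure Ω) [IsFiniteMeasure μ]
    {u v : Ω → ℂ} (hu : Bdd u) (hv : Bdd v)
    (h : ∀ w : Ω → ℂ, Bdd w → ∫ a, u a * w a ∂μ = ∫ a, v a * w a ∂μ) : u =ᵐ[μ] v := by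
  have hd : Bdd (fun a => u a - v a) := hu.sub hv
  have h1 := h _ hd.star
  have h2 : ∫ a, (u a - v a) * (starRingEnd ℂ) (u a - v a) ∂μ = 0 := by
    have : ∀ a, (u a - v a) * (starRingEnd ℂ) (u a - v a)
        = u a * (starRingEnd ℂ) (u a - v a) - v a * (starRingEnd ℂ) (u a - v a) := by
      intro a; ring
    simp_rw [this]
    rw [integral_sub ((hu.mul hd.star).integrable μ) ((hv.mul hd.star).integrable μ), h1, sub_self]
  have h3 : ∫ a, ‖u a - v a‖ ^ 2 ∂μ = 0 := by
    have h4 : ∀ a, (u a - v a) * (starRingEnd ℂ) (u a - v a) = ((‖u a - v a‖ ^ 2 : ℝ) : ℂ) := by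
      intro a; rw [RCLike.mul_conj]; norm_cast
    simp_rw [h4] at h2
    rw [integral_complex_ofReal] at h2
    exact_mod_cast h2
  have hb : Integrable (fun a => ‖u a - v a‖ ^ 2) μ := by
    obtain ⟨hm, C, hC⟩ := hd
    refine Integrable.of_bound (hm.norm.pow_const 2).aestronglyMeasurable (C ^ 2)
      (Eventually.of_forall fun a => ?_)
    rw [Real.norm_eq_abs, abs_pow, abs_norm]
    exact pow_le_pow_left₀ (norm_nonneg _) (hC a) 2
  have h5 := (integral_eq_zero_iff_of_nonneg (fun a => by positivity) hb).1 h3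
  filter_upwards [h5] with a ha
  have : ‖u a - v a‖ ^ 2 = 0 := by simpa using ha
  have h6 : ‖u a - v a‖ = 0 := by simpa using this
  exact sub_eq_zero.1 (norm_eq_zero.1 h6)

section cl
variable {ι : Type} [Fintype ι] [DecidableEq ι] (r : Ultrafilter (ι → ℤ))

theorem cl_bdd (A : Sys) (t : ι) {F : (ι → A.C) → ℂ} (hF : Bdd F) : Bdd (cl r A t F) :=
  cE_bdd (Ω := (D r A).C) (D r A).μ _ hF

theorem cl_conj (A : Sys) (t : ι) (F : (ι → A.C) → ℂ) (a : A.C) :
    cl r A t (fun d => (starRingEnd ℂ) (F d)) a = (starRingEnd ℂ) (cl r A t F a) :=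
  cE_conj (Ω := (D r A).C) (D r A).μ _ F a

theorem integral_mul_cl (A : Sys) (t : ι) {F : (ι → A.C) → ℂ} (hF : Bdd F) {h : A.C → ℂ}
    (hh : Bdd h) :
    ∫ d, F d * h (d t) ∂(D r A).μ = ∫ a, cl r A t F a * h a ∂A.μ := by
  have h1 := integral_mul_cE (Ω := (D r A).C) (D r A).μ (g := fun d : ι → A.C => d t)
    (measurable_pi_apply t) hF hh
  rw [show (D r A).μ.map (fun d : ι → A.C => d t) = A.μ from limM_map_eval r A t] at h1
  exact h1

omit [DecidableEq ι] in
theorem bdd_prod (A : Sys) (s : Finset ι) {c : ι → A.C → ℂ} (hc : ∀ i, Bdd (c i)) :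
    Bdd (fun d : ι → A.C => ∏ i ∈ s, c i (d i)) :=
  Bdd.prod s fun i _ => (hc i).comp (measurable_pi_apply i)

/-- the product integral with a distinguished slot, shifted to time zero -/
theorem tendsto_slot (A : Sys) (t : ι) {c : ι → A.C → ℂ} (hc : ∀ i, Bdd (c i)) {h : A.C → ℂ}
    (hh : Bdd h) :
    Tendsto (fun u : ι → ℤ => ∫ a, (∏ i ∈ Finset.univ.erase t, c i (iter A.S (u i - u t) a)) * h a
      ∂A.μ) r (𝓝 (∫ a, cl r A t (fun d => ∏ i ∈ Finset.univ.erase t, c i (d i)) a * h a ∂A.μ)) := by
  have h1 := tendsto_limM r A (Function.update c t h) (by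
    intro i
    by_cases hi : i = t
    · subst hi; simpa using hh
    · simpa [Function.update_of_ne hi] using hc i)
  have h2 : ∀ g : ι → A.C, ∏ i, Function.update c t h i (g i)
      = (∏ i ∈ Finset.univ.erase t, c i (g i)) * h (g t) := by
    intro g
    rw [← Finset.prod_erase_mul _ _ (Finset.mem_univ t), Function.update_self]
    congr 1
    refine Finset.prod_congr rfl fun j hj => ?_
    rw [Function.update_of_ne (Finset.ne_of_mem_erase hj)]
  simp only [h2] at h1
  rw [integral_mul_cl r A t (bdd_prod A _ hc) hh] at h1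
  refine h1.congr fun u => ?_
  have h3 : ∀ a, (∏ i ∈ Finset.univ.erase t, c i (iter A.S (u i) a)) * h (iter A.S (u t) a)
      = (fun b => (∏ i ∈ Finset.univ.erase t, c i (iter A.S (u i - u t) b)) * h b)
        (iter A.S (u t) a) := by
    intro a
    simp only
    congr 1
    refine Finset.prod_congr rfl fun j _ => ?_
    rw [← iter_add, sub_add_cancel]
  have hb : Bdd (fun b => (∏ i ∈ Finset.univ.erase t, c i (iter A.S (u i - u t) b)) * h b) :=
    (Bdd.prod _ fun i _ => (hc i).comp (measurable_iter A.S _)).mul hh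
  simp_rw [h3]
  have hmp := iter_mp A.S A.mp (u t)
  conv_rhs => rw [← hmp.map_eq]
  rw [integral_map hmp.measurable.aemeasurable hb.1.aestronglyMeasurable]

/-- weak limits of functions of a factor are functions of the factor -/
theorem cl_comp (A B : Sys) (p : Fac A B) (t : ι) {c : ι → B.C → ℂ} (hc : ∀ i, Bdd (c i)) :
    cl r A t (fun d => ∏ i ∈ Finset.univ.erase t, c i (p.f (d i)))
      =ᵐ[A.μ] fun a => cl r B t (fun d => ∏ i ∈ Finset.univ.erase t, c i (d i)) (p.f a) := by
  have hcA : ∀ i, Bdd (fun a => c i (p.f a)) := fun i => (hc i).comp p.meas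
  have hbB : Bdd (cl r B t (fun d => ∏ i ∈ Finset.univ.erase t, c i (d i))) :=
    cl_bdd r B t (bdd_prod B _ hc)
  refine ae_eq_of_test A.μ (cl_bdd r A t (bdd_prod A _ hcA)) (hbB.comp p.meas) fun w hw => ?_
  -- the conditional expectation of `w` on `B`
  have hw' : Bdd (cE A.μ p.f w) := cE_bdd A.μ p.f hw
  have h1 := tendsto_slot r A t hcA hw
  have h2 := tendsto_slot r B t hc hw'
  have h3 : ∀ u : ι → ℤ,
      ∫ a, (∏ i ∈ Finset.univ.erase t, c i (p.f (iter A.S (u i - u t) a))) * w a ∂A.μ
        = ∫ b, (∏ i ∈ Finset.univ.erase t, c i (iter B.S (u i - u t) b)) * cE A.μ p.f w b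
          ∂B.μ := by
    intro u
    have hb : Bdd (fun b => ∏ i ∈ Finset.univ.erase t, c i (iter B.S (u i - u t) b)) :=
      Bdd.prod _ fun i _ => (hc i).comp (measurable_iter B.S _)
    have h4 := integral_mul_cE A.μ p.meas hw hb
    rw [p.mp.map_eq] at h4
    calc ∫ a, (∏ i ∈ Finset.univ.erase t, c i (p.f (iter A.S (u i - u t) a))) * w a ∂A.μ
        = ∫ a, w a * ∏ i ∈ Finset.univ.erase t, c i (iter B.S (u i - u t) (p.f a)) ∂A.μ := by
          refine integral_congr_ae (Eventually.of_forall fun a => ?_)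
          simp only
          rw [mul_comm]
          congr 1
          refine Finset.prod_congr rfl fun j _ => ?_
          rw [Fac.iter]
      _ = _ := h4
      _ = _ := by
          refine integral_congr_ae (Eventually.of_forall fun b => ?_)
          simp only
          rw [mul_comm]
  simp only [h3] at h1
  have h5 := tendsto_nhds_unique h1 h2
  rw [h5]
  have h6 := integral_mul_cE A.μ p.meas hw hbB
  rw [p.mp.map_eq] at h6
  calc ∫ b, cl r B t (fun d => ∏ i ∈ Finset.univ.erase t, c i (d i)) b * cE A.μ p.f w b ∂B.μ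
      = ∫ b, cE A.μ p.f w b * cl r B t (fun d => ∏ i ∈ Finset.univ.erase t, c i (d i)) b ∂B.μ := by
        refine integral_congr_ae (Eventually.of_forall fun b => ?_)
        simp only
        rw [mul_comm]
    _ = ∫ a, w a * cl r B t (fun d => ∏ i ∈ Finset.univ.erase t, c i (d i)) (p.f a) ∂A.μ :=
        h6.symm
    _ = _ := by
        refine integral_congr_ae (Eventually.of_forall fun a => ?_)
        simp only
        rw [mul_comm]

end cl

end XE

end Vale.Agent.P102.RM
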