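import Mathlib.MeasureTheory.Function.ConditionalExpectation.Real
import Mathlib.MeasureTheory.Function.ConditionalExpectation.PullOut
import Mathlib.MeasureTheory.Function.FactorsThrough
import Mathlib.MeasureTheory.Constructions.Polish.StronglyMeasurable
import Mathlib.MeasureTheory.Constructions.BorelSpace.Complex
import Vale.Agent.P102.RM.XEabs

/-!
# Dual functions of a joining (block XE)
-/

namespace Vale.Agent.P102.RM

open MeasureTheory

/-- The conditional expectation of a bounded function given a random variable `x` as a bounded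
measurable function of the value of `x`. -/
theorem exists_dual {Ω X : Type*} [MeasurableSpace Ω] [mX : MeasurableSpace X] (P : Measure Ω)
    [IsProbabilityMeasure P] {x : Ω → X} (hx : Measurable x) {g : Ω → ℝ} (hg : Measurable g)
    {C : ℝ} (hC : ∀ ω, |g ω| ≤ C) :
    ∃ φ : X → ℝ, Measurable φ ∧ (∀ y, |φ y| ≤ C) ∧
      (P[g | MeasurableSpace.comap x mX] =ᵐ[P] fun ω => φ (x ω)) ∧
      ∀ h : X → ℝ, Measurable h → (∃ K, ∀ y, |h y| ≤ K) →
        ∫ ω, g ω * h (x ω) ∂P = ∫ ω, φ (x ω) * h (x ω) ∂P := by
  have hm : MeasurableSpace.comap x mX ≤ (inferInstance : MeasurableSpace Ω) := hx.comap_le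
  obtain ⟨ω₀⟩ := nonempty_of_isProbabilityMeasure P
  have hC0 : 0 ≤ C := (abs_nonneg _).trans (hC ω₀)
  obtain ⟨φ₀, hφ₀, hφe⟩ :=
    (stronglyMeasurable_condExp (m := MeasurableSpace.comap x mX) (μ := P)
      (f := g)).exists_eq_measurable_comp
  have hbd : ∀ᵐ ω ∂P, |(P[g | MeasurableSpace.comap x mX]) ω| ≤ C := by
    exact ae_bdd_abs_condExp_of_ae_bdd_abs (Filter.Eventually.of_forall hC)
  have hgi : Integrable g P :=
    (integrable_const C).mono' hg.aestronglyMeasurable (Filter.Eventually.of_forall hC)
  refine ⟨fun y => max (-C) (min C (φ₀ y)), ?_, ?_, ?_, ?_⟩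
  · exact measurable_const.max (measurable_const.min hφ₀.measurable)
  · intro y
    rw [abs_le]
    exact ⟨le_max_left _ _, max_le (by linarith) (min_le_left _ _)⟩
  · filter_upwards [hbd] with ω hω
    have : (P[g | MeasurableSpace.comap x mX]) ω = φ₀ (x ω) := congrFun hφe ω
    rw [this] at hω ⊢
    rw [abs_le] at hω
    rw [min_eq_right hω.2, max_eq_right hω.1]
  · rintro h hh ⟨K, hK⟩
    have hh' : StronglyMeasurable[MeasurableSpace.comap x mX] fun ω => h (x ω) :=
      (hh.comp (comap_measurable x)).stronglyMeasurable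
    have hghi : Integrable (fun ω => g ω * h (x ω)) P :=
      hgi.mul_bdd (c := K) (hh.comp hx).aestronglyMeasurable
        (Filter.Eventually.of_forall fun ω => hK (x ω))
    calc ∫ ω, g ω * h (x ω) ∂P
        = ∫ ω, (P[fun ω => g ω * h (x ω) | MeasurableSpace.comap x mX]) ω ∂P :=
          (integral_condExp hm).symm
      _ = ∫ ω, (P[g | MeasurableSpace.comap x mX]) ω * h (x ω) ∂P := by
          refine integral_congr_ae ?_
          exact condExp_mul_of_stronglyMeasurable_right hh' hghi hgi
      _ = ∫ ω, max (-C) (min C (φ₀ (x ω))) * h (x ω) ∂P := by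
          refine integral_congr_ae ?_
          filter_upwards [hbd] with ω hω
          have : (P[g | MeasurableSpace.comap x mX]) ω = φ₀ (x ω) := congrFun hφe ω
          rw [this] at hω ⊢
          rw [abs_le] at hω
          rw [min_eq_right hω.2, max_eq_right hω.1]

end Vale.Agent.P102.RM
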