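import Vale.Agent.P102.RM.XEdual

/-!
# Nontriviality of the exact factor, joining level (block XE)

`(Ω, P)` carries random variables `x i : Ω → X` with law `μ` such that any `k - 1` of them are
uncorrelated for products of functions. If the joining is not the product one, and `E s` are sets
of functions which contain the duals required by Theorem E (`base`) and by the ideal property
(`clos`), then the multilinear form does not vanish on the intersection of the `E s`.
-/

namespace Vale.Agent.P102.RM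

open MeasureTheory

/-- Bounded measurable real function. -/
def BMR {X : Type*} [MeasurableSpace X] (f : X → ℝ) : Prop :=
  Measurable f ∧ ∃ K : ℝ, ∀ y, |f y| ≤ K

section

variable {Ω X ι : Type*} [MeasurableSpace Ω] [mX : MeasurableSpace X] [Fintype ι] [DecidableEq ι]

/-- The multilinear form of the joining. -/
noncomputable def Lam (P : Measure Ω) (x : ι → Ω → X) (c : ι → X → ℝ) : ℝ :=
  ∫ ω, ∏ i, c i (x i ω) ∂P

/-- `φ` represents the conditional expectation of the product of the entries `c j`, `j ≠ s`, given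
the coordinate `x s`. -/
def IsDual (P : Measure Ω) (x : ι → Ω → X) (s : ι) (c : ι → X → ℝ) (φ : X → ℝ) : Prop :=
  BMR φ ∧ ∀ h : X → ℝ, BMR h →
    ∫ ω, (∏ j ∈ Finset.univ.erase s, c j (x j ω)) * h (x s ω) ∂P =
      ∫ ω, φ (x s ω) * h (x s ω) ∂P

theorem BMR.mul {f g : X → ℝ} (hf : BMR f) (hg : BMR g) : BMR fun y => f y * g y := by
  obtain ⟨hf1, K, hK⟩ := hf
  obtain ⟨hg1, L, hL⟩ := hg
  refine ⟨hf1.mul hg1, K * L, fun y => ?_⟩
  rw [abs_mul]
  exact mul_le_mul (hK y) (hL y) (abs_nonneg _) ((abs_nonneg _).trans (hK y))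

theorem BMR.comp {Z : Type*} [MeasurableSpace Z] {f : X → ℝ} (hf : BMR f) {g : Z → X}
    (hg : Measurable g) : BMR fun z => f (g z) :=
  ⟨hf.1.comp hg, hf.2.imp fun _ hK y => hK (g y)⟩

theorem BMR.sub_const {f : X → ℝ} (hf : BMR f) (m : ℝ) : BMR fun y => f y - m := by
  obtain ⟨hf1, K, hK⟩ := hf
  refine ⟨hf1.sub_const m, K + |m|, fun y => ?_⟩
  exact (abs_sub _ _).trans (by gcongr; exact hK y)

theorem BMR.prod {κ : Type*} (A : Finset κ) {f : κ → X → ℝ} (hf : ∀ i ∈ A, BMR (f i)) :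
    BMR fun y => ∏ i ∈ A, f i y := by
  classical
  induction A using Finset.induction_on with
  | empty => exact ⟨by simp, 1, by simp⟩
  | insert t A ht ih =>
    have h1 := (hf t (Finset.mem_insert_self t A)).mul
      (ih fun i hi => hf i (Finset.mem_insert_of_mem hi))
    simpa [Finset.prod_insert ht] using h1

theorem BMR.integrable {P : Measure X} [IsFiniteMeasure P] {f : X → ℝ} (hf : BMR f) :
    Integrable f P := by
  obtain ⟨hf1, K, hK⟩ := hf
  exact (integrable_const K).mono' hf1.aestronglyMeasurable (Filter.Eventually.of_forall hK)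

variable (P : Measure Ω) [IsProbabilityMeasure P] (μ : Measure X) (x : ι → Ω → X)

theorem exists_isDual (hx : ∀ i, Measurable (x i)) (s : ι) {c : ι → X → ℝ}
    (hc : ∀ i, BMR (c i)) : ∃ φ, IsDual P x s c φ := by
  have hg : BMR fun ω => ∏ j ∈ Finset.univ.erase s, c j (x j ω) :=
    BMR.prod _ fun i _ => (hc i).comp (hx i)
  obtain ⟨hg1, K, hK⟩ := hg
  obtain ⟨φ, h1, h2, -, h4⟩ := exists_dual P (hx s) hg1 hK
  exact ⟨φ, ⟨h1, K, h2⟩, fun h hh => h4 h hh.1 hh.2⟩

variable {P μ x}

theorem Lam_eq (s : ι) (c : ι → X → ℝ) :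
    Lam P x c = ∫ ω, (∏ j ∈ Finset.univ.erase s, c j (x j ω)) * c s (x s ω) ∂P := by
  unfold Lam
  congr 1
  ext ω
  rw [Finset.prod_erase_mul _ _ (Finset.mem_univ s)]

theorem Lam_update (s : ι) (c : ι → X → ℝ) (φ : X → ℝ) :
    Lam P x (Function.update c s φ) =
      ∫ ω, (∏ j ∈ Finset.univ.erase s, c j (x j ω)) * φ (x s ω) ∂P := by
  rw [Lam_eq s]
  congr 1
  ext ω
  rw [Function.update_self]
  congr 1
  refine Finset.prod_congr rfl fun j hj => ?_
  rw [Function.update_of_ne (Finset.ne_of_mem_erase hj)]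

/-- Replacing an entry by the dual function keeps the form nonzero. -/
theorem Lam_update_ne_zero (hx : ∀ i, Measurable (x i)) {s : ι} {c : ι → X → ℝ} {φ : X → ℝ}
    (hc : ∀ i, BMR (c i)) (hφ : IsDual P x s c φ) (h : Lam P x c ≠ 0) :
    Lam P x (Function.update c s φ) ≠ 0 := by
  intro h0
  rw [Lam_update, hφ.2 φ hφ.1] at h0
  apply h
  rw [Lam_eq s, hφ.2 (c s) (hc s)]
  have hb : BMR fun ω => φ (x s ω) * φ (x s ω) := (hφ.1.mul hφ.1).comp (hx s)
  have h1 : (fun ω => φ (x s ω) * φ (x s ω)) =ᵐ[P] 0 :=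
    (integral_eq_zero_iff_of_nonneg (fun ω => mul_self_nonneg _) hb.integrable).1 h0
  have h2 : ∫ ω, φ (x s ω) * c s (x s ω) ∂P = ∫ _, (0 : ℝ) ∂P := by
    refine integral_congr_ae ?_
    filter_upwards [h1] with ω hω
    have : φ (x s ω) = 0 := by simpa using hω
    simp [this]
  simpa using h2

theorem Lam_sub_const (hx : ∀ i, Measurable (x i)) {t : ι} {c : ι → X → ℝ}
    (hc : ∀ i, BMR (c i)) (m : ℝ)
    (hind : ∫ ω, ∏ j ∈ Finset.univ.erase t, c j (x j ω) ∂P =
      ∏ j ∈ Finset.univ.erase t, ∫ y, c j y ∂μ) :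
    Lam P x (Function.update c t fun y => c t y - m) =
      Lam P x c - m * ∏ j ∈ Finset.univ.erase t, ∫ y, c j y ∂μ := by
  have hg : BMR fun ω => ∏ j ∈ Finset.univ.erase t, c j (x j ω) :=
    BMR.prod _ fun i _ => (hc i).comp (hx i)
  have hgc : BMR fun ω => (∏ j ∈ Finset.univ.erase t, c j (x j ω)) * c t (x t ω) :=
    hg.mul ((hc t).comp (hx t))
  rw [Lam_update, Lam_eq t, ← hind]
  calc ∫ ω, (∏ j ∈ Finset.univ.erase t, c j (x j ω)) * (c t (x t ω) - m) ∂P
      = ∫ ω, ((∏ j ∈ Finset.univ.erase t, c j (x j ω)) * c t (x t ω)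
          - m * ∏ j ∈ Finset.univ.erase t, c j (x j ω)) ∂P := by
        congr 1; ext ω; ring
    _ = _ := by
        rw [integral_sub hgc.integrable (hg.integrable.const_mul m), integral_const_mul]

/-- **Nontriviality of the exact factor**, joining level. -/
theorem XE_joining (hx : ∀ i, Measurable (x i)) (hlaw : ∀ i, P.map (x i) = μ)
    (hcard : ∀ t : ι, ∃ b : ι, b ≠ t)
    (hind : ∀ (t : ι) (c : ι → X → ℝ), (∀ i, BMR (c i)) →
      ∫ ω, ∏ j ∈ Finset.univ.erase t, c j (x j ω) ∂P =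
        ∏ j ∈ Finset.univ.erase t, ∫ y, c j y ∂μ)
    (E : ι → Set (X → ℝ))
    (base : ∀ (s t : ι) (c g : ι → X → ℝ) (φ : X → ℝ), s ≠ t → (∀ i, BMR (c i)) →
      (∀ i, BMR (g i)) → IsDual P x s g (c s) → IsDual P x t c φ → φ ∈ E s)
    (clos : ∀ (s t b : ι) (c : ι → X → ℝ) (φ : X → ℝ), b ≠ t → (∀ i, BMR (c i)) →
      c b ∈ E s → IsDual P x t c φ → φ ∈ E s)
    (t₀ : ι) (f : ι → X → ℝ) (hf : ∀ i, BMR (f i))
    (hne : Lam P x f ≠ ∏ i, ∫ y, f i y ∂μ) :
    ∃ c : ι → X → ℝ, (∀ i, BMR (c i)) ∧ (∀ i, ∫ y, c i y ∂μ = 0) ∧ Lam P x c ≠ 0 ∧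
      ∀ i s, c i ∈ E s := by
  have hμ : IsProbabilityMeasure μ := by
    rw [← hlaw t₀]; exact Measure.isProbabilityMeasure_map (hx t₀).aemeasurable
  -- make all the entries of mean zero
  have hzero : ∀ A : Finset ι, ∃ c : ι → X → ℝ, (∀ i, BMR (c i)) ∧ Lam P x c ≠ 0 ∧
      (∫ y, c t₀ y ∂μ = 0) ∧ ∀ i ∈ A, ∫ y, c i y ∂μ = 0 := by
    have hsub : ∀ (g : X → ℝ), BMR g → ∫ y, (g y - ∫ z, g z ∂μ) ∂μ = 0 := by
      intro g hg
      rw [integral_sub hg.integrable (integrable_const _)]
      simp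
    intro A
    induction A using Finset.induction_on with
    | empty =>
      refine ⟨Function.update f t₀ fun y => f t₀ y - ∫ z, f t₀ z ∂μ, ?_, ?_, ?_, by simp⟩
      · intro i
        by_cases h : i = t₀
        · subst h; simpa using (hf i).sub_const _
        · simpa [Function.update_of_ne h] using hf i
      · rw [Lam_sub_const hx hf _ (hind t₀ f hf),
          Finset.mul_prod_erase _ (fun j => ∫ y, f j y ∂μ) (Finset.mem_univ t₀)]
        exact sub_ne_zero.2 hne
      · simpa using hsub (f t₀) (hf t₀)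
    | insert t A _ ih =>
      obtain ⟨c, hc, hl, h0, hA⟩ := ih
      by_cases ht : t = t₀
      · refine ⟨c, hc, hl, h0, fun i hi => ?_⟩
        rcases Finset.mem_insert.1 hi with h | h
        · rw [h, ht]; exact h0
        · exact hA i h
      refine ⟨Function.update c t fun y => c t y - ∫ z, c t z ∂μ, ?_, ?_, ?_, ?_⟩
      · intro i
        by_cases h : i = t
        · subst h; simpa using (hc i).sub_const _
        · simpa [Function.update_of_ne h] using hc i
      · rw [Lam_sub_const hx hc _ (hind t c hc),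
          Finset.prod_eq_zero (Finset.mem_erase.2 ⟨fun h => ht h.symm, Finset.mem_univ t₀⟩) h0]
        simpa using hl
      · rw [Function.update_of_ne (fun h => ht h.symm)]
        exact h0
      · intro i hi
        by_cases h : i = t
        · subst h; simpa using hsub (c i) (hc i)
        · have : i ∈ A := by simpa [h] using hi
          simpa [Function.update_of_ne h] using hA i this
  obtain ⟨c₀, hc₀, hl₀, -, hA₀⟩ := hzero Finset.univ
  have hex : ∀ (s : ι) (c : ι → X → ℝ), (∀ i, BMR (c i)) → ∃ φ, IsDual P x s c φ :=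
    fun s c hc => exists_isDual P x hx s hc
  classical
  let M : ι → (ι → X → ℝ) → X → ℝ := fun s c =>
    if h : ∀ i, BMR (c i) then (hex s c h).choose else c s
  have hM : ∀ s c, (∀ i, BMR (c i)) → IsDual P x s c (M s c) := by
    intro s c hc
    have : M s c = (hex s c hc).choose := dif_pos hc
    rw [this]
    exact (hex s c hc).choose_spec
  obtain ⟨c, hcG, hcΛ, hcE⟩ := XE_abstract (ι := ι) (F := X → ℝ)
    {g | BMR g ∧ ∫ y, g y ∂μ = 0} (fun c => Lam P x c ≠ 0) M E
    (fun s => {φ | ∃ g : ι → X → ℝ, (∀ i, BMR (g i)) ∧ IsDual P x s g φ}) hcard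
    (by
      intro s c hc
      have hd := hM s c fun i => (hc i).1
      refine ⟨hd.1, ?_⟩
      have h1 := hd.2 (fun _ => 1) ⟨measurable_const, 1, by simp⟩
      simp only [mul_one] at h1
      rw [hind s c fun i => (hc i).1] at h1
      obtain ⟨b, hb⟩ := hcard s
      rw [Finset.prod_eq_zero (Finset.mem_erase.2 ⟨hb, Finset.mem_univ b⟩) (hc b).2] at h1
      rw [← hlaw s, integral_map (hx s).aemeasurable hd.1.1.aestronglyMeasurable]
      exact h1.symm)
    (by
      intro s c hc hl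
      exact Lam_update_ne_zero hx (fun i => (hc i).1) (hM s c fun i => (hc i).1) hl)
    (by
      intro s c hc
      exact ⟨c, fun i => (hc i).1, hM s c fun i => (hc i).1⟩)
    (by
      rintro s t c hc hst ⟨g, hg, hgd⟩
      exact base s t c g _ hst (fun i => (hc i).1) hg hgd (hM t c fun i => (hc i).1))
    (by
      intro s t b c hc hbt hb
      exact clos s t b c _ hbt (fun i => (hc i).1) hb (hM t c fun i => (hc i).1))
    c₀ (fun i => ⟨hc₀ i, hA₀ i (Finset.mem_univ i)⟩) hl₀
  exact ⟨c, fun i => (hcG i).1, fun i => (hcG i).2, hcΛ, hcE⟩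

end

end Vale.Agent.P102.RM
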